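import Vale.Agent.P157.Sph.Defs
import Vale.Agent.P157.Par.QConc

/-! Bounded factors: the level means and the deviations of any kernel move by a constant times the deviation. -/

open MeasureTheory ProbabilityTheory Finset Real
open Vale.Agent.P168.MP (lin ET)
open Vale.Agent.P157.Par (devOf adev valid2)

namespace Vale.Agent.P157.Sph

variable {Ω : Type} [Fintype Ω] [Nonempty Ω] {R : ℕ} {w Y : List Ω → ℝ} {b : ℝ}

/-- a factor in `[e^-b, e^b]`: deviations from a fixed profile and level means move by at most `e^(4b)` -/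
theorem ker_tilt (hR : 1 ≤ R) (hw : ∀ p, 0 < w p) (hY : ∀ p, exp (-b) ≤ Y p ∧ Y p ≤ exp b)
    (C : List Ω → List Ω → ℝ) (q : ℕ → ℝ) {l : ℕ} (hl : l ≤ R) :
    devOf R (fun p => w p * Y p) C q l ≤ exp (4 * b) * devOf R w C q l ∧
    |qker R (fun p => w p * Y p) C l - qker R w C l| ≤ exp (4 * b) * devOf R w C (qker R w C) l := by
  have hY0 : ∀ p, 0 < Y p := fun p => (exp_pos _).trans_le (hY p).1
  have hwY : ∀ p, 0 < w p * Y p := fun p => mul_pos (hw p) (hY0 p)
  have hK : ∀ H : List (List Ω) → ℝ, (∀ ps, 0 ≤ H ps) →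
      ET R (lin R) (fun p => w p * Y p) [(0, l), (0, 0)] H ≤
        exp (4 * b) * ET R (lin R) w [(0, l), (0, 0)] H := fun H hH => by
    refine (Par.ET_mul_le hR hw (exp_pos (-b)) (fun p => (hY p).1) (valid2 hl) hH).trans ?_
    rw [← Vale.Agent.P168.MP.ET_const_mul]
    refine Vale.Agent.P168.MP.ET_mono_on hw (valid2 hl) fun ps hs => ?_
    obtain ⟨p, p', rfl⟩ := List.length_eq_two.1 (show ps.length = 2 from hs.1)
    have hb : ∀ p, 0 ≤ Y p / exp (-b) ∧ Y p / exp (-b) ≤ exp (2 * b) := fun p =>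
      ⟨div_nonneg (hY0 p).le (exp_pos _).le, by
        rw [div_le_iff₀ (exp_pos _), ← exp_add, show 2 * b + -b = b by ring]; exact (hY p).2⟩
    rw [mul_comm]
    refine mul_le_mul_of_nonneg_right ?_ (hH _)
    simp only [List.map_cons, List.map_nil, List.prod_cons, List.prod_nil, mul_one]
    rw [show exp (4 * b) = exp (2 * b) * exp (2 * b) by rw [← exp_add]; ring_nf]
    exact mul_le_mul (hb p).2 (hb p').2 (hb p').1 (exp_pos _).le
  refine ⟨hK _ fun ps => abs_nonneg _, ?_⟩
  have e : qker R (fun p => w p * Y p) C l - qker R w C l =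
      ET R (lin R) (fun p => w p * Y p) [(0, l), (0, 0)] fun ps =>
        C (ps.getD 0 []) (ps.getD 1 []) - qker R w C l := by
    rw [Vale.Agent.P168.MP.ET_sub, Vale.Agent.P168.MP.ET_const hwY]; rfl
  rw [e]
  exact (Vale.Agent.P168.MP.ET_abs_le hwY _ _).trans (hK _ fun ps => abs_nonneg _)

/-- both directions, at the level means -/
theorem ker_tilt_rep (hR : 1 ≤ R) (hw : ∀ p, 0 < w p) (hY : ∀ p, exp (-b) ≤ Y p ∧ Y p ≤ exp b)
    (C : List Ω → List Ω → ℝ) :
    let w' := fun p => w p * Y p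
    (∀ l ≤ R, devOf R w C (qker R w C) l ≤ 2 * exp (4 * b) * devOf R w' C (qker R w' C) l ∧
      devOf R w' C (qker R w' C) l ≤ 2 * exp (4 * b) * devOf R w C (qker R w C) l ∧
      |qker R w' C l - qker R w C l| ≤ exp (4 * b) * devOf R w C (qker R w C) l ∧
      |qker R w' C l - qker R w C l| ≤ exp (4 * b) * devOf R w' C (qker R w' C) l) ∧
    adev R w C (qker R w C) ≤ 2 * exp (4 * b) * adev R w' C (qker R w' C) ∧
    adev R w' C (qker R w' C) ≤ 2 * exp (4 * b) * adev R w C (qker R w C) := by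
  intro w'
  have hYp : ∀ p, 0 < Y p := fun p => (exp_pos _).trans_le (hY p).1
  have hw' : ∀ p, 0 < w' p := fun p => mul_pos (hw p) (hYp p)
  have e : w = fun p => w' p * (Y p)⁻¹ := funext fun p => by
    show w p = w p * Y p * (Y p)⁻¹
    rw [mul_assoc, mul_inv_cancel₀ (hYp p).ne', mul_one]
  have hY' : ∀ p, exp (-b) ≤ (Y p)⁻¹ ∧ (Y p)⁻¹ ≤ exp b := fun p => by
    have h1 := inv_anti₀ (exp_pos _) (hY p).1
    have h2 := inv_anti₀ (hYp p) (hY p).2
    rw [← exp_neg, neg_neg] at h1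
    rw [← exp_neg] at h2
    exact ⟨h2, h1⟩
  have key : ∀ l ≤ R, devOf R w C (qker R w C) l ≤ 2 * exp (4 * b) * devOf R w' C (qker R w' C) l ∧
      devOf R w' C (qker R w' C) l ≤ 2 * exp (4 * b) * devOf R w C (qker R w C) l ∧
      |qker R w' C l - qker R w C l| ≤ exp (4 * b) * devOf R w C (qker R w C) l ∧
      |qker R w' C l - qker R w C l| ≤ exp (4 * b) * devOf R w' C (qker R w' C) l := by
    intro l hl
    obtain ⟨a1, a2⟩ := ker_tilt hR hw hY C (qker R w C) hl
    obtain ⟨h1, h2⟩ := ker_tilt hR hw' hY' C (qker R w' C) hl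
    rw [← e] at h1 h2
    rw [abs_sub_comm] at h2
    refine ⟨(Par.devOf_shift hw _ _ (qker R w' C) l).trans ?_, ?_, a2, h2⟩
    · linarith
    · refine (Par.devOf_shift hw' _ _ (qker R w C) l).trans ?_
      rw [abs_sub_comm]
      linarith [show devOf R w' C (qker R w C) l ≤ exp (4 * b) * devOf R w C (qker R w C) l from a1,
        show |qker R w' C l - qker R w C l| ≤ exp (4 * b) * devOf R w C (qker R w C) l from a2]
  have hR0 : (0:ℝ) < R := by exact_mod_cast hR
  refine ⟨key, ?_, ?_⟩ <;> rw [adev, adev, mul_add, ← mul_div_assoc, Finset.mul_sum]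
  · exact add_le_add (div_le_div_of_nonneg_right
      (Finset.sum_le_sum fun l hl => (key l (Finset.mem_range.1 hl).le).1) hR0.le) (key R le_rfl).1
  · exact add_le_add (div_le_div_of_nonneg_right
      (Finset.sum_le_sum fun l hl => (key l (Finset.mem_range.1 hl).le).2.1) hR0.le) (key R le_rfl).2.1

/-- the distance of the level means -/
theorem dist1_tilt (hR : 1 ≤ R) (hw : ∀ p, 0 < w p) (hY : ∀ p, exp (-b) ≤ Y p ∧ Y p ≤ exp b)
    (C : List Ω → List Ω → ℝ) :
    Par.dist1 R (qker R (fun p => w p * Y p) C) (qker R w C) ≤ exp (4 * b) * adev R w C (qker R w C) := by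
  rw [Par.dist1, adev, mul_add, ← mul_div_assoc, Finset.mul_sum]
  exact add_le_add (div_le_div_of_nonneg_right
    (Finset.sum_le_sum fun l hl => (ker_tilt hR hw hY C (qker R w C) (Finset.mem_range.1 hl).le).2)
    (Nat.cast_nonneg _)) (ker_tilt hR hw hY C (qker R w C) le_rfl).2

end Vale.Agent.P157.Sph
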