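import Vale.Agent.P157.Sph.Iface
import Vale.Agent.P157.Sph.Tilt
import Vale.Agent.P157.Par.Close

/-! Concentration of the overlap of the derivatives and pattern steps, for a unit vector reading. -/

open MeasureTheory ProbabilityTheory Finset Real
open Vale.Agent.P150 (gauss dot)
open Vale.Agent.P168.MP (lin ET logZ0 nest ok_lin)
open Vale.Agent.P157.Par (Sm Prof adev devOf cv pats dist1 Gm Gamma fac ins devOf_nonneg adev_nonneg continuous_ET
  continuous_dot_left abs_le_sq integral_pats_succ measurePreserving_ins PairClose GammaLip)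

namespace Vale.Agent.P157.Sph

set_option linter.unusedSectionVars false

variable {Ω : Type} [Fintype Ω] [Nonempty Ω] {R N M : ℕ} {f f1 f2 f3 : ℝ → ℝ} {B D : ℝ}
  {w₀ : List Ω → ℝ} {v : List Ω → Fin N → ℝ}

lemma neZero_of_unit (hv : ∀ p, cv v p p = 1) : NeZero N := ⟨fun h => by
  subst h; simpa [cv, dot] using hv []⟩

private lemma wV_pos (hw₀ : ∀ p, 0 < w₀ p) (g : Fin M → Fin N → ℝ) (p : List Ω) : 0 < wV f w₀ v g p :=
  mul_pos (hw₀ p) (exp_pos _)

private lemma continuous_wV (hf : Continuous f) (w₀ : List Ω → ℝ) (v : List Ω → Fin N → ℝ) (p : List Ω) :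
    Continuous fun g : Fin M → Fin N → ℝ => wV f w₀ v g p :=
  (continuous_exp.comp (continuous_finsetSum _ fun i _ =>
    hf.comp ((continuous_dot_left (v p)).comp (continuous_apply i)))).const_mul _

lemma wV_ins (b : Fin (M + 1)) (y : Fin N → ℝ) (g : Fin M → Fin N → ℝ) (p : List Ω) :
    wV f w₀ v (ins b y g) p = wV f w₀ v g p * fac f v y p := by
  rw [wV, wV, fac, Fin.sum_univ_succAbove _ b, mul_assoc, ← exp_add]
  simp only [ins, Fin.insertNth_apply_same, Fin.insertNth_apply_succAbove, add_comm]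

lemma continuous_qkerV (hf : Continuous f) (hw₀ : ∀ p, 0 < w₀ p) (v : List Ω → Fin N → ℝ) (l : ℕ) :
    Continuous fun g : Fin M → Fin N → ℝ => qker R (wV f w₀ v g) (cv v) l :=
  continuous_ET (fun p => continuous_wV hf w₀ v p) (fun g p => wV_pos hw₀ g p) R _ fun _ => continuous_const

/-- the deviation at a level, plus the mean deviation -/
noncomputable def dlK (R : ℕ) (w : List Ω → ℝ) (C : List Ω → List Ω → ℝ) (l : ℕ) : ℝ :=
  devOf R w C (qker R w C) l + adev R w C (qker R w C)

lemma dlK_nonneg {w : List Ω → ℝ} (hw : ∀ p, 0 < w p) (C : List Ω → List Ω → ℝ) (l : ℕ) :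
    0 ≤ dlK R w C l :=
  add_nonneg (devOf_nonneg hw _ _ _) (adev_nonneg hw _ _)

lemma dlK_tilt {w Y : List Ω → ℝ} {b : ℝ} (hR : 1 ≤ R) (hw : ∀ p, 0 < w p)
    (hY : ∀ p, exp (-b) ≤ Y p ∧ Y p ≤ exp b) (C : List Ω → List Ω → ℝ) {l : ℕ} (hl : l ≤ R) :
    dlK R w C l ≤ 2 * exp (4 * b) * dlK R (fun p => w p * Y p) C l := by
  obtain ⟨k1, k2, -⟩ := ker_tilt_rep hR hw hY C
  simp only [dlK]
  linarith [(k1 l hl).1]

private lemma abs_cv_le (hv : ∀ p, cv v p p = 1) (p p' : List Ω) : |cv v p p'| ≤ 1 := by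
  refine abs_le_of_sq_le_sq ?_ zero_le_one
  rw [one_pow, cv, dot]
  refine (sum_mul_sq_le_sq_mul_sq univ (v p) (v p')).trans_eq ?_
  have e : ∀ q, ∑ k, v q k ^ 2 = 1 := fun q => by rw [← hv q]; exact sum_congr rfl fun k _ => sq _
  rw [e, e, one_mul]

private lemma devOf_le_two (hk : KerProf) {w : List Ω → ℝ} (hw : ∀ p, 0 < w p) (hR : 1 ≤ R) (hv : ∀ p, cv v p p = 1)
    {l : ℕ} (hl : l ≤ R) : devOf R w (cv v) (qker R w (cv v)) l ≤ 2 := by
  obtain ⟨a, b⟩ := (hk hR hw hv).1.bd hl
  exact (Par.devOf_le hw hl (abs_cv_le hv) ((abs_of_nonneg a).trans_le b)).trans (by norm_num)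

lemma adev_le_four (hk : KerProf) {w : List Ω → ℝ} (hw : ∀ p, 0 < w p) (hR : 1 ≤ R) (hv : ∀ p, cv v p p = 1) :
    adev R w (cv v) (qker R w (cv v)) ≤ 4 := by
  have hR0 : (0:ℝ) < R := by exact_mod_cast hR
  have h1 : (∑ l ∈ range R, devOf R w (cv v) (qker R w (cv v)) l) / R ≤ 2 := by
    rw [div_le_iff₀ hR0]
    refine (sum_le_sum fun l hl => devOf_le_two hk hw hR hv (mem_range.1 hl).le).trans_eq ?_
    simp [mul_comm]
  rw [adev]
  linarith [devOf_le_two hk hw hR hv (le_refl R)]

lemma abs_dlK_le (hk : KerProf) {w : List Ω → ℝ} (hw : ∀ p, 0 < w p) (hR : 1 ≤ R) (hv : ∀ p, cv v p p = 1)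
    {l : ℕ} (hl : l ≤ R) : |dlK R w (cv v) l| ≤ 6 := by
  rw [abs_of_nonneg (dlK_nonneg hw (cv v) l), dlK]
  linarith [devOf_le_two hk hw hR hv hl, adev_le_four hk hw hR hv]

lemma continuous_devK (hf : Continuous f) (hw₀ : ∀ p, 0 < w₀ p) (v : List Ω → Fin N → ℝ) (l : ℕ) :
    Continuous fun g : Fin M → Fin N → ℝ => devOf R (wV f w₀ v g) (cv v) (qker R (wV f w₀ v g) (cv v)) l :=
  continuous_ET (fun p => continuous_wV hf w₀ v p) (fun g p => wV_pos hw₀ g p) R _ fun _ =>
    (continuous_const.sub (continuous_qkerV hf hw₀ v l)).abs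

lemma continuous_adV (hf : Continuous f) (hw₀ : ∀ p, 0 < w₀ p) (v : List Ω → Fin N → ℝ) :
    Continuous fun g : Fin M → Fin N → ℝ => adV f R w₀ v g := by
  unfold adV qV adev
  exact ((continuous_finsetSum _ fun j _ => continuous_devK hf hw₀ v j).div_const _).add (continuous_devK hf hw₀ v R)

lemma continuous_dlK (hf : Continuous f) (hw₀ : ∀ p, 0 < w₀ p) (v : List Ω → Fin N → ℝ) (l : ℕ) :
    Continuous fun g : Fin M → Fin N → ℝ => dlK R (wV f w₀ v g) (cv v) l :=
  (continuous_devK hf hw₀ v l).add (continuous_adV hf hw₀ v)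

/-- concentration, from the interfaces -/
theorem qconcV_of (hk : KerProf) (hS : Sm f f1 f2 f3 B D) (hB : ∀ x, f x ≤ B) {KP KL : ℝ} (hKP : 0 ≤ KP)
    (hKL : 0 ≤ KL) (hpair : PairClose f f1 KP) (hlip : GammaLip f f1 KL)
    (hprof : ∀ (R : ℕ) (q : ℕ → ℝ), 1 ≤ R → Prof R q 1 →
      Prof R (fun l => Gamma (fun y => exp (f y)) f1 R (lin R) q l) (D ^ 2)) : QConcV f f1 := by
  set e4 := exp (4 * B)
  set L := KL * e4
  have he : 0 < e4 := exp_pos _
  -- bound for one ordered pair of patterns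
  set P := 4 * D ^ 2 * L + (D ^ 2 + 1) * (2 * e4) * (KP * (2 * D ^ 2)) with hP
  have hL : 0 ≤ L := mul_nonneg hKL he.le
  have hP0 : 0 ≤ P := by positivity
  refine ⟨(P + 4 * D ^ 4) / 4, by positivity, ?_⟩
  intro Ω _ _ R N M hR hM w₀ hw₀ v hv t ht l hl
  have : NeZero N := neZero_of_unit hv
  set w := fun g : Fin M → Fin N → ℝ => wV f w₀ v g
  have hf : Continuous f := continuous_iff_continuousAt.2 fun x => (hS.d0 x).continuousAt
  have hf1 : Continuous f1 := continuous_iff_continuousAt.2 fun x => (hS.d1 x).continuousAt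
  have hD : 0 ≤ D := (abs_nonneg _).trans (hS.b1 0)
  have hwp : ∀ g p, 0 < w g p := fun g p => wV_pos hw₀ g p
  have hpr : ∀ (w : List Ω → ℝ), (∀ p, 0 < w p) → Prof R (qker R w (cv v)) 1 := fun w hw => (hk hR hw hv).1
  set G : (Fin M → Fin N → ℝ) → ℝ := fun g => Gamma (fun y => exp (f y)) f1 R (lin R) (qker R (w g) (cv v)) l
  have hGb : ∀ (w : List Ω → ℝ), (∀ p, 0 < w p) →
      0 ≤ Gamma (fun y => exp (f y)) f1 R (lin R) (qker R w (cv v)) l ∧
        Gamma (fun y => exp (f y)) f1 R (lin R) (qker R w (cv v)) l ≤ D ^ 2 := fun w hw =>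
    (hprof R _ hR (hpr w hw)).mem hl
  have hGc : Continuous G := by
    rw [continuous_iff_continuousAt]
    intro g₀
    rw [ContinuousAt, tendsto_iff_norm_sub_tendsto_zero]
    refine squeeze_zero (fun g => norm_nonneg _) (fun g => hlip R _ _ hR (hpr _ (hwp g)) (hpr _ (hwp g₀)) l hl) ?_
    have c : ∀ j, Continuous fun g => |qker R (w g) (cv v) j - qker R (w g₀) (cv v) j| := fun j =>
      ((continuous_qkerV hf hw₀ v j).sub continuous_const).abs
    have hc : Continuous fun g => KL * (|qker R (w g) (cv v) l - qker R (w g₀) (cv v) l| +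
        (∑ j ∈ range R, |qker R (w g) (cv v) j - qker R (w g₀) (cv v) j|) / R + |qker R (w g) (cv v) R - qker R (w g₀) (cv v) R|) :=
      (((c l).add ((continuous_finsetSum _ fun j _ => c j).div_const _)).add (c R)).const_mul _
    simpa using hc.tendsto g₀
  set φ : (Fin M → Fin N → ℝ) → Fin M → List Ω → List Ω → ℝ := fun g a p p' =>
    f1 (dot (v p) (g a)) * f1 (dot (v p') (g a))
  have hφ : ∀ g a p p', |φ g a p p'| ≤ D ^ 2 := fun g a p p' => by
    rw [abs_mul, sq]; exact mul_le_mul (hS.b1 _) (hS.b1 _) (abs_nonneg _) hD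
  have hφG : ∀ g a p p', |φ g a p p' - G g| ≤ 2 * D ^ 2 := fun g a p p' => by
    refine (abs_sub _ _).trans ?_
    obtain ⟨g1, g2⟩ := hGb _ (hwp g)
    linarith [hφ g a p p', abs_of_nonneg g1]
  have hφc : ∀ a p p', Continuous fun g => φ g a p p' := fun a p p' =>
    (hf1.comp ((continuous_dot_left _).comp (continuous_apply a))).mul
      (hf1.comp ((continuous_dot_left _).comp (continuous_apply a)))
  set F : Fin M → Fin M → (Fin M → Fin N → ℝ) → ℝ := fun a b g =>
    ET R (lin R) (w g) [(0, l), (0, 0)] fun ps =>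
      (φ g a (ps.getD 0 []) (ps.getD 1 []) - G g) * (φ g b (ps.getD 0 []) (ps.getD 1 []) - G g)
  have hFb : ∀ a b g, |F a b g| ≤ 4 * D ^ 4 := fun a b g =>
    Vale.Agent.P168.MP.ET_bound (hwp g) fun ps => by
      rw [abs_mul]
      exact (mul_le_mul (hφG g a _ _) (hφG g b _ _) (abs_nonneg _) (by positivity)).trans_eq (by ring)
  have hwc : ∀ p, Continuous fun g => w g p := fun p => continuous_wV hf w₀ v p
  have hFc : ∀ a b, Continuous (F a b) := fun a b =>
    continuous_ET hwc hwp R _ fun ps => ((hφc a _ _).sub hGc).mul ((hφc b _ _).sub hGc)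
  have hFi : ∀ a b, Integrable (F a b) (pats N M) := fun a b =>
    Integrable.of_bound (hFc a b).aestronglyMeasurable (4 * D ^ 4) (Filter.Eventually.of_forall (hFb a b))
  have hdc : Continuous fun g => dlK R (w g) (cv v) l := continuous_dlK hf hw₀ v l
  have hdi : Integrable (fun g => dlK R (w g) (cv v) l) (pats N M) :=
    Integrable.of_bound hdc.aestronglyMeasurable 6 (Filter.Eventually.of_forall fun g => abs_dlK_le hk (hwp g) hR hv hl)
  set Δ := ∫ g, dlK R (w g) (cv v) l ∂pats N M with hΔ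
  have hΔ0 : 0 ≤ Δ := integral_nonneg fun g => dlK_nonneg (hwp g) (cv v) l
  -- two different patterns
  have hoff : ∀ a b, a ≠ b → ∫ g, F a b g ∂pats N M ≤ P * Δ := by
    intro a b hab
    obtain ⟨M', rfl⟩ : ∃ M', M = M' + 1 := ⟨M - 1, by omega⟩
    obtain ⟨a', rfl⟩ := Fin.exists_succAbove_eq hab
    rw [integral_pats_succ b (hFi _ _), hΔ, integral_pats_succ b hdi, ← integral_const_mul]
    have hconv : ∀ {H : (Fin (M' + 1) → Fin N → ℝ) → ℝ}, Integrable H (pats N (M' + 1)) →
        Integrable (fun g₀ => ∫ y, H (ins b y g₀) ∂gauss (Fin N)) (pats N M') := fun {H} hH =>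
      (((measurePreserving_ins b).integrable_comp_of_integrable hH)).integral_prod_right
    refine integral_mono (hconv (hFi _ _)) ((hconv hdi).const_mul P) fun g₀ => ?_
    set w₂ : List Ω → ℝ := wV f w₀ v g₀
    have hw₂ : ∀ p, 0 < w₂ p := fun p => wV_pos hw₀ g₀ p
    set q₂ := qker R w₂ (cv v)
    set G₂ := Gamma (fun y => exp (f y)) f1 R (lin R) q₂ l
    set Ψ : List Ω → List Ω → ℝ := fun p p' =>
      f1 (dot (v p) (g₀ a')) * f1 (dot (v p') (g₀ a')) - G₂
    have hΨ : ∀ p p', |Ψ p p'| ≤ 2 * D ^ 2 := fun p p' => by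
      refine (abs_sub _ _).trans ?_
      obtain ⟨g1, g2⟩ := hGb _ hw₂
      have := mul_le_mul (hS.b1 (dot (v p) (g₀ a'))) (hS.b1 (dot (v p') (g₀ a'))) (abs_nonneg _) hD
      rw [← abs_mul] at this
      linarith [abs_of_nonneg g1]
    have hw : ∀ y, w (ins b y g₀) = fun p => w₂ p * fac f v y p := fun y => funext fun p => by
      simp only [w, w₂, wV_ins]
    have hY : ∀ y p, exp (-B) ≤ fac f v y p ∧ fac f v y p ≤ exp B := fun y p =>
      ⟨exp_le_exp.2 (hS.lb _), exp_le_exp.2 (hB _)⟩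
    obtain ⟨p1, p2⟩ := hpair hR hw₂ (a := v) (fun p => (hv p).le) (hpr w₂ hw₂) hl hΨ
    -- the frozen observable
    set F₂ : (Fin N → ℝ) → ℝ := fun y => ET R (lin R) (fun p => w₂ p * fac f v y p) [(0, l), (0, 0)] fun ps =>
      Ψ (ps.getD 0 []) (ps.getD 1 []) * (f1 (dot (v (ps.getD 0 [])) y) * f1 (dot (v (ps.getD 1 [])) y) - G₂)
    have hbound : ∀ y, F (b.succAbove a') b (ins b y g₀) ≤ F₂ y + 4 * D ^ 2 * L * dlK R (w (ins b y g₀)) (cv v) l ∧
        dlK R w₂ (cv v) l ≤ 2 * e4 * dlK R (w (ins b y g₀)) (cv v) l := by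
      intro y
      obtain ⟨k1, -, -⟩ := ker_tilt_rep hR hw₂ (hY y) (cv v)
      rw [hw y]
      refine ⟨?_, by exact dlK_tilt hR hw₂ (hY y) (cv v) hl⟩
      have hwy : ∀ p, 0 < w₂ p * fac f v y p := fun p => mul_pos (hw₂ p) (exp_pos _)
      have hG : |G (ins b y g₀) - G₂| ≤ L * dlK R (fun p => w₂ p * fac f v y p) (cv v) l := by
        simp only [G, G₂, q₂, hw y]
        refine (hlip R _ _ hR (hpr _ hwy) (hpr _ hw₂) l hl).trans ?_
        simp only [L, dlK, adev, mul_add, mul_assoc, ← mul_div_assoc, Finset.mul_sum, e4]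
        rw [add_assoc]
        refine add_le_add (mul_le_mul_of_nonneg_left (k1 l hl).2.2.2 hKL) (add_le_add
          (div_le_div_of_nonneg_right (Finset.sum_le_sum fun j hj =>
            mul_le_mul_of_nonneg_left (k1 j (Finset.mem_range.1 hj).le).2.2.2 hKL) (Nat.cast_nonneg _))
          (mul_le_mul_of_nonneg_left (k1 R le_rfl).2.2.2 hKL))
      have hFe : F (b.succAbove a') b (ins b y g₀) = ET R (lin R) (fun p => w₂ p * fac f v y p) [(0, l), (0, 0)]
          fun ps => (Ψ (ps.getD 0 []) (ps.getD 1 []) + (G₂ - G (ins b y g₀))) *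
            (f1 (dot (v (ps.getD 0 [])) y) * f1 (dot (v (ps.getD 1 [])) y) - G (ins b y g₀)) := by
        simp only [F]
        rw [hw y]
        simp only [φ, Ψ, ins, Fin.insertNth_apply_same, Fin.insertNth_apply_succAbove]
        congr 1; funext ps; ring
      rw [hFe, ← Vale.Agent.P168.MP.ET_const (R := R) (m := lin R) hwy [(0, l), (0, 0)]
        (4 * D ^ 2 * L * dlK R (fun p => w₂ p * fac f v y p) (cv v) l), ← Vale.Agent.P168.MP.ET_add]
      refine Vale.Agent.P168.MP.ET_mono hwy fun ps => ?_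
      set u := Ψ (ps.getD 0 []) (ps.getD 1 [])
      set vv := f1 (dot (v (ps.getD 0 [])) y) * f1 (dot (v (ps.getD 1 [])) y)
      have hu := hΨ (ps.getD 0 []) (ps.getD 1 [])
      have hv : |vv - G (ins b y g₀)| ≤ 2 * D ^ 2 := by
        simpa [φ, vv, ins] using hφG (ins b y g₀) b (ps.getD 0 []) (ps.getD 1 [])
      have e : (u + (G₂ - G (ins b y g₀))) * (vv - G (ins b y g₀)) =
          u * (vv - G₂) + ((G₂ - G (ins b y g₀)) * (vv - G (ins b y g₀)) + u * (G₂ - G (ins b y g₀))) := by ring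
      rw [e]
      refine add_le_add le_rfl ((le_abs_self _).trans ((abs_add_le _ _).trans ?_))
      rw [abs_mul, abs_mul, abs_sub_comm G₂]
      have h1 := mul_le_mul hG hv (abs_nonneg _) (mul_nonneg hL (dlK_nonneg hwy (cv v) l))
      have h2 := mul_le_mul hu hG (abs_nonneg _) (by positivity)
      linarith
    have hcy : ∀ p, Continuous fun y => w₂ p * fac f v y p := fun p =>
      (continuous_exp.comp (hf.comp (continuous_dot_left (v p)))).const_mul _
    have hpy : ∀ y p, 0 < w₂ p * fac f v y p := fun y p => mul_pos (hw₂ p) (exp_pos _)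
    have iA : Integrable (fun y => ET R (lin R) (fun p => w₂ p * fac f v y p) [(0, l), (0, 0)] fun ps =>
        Ψ (ps.getD 0 []) (ps.getD 1 []) * (f1 (dot (v (ps.getD 0 [])) y) * f1 (dot (v (ps.getD 1 [])) y)))
        (gauss (Fin N)) :=
      Integrable.of_bound (continuous_ET hcy hpy R _ fun ps => ((hf1.comp (continuous_dot_left _)).mul
          (hf1.comp (continuous_dot_left _))).const_mul _).aestronglyMeasurable (2 * D ^ 2 * (D * D))
        (Filter.Eventually.of_forall fun y => Vale.Agent.P168.MP.ET_bound (hpy y) fun ps => by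
          rw [abs_mul, abs_mul]
          exact mul_le_mul (hΨ _ _) (mul_le_mul (hS.b1 _) (hS.b1 _) (abs_nonneg _) hD) (by positivity) (by positivity))
    have iB : Integrable (fun y => ET R (lin R) (fun p => w₂ p * fac f v y p) [(0, l), (0, 0)] fun ps =>
        Ψ (ps.getD 0 []) (ps.getD 1 [])) (gauss (Fin N)) :=
      Integrable.of_bound (continuous_ET hcy hpy R [(0, l), (0, 0)]
        (F := fun _ ps => Ψ (ps.getD 0 []) (ps.getD 1 [])) fun _ => continuous_const).aestronglyMeasurable
        (2 * D ^ 2) (Filter.Eventually.of_forall fun y => Vale.Agent.P168.MP.ET_bound (hpy y) fun ps => hΨ _ _)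
    have hF2 : ∀ y, F₂ y = (ET R (lin R) (fun p => w₂ p * fac f v y p) [(0, l), (0, 0)] fun ps =>
        Ψ (ps.getD 0 []) (ps.getD 1 []) * (f1 (dot (v (ps.getD 0 [])) y) * f1 (dot (v (ps.getD 1 [])) y))) -
        G₂ * ET R (lin R) (fun p => w₂ p * fac f v y p) [(0, l), (0, 0)] fun ps =>
          Ψ (ps.getD 0 []) (ps.getD 1 []) := fun y => by
      simp only [F₂, ← Vale.Agent.P168.MP.ET_const_mul, ← Vale.Agent.P168.MP.ET_sub]
      congr 1; funext ps; ring
    have iF2 : Integrable F₂ (gauss (Fin N)) := by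
      rw [funext hF2]; exact iA.sub (iB.const_mul _)
    have hI2 : ∫ y, F₂ y ∂gauss (Fin N) ≤ (D ^ 2 + 1) * (KP * (2 * D ^ 2)) * dlK R w₂ (cv v) l := by
      simp only [hF2]
      rw [integral_sub iA (iB.const_mul _), integral_const_mul]
      obtain ⟨g1, g2⟩ := hGb _ hw₂
      have a1 := (abs_le.1 p1).2
      have a2 := mul_le_mul_of_nonneg_left (abs_le.1 p2).1 g1
      have a3 := mul_le_mul_of_nonneg_right g2
        (mul_nonneg (mul_nonneg hKP (by positivity : 0 ≤ 2 * D ^ 2)) (dlK_nonneg (R := R) hw₂ (cv v) l))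
      simp only [dlK] at *
      linarith
    have hcd : Continuous fun y => dlK R (w (ins b y g₀)) (cv v) l := by
      refine hdc.comp ?_
      exact continuous_pi fun i => by
        rcases Fin.eq_self_or_eq_succAbove b i with rfl | ⟨j, rfl⟩
        · simp only [ins, Fin.insertNth_apply_same]; exact continuous_id
        · simp only [ins, Fin.insertNth_apply_succAbove]; exact continuous_const
    have id' : Integrable (fun y => dlK R (w (ins b y g₀)) (cv v) l) (gauss (Fin N)) :=
      Integrable.of_bound hcd.aestronglyMeasurable 6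
        (Filter.Eventually.of_forall fun y => abs_dlK_le hk (hwp _) hR hv hl)
    have hw2int : dlK R w₂ (cv v) l ≤ 2 * e4 * ∫ y, dlK R (w (ins b y g₀)) (cv v) l ∂gauss (Fin N) := by
      have := integral_mono (μ := gauss (Fin N)) (integrable_const (dlK R w₂ (cv v) l)) (id'.const_mul (2 * e4))
        fun y => (hbound y).2
      simpa [integral_const_mul] using this
    have iF : Integrable (fun y => F (b.succAbove a') b (ins b y g₀)) (gauss (Fin N)) := by
      refine Integrable.of_bound ((hFc _ _).comp ?_).aestronglyMeasurable (4 * D ^ 4)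
        (Filter.Eventually.of_forall fun y => hFb _ _ _)
      exact continuous_pi fun i => by
        rcases Fin.eq_self_or_eq_succAbove b i with rfl | ⟨j, rfl⟩
        · simp only [ins, Fin.insertNth_apply_same]; exact continuous_id
        · simp only [ins, Fin.insertNth_apply_succAbove]; exact continuous_const
    refine (integral_mono iF (iF2.add (id'.const_mul (4 * D ^ 2 * L))) fun y => (hbound y).1).trans ?_
    simp only [Pi.add_apply]
    rw [integral_add iF2 (id'.const_mul _), integral_const_mul]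
    have h3 := mul_le_mul_of_nonneg_left hw2int (show 0 ≤ (D ^ 2 + 1) * (KP * (2 * D ^ 2)) by positivity)
    rw [hP]
    linarith
  -- expand the square
  set V : (Fin M → Fin N → ℝ) → ℝ := fun g => (∑ a, ∑ b, F a b g) / (M:ℝ) ^ 2
  have hM0 : (0:ℝ) < M := by exact_mod_cast (show 0 < M by omega)
  have hV : ∀ g, devOf R (w g) (qKV f1 v g)
      (fun l => Gamma (fun y => exp (f y)) f1 R (lin R) (qker R (w g) (cv v)) l) l ≤ t + V g * (1 / (4 * t)) := by
    intro g
    refine (Vale.Agent.P168.MP.ET_mono (hwp g) fun ps => abs_le_sq ht).trans (le_of_eq ?_)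
    simp only [div_eq_mul_inv, Vale.Agent.P168.MP.ET_add, Vale.Agent.P168.MP.ET_const (hwp g),
      Vale.Agent.P168.MP.ET_mul_const, one_mul]
    congr 2
    simp only [V, F, ← Vale.Agent.P168.MP.ET_sum, div_eq_mul_inv, ← Vale.Agent.P168.MP.ET_mul_const]
    congr 1; funext ps
    rw [← Finset.sum_mul_sum]
    simp only [Finset.sum_sub_distrib, Finset.sum_const, Finset.card_univ, Fintype.card_fin, nsmul_eq_mul, qKV, φ, G]
    field_simp
  have hVc : Continuous V := (continuous_finsetSum _ fun a _ => continuous_finsetSum _ fun b _ => hFc a b).div_const _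
  have hVi : Integrable V (pats N M) :=
    (integrable_finsetSum _ fun a _ => integrable_finsetSum _ fun b _ => hFi a b).div_const _
  have hdev : Integrable (fun g => devOf R (w g) (qKV f1 v g)
      (fun l => Gamma (fun y => exp (f y)) f1 R (lin R) (qker R (w g) (cv v)) l) l) (pats N M) := by
    refine Integrable.mono' ((integrable_const t).add (hVi.mul_const (1 / (4 * t)))) ?_
      (Filter.Eventually.of_forall fun g => ?_)
    · refine Continuous.aestronglyMeasurable ?_
      refine continuous_ET hwc hwp R _ fun ps => (Continuous.sub ?_ hGc).abs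
      unfold qKV
      exact (continuous_finsetSum _ fun a _ => hφc a _ _).div_const _
    · rw [Real.norm_eq_abs, abs_of_nonneg (devOf_nonneg (hwp g) _ _ _)]
      exact hV g
  refine (integral_mono hdev ((integrable_const t).add (hVi.mul_const (1 / (4 * t)))) hV).trans ?_
  simp only [Pi.add_apply]
  rw [integral_add (integrable_const t) (hVi.mul_const _), integral_const, probReal_univ, one_smul,
    integral_mul_const]
  refine add_le_add le_rfl ?_
  have hsum : ∫ g, V g ∂pats N M ≤ P * Δ + 4 * D ^ 4 * (1 / M) := by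
    simp only [V]
    rw [integral_div, integral_finsetSum _ fun a _ => integrable_finsetSum _ fun b _ => hFi a b]
    have h1 : ∀ a, ∫ g, ∑ b, F a b g ∂pats N M ≤ M * (P * Δ) + 4 * D ^ 4 := by
      intro a
      rw [integral_finsetSum _ fun b _ => hFi a b, ← Finset.sum_erase_add _ _ (Finset.mem_univ a)]
      refine add_le_add ((Finset.sum_le_sum fun b hb => hoff a b (Finset.ne_of_mem_erase hb).symm).trans ?_) ?_
      · rw [Finset.sum_const, nsmul_eq_mul]
        refine mul_le_mul_of_nonneg_right ?_ (mul_nonneg hP0 hΔ0)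
        simp
      · calc ∫ g, F a a g ∂pats N M ≤ ∫ _g, 4 * D ^ 4 ∂pats N M :=
              integral_mono (hFi a a) (integrable_const _) fun g => (le_abs_self _).trans (hFb a a g)
          _ = _ := by simp
    refine (div_le_div_of_nonneg_right (Finset.sum_le_sum fun a _ => h1 a) (by positivity)).trans_eq ?_
    simp only [Finset.sum_const, Finset.card_univ, Fintype.card_fin, nsmul_eq_mul]
    field_simp
  calc (∫ g, V g ∂pats N M) * (1 / (4 * t)) ≤ (P * Δ + 4 * D ^ 4 * (1 / M)) * (1 / (4 * t)) :=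
        mul_le_mul_of_nonneg_right hsum (by positivity)
    _ ≤ (P + 4 * D ^ 4) * (Δ + 1 / M) * (1 / (4 * t)) := by
        refine mul_le_mul_of_nonneg_right ?_ (by positivity)
        have : (0:ℝ) ≤ 1 / M := by positivity
        nlinarith [mul_nonneg hP0 this, mul_nonneg (show 0 ≤ 4 * D ^ 4 by positivity) hΔ0]
    _ = (P + 4 * D ^ 4) / 4 / t * (Δ + 1 / M) := by field_simp

/-- concentration of the overlap of the derivatives -/
theorem qconcV (hk : KerProf) (hS : Sm f f1 f2 f3 B D) (hB : ∀ x, f x ≤ B) : QConcV f f1 := by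
  obtain ⟨KP, hKP, hP⟩ := Par.pair_close hS 1
  obtain ⟨KL, hKL, hL⟩ := Par.Phi_lip hS 1
  exact qconcV_of hk hS hB hKP hKL hP (fun R q q' hR hq hq' l hl => (hL R q q' hR hq hq').2 l hl)
    fun R q hR hq => Par.Gamma_prof hS hR hq fun w hw => ok_lin hR hw

lemma fac_bounds (hS : Sm f f1 f2 f3 B D) (hB : ∀ x, f x ≤ B) (y : Fin N → ℝ) (p : List Ω) :
    exp (-B) ≤ fac f v y p ∧ fac f v y p ≤ exp B :=
  ⟨exp_le_exp.2 (hS.lb _), exp_le_exp.2 (hB _)⟩

private lemma integrable_adV (hk : KerProf) (hf : Continuous f) (hR : 1 ≤ R) (hw₀ : ∀ p, 0 < w₀ p)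
    (hv : ∀ p, cv v p p = 1) : Integrable (fun g : Fin M → Fin N → ℝ => adV f R w₀ v g) (pats N M) :=
  Integrable.of_bound (continuous_adV hf hw₀ v).aestronglyMeasurable 4 (Filter.Eventually.of_forall fun g => by
    rw [Real.norm_eq_abs, adV, qV, abs_of_nonneg (adev_nonneg (wV_pos hw₀ g) _ _)]
    exact adev_le_four hk (wV_pos hw₀ g) hR hv)

lemma integrable_lip (hk : KerProf) (hf : Continuous f) (hR : 1 ≤ R) (hw₀ : ∀ p, 0 < w₀ p)
    (hv : ∀ p, cv v p p = 1) {F : (ℕ → ℝ) → ℝ} {L : ℝ} (hL : 0 ≤ L)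
    (hF : ∀ q q', Prof R q 1 → Prof R q' 1 → |F q - F q'| ≤ L * dist1 R q q') :
    Integrable (fun g : Fin M → Fin N → ℝ => F (qV f R w₀ v g)) (pats N M) := by
  obtain ⟨hc, hb⟩ := Par.cont_functional hR hL hF (q := fun g : Fin M → Fin N → ℝ => qV f R w₀ v g)
    (fun g => (hk hR (wV_pos hw₀ g) hv).1) fun l => continuous_qkerV hf hw₀ v l
  exact Integrable.of_bound hc.aestronglyMeasurable _ (Filter.Eventually.of_forall hb)

lemma integrable_logZ0V (hS : Sm f f1 f2 f3 B D) (hB : ∀ x, f x ≤ B) (hR : 1 ≤ R) (hw₀ : ∀ p, 0 < w₀ p)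
    (v : List Ω → Fin N → ℝ) :
    Integrable (fun g : Fin M → Fin N → ℝ => logZ0 R (lin R) (wV f w₀ v g)) (pats N M) := by
  refine Integrable.of_bound (Par.continuous_logZ0 (fun p => continuous_wV hS.sd.cont0 w₀ v p)
    (fun g p => wV_pos hw₀ g p) R).aestronglyMeasurable (|logZ0 R (lin R) w₀| + M * B)
    (Filter.Eventually.of_forall fun g => ?_)
  have hb : ∀ p, exp (-(M * B)) ≤ exp (∑ i, f (dot (v p) (g i))) ∧ exp (∑ i, f (dot (v p) (g i))) ≤ exp (M * B) := fun p => by
    have := (abs_sum_le_sum_abs (fun i => f (dot (v p) (g i))) univ).trans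
      (sum_le_sum fun i _ => abs_le.2 ⟨hS.lb _, hB _⟩)
    rw [sum_const, card_univ, Fintype.card_fin, nsmul_eq_mul] at this
    exact ⟨exp_le_exp.2 (abs_le.1 this).1, exp_le_exp.2 (abs_le.1 this).2⟩
  have h1 := Vale.Agent.P168.MP.logZ0_mul (R := R) (m := lin R) hw₀
    (Y := fun p => exp (∑ i, f (dot (v p) (g i)))) fun p => exp_pos _
  rw [Real.norm_eq_abs, show wV f w₀ v g = fun p => w₀ p * exp (∑ i, f (dot (v p) (g i))) from rfl]
  have h2 := abs_le.1 (Par.abs_log_nest_le (ok_lin hR hw₀) hb)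
  rw [abs_le]
  constructor <;> linarith [le_abs_self (logZ0 R (lin R) w₀), neg_abs_le (logZ0 R (lin R) w₀)]

/-- one pattern more in the value -/
theorem pattV (hk : KerProf) (hS : Sm f f1 f2 f3 B D) (hB : ∀ x, f x ≤ B) : PattV f := by
  obtain ⟨KV, hKV, hV⟩ := Par.value_close hS 1
  obtain ⟨KL, hKL, hL⟩ := Par.Phi_lip hS 1
  refine ⟨KV, hKV, fun {Ω} _ _ {R N M} hR {w₀} hw₀ {v} hv => ?_⟩
  have : NeZero N := neZero_of_unit hv
  have hf : Continuous f := hS.sd.cont0
  have iP := integrable_lip (M := M) hk hf hR hw₀ hv (F := Par.Phi (fun y => exp (f y)) R (lin R)) hKL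
    fun q q' hq hq' => (hL R q q' hR hq hq').1
  have iA := (integrable_adV (M := M) hk hf hR hw₀ hv).const_mul KV
  have iL := integrable_logZ0V (M := M) hS hB hR hw₀ v
  have iH := integrable_logZ0V (M := M + 1) hS hB hR hw₀ v
  have iI := Par.integrable_ins iH
  rw [integral_pats_succ 0 iH, ← integral_sub iI iL, ← integral_sub (iI.sub' iL) iP, ← integral_const_mul]
  refine abs_integral_le_integral_abs.trans (integral_mono ((iI.sub' iL).sub' iP).abs iA fun g => ?_)
  have hw := wV_pos (f := f) (v := v) hw₀ g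
  have e : ∀ y, logZ0 R (lin R) (wV f w₀ v (ins 0 y g)) =
      logZ0 R (lin R) (wV f w₀ v g) + log (nest (lin R) (wV f w₀ v g) (fac f v y) R []) := fun y => by
    have := Vale.Agent.P168.MP.logZ0_mul (R := R) (m := lin R) hw (Y := fac f v y) fun p => exp_pos _
    rw [funext (wV_ins (f := f) (w₀ := w₀) (v := v) 0 y g)]
    linarith
  have hi : Integrable (fun y => log (nest (lin R) (wV f w₀ v g) (fac f v y) R [])) (gauss (Fin N)) :=
    Integrable.of_bound ((Par.continuous_nest (X := Fin N → ℝ) (w := fun _ => wV f w₀ v g) (Y := fun y => fac f v y)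
      (fun _ => continuous_const) (fun _ => hw)
      (fun p => continuous_exp.comp (hf.comp (continuous_dot_left (v p)))) (fun _ _ => exp_pos _) R []).log
        fun y => (Vale.Agent.P168.MP.nest_pos hw (fun _ => exp_pos _) R []).ne').aestronglyMeasurable B
      (Filter.Eventually.of_forall fun y => Par.abs_log_nest_le (ok_lin hR hw) fun p => fac_bounds hS hB y p)
  simp only [e]
  rw [integral_add (integrable_const _) hi, integral_const, probReal_univ, one_smul, add_sub_cancel_left]
  exact hV hR hw (a := v) (fun p => (hv p).le) (q := qV f R w₀ v g) (hk hR hw hv).1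

/-- one pattern more in the overlaps and in their deviation -/
theorem stepV (hk : KerProf) (hS : Sm f f1 f2 f3 B D) (hB : ∀ x, f x ≤ B) : StepV f := by
  refine ⟨2 * exp (4 * B), by positivity, fun {Ω} _ _ {R N M} hR {w₀} hw₀ {v} hv => ?_⟩
  have : NeZero N := neZero_of_unit hv
  have hf : Continuous f := hS.sd.cont0
  have iA := integrable_adV (M := M) hk hf hR hw₀ hv
  have iB := integrable_adV (M := M + 1) hk hf hR hw₀ hv
  have hp : ∀ g y, adV f R w₀ v g ≤ 2 * exp (4 * B) * adV f R w₀ v (ins (M := M) 0 y g) ∧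
      adV f R w₀ v (ins 0 y g) ≤ 2 * exp (4 * B) * adV f R w₀ v g := fun g y => by
    obtain ⟨-, h1, h2⟩ := ker_tilt_rep hR (wV_pos (f := f) (v := v) hw₀ g) (fac_bounds (v := v) hS hB y) (cv v)
    simp only [adV, qV, funext (wV_ins (f := f) (w₀ := w₀) (v := v) 0 y g)]
    exact ⟨h1, h2⟩
  have iI := Par.integrable_ins iB
  have iy : ∀ g, Integrable (fun y => adV f R w₀ v (ins (M := M) 0 y g)) (gauss (Fin N)) := fun g =>
    Integrable.of_bound ((continuous_adV hf hw₀ v).comp (Par.continuous_ins g)).aestronglyMeasurable 4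
      (Filter.Eventually.of_forall fun y => by
        rw [Real.norm_eq_abs, adV, qV, abs_of_nonneg (adev_nonneg (wV_pos hw₀ _) _ _)]
        exact adev_le_four hk (wV_pos hw₀ _) hR hv)
  refine ⟨?_, ?_, fun F L hL hF => ?_⟩
  · rw [integral_pats_succ 0 iB, ← integral_const_mul]
    refine integral_mono iI (iA.const_mul _) fun g => ?_
    simpa using integral_mono (iy g) (integrable_const _) fun y => (hp g y).2
  · rw [integral_pats_succ 0 iB, ← integral_const_mul]
    refine integral_mono iA (iI.const_mul _) fun g => ?_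
    have := integral_mono (μ := gauss (Fin N)) (integrable_const (adV f R w₀ v g))
      ((iy g).const_mul (2 * exp (4 * B))) fun y => (hp g y).1
    simpa [integral_const_mul] using this
  · have i0 := integrable_lip (M := M) hk hf hR hw₀ hv hL hF
    have i1 := integrable_lip (M := M + 1) hk hf hR hw₀ hv hL hF
    have iJ := Par.integrable_ins i1
    rw [integral_pats_succ 0 i1, ← integral_sub iJ i0, ← integral_const_mul]
    refine abs_integral_le_integral_abs.trans (integral_mono (iJ.sub' i0).abs (iA.const_mul _) fun g => ?_)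
    have key : ∀ y, |F (qV f R w₀ v (ins 0 y g)) - F (qV f R w₀ v g)| ≤
        2 * exp (4 * B) * L * adV f R w₀ v g := fun y => by
      refine (hF _ _ (hk hR (wV_pos hw₀ _) hv).1 (hk hR (wV_pos hw₀ g) hv).1).trans ?_
      have h := dist1_tilt hR (wV_pos (f := f) (v := v) hw₀ g) (fac_bounds (v := v) hS hB y) (cv v)
      have h0 := adev_nonneg (R := R) (wV_pos (f := f) (v := v) hw₀ g) (cv v) (qker R (wV f w₀ v g) (cv v))
      simp only [qV, adV, funext (wV_ins (f := f) (w₀ := w₀) (v := v) 0 y g)]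
      nlinarith [mul_le_mul_of_nonneg_left h hL, mul_nonneg (mul_nonneg hL (exp_pos (4 * B)).le) h0]
    have hy : Integrable (fun y => F (qV f R w₀ v (ins (M := M) 0 y g))) (gauss (Fin N)) := by
      obtain ⟨hc, hb⟩ := Par.cont_functional hR hL hF (q := fun y : Fin N → ℝ => qV f R w₀ v (ins (M := M) 0 y g))
        (fun y => (hk hR (wV_pos hw₀ _) hv).1) fun l => (continuous_qkerV hf hw₀ v l).comp (Par.continuous_ins g)
      exact Integrable.of_bound hc.aestronglyMeasurable _ (Filter.Eventually.of_forall hb)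
    have := norm_integral_le_of_norm_le_const (μ := gauss (Fin N))
      (f := fun y => F (qV f R w₀ v (ins 0 y g)) - F (qV f R w₀ v g)) (Filter.Eventually.of_forall key)
    rw [integral_sub hy (integrable_const _), integral_const, probReal_univ, one_smul, mul_one] at this
    exact this

end Vale.Agent.P157.Sph
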