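import Vale.Agent.P157.Sph.Iface
import Vale.Agent.P157.Full.Borel
import Vale.Agent.P157.Gen.Threshold

/-! The formula on the sphere passes from smooth potentials to every bounded Borel potential. -/

open MeasureTheory ProbabilityTheory Real Filter Finset
open scoped Topology
open Vale.Agent.P168.MP (lin)

namespace Vale.Agent.P157.Sph

open Par (Prof Sm)
open Par.Borel (regU regF Wt wt_exp exp_regF)
open Full (regDist)

variable {f : ℝ → ℝ} {B α : ℝ} {r R : ℕ}

/-- potentials with close weights in `L¹(γ)` have close logarithms -/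
lemma abs_sub_le_exp {a b B : ℝ} (ha : |a| ≤ B) (hb : |b| ≤ B) : |a - b| ≤ exp B * |exp a - exp b| := by
  have k : ∀ a b : ℝ, |b| ≤ B → a - b ≤ exp B * |exp a - exp b| := fun a b hb => by
    have h : a - b + 1 ≤ exp (a - b) := add_one_le_exp _
    have e : exp (a - b) - 1 = exp (-b) * (exp a - exp b) := by
      rw [sub_eq_add_neg a b, exp_add, mul_sub, ← exp_add (-b) b, neg_add_cancel, exp_zero]; ring
    refine le_trans (by linarith) (le_trans (le_abs_self (exp (-b) * (exp a - exp b))) ?_)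
    rw [abs_mul, abs_exp]
    exact mul_le_mul_of_nonneg_right (exp_le_exp.2 (by linarith [(abs_le.1 hb).1])) (abs_nonneg _)
  exact abs_sub_le_iff.2 ⟨k a b hb, (k b a ha).trans_eq (by rw [abs_sub_comm])⟩

/-- the pressure on the sphere follows the regularisation -/
lemma pressure_reg_close (hf : Measurable f) (hb : ∀ x, |f x| ≤ B) (hα : 0 ≤ α) {ε : ℝ} (hε : 0 < ε) :
    ∀ᶠ c in 𝓝[Set.Iio 1] 1, ∀ N : ℕ, 1 ≤ N →
      |pressure (sphereUniform N) f ⌊α * N⌋₊ - pressure (sphereUniform N) (regF c f) ⌊α * N⌋₊| ≤ ε := by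
  have hU := wt_exp hf hb
  have hB0 : 0 ≤ B := (abs_nonneg _).trans (hb 0)
  set θ := min (1 / 2) (ε / (4 * (α * B) + 1))
  have hθ0 : 0 < θ := lt_min (by norm_num) (by positivity)
  have hθB : α * (2 * θ * B) ≤ ε / 2 := by
    have h := (le_div_iff₀ (show 0 < 4 * (α * B) + 1 by positivity)).1 (min_le_right (1 / 2) _ : θ ≤ _)
    linarith
  set K := exp (2 * B / θ) * exp B
  have hK : ∀ᶠ c in 𝓝[Set.Iio 1] 1, α * K * regDist f c < ε / 2 := by
    have h := hU.reg_tendsto.const_mul (α * K)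
    rw [mul_zero] at h
    exact h.eventually (Iio_mem_nhds (half_pos hε))
  filter_upwards [hK, self_mem_nhdsWithin] with c hc hc1 N hN
  obtain ⟨f1, f2, f3, D, hS, hB⟩ := hU.sm hc1
  have hgb : ∀ x, |regF c f x| ≤ B := fun x => abs_le.2 ⟨hS.lb x, hB x⟩
  have hgm : Measurable (regF c f) := hS.sd.cont0.measurable
  have he : ∀ y, exp (regF c f y) = regU c (fun x => exp (f x)) y := congrFun (exp_regF hf hb c)
  set M := ⌊α * (N : ℝ)⌋₊
  have h1 := Gen.Phi_close (N := N) (M := M) (by omega) (carried_sphere (by omega)) hf hb hgm hgb hθ0 (min_le_left _ _)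
  have h2 := Gen.Phi_close (N := N) (M := M) (by omega) (carried_sphere (by omega)) hgm hgb hf hb hθ0 (min_le_left _ _)
  simp only [abs_sub_comm (regF c f _) (f _)] at h2
  have hI : ∫ t, |f t - regF c f t| ∂gaussianReal 0 1 ≤ exp B * regDist f c := by
    rw [regDist, ← integral_const_mul]
    refine integral_mono_of_nonneg (Eventually.of_forall fun t => abs_nonneg _)
      ((integrable_bdd (C := exp B + exp B) ?_ fun t => ?_).const_mul _) (Eventually.of_forall fun t => ?_)
    · simp only [← he]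
      exact ((hgm.exp).sub hf.exp).abs
    · simp only [← he, abs_abs]
      refine (abs_sub _ _).trans (add_le_add ?_ ?_) <;> rw [abs_exp]
      exacts [exp_le_exp.2 (abs_le.1 (hgb _)).2, exp_le_exp.2 (abs_le.1 (hb _)).2]
    · dsimp only
      rw [abs_sub_comm, ← he]
      exact abs_sub_le_exp (hgb t) (hb t)
  have hN0 : (0 : ℝ) < N := by exact_mod_cast hN
  have hMN : (M : ℝ) ≤ α * N := Nat.floor_le (by positivity)
  set X := 2 * θ * B + exp (2 * B / θ) * ∫ t, |f t - regF c f t| ∂gaussianReal 0 1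
  have hX0 : 0 ≤ X := add_nonneg (by positivity) (mul_nonneg (exp_pos _).le (integral_nonneg fun t => abs_nonneg _))
  have hX : α * X ≤ ε := by
    have := mul_le_mul_of_nonneg_left (mul_le_mul_of_nonneg_left hI (exp_pos (2 * B / θ)).le) hα
    simp only [X, K, mul_add, mul_assoc] at *
    linarith
  have hMX : (M : ℝ) * X ≤ ε * N := by
    nlinarith [mul_le_mul_of_nonneg_right hMN hX0, mul_le_mul_of_nonneg_left hX hN0.le]
  rw [pressure_eq, pressure_eq, div_sub_div_same, abs_div, Nat.abs_cast, div_le_iff₀ hN0]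
  exact abs_sub_le_iff.2 ⟨by linarith, by linarith⟩

lemma DD_congr {q q' : ℕ → ℝ} (h : ∀ l < R, q l = q' l) {j : ℕ} (hj : j < R) : DD R q j = DD R q' j := by
  rw [DD, DD, h j hj, Finset.sum_congr rfl fun l hl => h l (Finset.mem_Ico.1 hl).2]

lemma entS_congr (hR : 1 ≤ R) {q q' : ℕ → ℝ} (h : ∀ l < R, q l = q' l) : entS R q = entS R q' := by
  rw [entS, entS, h 0 (by omega), h (R - 1) (by omega), DD_congr h (show 0 < R by omega),
    Finset.sum_congr rfl fun j hj => by
      rw [DD_congr h (show j < R by have := Finset.mem_range.1 hj; omega),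
        DD_congr h (show j + 1 < R by have := Finset.mem_range.1 hj; omega)]]

/-- the functional of the formula is the value of the profile, for every weight -/
lemma sphereValue_eq (U : ℝ → ℝ) (α : ℝ) {q : ℕ → ℝ} (h1 : q (r + 1) = 1) :
    sphereValue U α r (fun l : Fin (r + 1) => q l) =
      α * Par.Phi U (r + 1) (lin (r + 1)) q + entS (r + 1) q := by
  have htop : lin (r + 1) (r + 1) = 1 := by
    rw [lin, if_pos le_rfl, div_self]; positivity
  have hm : (fun p : Fin r => lin (r + 1) ((p : ℕ) + 1)) = Full.mlin r := funext Full.lin_succ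
  rw [sphereValue, ← Full.patternTerm_eq U htop h1, hm, entS_congr (R := r + 1) (by omega) (q := extQ _) (q' := q)]
  · rfl
  · intro l hl
    simp [extQ, hl]

/-- a finite profile extended by the diagonal is admissible -/
lemma adm_extQ {q : Fin (r + 1) → ℝ} (hq : Monotone q) (h01 : ∀ l, 0 ≤ q l ∧ q l < 1) :
    Adm (r + 1) (extQ q) ∧ (fun l : Fin (r + 1) => extQ q l) = q := by
  refine ⟨⟨⟨?_, fun l hl => ?_, ?_⟩, ?_, ?_⟩, funext fun l => dif_pos l.isLt⟩
  · simp [extQ, (h01 _).1]
  · rcases Nat.lt_or_ge (l + 1) (r + 1) with h | h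
    · simp only [extQ, dif_pos hl, dif_pos h]
      exact hq (Fin.mk_le_mk.2 (Nat.le_succ l))
    · simp only [extQ, dif_pos hl, dif_neg h.not_gt]
      exact (h01 _).2.le
  · simp [extQ]
  · simp [extQ, (h01 _).2]
  · simp [extQ]

/-- an admissible profile is a finite profile below one -/
lemma Adm.fin {q : ℕ → ℝ} (h : Adm (r + 1) q) :
    Monotone (fun l : Fin (r + 1) => q l) ∧ ∀ l : Fin (r + 1), 0 ≤ q l ∧ q l < 1 := by
  refine ⟨fun a b hab => h.prof.le_of_le hab (by omega), fun l => ⟨(h.prof.bd (by omega)).1, ?_⟩⟩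
  exact lt_of_le_of_lt (h.prof.le_of_le (show (l : ℕ) ≤ r + 1 - 1 by omega) (by omega)) h.lt_one

/-- regularising moves every value by at most `α e^(3B)` times the distance, uniformly in the profile -/
lemma value_reg_close (hf : Measurable f) (hb : ∀ x, |f x| ≤ B) (hα : 0 ≤ α) (c : ℝ) {q : ℕ → ℝ}
    (hq : Adm (r + 1) q) :
    |valS α (regF c f) (r + 1) q - sphereValue (fun y => exp (f y)) α r (fun l : Fin (r + 1) => q l)| ≤
      α * exp (3 * B) * regDist f c := by
  have hU := wt_exp hf hb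
  have hbox : Par.Br.Box (exp (-B)) (exp B) fun y => exp (regF c f y) := by
    rw [exp_regF hf hb c]
    exact ⟨(hU.box_smooth (1 - c)).1.comp (measurable_const.mul measurable_id), fun y => (hU.box_smooth (1 - c)).2 _⟩
  have h := Full.phi_L1_meas (R := r + 1) (by omega) (Par.ex_lin (r + 1))
    (by rw [Vale.Agent.P168.MP.lin, if_pos le_rfl]; exact div_self (by positivity)) hbox hU.box hq.prof hq.top
  rw [sphereValue_eq _ α hq.top, valS, add_sub_add_right_eq_sub, ← mul_sub,
    abs_mul, abs_of_nonneg hα, mul_assoc]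
  refine mul_le_mul_of_nonneg_left (h.trans_eq ?_) hα
  simp only [regDist, congrFun (exp_regF hf hb c)]

lemma sphereValues_nonempty (U : ℝ → ℝ) (α : ℝ) : (sphereValues U α).Nonempty :=
  ⟨_, 0, fun _ => 0, monotone_const, fun _ => ⟨le_rfl, one_pos⟩, rfl⟩

lemma sphereValues_bddBelow (hf : Measurable f) (hb : ∀ x, |f x| ≤ B) (hα : 0 ≤ α) :
    BddBelow (sphereValues (fun y => exp (f y)) α) := by
  refine ⟨-(α * B), ?_⟩
  rintro v ⟨r, q, hq, h01, rfl⟩
  obtain ⟨hA, e⟩ := adm_extQ hq h01
  rw [← e, sphereValue_eq _ α hA.top]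
  set Q := extQ q
  have hbox := Par.Br.Vn_box (q := Q) (wt_exp hf hb).box (exp_pos _) (Par.ex_lin (r + 1)).pos (r + 1) le_rfl
  have hbd : ∀ y, |log (Par.Vn (fun y => exp (f y)) (r + 1) (lin (r + 1)) Q (r + 1) y)| ≤ B := fun y => by
    have hp := (exp_pos _).trans_le (hbox.2 y).1
    exact abs_le.2 ⟨(le_log_iff_exp_le hp).2 (hbox.2 y).1, (log_le_iff_le_exp hp).2 (hbox.2 y).2⟩
  have h1 : -B ≤ Par.Phi (fun y => exp (f y)) (r + 1) (lin (r + 1)) Q :=
    (abs_le.1 (abs_integral_le_of_abs_le (ν := gaussianReal 0 1) fun z => hbd _)).1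
  have h2 := entS_nonneg (R := r + 1) (q := Q) (by omega)
    (fun l hl => hA.prof.mono l (by omega)) hA.lt_one
  nlinarith [mul_le_mul_of_nonneg_left h1 hα]

/-- **The formula on the sphere** for every bounded Borel potential, from the two bounds for smooth ones -/
theorem sphere_formula (hl : LowerS) (hu : UpperS) : SphereFormula := by
  intro f B hf hb α hα
  set U := fun y => exp (f y)
  have hU := wt_exp hf hb
  have hne := sphereValues_nonempty U α
  have hbd := sphereValues_bddBelow hf hb hα.le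
  refine ⟨hne, hbd, ?_⟩
  set s₀ := sInf (sphereValues U α)
  rw [Metric.tendsto_nhds]
  intro ε hε
  set δ := ε / 8
  have hδ : 0 < δ := by positivity
  have hd : ∀ᶠ c in 𝓝[Set.Iio 1] 1, α * exp (3 * B) * regDist f c < δ := by
    have h := hU.reg_tendsto.const_mul (α * exp (3 * B))
    rw [mul_zero] at h
    exact h.eventually (Iio_mem_nhds hδ)
  obtain ⟨c, ⟨hc, hcd⟩, hc01⟩ := (((pressure_reg_close hf hb hα.le hδ).and hd).and
    (Ioo_mem_nhdsLT (show (0:ℝ) < 1 by norm_num))).exists
  obtain ⟨f1, f2, f3, D, hS, hB⟩ := hU.sm hc01.2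
  have hlo := hl (f := regF c f) hS hB hα (s₀ - δ) (fun R q hR hq => ?_) δ hδ
  · obtain ⟨v, ⟨r, q, hq, h01, rfl⟩, hvs⟩ : ∃ v ∈ sphereValues U α, v < s₀ + δ :=
      exists_lt_of_csInf_lt hne (by linarith)
    obtain ⟨hA, e⟩ := adm_extQ hq h01
    have h1 := value_reg_close hf hb hα.le c hA
    rw [e] at h1
    filter_upwards [hlo, hu (f := regF c f) hS hB hα (r + 1) (extQ q) (by omega) hA δ hδ,
      eventually_ge_atTop 1] with N hl hu hN
    have h2 := abs_le.1 (hc N hN)
    rw [Real.dist_eq, abs_lt]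
    have h3 : ε = 8 * δ := by simp only [δ]; ring
    constructor <;> linarith [(abs_le.1 h1).2, h2.1, h2.2]
  · obtain ⟨r, rfl⟩ : ∃ r, R = r + 1 := ⟨R - 1, by omega⟩
    have hmem : sphereValue U α r (fun l : Fin (r + 1) => q l) ∈ sphereValues U α :=
      ⟨r, _, hq.fin.1, hq.fin.2, rfl⟩
    have := csInf_le hbd hmem
    linarith [(abs_le.1 (value_reg_close hf hb hα.le c hq)).1]

end Vale.Agent.P157.Sph
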