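import Mathlib

/-! The Crisanti–Sommers entropy of an overlap profile and its conjugacy with the Gaussian site functional. -/

open Finset Real

namespace Vale.Agent.P157.Sph

variable {R : ℕ} {q h : ℕ → ℝ} {d0 : ℝ}

/-- susceptibility above the level `j` -/
noncomputable def DD (R : ℕ) (q : ℕ → ℝ) (j : ℕ) : ℝ :=
  1 - (∑ l ∈ Ico j R, q l) / R - (j / R : ℝ) * q j

/-- entropy of a profile on the sphere -/
noncomputable def entS (R : ℕ) (q : ℕ → ℝ) : ℝ :=
  (q 0 / DD R q 0 + ∑ j ∈ range (R - 1), (R / (j + 1 : ℝ)) * log (DD R q j / DD R q (j + 1)) +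
    log (1 - q (R - 1))) / 2

/-- precision at the level `j`, from the precision at the root -/
noncomputable def dd (R : ℕ) (d0 : ℝ) (h : ℕ → ℝ) (j : ℕ) : ℝ :=
  d0 + ∑ i ∈ range j, ((i + 1 : ℝ) / R) * (h (i + 1) - h i)

/-- Gaussian site functional at root precision `d0` -/
noncomputable def psiG (R : ℕ) (d0 : ℝ) (h : ℕ → ℝ) : ℝ :=
  (h 0 / d0 + ∑ j ∈ range (R - 1), (R / (j + 1 : ℝ)) * log (dd R d0 h (j + 1) / dd R d0 h j) -
    log (dd R d0 h (R - 1)) + (dd R d0 h (R - 1) - 1) - h (R - 1)) / 2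

lemma dd_zero : dd R d0 h 0 = d0 := by simp [dd]

lemma dd_succ (j : ℕ) : dd R d0 h (j + 1) = dd R d0 h j + ((j + 1 : ℝ) / R) * (h (j + 1) - h j) := by
  simp [dd, sum_range_succ, add_assoc]

lemma dd_pos (h0 : 0 < d0) (hh : ∀ l, l + 1 < R → h l ≤ h (l + 1)) : ∀ j, j < R → 0 < dd R d0 h j
  | 0, _ => by rwa [dd_zero]
  | j + 1, hj => by
    rw [dd_succ]
    exact add_pos_of_pos_of_nonneg (dd_pos h0 hh j (by omega))
      (mul_nonneg (by positivity) (sub_nonneg.2 (hh j hj)))

lemma DD_step {j : ℕ} (hj : j < R) :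
    DD R q j - DD R q (j + 1) = ((j + 1 : ℝ) / R) * (q (j + 1) - q j) := by
  simp only [DD, sum_eq_sum_Ico_succ_bot hj]
  push_cast
  ring

lemma DD_top (hR : 1 ≤ R) : DD R q (R - 1) = 1 - q (R - 1) := by
  obtain ⟨r, rfl⟩ : ∃ r, R = r + 1 := ⟨R - 1, by omega⟩
  simp only [DD, Nat.add_sub_cancel, Nat.Ico_succ_singleton, sum_singleton]
  push_cast
  field_simp
  ring

lemma DD_pos (hR : 1 ≤ R) (hm : ∀ l, l + 1 < R → q l ≤ q (l + 1)) (h1 : q (R - 1) < 1) {j : ℕ} (hj : j < R) :
    1 - q (R - 1) ≤ DD R q j ∧ 0 < DD R q j := by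
  suffices h : ∀ i, i < R → 1 - q (R - 1) ≤ DD R q (R - 1 - i) by
    have := h (R - 1 - j) (by omega)
    rw [show R - 1 - (R - 1 - j) = j by omega] at this
    exact ⟨this, lt_of_lt_of_le (by linarith) this⟩
  intro i
  induction i with
  | zero => intro _; rw [Nat.sub_zero, DD_top hR]
  | succ i ih =>
    intro hi
    have e := DD_step (q := q) (show R - 1 - (i + 1) < R by omega)
    rw [show R - 1 - (i + 1) + 1 = R - 1 - i by omega] at e
    have hmon := hm (R - 1 - (i + 1)) (by omega)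
    rw [show R - 1 - (i + 1) + 1 = R - 1 - i by omega] at hmon
    nlinarith [ih (by omega), mul_nonneg (show (0 : ℝ) ≤ ((R - 1 - (i + 1) : ℕ) + 1 : ℝ) / R by positivity)
      (sub_nonneg.2 hmon)]

/-- the pairing in increments -/
lemma pair_eq (h q : ℕ → ℝ) : ∀ k, k < R →
    (∑ l ∈ range R, h (min l k) * q l) / R - h k =
      h 0 * -(DD R q 0) + ∑ j ∈ range k, (h (j + 1) - h j) * -(DD R q (j + 1) + ((j + 1 : ℝ) / R) * q (j + 1))
  | 0, _ => by simp [DD, ← mul_sum]; ring
  | k + 1, hk => by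
    rw [sum_range_succ, ← add_assoc, ← pair_eq h q k (by omega)]
    have hs : ∑ l ∈ range R, h (min l (k + 1)) * q l =
        ∑ l ∈ range R, h (min l k) * q l + (h (k + 1) - h k) * ∑ l ∈ Ico (k + 1) R, q l := by
      rw [mul_sum, show Ico (k + 1) R = (range R).filter (fun l => k + 1 ≤ l) by ext l; simp; omega, sum_filter,
        ← sum_add_distrib]
      refine sum_congr rfl fun l _ => ?_
      split_ifs with hl
      · rw [min_eq_right hl, min_eq_right (show k ≤ l by omega)]; ring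
      · rw [min_eq_left (show l ≤ k + 1 by omega), min_eq_left (show l ≤ k by omega), add_zero]
    rw [hs]
    simp only [DD]
    push_cast
    ring

/-- slack `log x - x + 1` of a level -/
noncomputable def slack (R : ℕ) (d0 : ℝ) (q h : ℕ → ℝ) (j : ℕ) : ℝ :=
  log (dd R d0 h j * DD R q j) - dd R d0 h j * DD R q j + 1

/-- exact form of the site functional paired with a profile -/
theorem psiG_identity (hR : 1 ≤ R) (hm : ∀ l, l + 1 < R → q l ≤ q (l + 1)) (h1 : q (R - 1) < 1)
    (h0 : 0 < d0) (hh : ∀ l, l + 1 < R → h l ≤ h (l + 1)) :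
    2 * (psiG R d0 h + (∑ l ∈ range R, h l * q l) / (2 * R)) =
      h 0 * (1 / d0 - DD R q 0) + d0 * q 0 +
        (∑ j ∈ range (R - 1), (R / (j + 1 : ℝ)) * log (DD R q j / DD R q (j + 1))) + log (1 - q (R - 1)) +
        ((∑ j ∈ range (R - 1), (R / (j + 1 : ℝ)) * (slack R d0 q h (j + 1) - slack R d0 q h j)) -
          slack R d0 q h (R - 1)) := by
  have hR0 : (R : ℝ) ≠ 0 := by positivity
  have hp := pair_eq (R := R) h q (R - 1) (by omega)
  rw [sum_congr rfl fun l hl => by rw [min_eq_left (show l ≤ R - 1 by have := mem_range.1 hl; omega)]] at hp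
  have hdp : ∀ j < R, 0 < dd R d0 h j := dd_pos h0 hh
  have hDp : ∀ j < R, 0 < DD R q j := fun j hj => (DD_pos hR hm h1 hj).2
  have hstep : ∀ j ∈ range (R - 1),
      (R / (j + 1 : ℝ)) * log (dd R d0 h (j + 1) / dd R d0 h j) +
        (h (j + 1) - h j) * -(DD R q (j + 1) + ((j + 1 : ℝ) / R) * q (j + 1)) =
      (R / (j + 1 : ℝ)) * log (DD R q j / DD R q (j + 1)) +
        (R / (j + 1 : ℝ)) * (slack R d0 q h (j + 1) - slack R d0 q h j) -
        (dd R d0 h (j + 1) * q (j + 1) - dd R d0 h j * q j) := fun j hj => by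
    have hj' := mem_range.1 hj
    have a1 := hdp j (by omega)
    have a2 := hdp (j + 1) (by omega)
    have b1 := hDp j (by omega)
    have b2 := hDp (j + 1) (by omega)
    have e := DD_step (q := q) (show j < R by omega)
    simp only [slack]
    rw [log_div a2.ne' a1.ne', log_div b1.ne' b2.ne', log_mul a1.ne' b1.ne', log_mul a2.ne' b2.ne', dd_succ,
      show DD R q j = DD R q (j + 1) + ((j + 1 : ℝ) / R) * (q (j + 1) - q j) by linarith]
    field_simp
    ring
  have hsum := sum_congr rfl hstep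
  rw [sum_sub_distrib, sum_add_distrib, sum_add_distrib,
    sum_range_sub (fun j => dd R d0 h j * q j) (R - 1), dd_zero] at hsum
  have htop : slack R d0 q h (R - 1) =
      log (dd R d0 h (R - 1)) + log (1 - q (R - 1)) - dd R d0 h (R - 1) * (1 - q (R - 1)) + 1 := by
    rw [slack, DD_top hR, log_mul (hdp (R - 1) (by omega)).ne' (by linarith)]
  rw [psiG, htop, show (∑ l ∈ range R, h l * q l) / (2 * (R : ℝ)) = (∑ l ∈ range R, h l * q l) / R / 2 by ring]
  linear_combination hsum + hp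

lemma slack_le (hR : 1 ≤ R) (hm : ∀ l, l + 1 < R → q l ≤ q (l + 1)) (h1 : q (R - 1) < 1)
    (h0 : 0 < d0) (hh : ∀ l, l + 1 < R → h l ≤ h (l + 1)) {j : ℕ} (hj : j < R) :
    slack R d0 q h j ≤ 0 := by
  have := log_le_sub_one_of_pos (mul_pos (dd_pos h0 hh j hj) (DD_pos hR hm h1 hj).2)
  simp only [slack]; linarith

/-- weighted telescoping of nonpositive slacks -/
lemma telescope_le {ψ : ℕ → ℝ} (hψ : ∀ j < R, ψ j ≤ 0) : ∀ k, k < R →
    (∑ j ∈ range k, (R / (j + 1 : ℝ)) * (ψ (j + 1) - ψ j)) + R * ψ 0 ≤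
      (R / (max k 1 : ℕ) : ℝ) * ψ k
  | 0, _ => by simp
  | k + 1, hk => by
    rw [sum_range_succ, add_right_comm, Nat.max_eq_left (show 1 ≤ k + 1 by omega)]
    refine (add_le_add (telescope_le hψ k (by omega)) le_rfl).trans ?_
    have hc : (R : ℝ) / (k + 1 : ℝ) ≤ R / (max k 1 : ℕ) :=
      div_le_div_of_nonneg_left (by positivity) (by positivity) (by exact_mod_cast (show max k 1 ≤ k + 1 by omega))
    push_cast at hc ⊢
    nlinarith [mul_nonneg (sub_nonneg.2 hc) (neg_nonneg.2 (hψ k (by omega)))]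

/-- for every root precision the value is at most the entropy plus a linear term in `h 0` -/
theorem psiG_le (hR : 1 ≤ R) (hm : ∀ l, l + 1 < R → q l ≤ q (l + 1)) (h1 : q (R - 1) < 1)
    (h0 : 0 < d0) (hh : ∀ l, l + 1 < R → h l ≤ h (l + 1)) :
    2 * (psiG R d0 h + (∑ l ∈ range R, h l * q l) / (2 * R)) ≤
      2 * entS R q + h 0 * (1 / d0 - DD R q 0) + q 0 * (d0 - 1 / DD R q 0) -
        R * (log (d0 * DD R q 0) - d0 * DD R q 0 + 1) := by
  rw [psiG_identity hR hm h1 h0 hh]
  have hψ := fun j (hj : j < R) => slack_le hR hm h1 h0 hh hj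
  have ht := telescope_le hψ (R - 1) (by omega)
  have hc : (1 : ℝ) ≤ R / (max (R - 1) 1 : ℕ) := by
    rw [le_div_iff₀ (by positivity), one_mul]
    exact_mod_cast (show max (R - 1) 1 ≤ R by omega)
  have e0 : slack R d0 q h 0 = log (d0 * DD R q 0) - d0 * DD R q 0 + 1 := by rw [slack, dd_zero]
  rw [e0] at ht
  rw [show 2 * entS R q = q 0 / DD R q 0 + ∑ j ∈ range (R - 1), (R / (j + 1 : ℝ)) * log (DD R q j / DD R q (j + 1)) +
    log (1 - q (R - 1)) by rw [entS]; ring]
  have := mul_nonneg (sub_nonneg.2 hc) (neg_nonneg.2 (hψ (R - 1) (by omega)))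
  ring_nf at this ht ⊢
  linarith

/-- **the tangent inequality**: no calculus and no fixed point -/
theorem psiG_tangent (hR : 1 ≤ R) (hm : ∀ l, l + 1 < R → q l ≤ q (l + 1)) (h1 : q (R - 1) < 1)
    (hh : ∀ l, l + 1 < R → h l ≤ h (l + 1)) :
    psiG R (1 / DD R q 0) h + (∑ l ∈ range R, h l * q l) / (2 * R) ≤ entS R q := by
  have hD := (DD_pos hR hm h1 (show 0 < R by omega)).2
  have := psiG_le hR hm h1 (one_div_pos.2 hD) hh
  rw [one_div_one_div, one_div_mul_cancel hD.ne', log_one] at this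
  linarith

lemma entS_nonneg (hR : 1 ≤ R) (hm : ∀ l, l + 1 < R → q l ≤ q (l + 1)) (h1 : q (R - 1) < 1) :
    0 ≤ entS R q := by
  have hD := (DD_pos hR hm h1 (show 0 < R by omega)).2
  have e1 : DD R q 0 ≤ 1 - q 0 := by
    have hle : ∀ l < R, q 0 ≤ q l := fun l => by
      induction l with
      | zero => exact fun _ => le_rfl
      | succ l ih => exact fun hl => (ih (by omega)).trans (hm l hl)
    have : (R : ℝ) * q 0 ≤ ∑ l ∈ range R, q l := by
      simpa using card_nsmul_le_sum (range R) q (q 0) fun l hl => hle l (mem_range.1 hl)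
    simp only [DD, ← range_eq_Ico, Nat.cast_zero, zero_div, zero_mul, sub_zero]
    gcongr
    rwa [le_div_iff₀ (show (0 : ℝ) < R by positivity), mul_comm]
  have h := psiG_tangent (h := fun _ => 0) hR hm h1 fun _ _ => le_rfl
  have e : ∀ j, dd R (1 / DD R q 0) (fun _ => (0 : ℝ)) j = 1 / DD R q 0 := fun j => by simp [dd]
  simp only [psiG, e, zero_mul, sum_const_zero, zero_div, add_zero, sub_zero,
    div_self (one_div_pos.2 hD).ne', log_one, mul_zero] at h
  have := log_le_sub_one_of_pos (one_div_pos.2 hD)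
  linarith

end Vale.Agent.P157.Sph
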