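import Vale.Agent.P157.Sph.Prod
import Vale.Agent.P157.Full.UDefs
import Vale.Agent.P157.Lim.Sphere
import Vale.Agent.P157.Par.Lip
import Vale.Agent.P157.Parisi.Formula

/-! Objects of the proof of the formula on the sphere. A mark carries an atom of the sphere, `K` bits that read it
smoothly through directions `r`, and an optional label; the perturbation sees the bits only. -/

open MeasureTheory ProbabilityTheory Real Finset
open Vale.Agent.P150 (gauss dot)
open Vale.Agent.P168.MP (lin ET logZ0 Batch BIdx allBatch gu avg)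
open Vale.Agent.P157.Lim (dirLaw xv sgn)

namespace Vale.Agent.P157.Sph

/-! ### The formula -/

/-- an admissible profile below the diagonal `1` -/
structure Adm (R : ℕ) (q : ℕ → ℝ) : Prop where
  prof : Par.Prof R q 1
  lt_one : q (R - 1) < 1
  top : q R = 1

/-- the value of a profile -/
noncomputable def valS (α : ℝ) (f : ℝ → ℝ) (R : ℕ) (q : ℕ → ℝ) : ℝ :=
  α * Par.Phi (fun y => exp (f y)) R (lin R) q + entS R q

/-- overlaps at depth `r`, extended by the diagonal -/
def extQ {r : ℕ} (q : Fin (r + 1) → ℝ) (l : ℕ) : ℝ := if h : l < r + 1 then q ⟨l, h⟩ else 1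

/-- the functional at depth `r`: pattern term and entropy -/
noncomputable def sphereValue (U : ℝ → ℝ) (α : ℝ) (r : ℕ) (q : Fin (r + 1) → ℝ) : ℝ :=
  α * Parisi.patternTerm U (fun p : Fin r => ((p : ℕ) + 1 : ℝ) / (r + 1)) q + entS (r + 1) (extQ q)

/-- the values at all depths and all profiles -/
def sphereValues (U : ℝ → ℝ) (α : ℝ) : Set ℝ :=
  {v | ∃ (r : ℕ) (q : Fin (r + 1) → ℝ), Monotone q ∧ (∀ l, 0 ≤ q l ∧ q l < 1) ∧ v = sphereValue U α r q}

/-! ### The finite systems -/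

variable {N K : ℕ} {A Λ : Type}

/-- a finite approximation of the uniform law on the unit sphere -/
structure Mesh [Fintype A] (N : ℕ) (η : ℝ) (wt : A → ℝ) (a : A → Fin N → ℝ) : Prop where
  pos : ∀ s, 0 < wt s
  unit : ∀ s, dot (a s) (a s) = 1
  approx : ∃ Y : (Fin N → ℝ) → Fin N → ℝ, Measurable Y ∧
    (∀ᵐ x ∂dirLaw (Fin N), ∀ k, |x k - Y x k| ≤ η) ∧
    ∀ G : (Fin N → ℝ) → ℝ, Continuous G → ∫ x, G (Y x) ∂dirLaw (Fin N) = ∑ s, wt s * G (a s)

/-- weight of the bits at a point: fair bits tilted by `tanh` of the projections on the directions -/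
noncomputable def bitW (c : ℝ) (r : Fin K → Fin N → Bool) (b : Fin K → Bool) (z : Fin N → ℝ) : ℝ :=
  ∏ k, (1 + sgn (b k) * tanh (c * √(N : ℝ) * dot (xv N (r k)) z))

/-- the atom of a path -/
noncomputable def vat [Nonempty A] (R : ℕ) (a : A → Fin N → ℝ) (p : List (A × ((Fin K → Bool) × Λ))) :
    Fin N → ℝ := a ((p.map Prod.fst).getD (R - 1) (Classical.arbitrary A))

/-- the bits of a path -/
def bat (R : ℕ) (p : List ((Fin K → Bool) × Λ)) : Fin K → Bool := (p.map Prod.fst).getD (R - 1) default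

/-- weight of a path of atoms, bits and labels -/
noncomputable def atomW [Fintype A] [Nonempty A] (R : ℕ) (G : (Fin N → ℝ) → List Λ → ℝ) (c : ℝ)
    (r : Fin K → Fin N → Bool) (wt : A → ℝ) (a : A → Fin N → ℝ)
    (p : List (A × ((Fin K → Bool) × Λ))) : ℝ :=
  Fintype.card A * wt ((p.map Prod.fst).getD (R - 1) (Classical.arbitrary A)) *
    G (vat R a p) (p.map fun o => o.2.2) * bitW c r (bat R (p.map Prod.snd)) (vat R a p)

/-- the same weight with the sphere integrated out -/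
noncomputable def baseW (R : ℕ) (G : (Fin N → ℝ) → List Λ → ℝ) (c : ℝ) (r : Fin K → Fin N → Bool)
    (p : List ((Fin K → Bool) × Λ)) : ℝ :=
  ∫ z, G z (p.map Prod.snd) * bitW c r (bat R p) z ∂dirLaw (Fin N)

variable {S : ℕ} {ι : Type} {β : ι → Batch} [Fintype ι] [NeZero K]

/-- marks of the system with atoms -/
abbrev MkA (A Λ : Type) (K S : ℕ) {ι : Type} (β : ι → Batch) : Type :=
  Full.MarkX (A × ((Fin K → Bool) × Λ)) K S β

/-- marks of the system without atoms -/
abbrev Mk0 (Λ : Type) (K S : ℕ) {ι : Type} (β : ι → Batch) : Type :=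
  Full.MarkX ((Fin K → Bool) × Λ) K S β

/-- the perturbed weight with atoms -/
noncomputable def sysA [Fintype A] [Nonempty A] (R : ℕ) (G : (Fin N → ℝ) → List Λ → ℝ) (c : ℝ)
    (r : Fin K → Fin N → Bool) (wt : A → ℝ) (a : A → Fin N → ℝ) (h u : ι → ℝ) :
    List (MkA A Λ K S β) → ℝ :=
  Full.pwX (fun o => o.2.1) R (atomW R G c r wt a) h u

/-- the perturbed weight without atoms -/
noncomputable def sys0 (R : ℕ) (G : (Fin N → ℝ) → List Λ → ℝ) (c : ℝ) (r : Fin K → Fin N → Bool) (h u : ι → ℝ) :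
    List (Mk0 Λ K S β) → ℝ :=
  Full.pwX (fun o => o.1) R (baseW R G c r) h u

/-- the configuration of a marked path -/
noncomputable def vecA [Nonempty A] (R : ℕ) (a : A → Fin N → ℝ) (p : List (MkA A Λ K S β)) : Fin N → ℝ :=
  vat R a (p.map Prod.fst)

/-- mean of a kernel at level `l` -/
noncomputable def qker {Ω : Type*} [Fintype Ω] (R : ℕ) (w : List Ω → ℝ) (C : List Ω → List Ω → ℝ) (l : ℕ) : ℝ :=
  ET R (lin R) w [(0, l), (0, 0)] fun ps => C (ps.getD 0 []) (ps.getD 1 [])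

/-! ### Patterns -/

variable {Ω : Type} {M : ℕ}

/-- the patterns as a weight on the sphere -/
noncomputable def hamS (f : ℝ → ℝ) (g : Fin M → Fin N → ℝ) (z : Fin N → ℝ) (_ : List Λ) : ℝ :=
  exp (∑ i, f (dot z (g i)))

/-- a weight multiplied by the patterns at a vector reading -/
noncomputable def wV (f : ℝ → ℝ) (w₀ : List Ω → ℝ) (v : List Ω → Fin N → ℝ) (g : Fin M → Fin N → ℝ)
    (p : List Ω) : ℝ := w₀ p * exp (∑ i, f (dot (v p) (g i)))

/-- the mean overlap of a system with patterns -/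
noncomputable def qV [Fintype Ω] (f : ℝ → ℝ) (R : ℕ) (w₀ : List Ω → ℝ) (v : List Ω → Fin N → ℝ)
    (g : Fin M → Fin N → ℝ) : ℕ → ℝ :=
  qker R (wV f w₀ v g) (Par.cv v)

/-- its mean deviation -/
noncomputable def adV [Fintype Ω] (f : ℝ → ℝ) (R : ℕ) (w₀ : List Ω → ℝ) (v : List Ω → Fin N → ℝ)
    (g : Fin M → Fin N → ℝ) : ℝ :=
  Par.adev R (wV f w₀ v g) (Par.cv v) (qV f R w₀ v g)

/-- overlap of the derivatives over the patterns -/
noncomputable def qKV (f1 : ℝ → ℝ) (v : List Ω → Fin N → ℝ) (g : Fin M → Fin N → ℝ) (p p' : List Ω) : ℝ :=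
  (∑ i, f1 (dot (v p) (g i)) * f1 (dot (v p') (g i))) / M

/-- the field path of a profile -/
noncomputable def hOf (α : ℝ) (f f1 : ℝ → ℝ) (R : ℕ) (q : ℕ → ℝ) (l : ℕ) : ℝ := α * Par.Gm f f1 R q l

/-- the diagonal of the product of a field path and a profile -/
noncomputable def hqTop (R : ℕ) (h q : ℕ → ℝ) : ℝ := h R * q R - (∑ l ∈ range R, h l * q l) / R

/-- residue of the inverse relation at a profile -/
noncomputable def eRes (α : ℝ) (f f1 : ℝ → ℝ) (R : ℕ) (q : ℕ → ℝ) : ℝ :=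
  (∑ l ∈ range R, |prodU R (precP R q (hOf α f f1 R q)) q l|) / R

/-- the right hand side of Stein's identity at level `l` -/
noncomputable def steinR [Fintype Ω] (f1 : ℝ → ℝ) (R : ℕ) (w : List Ω → ℝ) (v : List Ω → Fin N → ℝ)
    (g : Fin M → Fin N → ℝ) (l : ℕ) : ℝ :=
  ET R (lin R) w [(0, l), (0, 0)] fun ps => (∑ i, f1 (dot (v (ps.getD 0 [])) (g i)) *
    (dot (v (ps.getD 1 [])) (g i) -
      Par.cv v (ps.getD 0 []) (ps.getD 1 []) * dot (v (ps.getD 0 [])) (g i))) / N

/-- the mean radial term of a path -/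
noncomputable def radU (f1 f2 : ℝ → ℝ) (v : List Ω → Fin N → ℝ) (g : Fin M → Fin N → ℝ) (p : List Ω) : ℝ :=
  (∑ i, (f2 (dot (v p) (g i)) - dot (v p) (g i) * f1 (dot (v p) (g i)))) / N

/-- the truncated site weight, in logarithm -/
noncomputable def eL (b L : ℝ) (y : ℝ) : ℝ :=
  log (∫ s in Set.Icc (-L) L, exp (s * y - (b - 1) * s ^ 2 / 2) ∂gaussianReal 0 1)

/-- mean perturbed log partition function on the sphere, over directions and patterns -/
noncomputable def pertS [DecidableEq ι] (f : ℝ → ℝ) (R S : ℕ) (β : ι → Batch) (c : ℝ) (K : ℕ) [NeZero K] (h u : ι → ℝ)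
    (N M : ℕ) : ℝ :=
  avg fun r : Fin K → Fin N → Bool => ∫ g,
    logZ0 R (lin R) (sys0 (S := S) (β := β) (Λ := Unit) R (hamS f g) c r h u) ∂Par.pats N M

/-- its linear interpolation in the number of patterns -/
noncomputable def pertSI [DecidableEq ι] (f : ℝ → ℝ) (R S : ℕ) (β : ι → Batch) (c : ℝ) (K : ℕ) [NeZero K] (h u : ι → ℝ)
    (N : ℕ) (x : ℝ) : ℝ :=
  pertS f R S β c K h u N ⌊x⌋₊ +
    (x - ⌊x⌋₊) * (pertS f R S β c K h u N (⌊x⌋₊ + 1) - pertS f R S β c K h u N ⌊x⌋₊)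

/-- the patterns enter the weight with atoms as a factor -/
lemma sysA_ham [Fintype A] [Nonempty A] (f : ℝ → ℝ) (R : ℕ) (g : Fin M → Fin N → ℝ) (c : ℝ)
    (r : Fin K → Fin N → Bool) (wt : A → ℝ) (a : A → Fin N → ℝ) (h u : ι → ℝ) :
    sysA (S := S) (β := β) (Λ := Λ) R (hamS f g) c r wt a h u =
      wV f (sysA (S := S) (β := β) R (fun _ _ => 1) c r wt a h u) (vecA R a) g := by
  funext p
  simp only [sysA, Full.pwX, atomW, hamS, wV, vecA]
  ring

end Vale.Agent.P157.Sph
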