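import Vale.Agent.P157.Sph.DimMoments

/-! One dimension more: the perturbed pressure gains at least the truncated site of the field path. -/

open MeasureTheory ProbabilityTheory Real Finset Filter
open Vale.Agent.P150 (gauss dot l1)
open Vale.Agent.P168.MP (lin ET nest logZ0 avg ok_lin Batch)
open Vale.Agent.P157.Par (Sm Prof adev cv pats fac Gm)

namespace Vale.Agent.P157.Sph

set_option linter.unusedSectionVars false

namespace Dim

variable {Ω : Type} [Fintype Ω] [Nonempty Ω] {N M R : ℕ} {f f1 f2 f3 : ℝ → ℝ} {B D L α : ℝ}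
  {w₀ : List Ω → ℝ} {v : List Ω → Fin N → ℝ}

lemma integrable_phiEL (hS : Sm f f1 f2 f3 B D) (hα : 0 ≤ α) (hs : SiteSm) (hk : KerProf) (hL : 1 ≤ L)
    (hR : 1 ≤ R) (hw : ∀ p, 0 < w₀ p) (hv : ∀ p, cv v p p = 1) :
    Integrable (fun g : Fin M → Fin N → ℝ =>
      Par.Phi (fun y => exp (eL (1 + hqTop R (hOf α f f1 R (qV f R w₀ v g)) (qV f R w₀ v g)) L y)) R (lin R)
        (hOf α f f1 R (qV f R w₀ v g))) (pats N M) := by
  set V := α * D ^ 2
  have hP : ∀ g : Fin M → Fin N → ℝ, Prof R (qV f R w₀ v g) 1 := fun g => (hk hR (wV_pos hw v g) hv).1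
  have hH : ∀ g : Fin M → Fin N → ℝ, Prof R (hOf α f f1 R (qV f R w₀ v g)) V := fun g => hOf_prof hS hα hR (hP g)
  have hb : ∀ g : Fin M → Fin N → ℝ, |1 + hqTop R (hOf α f f1 R (qV f R w₀ v g)) (qV f R w₀ v g)| ≤ 1 + 2 * V :=
    fun g => (abs_add_le _ _).trans (add_le_add (by simp) (abs_hqTop_le hR (hP g) (hH g)))
  obtain ⟨B', D', hsm⟩ := hs hL (1 + 2 * V)
  obtain ⟨⟨e1, e2, e3, he⟩, -⟩ := hsm _ (hb 0)
  obtain ⟨C, hC, hPL⟩ := Par.Phi_lip he V
  have hc := continuous_phiEL hS hα hs hL hR hP (fun l => continuous_qV hS.cont0 hw v l)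
  refine Integrable.of_bound hc.aestronglyMeasurable
    (|Par.Phi (fun y => exp (eL (1 + hqTop R (hOf α f f1 R (qV f R w₀ v (0 : Fin M → Fin N → ℝ)))
      (qV f R w₀ v (0 : Fin M → Fin N → ℝ))) L y)) R (lin R) (hOf α f f1 R (qV f R w₀ v (0 : Fin M → Fin N → ℝ)))| +
        (L ^ 2 * (2 * (1 + 2 * V)) + C * (2 * V))) (Eventually.of_forall fun g => ?_)
  obtain ⟨⟨g1, g2, g3, hg⟩, hlip⟩ := hsm _ (hb g)
  have h1 := phi_sup hg he (δ := L ^ 2 * (2 * (1 + 2 * V))) (fun y => (hlip _ y (hb 0)).trans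
    (mul_le_mul_of_nonneg_left ((abs_sub _ _).trans (by linarith [hb g, hb 0])) (sq_nonneg L))) hR (hH g)
  have h2 := (hPL R _ _ hR (hH g) (hH 0)).1
  have hR0 : (0:ℝ) < R := by exact_mod_cast hR
  have hd : ∀ l ≤ R, |hOf α f f1 R (qV f R w₀ v g) l - hOf α f f1 R (qV f R w₀ v (0 : Fin M → Fin N → ℝ)) l| ≤ V :=
    fun l hl => by
      obtain ⟨a, b⟩ := (hH g).upper hl
      obtain ⟨c, d⟩ := (hH 0).upper hl
      exact abs_le.2 ⟨by linarith, by linarith⟩
  have h3 : (∑ l ∈ range R, |hOf α f f1 R (qV f R w₀ v g) l - hOf α f f1 R (qV f R w₀ v (0 : Fin M → Fin N → ℝ)) l|) / R ≤ V :=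
    (div_le_iff₀ hR0).2 ((sum_le_sum fun l hl => hd l (mem_range.1 hl).le).trans_eq (by simp [mul_comm]))
  have h4 := mul_le_mul_of_nonneg_left (add_le_add h3 (hd R le_rfl)) hC
  rw [Real.norm_eq_abs]
  refine (sub_le_iff_le_add'.1 ((abs_sub_abs_le_abs_sub _ _).trans ((abs_sub_le _ _ _).trans
    (add_le_add h1 (h2.trans ?_)))))
  linarith

lemma integrable_site (hS : Sm f f1 f2 f3 B D) (hB : ∀ x, f x ≤ B) (hL : 0 < L) (hR : 1 ≤ R)
    (hw : ∀ p, 0 < w₀ p) :
    Integrable (fun g : Fin M → Fin N → ℝ =>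
      ∫ z, log (nest (lin R) (wV f w₀ v g) (siteY f L v g z) R []) ∂gauss (Fin M)) (pats N M) := by
  have hf := hS.cont0
  have hb : ∀ x, |f x| ≤ B := fun x => abs_le.2 ⟨hS.lb x, hB x⟩
  have hY : ∀ (q : (Fin M → Fin N → ℝ) × (Fin M → ℝ)) (p : List Ω), 0 < siteY f L v q.1 q.2 p := fun q p =>
    (exp_pos _).trans_le (siteY_bounds hf hb hL v q.1 q.2 p).1
  have hc : Continuous fun q : (Fin M → Fin N → ℝ) × (Fin M → ℝ) =>
      log (nest (lin R) (wV f w₀ v q.1) (siteY f L v q.1 q.2) R []) := by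
    refine (Par.continuous_nest (w := fun q : (Fin M → Fin N → ℝ) × (Fin M → ℝ) => wV f w₀ v q.1)
      (fun p => (continuous_wV hf w₀ v p).comp continuous_fst) (fun q => wV_pos hw v q.1)
      (fun p => (continuous_siteH₂ hf (v p)).div (continuous_exp.comp (continuous_finsetSum _ fun a _ =>
        hf.comp ((Par.continuous_dot_left (v p)).comp ((continuous_apply a).comp continuous_fst))))
        fun q => (exp_pos _).ne') hY R []).log fun q =>
      (Vale.Agent.P168.MP.nest_pos (wV_pos hw v q.1) (hY q) R []).ne'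
  exact (Integrable.of_bound (μ := (pats N M).prod (gauss (Fin M))) hc.aestronglyMeasurable
    (2 * M * B + |log (win L)|) (Eventually.of_forall fun q =>
      Par.abs_log_nest_le (ok_lin hR (wV_pos hw v q.1)) fun p => siteY_bounds hf hb hL v q.1 q.2 p)).integral_prod_left

/-- **the new coordinate, over the patterns** -/
theorem site_mean (hS : Sm f f1 f2 f3 B D) (hB : ∀ x, f x ≤ B) (hQ : QConcV f f1) (hRad : RadV f f1 f2)
    (hs : SiteSm) (hk : KerProf) (hα : 0 < α) (hL : 1 ≤ L) {ε : ℝ} (hε : 0 < ε) :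
    ∃ C : ℝ, 0 ≤ C ∧ ∃ N₀ : ℕ, ∀ {Ω : Type} [Fintype Ω] [Nonempty Ω] {R N M : ℕ} [NeZero N], 1 ≤ R → N₀ ≤ N →
      |(M : ℝ) - α * (N + 1)| ≤ 1 → ∀ {w₀ : List Ω → ℝ}, (∀ p, 0 < w₀ p) → ∀ {v : List Ω → Fin N → ℝ},
      (∀ p, cv v p p = 1) →
      (∫ g, Par.Phi (fun y => exp (eL (1 + hqTop R (hOf α f f1 R (qV f R w₀ v g)) (qV f R w₀ v g)) L y)) R (lin R)
          (hOf α f f1 R (qV f R w₀ v g)) ∂pats N M) - ε - C * ∫ g, adV f R w₀ v g ∂pats N M ≤
        ∫ g, ∫ z, log (nest (lin R) (wV f w₀ v g) (siteY f L v g z) R []) ∂gauss (Fin M) ∂pats N M := by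
  have hD := hS.nonneg
  set A := α + 1
  set V := α * D ^ 2
  have hA : 0 ≤ A := by positivity
  obtain ⟨C1, hC1, hfix⟩ := site_fixed hS hB hL hA (V := 2 * V)
  obtain ⟨K, hK, hval⟩ := site_value hS hs hL (1 + 2 * V) (A * D ^ 2) (by positivity)
    (θ := ε / (10 * L ^ 2)) (by positivity)
  obtain ⟨C2, hC2, hq⟩ := adev_qKV_facts hk hS hQ
  set t1 := ε / (10 * (K * A + 1))
  set t2 := ε / (5 * (C1 + 1))
  have ht1 : 0 < t1 := by positivity
  have ht2 : 0 < t2 := by positivity
  obtain ⟨C3, hC3, hr⟩ := hRad hα.le ht2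
  set c4' := exp (2 * B) * m4 + 2
  have hc4' : 0 ≤ c4' := by have := m4_nonneg; positivity
  set Q := K * A * (C2 / t1) * (2 / α) + K * (2 * D ^ 2) * A + C1 * (1 + C3 * (A + 2 / α) + A * c4')
  refine ⟨K * A * (C2 / t1) + C1 * C3, by positivity,
    ⌈2 / α⌉₊ + ⌈6 / α⌉₊ + ⌈L ^ 2⌉₊ + ⌈A⌉₊ + ⌈(4 * Q / ε) ^ 2⌉₊ + 1, ?_⟩
  intro Ω _ _ R N M _ hR hN hM w₀ hw v hv
  have hle : ∀ x : ℝ, ∀ n : ℕ, ⌈x⌉₊ ≤ n → n ≤ N → x ≤ N := fun x n h h' =>
    (Nat.le_ceil x).trans (Nat.cast_le.2 (h.trans h'))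
  have g1 := hle (2 / α) ⌈2 / α⌉₊ le_rfl (by omega)
  have g2 := hle (6 / α) ⌈6 / α⌉₊ le_rfl (by omega)
  have g3 := hle (L ^ 2) ⌈L ^ 2⌉₊ le_rfl (by omega)
  have g4 := hle A ⌈A⌉₊ le_rfl (by omega)
  have g5 := hle ((4 * Q / ε) ^ 2) ⌈(4 * Q / ε) ^ 2⌉₊ le_rfl (by omega)
  rw [div_le_iff₀ hα] at g1 g2
  have hN0 : (0:ℝ) < N := Nat.cast_pos.2 (NeZero.pos N)
  obtain ⟨m1, m2⟩ := abs_le.1 hM
  have hMN : (N:ℝ) * α / 2 ≤ M := by linarith
  have hM2 : 2 ≤ M := by
    have : (2:ℝ) ≤ M := by linarith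
    exact_mod_cast this
  have hρ : |(M:ℝ) / N - α| ≤ A / N := by
    rw [div_sub' hN0.ne', abs_div, abs_of_pos hN0]
    exact div_le_div_of_nonneg_right (abs_le.2 ⟨by simp only [A]; linarith, by simp only [A]; linarith⟩) hN0.le
  have hρ1 : |(M:ℝ) / N - α| ≤ 1 := hρ.trans ((div_le_one hN0).2 g4)
  have hMA : (M:ℝ) / N ≤ A := by linarith [(abs_le.1 hρ1).2]
  -- for every pattern
  set q := fun g : Fin M → Fin N → ℝ => qV f R w₀ v g
  have hP : ∀ g, Prof R (q g) 1 := fun g => (hk hR (wV_pos hw v g) hv).1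
  set hq' := fun g => hqTop R (hOf α f f1 R (q g)) (q g)
  have hhq : ∀ g, |hq' g| ≤ 2 * V := fun g => abs_hqTop_le hR (hP g) (hOf_prof hS hα.le hR (hP g))
  set t := 1 / √(N:ℝ)
  have ht : 0 < t := by positivity
  set P := fun g => Par.Phi (fun y => exp (eL (1 + hq' g) L y)) R (lin R) (hOf α f f1 R (q g))
  set AQ := fun g => adev R (wV f w₀ v g) (qKV f1 v g) (Gm f f1 R (q g))
  set AR := fun g => ET R (lin R) (wV f w₀ v g) [(0, 0)] fun ps => |radU f1 f2 v g (ps.getD 0 []) + hq' g|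
  set AU := fun g => ET R (lin R) (wV f w₀ v g) [(0, 0)] fun ps => u4 v g (ps.getD 0 [])
  have hpt : ∀ g, P g - ε / 5 - K * (A * AQ g + 2 * (D ^ 2 * |(M:ℝ) / N - α|)) - C1 * (t + AR g + t ^ 3 * AU g) ≤
      ∫ z, log (nest (lin R) (wV f w₀ v g) (siteY f L v g z) R []) ∂gauss (Fin M) := fun g => by
    have hw' := wV_pos (f := f) hw v g
    have hb : |1 + hq' g| ≤ 1 + 2 * V := (abs_add_le _ _).trans (add_le_add (by simp) (hhq g))
    obtain ⟨B', D', hsm⟩ := hs hL (1 + 2 * V)
    obtain ⟨⟨e1, e2, e3, he⟩, -⟩ := hsm _ hb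
    have h1 := hfix hR g3 hMA hw' v g (hhq g) he
    have h2 := hval hR hw' v g (fun p => av_self hS v g hMA p) hb
      ((hOf_prof hS hα.le hR (hP g)).weaken (mul_le_mul_of_nonneg_right (by simp only [A]; linarith) (sq_nonneg D)))
    have h3 : K * adev R (wV f w₀ v g) (cv (av f1 v g)) (hOf α f f1 R (q g)) ≤
        K * (A * adev R (wV f w₀ v g) (qKV f1 v g) (Gm f f1 R (q g)) + 2 * (D ^ 2 * |(M:ℝ) / N - α|)) :=
      mul_le_mul_of_nonneg_left (adev_av_le (α := α) (v := v) hS hR hw' g (hP g) hMA) hK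
    have e : 2 * (L ^ 2 * (ε / (10 * L ^ 2))) = ε / 5 := by field_simp; ring
    rw [e] at h2
    simp only [P, AQ, AR, AU, t] at h1 h2 h3 ⊢
    linarith
  -- averages
  have hf := hS.cont0
  have iP : Integrable P (pats N M) := integrable_phiEL hS hα.le hs hk hL hR hw hv
  obtain ⟨iQ, eQ⟩ := hq hR hM2 hw hv ht1
  have iR : Integrable AR (pats N M) := integrable_rad hS hw hv
    (continuous_hqTop hS hR hP fun l => continuous_qV hf hw v l) hhq
  obtain ⟨iU, eU⟩ := integral_u4_le (M := M) hS hB hR hw hv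
  have eR := hr hR hM2 hρ1 hw hv
  have i1 : Integrable (fun g => K * (A * AQ g + 2 * (D ^ 2 * |(M:ℝ) / N - α|))) (pats N M) :=
    ((iQ.const_mul A).add (integrable_const _)).const_mul K
  have i2 : Integrable (fun g => C1 * (t + AR g + t ^ 3 * AU g)) (pats N M) :=
    (((integrable_const t).add iR).add (iU.const_mul _)).const_mul C1
  have hI := integral_mono (((iP.sub (integrable_const (ε / 5))).sub i1).sub i2)
    (integrable_site hS hB (by linarith) hR hw) hpt
  rw [integral_sub' ((iP.sub (integrable_const (ε / 5))).sub i1) i2, integral_sub' (iP.sub (integrable_const (ε / 5))) i1,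
    integral_sub' iP (integrable_const (ε / 5)), integral_const, probReal_univ, one_smul,
    integral_const_mul, integral_const_mul, integral_add (iQ.const_mul A) (integrable_const _),
    integral_add (f := fun g => t + AR g) (g := fun g => t ^ 3 * AU g) ((integrable_const t).add iR) (iU.const_mul _),
    integral_add (f := fun _ => t) (integrable_const t) iR,
    integral_const_mul, integral_const_mul, integral_const, integral_const, probReal_univ, one_smul, one_smul] at hI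
  refine le_trans ?_ hI
  set AD := ∫ g, adV f R w₀ v g ∂pats N M
  have ht0 : 1 / (N:ℝ) ≤ t := by
    refine one_div_le_one_div_of_le (sqrt_pos.2 hN0) ?_
    exact sqrt_le_iff.2 ⟨hN0.le, by nlinarith [show (1:ℝ) ≤ N from Nat.one_le_cast.2 (NeZero.pos N)]⟩
  have b1 : |(M:ℝ) / N - α| ≤ A * t := hρ.trans (by
    rw [div_eq_mul_one_div]; exact mul_le_mul_of_nonneg_left ht0 hA)
  have b2 : 1 / (M:ℝ) ≤ 2 / α * t := by
    refine le_trans ?_ (mul_le_mul_of_nonneg_left ht0 (show 0 ≤ 2 / α by positivity))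
    rw [div_mul_div_comm, mul_one, div_le_div_iff₀ (by positivity) (by positivity)]
    linarith
  have b3 : t ^ 3 * ∫ g, AU g ∂pats N M ≤ A * c4' * t := by
    refine (mul_le_mul_of_nonneg_left eU (by positivity)).trans ?_
    have hh : (M:ℝ) * t ^ 2 ≤ A := by rwa [div_pow, one_pow, sq_sqrt hN0.le, mul_one_div]
    calc t ^ 3 * (↑M * (exp (2 * B) * m4 + 2)) = (M:ℝ) * t ^ 2 * c4' * t := by ring
      _ ≤ _ := by gcongr
  have hQt : Q * t ≤ ε / 4 := by
    have hQ0 : 0 ≤ Q := by positivity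
    have h := sqrt_le_sqrt g5
    rw [sqrt_sq (by positivity), div_le_iff₀ hε] at h
    rw [mul_one_div, div_le_iff₀ (sqrt_pos.2 hN0)]
    linarith
  have p1 := mul_le_mul_of_nonneg_left eQ (mul_nonneg hK hA)
  have p1' := mul_le_mul_of_nonneg_left b2 (show 0 ≤ K * A * (C2 / t1) by positivity)
  have p2 := mul_le_mul_of_nonneg_left b1 (show 0 ≤ K * (2 * D ^ 2) by positivity)
  have p3 := mul_le_mul_of_nonneg_left eR hC1
  have p3' := mul_le_mul_of_nonneg_left (add_le_add b1 b2) (mul_nonneg hC1 hC3)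
  have p4 := mul_le_mul_of_nonneg_left b3 hC1
  have k1 : K * A * (2 * t1) ≤ ε / 5 := by
    have : t1 * (10 * (K * A + 1)) = ε := div_mul_cancel₀ _ (by positivity)
    linarith
  have k2 : C1 * t2 ≤ ε / 5 := by
    have : t2 * (5 * (C1 + 1)) = ε := div_mul_cancel₀ _ (by positivity)
    linarith
  simp only [Q, c4'] at hQt p4
  simp only [AR, AU, hq', q, integral_const_mul] at p1 p3 p4 ⊢
  linarith

end Dim

variable {f f1 f2 f3 : ℝ → ℝ} {B D : ℝ}

/-- **one dimension more** -/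
theorem dimV (hS : Sm f f1 f2 f3 B D) (hB : ∀ x, f x ≤ B) (hQ : QConcV f f1) (hR : RadV f f1 f2)
    (hs : SiteSm) (hK : KerProf) : DimV f f1 := by
  intro α hα L hL ε hε
  obtain ⟨C, hC, N₁, hsite⟩ := Dim.site_mean hS hB hQ hR hs hK hα hL (half_pos hε)
  refine ⟨C, hC, ?_⟩
  intro ι _ _ β R S K _ c h u hR1 hc hc1 hh hu
  obtain ⟨N₂, hstep⟩ := Dim.step_dim hS hB hL (δ := ε / 8) (by positivity)
  have hD := hS.nonneg
  have hf := hS.cont0
  have hb : ∀ x, |f x| ≤ B := fun x => abs_le.2 ⟨hS.lb x, hB x⟩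
  refine ⟨max (max N₁ N₂) ⌈(32 * K * L ^ 2 / ε) ^ 2⌉₊, fun N _ hN M hM => ?_⟩
  set I := ∫ g, ∑ a, l1 (g a) ∂pats N M
  have hI : 0 ≤ I := integral_nonneg fun g => sum_nonneg fun a _ => Vale.Agent.P150.l1_nonneg _
  set E := 2 * D * I + 4 * K * c * N + 1
  have hE : 0 < E := by positivity
  refine ⟨min 1 (ε / (8 * E)), lt_min one_pos (by positivity), fun A _ _ wt a hMesh => ?_⟩
  intro w₀ q
  set η := min 1 (ε / (8 * E))
  have hη : 0 ≤ η := le_min zero_le_one (by positivity)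
  have hηE : η * E ≤ ε / 8 := by
    refine (mul_le_mul_of_nonneg_right (min_le_right _ _) hE.le).trans_eq ?_
    field_simp
  have hbits : 4 * K * c * L ^ 2 / √(N : ℝ) ≤ ε / 8 := by
    have h := sqrt_le_sqrt ((Nat.le_ceil ((32 * K * L ^ 2 / ε) ^ 2)).trans
      (Nat.cast_le.2 ((le_max_right _ _).trans hN)))
    rw [sqrt_sq (by positivity), div_le_iff₀ hε] at h
    rw [div_le_iff₀ (sqrt_pos.2 (Nat.cast_pos.2 (NeZero.pos N)))]
    nlinarith [mul_le_mul_of_nonneg_left hc1 (show (0:ℝ) ≤ 4 * K * L ^ 2 by positivity)]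
  have il : Integrable (fun g : Fin M → Fin N → ℝ => ∑ a, l1 (g a)) (pats N M) := by
    refine integrable_finsetSum _ fun a _ => ?_
    have h0 : Integrable (fun y : Fin N → ℝ => l1 y) (gauss (Fin N)) := integrable_finsetSum _ fun i _ =>
      (measurePreserving_eval (fun _ : Fin N => gaussianReal 0 1) i).integrable_comp_of_integrable
        (g := fun z : ℝ => |z|) (by simpa using Par.integrable_pow_gaussian 1)
    exact (measurePreserving_eval (fun _ : Fin M => gauss (Fin N)) a).integrable_comp_of_integrable h0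
  -- one choice of directions
  have key : ∀ (r : Fin K → Fin N → Bool) (σ : Fin K → Bool),
      (∫ g, Par.Phi (fun y => exp (eL (1 + hqTop R (hOf α f f1 R (q r g)) (q r g)) L y)) R (lin R)
          (hOf α f f1 R (q r g)) ∂pats N M) - ε - C * ∫ g, adV f R (w₀ r) (vecA R a) g ∂pats N M +
        ∫ g, logZ0 R (lin R) (sys0 (S := S) (β := β) (Λ := Unit) R (hamS f g) c r h u) ∂pats N M ≤
      ∫ g, logZ0 R (lin R) (sys0 (S := S) (β := β) (Λ := Unit) R (hamS f g) c
        (fun k => Fin.snoc (r k) (σ k)) h u) ∂pats (N + 1) M := by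
    intro r σ
    have hw : ∀ p, 0 < w₀ r p := fun p => sysA_pos (fun _ _ => one_pos) c r hMesh.pos a h u p
    have h1 := hsite hR1 ((le_max_left _ _).trans ((le_max_left _ _).trans hN)) hM hw
      (v := vecA R a) (fun p => hMesh.unit _)
    have i0 := integrable_logZ0_sys0 (N := N) (M := M) (S := S) (β := β) hR1 hf hb hh hu c r
    have iN := integrable_logZ0_sys0 (N := N + 1) (M := M) (S := S) (β := β) hR1 hf hb hh hu c
      (fun k => Fin.snoc (r k) (σ k))
    have iP : Integrable (fun p : (Fin M → Fin N → ℝ) × (Fin M → ℝ) =>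
        logZ0 R (lin R) (sys0 (S := S) (β := β) (Λ := Unit) R (hamS f (Par.addC p.1 p.2)) c
          (fun k => Fin.snoc (r k) (σ k)) h u)) ((pats N M).prod (gauss (Fin M))) :=
      Par.measurePreserving_addC.integrable_comp_of_integrable iN
    rw [← Par.measurePreserving_addC.map_eq, integral_map Par.measurePreserving_addC.measurable.aemeasurable
      (by rw [Par.measurePreserving_addC.map_eq]; exact iN.aestronglyMeasurable), integral_prod _ iP]
    set d := ε / 8 + 4 * K * c * L ^ 2 / √(N : ℝ)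
    have il' : Integrable (fun g : Fin M → Fin N → ℝ => η * (2 * D * ∑ a, l1 (g a) + 4 * K * c * N)) (pats N M) :=
      ((il.const_mul _).add (integrable_const _)).const_mul _
    have is := Dim.integrable_site (M := M) (v := vecA R a) hS hB (show 0 < L by linarith) hR1 hw
    have hd : Integrable (fun g : Fin M → Fin N → ℝ => d + η * (2 * D * ∑ a, l1 (g a) + 4 * K * c * N)) (pats N M) :=
      (integrable_const d).add il'
    have hsd : Integrable (fun g : Fin M → Fin N → ℝ =>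
        (∫ z, log (nest (lin R) (wV f (w₀ r) (vecA R a) g) (Dim.siteY f L (vecA R a) g z) R []) ∂gauss (Fin M)) -
          (d + η * (2 * D * ∑ a, l1 (g a) + 4 * K * c * N))) (pats N M) := is.sub hd
    have h2 : ∫ g, ((∫ z, log (nest (lin R) (wV f (w₀ r) (vecA R a) g) (Dim.siteY f L (vecA R a) g z) R [])
          ∂gauss (Fin M)) - (d + η * (2 * D * ∑ a, l1 (g a) + 4 * K * c * N)) +
          logZ0 R (lin R) (sys0 (S := S) (β := β) (Λ := Unit) R (hamS f g) c r h u)) ∂pats N M ≤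
        ∫ g, ∫ z, logZ0 R (lin R) (sys0 (S := S) (β := β) (Λ := Unit) R (hamS f (Par.addC g z)) c
          (fun k => Fin.snoc (r k) (σ k)) h u) ∂gauss (Fin M) ∂pats N M := by
      refine integral_mono_ae ((is.sub hd).add i0) iP.integral_prod_left ?_
      filter_upwards [iP.prod_right_ae] with g hg
      have hb' := Dim.siteY_bounds (L := L) hf hb (by linarith) (vecA (A := A) (Λ := Unit) (K := K) (S := S) (β := β) R a) g
      have hwg : ∀ p, 0 < wV f (w₀ r) (vecA R a) g p := fun p => mul_pos (hw p) (exp_pos _)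
      have hY : ∀ z p, 0 < Dim.siteY f L (vecA (A := A) (Λ := Unit) (K := K) (S := S) (β := β) R a) g z p := fun z p =>
        (exp_pos _).trans_le (hb' z p).1
      have iz : Integrable (fun z => log (nest (lin R) (wV f (w₀ r) (vecA R a) g)
          (Dim.siteY f L (vecA R a) g z) R [])) (gauss (Fin M)) := by
        refine Integrable.of_bound (Continuous.aestronglyMeasurable ?_) (2 * M * B + |log (Dim.win L)|)
          (Eventually.of_forall fun z => Par.abs_log_nest_le (ok_lin hR1 hwg) (hb' z))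
        exact (Par.continuous_nest (w := fun _ => wV f (w₀ r) (vecA R a) g) (fun _ => continuous_const) (fun _ => hwg)
          (fun p => ((Dim.continuous_siteH₂ hf (vecA R a p)).comp (Continuous.prodMk_right g)).div_const _) hY R []).log
          fun z => (Vale.Agent.P168.MP.nest_pos hwg (hY z) R []).ne'
      refine le_trans (le_of_eq ?_) (integral_mono ((iz.sub (integrable_const
        (d + η * (2 * D * ∑ a, l1 (g a) + 4 * K * c * N)))).add (integrable_const
          (logZ0 R (lin R) (sys0 (S := S) (β := β) (Λ := Unit) R (hamS f g) c r h u)))) hg fun z => ?_)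
      · rw [integral_add' (iz.sub (integrable_const _)) (integrable_const _), integral_sub' iz (integrable_const _),
          integral_const, integral_const, probReal_univ, one_smul, one_smul]
      · have := hstep N ((le_max_right _ _).trans ((le_max_left _ _).trans hN)) β R S K M hR1 c hc h u g z r σ hη
          (min_le_left _ _) A wt a hMesh
        simp only [Pi.add_apply, Pi.sub_apply, d]
        linarith
    rw [integral_add hsd i0, integral_sub is hd, integral_add (integrable_const _) il', integral_const_mul,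
      integral_add (il.const_mul _) (integrable_const _), integral_const_mul, integral_const, integral_const,
      probReal_univ, one_smul, one_smul] at h2
    have : η * (2 * D * I + 4 * K * c * N) ≤ η * E := mul_le_mul_of_nonneg_left (by simp only [E]; linarith) hη
    simp only [d] at h2
    linarith
  rw [pertS, pertS, Dim.avg_splitDir]
  have h1 := Vale.Agent.P168.MP.avg_le_avg fun r : Fin K → Fin N → Bool =>
    (Vale.Agent.P168.MP.avg_const (Ω := Fin K → Bool) _).symm.trans_le (Vale.Agent.P168.MP.avg_le_avg (key r))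
  simp only [avg, sum_add_distrib, sum_sub_distrib, ← mul_sum, add_div, sub_div, mul_div_assoc, sum_const, card_univ,
    nsmul_eq_mul] at h1 ⊢
  have hc0 : (Fintype.card (Fin K → Fin N → Bool) : ℝ) ≠ 0 := Nat.cast_ne_zero.2 Fintype.card_ne_zero
  rw [mul_div_cancel₀ _ hc0] at h1
  linarith

end Vale.Agent.P157.Sph
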