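import Vale.Agent.P157.Sph.Defs
import Vale.Agent.P157.Par.Taylor

/-! One dimension more: the uniform law on the sphere dominates the law of a lifted point with a
truncated Gaussian last coordinate. -/

open MeasureTheory ProbabilityTheory Real Filter
open Vale.Agent.P150 (gauss dot)
open Vale.Agent.P157.Lim (dirLaw radLaw nd measurable_nd measurable_rad K₂ K₂_nonneg)

namespace Vale.Agent.P157.Sph

variable {N : ℕ}

/-- the point with last coordinate `x / √N` over the direction `u` -/
noncomputable def lift1 (N : ℕ) (x : ℝ) (u : Fin N → ℝ) : Fin (N + 1) → ℝ :=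
  Fin.snoc (fun i => √(1 - x ^ 2 / N) * u i) (x / √(N : ℝ))

lemma abs_nd_le {n : ℕ} (z : Fin n → ℝ) (i : Fin n) : |nd z i| ≤ 1 := by
  simp only [nd, Pi.smul_apply, smul_eq_mul, abs_mul, abs_inv, abs_of_nonneg (sqrt_nonneg _)]
  rw [← div_eq_inv_mul]
  refine div_le_one_of_le₀ (abs_le_sqrt ?_) (sqrt_nonneg _)
  rw [sq]
  exact Finset.single_le_sum (f := fun j => z j * z j) (fun j _ => mul_self_nonneg _) (Finset.mem_univ i)

lemma norm_nd_le {n : ℕ} (z : Fin n → ℝ) : ‖nd z‖ ≤ 1 :=
  (pi_norm_le_iff_of_nonneg zero_le_one).2 fun i => abs_nd_le z i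

instance : IsProbabilityMeasure (dirLaw (Fin N)) :=
  Measure.isProbabilityMeasure_map measurable_nd.aemeasurable

lemma ae_norm_dir : ∀ᵐ x ∂dirLaw (Fin N), ‖x‖ ≤ 1 :=
  (ae_map_iff measurable_nd.aemeasurable (measurableSet_le measurable_norm measurable_const)).2
    (Eventually.of_forall norm_nd_le)

/-- continuous functions are integrable over directions -/
lemma integrable_dir {F : (Fin N → ℝ) → ℝ} (hF : Continuous F) : Integrable F (dirLaw (Fin N)) := by
  obtain ⟨C, hC⟩ := (isCompact_closedBall (0 : Fin N → ℝ) 1).exists_bound_of_continuousOn hF.continuousOn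
  exact Integrable.of_bound hF.aestronglyMeasurable C (ae_norm_dir.mono fun x hx => hC x (by simpa using hx))

/-- the squared length concentrates -/
lemma rad_band (hN : 0 < N) {η : ℝ} (hη : 0 < η) :
    1 - K₂ / (η ^ 2 * N) ≤ (radLaw (Fin N)).real {ρ : ℝ | 0 < ρ ∧ |ρ ^ 2 - N| ≤ η * N} := by
  have hN' : (0:ℝ) < N := Nat.cast_pos.2 hN
  set S : Set ℝ := {ρ : ℝ | 0 < ρ ∧ |ρ ^ 2 - N| ≤ η * N}
  have hSm : MeasurableSet S := (measurableSet_lt measurable_const measurable_id).inter
    (measurableSet_le (f := fun ρ : ℝ => |ρ ^ 2 - N|) (Continuous.measurable (by fun_prop)) measurable_const)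
  have : IsProbabilityMeasure (radLaw (Fin N)) :=
    Measure.isProbabilityMeasure_map measurable_rad.aemeasurable
  have : Nonempty (Fin N) := ⟨⟨0, hN⟩⟩
  have hm : (radLaw (Fin N)).real S = ∫ z, S.indicator (fun _ => (1:ℝ)) √(dot z z) ∂gauss (Fin N) := by
    have e := integral_map (μ := gauss (Fin N)) measurable_rad.aemeasurable
      (f := S.indicator fun _ => (1:ℝ)) (measurable_const.indicator hSm).aestronglyMeasurable
    rw [← e]
    exact (integral_indicator_one hSm).symm
  obtain ⟨hi, hb⟩ := Lim.integral_lin_sq (fun _ : Fin N => (1:ℝ)) fun _ => by simp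
  rw [Fintype.card_fin] at hb
  have hpos : ∀ᵐ z : Fin N → ℝ ∂gauss (Fin N), 0 < dot z z := by
    have := nullSingletonClass_gaussianReal (μ := 0) one_ne_zero
    have h0 : ∀ᵐ s ∂gaussianReal 0 1, s ≠ 0 := ae_iff.2 (by simp)
    filter_upwards [(measurePreserving_eval (fun _ : Fin N => gaussianReal 0 1) ⟨0, hN⟩).quasiMeasurePreserving.ae h0]
      with z hz
    exact (mul_self_pos.2 hz).trans_le
      (Finset.single_le_sum (f := fun i => z i * z i) (fun i _ => mul_self_nonneg _) (Finset.mem_univ _))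
  have hpt : ∀ᵐ z : Fin N → ℝ ∂gauss (Fin N),
      1 - (∑ k, (1:ℝ) * (z k ^ 2 - 1)) ^ 2 / (η * N) ^ 2 ≤ S.indicator (fun _ => (1:ℝ)) √(dot z z) := by
    filter_upwards [hpos] with z hz
    have e : (∑ k, (1:ℝ) * (z k ^ 2 - 1)) = dot z z - N := by
      simp [Finset.sum_sub_distrib, dot, sq]
    rw [e]
    by_cases hzS : √(dot z z) ∈ S
    · rw [Set.indicator_of_mem hzS]
      have : (0:ℝ) ≤ (dot z z - N) ^ 2 / (η * N) ^ 2 := by positivity
      linarith
    · rw [Set.indicator_of_notMem hzS]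
      simp only [S, Set.mem_ofPred_eq, sqrt_pos.2 hz, true_and, not_le, sq_sqrt hz.le] at hzS
      rw [sub_nonpos, one_le_div (by positivity), ← sq_abs (dot z z - N)]
      exact pow_le_pow_left₀ (by positivity) hzS.le 2
  rw [hm]
  refine le_trans ?_ (integral_mono_ae ((integrable_const 1).sub (hi.div_const _))
    (Integrable.of_bound ((measurable_const.indicator hSm).comp measurable_rad).aestronglyMeasurable 1
      (Eventually.of_forall fun z => by
        by_cases h : √(dot z z) ∈ S <;> simp [h])) hpt)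
  simp only [Pi.sub_apply]
  rw [integral_sub (integrable_const _) (hi.div_const _), integral_div, integral_const, probReal_univ, one_smul]
  have : K₂ / (η ^ 2 * N) = K₂ * N / (η * N) ^ 2 := by field_simp
  rw [this]
  linarith [div_le_div_of_nonneg_right hb (sq_nonneg (η * N))]

/-- the last coordinate at a fixed radius -/
lemma last_lower {L η : ℝ} (hL : 1 ≤ L) (hη1 : η ≤ 1 / 2) (hN : L ^ 2 ≤ η * N) {ρ : ℝ}
    (hρ : 0 < ρ) (hρN : |ρ ^ 2 - N| ≤ η * N) (u : Fin N → ℝ) {F : (Fin (N + 1) → ℝ) → ℝ}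
    (hF : Continuous F) (hF0 : ∀ z, 0 ≤ F z) :
    (1 - η) * exp (-(2 * η * L ^ 2)) * ∫ x in Set.Icc (-L) L, F (lift1 N x u) ∂gaussianReal 0 1 ≤
      ∫ s, F (Fin.snoc (fun i => ρ / √(ρ ^ 2 + s ^ 2) * u i) (s / √(ρ ^ 2 + s ^ 2))) ∂gaussianReal 0 1 := by
  have hη : 0 ≤ η := by
    by_contra h
    nlinarith [Nat.cast_nonneg (α := ℝ) N, abs_nonneg (ρ ^ 2 - N)]
  have hN0 : (0:ℝ) < N := by nlinarith
  have hroot : 0 < √(N:ℝ) := sqrt_pos.2 hN0
  have hx : ∀ x ∈ Set.Icc (-L) L, 0 < (N:ℝ) - x ^ 2 ∧ x ^ 2 ≤ L ^ 2 := fun x hx => by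
    have h2 : x ^ 2 ≤ L ^ 2 := sq_le_sq' hx.1 hx.2
    refine ⟨?_, h2⟩
    nlinarith
  set D := fun s : ℝ => √(ρ ^ 2 + s ^ 2)
  have hD : ∀ s, 0 < D s := fun s => sqrt_pos.2 (by positivity)
  set G := fun s : ℝ => F (Fin.snoc (fun i => ρ / D s * u i) (s / D s))
  have hGc : Continuous G := by
    refine hF.comp (Continuous.finSnoc ?_ ?_)
    · exact continuous_pi fun i => (continuous_const.div (by fun_prop) fun s => (hD s).ne').mul continuous_const
    · exact continuous_id.div (by fun_prop) fun s => (hD s).ne'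
  set p := fun s : ℝ => gaussianPDFReal 0 1 s
  have hpc : Continuous p := by simp only [p, gaussianPDFReal_def]; fun_prop
  set k := fun x : ℝ => ρ * x / √(N - x ^ 2)
  set k' := fun x : ℝ => ρ * N / ((N - x ^ 2) * √(N - x ^ 2))
  have hk : ∀ x ∈ Set.Icc (-L) L, HasDerivAt k (k' x) x := fun x hxI => by
    obtain ⟨hp, -⟩ := hx x hxI
    have hs := sqrt_pos.2 hp
    have h1 : HasDerivAt (fun x : ℝ => (N:ℝ) - x ^ 2) (-(2 * x)) x := by
      simpa using (hasDerivAt_pow 2 x).const_sub (N:ℝ)
    refine (((hasDerivAt_id x).const_mul ρ).div (h1.sqrt hp.ne') hs.ne').congr_deriv ?_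
    simp only [k', id, mul_one]
    have e := mul_self_sqrt hp.le
    field_simp
    rw [sq] at *
    nlinarith [e]
  have hk' : ContinuousOn k' (Set.Icc (-L) L) := by
    refine continuousOn_const.div (by fun_prop) fun x hxI => ?_
    obtain ⟨hp, -⟩ := hx x hxI
    exact (mul_pos hp (sqrt_pos.2 hp)).ne'
  have hkG : ∀ x ∈ Set.Icc (-L) L, G (k x) = F (lift1 N x u) := fun x hxI => by
    obtain ⟨hp, -⟩ := hx x hxI
    have hs := sqrt_pos.2 hp
    have e : D (k x) = ρ * √(N:ℝ) / √(N - x ^ 2) := by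
      have : ρ ^ 2 + k x ^ 2 = (ρ * √(N:ℝ) / √(N - x ^ 2)) ^ 2 := by
        simp only [k, div_pow, mul_pow, sq_sqrt hN0.le, sq_sqrt hp.le]
        field_simp
        ring
      simp only [D]
      rw [this, sqrt_sq (by positivity)]
    have e2 : √(1 - x ^ 2 / N) = √(N - x ^ 2) / √(N:ℝ) := by
      rw [one_sub_div hN0.ne', sqrt_div hp.le]
    simp only [G, e, lift1, e2]
    congr 2
    · funext i; field_simp
    · simp only [k]; field_simp
  have hle : -L ≤ L := by linarith
  have hklr : k (-L) ≤ k L := by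
    have : 0 ≤ ρ * L / √(N - L ^ 2) := by positivity
    simp only [k, neg_sq, mul_neg, neg_div]
    linarith
  -- the bounded integrand on the whole line
  obtain ⟨C, hC⟩ := (isCompact_closedBall (0 : Fin (N + 1) → ℝ) (1 + ‖u‖)).exists_bound_of_continuousOn
    hF.continuousOn
  have hGb : ∀ s, ‖G s‖ ≤ C := fun s => by
    refine hC _ (mem_closedBall_zero_iff.2 ((pi_norm_le_iff_of_nonneg (by positivity)).2 fun i => ?_))
    refine Fin.lastCases ?_ (fun j => ?_) i
    · rw [Fin.snoc_last, Real.norm_eq_abs, abs_div, abs_of_pos (hD s)]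
      refine le_trans (div_le_one_of_le₀ (abs_le_sqrt (by nlinarith)) (hD s).le) (by simp)
    · rw [Fin.snoc_castSucc, norm_mul]
      refine le_trans (mul_le_of_le_one_left (norm_nonneg _) ?_) ((norm_le_pi_norm u j).trans (by simp))
      rw [Real.norm_eq_abs, abs_div, abs_of_pos (hD s), abs_of_pos hρ]
      exact div_le_one_of_le₀ (le_sqrt_of_sq_le (by nlinarith)) (hD s).le
  have hGi : Integrable G (gaussianReal 0 1) :=
    Integrable.of_bound hGc.aestronglyMeasurable C (Eventually.of_forall hGb)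
  calc (1 - η) * exp (-(2 * η * L ^ 2)) * ∫ x in Set.Icc (-L) L, F (lift1 N x u) ∂gaussianReal 0 1
      = ∫ x in Set.Icc (-L) L, (1 - η) * exp (-(2 * η * L ^ 2)) * (p x * F (lift1 N x u)) := by
        rw [← integral_indicator measurableSet_Icc, integral_gaussianReal_eq_integral_smul one_ne_zero,
          ← integral_indicator measurableSet_Icc, ← integral_const_mul]
        refine integral_congr_ae (Eventually.of_forall fun x => ?_)
        by_cases hx' : x ∈ Set.Icc (-L) L <;> simp [hx', p]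
    _ ≤ ∫ x in Set.Icc (-L) L, G (k x) * p (k x) * k' x := by
        refine setIntegral_mono_on ?_ ?_ measurableSet_Icc fun x hxI => ?_
        · refine Continuous.integrableOn_Icc (continuous_const.mul (hpc.mul (hF.comp ?_)))
          exact Continuous.finSnoc (by fun_prop) (by fun_prop)
        · exact (((hGc.comp_continuousOn' fun x hxI => (hk x hxI).continuousAt.continuousWithinAt).mul
            (hpc.comp_continuousOn' fun x hxI => (hk x hxI).continuousAt.continuousWithinAt)).mul hk').integrableOn_Icc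
        obtain ⟨hp, hxL⟩ := hx x hxI
        obtain ⟨r1, r2⟩ := abs_le.1 hρN
        rw [hkG x hxI]
        have hw : (1 - η) * exp (-(2 * η * L ^ 2)) * p x ≤ p (k x) * k' x := by
          have a1 : (1 - η) ≤ k' x := by
            have h2 : √(N - x ^ 2) ≤ √(N:ℝ) := sqrt_le_sqrt (by nlinarith)
            have h3 : ((N:ℝ) - x ^ 2) * √(N - x ^ 2) ≤ N * √(N:ℝ) :=
              mul_le_mul (by nlinarith) h2 (sqrt_nonneg _) hN0.le
            have h4 : (1 - η) * √(N:ℝ) ≤ ρ := by
              rw [← pow_le_pow_iff_left₀ (by nlinarith [sqrt_nonneg (N:ℝ)]) hρ.le two_ne_zero, mul_pow,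
                sq_sqrt hN0.le]
              nlinarith [mul_nonneg (mul_nonneg hη (sub_nonneg.2 (hη1.trans (by norm_num : (1/2:ℝ) ≤ 1)))) hN0.le]
            rw [le_div_iff₀ (mul_pos hp (sqrt_pos.2 hp))]
            calc (1 - η) * ((N - x ^ 2) * √(N - x ^ 2)) ≤ (1 - η) * (N * √(N:ℝ)) :=
                  mul_le_mul_of_nonneg_left h3 (by linarith)
              _ = ((1 - η) * √(N:ℝ)) * N := by ring
              _ ≤ ρ * N := mul_le_mul_of_nonneg_right h4 hN0.le
          have a2 : exp (-(2 * η * L ^ 2)) * p x ≤ p (k x) := by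
            have hd : k x ^ 2 - x ^ 2 ≤ 4 * η * L ^ 2 := by
              have e : k x ^ 2 - x ^ 2 = x ^ 2 * ((ρ ^ 2 - (N - x ^ 2)) / (N - x ^ 2)) := by
                simp only [k, div_pow, mul_pow, sq_sqrt hp.le]; field_simp
              have h5 : (ρ ^ 2 - (N - x ^ 2)) / (N - x ^ 2) ≤ 4 * η := by
                rw [div_le_iff₀ hp]
                nlinarith [mul_le_mul_of_nonneg_left hη1 hη]
              rw [e]
              nlinarith [mul_le_mul_of_nonneg_left h5 (sq_nonneg x),
                mul_le_mul_of_nonneg_left hxL (show (0:ℝ) ≤ 4 * η by linarith)]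
            simp only [p, gaussianPDFReal, NNReal.coe_one, mul_one, sub_zero]
            rw [mul_left_comm, ← exp_add]
            gcongr
            linarith
          calc (1 - η) * exp (-(2 * η * L ^ 2)) * p x = (1 - η) * (exp (-(2 * η * L ^ 2)) * p x) := by ring
            _ ≤ k' x * p (k x) := mul_le_mul a1 a2 (mul_nonneg (exp_pos _).le (gaussianPDFReal_nonneg _ _ _))
                ((by linarith : (0:ℝ) ≤ 1 - η).trans a1)
            _ = _ := mul_comm _ _
        calc (1 - η) * exp (-(2 * η * L ^ 2)) * (p x * F (lift1 N x u))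
            = (1 - η) * exp (-(2 * η * L ^ 2)) * p x * F (lift1 N x u) := by ring
          _ ≤ p (k x) * k' x * F (lift1 N x u) := mul_le_mul_of_nonneg_right hw (hF0 _)
          _ = _ := by ring
    _ = ∫ s in k (-L)..k L, G s * p s := by
        rw [← intervalIntegral.integral_comp_mul_deriv (g := fun s => G s * p s)
          (fun x hxI => hk x (by rwa [Set.uIcc_of_le hle] at hxI))
          (by rwa [Set.uIcc_of_le hle]) (hGc.mul hpc),
          intervalIntegral.integral_of_le hle, ← integral_Icc_eq_integral_Ioc]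
        rfl
    _ ≤ ∫ s, G s * p s := by
        rw [intervalIntegral.integral_of_le hklr]
        refine setIntegral_le_integral ?_ (Eventually.of_forall fun s =>
          mul_nonneg (hF0 _) (gaussianPDFReal_nonneg _ _ _))
        exact (integrable_gaussianPDFReal 0 1).bdd_mul hGc.aestronglyMeasurable (Eventually.of_forall hGb)
    _ = ∫ s, G s ∂gaussianReal 0 1 := by
        rw [integral_gaussianReal_eq_integral_smul one_ne_zero]
        exact integral_congr_ae (Eventually.of_forall fun s => by simp [p, mul_comm])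

/-- **the sphere of one dimension more dominates the lifted law** -/
theorem dir_lower {L : ℝ} (hL : 1 ≤ L) {δ : ℝ} (hδ : 0 < δ) :
    ∃ N₀ : ℕ, ∀ N : ℕ, N₀ ≤ N → ∀ F : (Fin (N + 1) → ℝ) → ℝ, Continuous F → (∀ z, 0 ≤ F z) →
      exp (-δ) * ∫ u, (∫ x in Set.Icc (-L) L, F (lift1 N x u) ∂gaussianReal 0 1) ∂dirLaw (Fin N) ≤
        ∫ z, F z ∂dirLaw (Fin (N + 1)) := by
  set η := min (1 / 2) (δ / (8 * L ^ 2)) with hηdef
  have hη : 0 < η := lt_min (by norm_num) (by positivity)
  have hη1 : η ≤ 1 / 2 := min_le_left _ _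
  have hη2 : η * (8 * L ^ 2) ≤ δ := by
    have := min_le_right (1 / 2) (δ / (8 * L ^ 2))
    rwa [← hηdef, le_div_iff₀ (by positivity)] at this
  refine ⟨⌈L ^ 2 / η + K₂ / η ^ 3⌉₊ + 1, fun N hN F hF hF0 => ?_⟩
  have hN' : L ^ 2 / η + K₂ / η ^ 3 ≤ N :=
    (Nat.le_ceil _).trans (by exact_mod_cast (show ⌈L ^ 2 / η + K₂ / η ^ 3⌉₊ ≤ N by omega))
  have hN0 : (0:ℝ) < N := by exact_mod_cast (show 0 < N by omega)
  have hk2 := K₂_nonneg
  have hNL : L ^ 2 ≤ η * N := by
    rw [mul_comm, ← div_le_iff₀ hη]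
    linarith [show 0 ≤ K₂ / η ^ 3 by positivity]
  set S : Set ℝ := {ρ : ℝ | 0 < ρ ∧ |ρ ^ 2 - N| ≤ η * N}
  have hSm : MeasurableSet S := (measurableSet_lt measurable_const measurable_id).inter
    (measurableSet_le (f := fun ρ : ℝ => |ρ ^ 2 - N|) (Continuous.measurable (by fun_prop)) measurable_const)
  have hband : 1 - η ≤ (radLaw (Fin N)).real S := by
    refine le_trans ?_ (rad_band (by omega) hη)
    have : K₂ / (η ^ 2 * N) ≤ η := by
      rw [div_le_iff₀ (by positivity)]
      have h1 : K₂ / η ^ 3 ≤ N := by linarith [show 0 ≤ L ^ 2 / η by positivity]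
      rw [div_le_iff₀ (by positivity)] at h1
      nlinarith
    linarith
  have : IsProbabilityMeasure (radLaw (Fin N)) :=
    Measure.isProbabilityMeasure_map measurable_rad.aemeasurable
  set G : ((Fin N → ℝ) × ℝ) × ℝ → ℝ := fun q =>
    F (Fin.snoc (fun i => q.1.2 / √(q.1.2 ^ 2 + q.2 ^ 2) * q.1.1 i) (q.2 / √(q.1.2 ^ 2 + q.2 ^ 2)))
  have hGm : Measurable G := by
    refine hF.measurable.comp (measurable_pi_lambda _ fun i => ?_)
    refine Fin.lastCases ?_ (fun j => ?_) i
    · simp only [Fin.snoc_last]; fun_prop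
    · simp only [Fin.snoc_castSucc]; fun_prop
  obtain ⟨C, hC⟩ := (isCompact_closedBall (0 : Fin (N + 1) → ℝ) 1).exists_bound_of_continuousOn hF.continuousOn
  have hGb : ∀ᵐ q ∂((dirLaw (Fin N)).prod (radLaw (Fin N))).prod (gaussianReal 0 1), ‖G q‖ ≤ C := by
    have h1 : ∀ᵐ q ∂((dirLaw (Fin N)).prod (radLaw (Fin N))).prod (gaussianReal 0 1), ‖q.1.1‖ ≤ 1 :=
      (Measure.quasiMeasurePreserving_fst.comp Measure.quasiMeasurePreserving_fst).ae ae_norm_dir
    filter_upwards [h1] with q hq
    refine hC _ (mem_closedBall_zero_iff.2 ((pi_norm_le_iff_of_nonneg zero_le_one).2 fun i => ?_))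
    refine Fin.lastCases ?_ (fun j => ?_) i
    · rw [Fin.snoc_last, Real.norm_eq_abs, abs_div, abs_of_nonneg (sqrt_nonneg _)]
      exact div_le_one_of_le₀ (abs_le_sqrt (by nlinarith)) (sqrt_nonneg _)
    · rw [Fin.snoc_castSucc, norm_mul]
      refine mul_le_one₀ ?_ (norm_nonneg _) ((norm_le_pi_norm _ j).trans hq)
      rw [Real.norm_eq_abs, abs_div, abs_of_nonneg (sqrt_nonneg _)]
      exact div_le_one_of_le₀ (abs_le_sqrt (by nlinarith)) (sqrt_nonneg _)
  have hGi : Integrable G (((dirLaw (Fin N)).prod (radLaw (Fin N))).prod (gaussianReal 0 1)) :=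
    Integrable.of_bound hGm.aestronglyMeasurable C hGb
  -- the law of the Gaussian vector with one coordinate more
  have hmp : MeasurePreserving (fun p : (Fin N → ℝ) × ℝ => (Fin.snoc p.1 p.2 : Fin (N + 1) → ℝ))
      ((gauss (Fin N)).prod (gaussianReal 0 1)) (gauss (Fin (N + 1))) := by
    have h := ((measurePreserving_piFinSuccAbove (fun _ : Fin (N + 1) => gaussianReal 0 1)
      (Fin.last N)).symm _).comp (Measure.measurePreserving_swap (μ := gauss (Fin N)) (ν := gaussianReal 0 1))
    refine cast ?_ h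
    show MeasurePreserving _ _ (gauss (Fin (N + 1))) = MeasurePreserving _ _ _
    congr 1
    funext p
    simp [MeasurableEquiv.piFinSuccAbove, Fin.snocEquiv]
  have hpt : ∀ (y : Fin N → ℝ) (s : ℝ), G ((nd y, √(dot y y)), s) = F (nd (Fin.snoc y s)) := by
    intro y s
    have hy : 0 ≤ dot y y := Finset.sum_nonneg fun i _ => mul_self_nonneg _
    have e : dot (Fin.snoc y s : Fin (N + 1) → ℝ) (Fin.snoc y s) = dot y y + s ^ 2 := by
      simp [dot, Fin.sum_univ_castSucc, sq]
    simp only [G, nd, e, sq_sqrt hy]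
    congr 1
    funext i
    refine Fin.lastCases ?_ (fun j => ?_) i
    · simp [div_eq_inv_mul]
    · simp only [Fin.snoc_castSucc, Pi.smul_apply, smul_eq_mul]
      rcases hy.eq_or_lt with h0 | h0
      · have : y j = 0 := mul_self_eq_zero.1 ((Finset.sum_eq_zero_iff_of_nonneg
          fun i _ => mul_self_nonneg (y i)).1 h0.symm j (Finset.mem_univ j))
        simp [this]
      · have := (sqrt_pos.2 h0).ne'
        field_simp
  have hFi : ∫ z, F z ∂dirLaw (Fin (N + 1)) =
      ∫ q, G q ∂((dirLaw (Fin N)).prod (radLaw (Fin N))).prod (gaussianReal 0 1) := by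
    rw [show dirLaw (Fin (N + 1)) = (gauss (Fin (N + 1))).map nd from rfl,
      integral_map measurable_nd.aemeasurable hF.aestronglyMeasurable, ← hmp.map_eq,
      integral_map (f := fun y => F (nd y)) hmp.measurable.aemeasurable (hF.measurable.comp measurable_nd).aestronglyMeasurable,
      ← Lim.dirLaw_indep N (by omega)]
    have hmap : ((gauss (Fin N)).map fun z => (nd z, √(dot z z))).prod (gaussianReal 0 1) =
        ((gauss (Fin N)).prod (gaussianReal 0 1)).map (Prod.map (fun z => (nd z, √(dot z z))) id) := by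
      rw [← Measure.map_prod_map _ _ (measurable_nd.prodMk measurable_rad) measurable_id, Measure.map_id]
    rw [hmap, integral_map ((measurable_nd.prodMk measurable_rad).prodMap measurable_id).aemeasurable
      hGm.aestronglyMeasurable]
    exact integral_congr_ae (Eventually.of_forall fun p => (hpt p.1 p.2).symm)
  rw [hFi, integral_prod _ hGi, integral_prod _ hGi.integral_prod_left]
  have hcl : Continuous fun q : ℝ × (Fin N → ℝ) => F (lift1 N q.1 q.2) :=
    hF.comp (Continuous.finSnoc (by fun_prop) (by fun_prop))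
  have hlc : Continuous fun u => ∫ x in Set.Icc (-L) L, F (lift1 N x u) ∂gaussianReal 0 1 :=
    continuous_parametric_integral_of_continuous (f := fun u x => F (lift1 N x u))
      (hcl.comp continuous_swap) isCompact_Icc
  rw [← integral_const_mul]
  refine integral_mono_ae ((integrable_dir hlc).const_mul _) hGi.integral_prod_left.integral_prod_left ?_
  filter_upwards [Measure.ae_ae_of_ae_prod hGi.prod_right_ae, hGi.integral_prod_left.prod_right_ae] with u hu hu'
  have hi : 0 ≤ ∫ x in Set.Icc (-L) L, F (lift1 N x u) ∂gaussianReal 0 1 :=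
    setIntegral_nonneg measurableSet_Icc fun x _ => hF0 _
  set J := ∫ x in Set.Icc (-L) L, F (lift1 N x u) ∂gaussianReal 0 1
  calc exp (-δ) * J ≤ (1 - η) * ((1 - η) * exp (-(2 * η * L ^ 2)) * J) := by
        rw [← mul_assoc, ← mul_assoc]
        refine mul_le_mul_of_nonneg_right ?_ hi
        have h1 : exp (-(2 * η)) ≤ 1 - η := by
          rw [exp_neg, inv_le_comm₀ (exp_pos _) (by linarith)]
          refine le_trans ?_ (add_one_le_exp (2 * η))
          rw [inv_le_iff_one_le_mul₀ (by linarith)]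
          nlinarith
        calc exp (-δ) ≤ exp (-(2 * η) + -(2 * η) + -(2 * η * L ^ 2)) := by
              refine exp_le_exp.2 ?_
              nlinarith [mul_le_mul_of_nonneg_left (show (1:ℝ) ≤ L ^ 2 by nlinarith) hη.le]
          _ = exp (-(2 * η)) * exp (-(2 * η)) * exp (-(2 * η * L ^ 2)) := by rw [exp_add, exp_add]
          _ ≤ _ := by
              have h0 : (0:ℝ) ≤ 1 - η := by linarith
              gcongr
    _ ≤ (radLaw (Fin N)).real S * ((1 - η) * exp (-(2 * η * L ^ 2)) * J) :=
        mul_le_mul_of_nonneg_right hband (mul_nonneg (mul_nonneg (by linarith) (exp_pos _).le) hi)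
    _ = ∫ ρ in S, (1 - η) * exp (-(2 * η * L ^ 2)) * J ∂radLaw (Fin N) := by
        rw [setIntegral_const, smul_eq_mul]
    _ ≤ ∫ ρ in S, ∫ s, G ((u, ρ), s) ∂gaussianReal 0 1 ∂radLaw (Fin N) := by
        refine setIntegral_mono_on (integrableOn_const (measure_ne_top _ _)) hu'.integrableOn hSm fun ρ hρ => ?_
        exact last_lower hL hη1 hNL hρ.1 hρ.2 u hF hF0
    _ ≤ _ := setIntegral_le_integral hu' (Eventually.of_forall fun ρ => integral_nonneg fun s => hF0 _)

end Vale.Agent.P157.Sph
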