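import Vale.Agent.P157.Sph.LowerBase

/-! Integrability in the assembly of the lower bound, and the endpoint of the telescope. -/

open MeasureTheory ProbabilityTheory Real Finset Filter
open scoped Topology
open Vale.Agent.P150 (gauss dot)
open Vale.Agent.P168.MP (lin ET logZ0 Batch avg ok_lin gainCap)
open Vale.Agent.P157.Lim (dirLaw)
open Vale.Agent.P157.Par (Sm Prof cv pats dist1 Gm ins integral_pats_succ)

namespace Vale.Agent.P157.Sph

set_option linter.unusedSectionVars false

variable {N K M R S : ℕ} {f f1 f2 f3 : ℝ → ℝ} {B D : ℝ}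

lemma Sm.absB (hS : Sm f f1 f2 f3 B D) (hB : ∀ x, f x ≤ B) (x : ℝ) : |f x| ≤ B := abs_le.2 ⟨hS.lb x, hB x⟩

lemma exists_mesh (hN : 0 < N) {η : ℝ} (hη : 0 < η) :
    ∃ (A : Type) (_ : Fintype A) (_ : Nonempty A) (wt : A → ℝ) (a : A → Fin N → ℝ), Mesh N η wt a := by
  have : Nonempty (Fin N) := ⟨⟨0, hN⟩⟩
  obtain ⟨A, i1, i2, W, a, Y, h1, h2, h3, h4, h5⟩ :=
    Lim.exists_finite (Lim.dirLaw_unit (ι := Fin N)) hη
  exact ⟨A, i1, i2, W, a, h1, h2, Y, h3, h4, h5⟩

lemma Mesh.mono {A : Type} [Fintype A] {η η' : ℝ} {wt : A → ℝ} {a : A → Fin N → ℝ} (h : Mesh N η wt a)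
    (hη : η ≤ η') : Mesh N η' wt a := by
  obtain ⟨Y, h1, h2, h3⟩ := h.approx
  exact ⟨h.pos, h.unit, Y, h1, h2.mono fun x hx k => (hx k).trans hη, h3⟩

section zero
variable [NeZero N] [NeZero K] {ι : Type} [Fintype ι] [DecidableEq ι] {β : ι → Batch} {h u : ι → ℝ}

lemma continuous_baseW (hf : Continuous f) (hb : ∀ x, |f x| ≤ B) (c : ℝ) (r : Fin K → Fin N → Bool)
    (p : List ((Fin K → Bool) × Unit)) :
    Continuous fun g : Fin M → Fin N → ℝ => baseW R (hamS f g) c r p := by
  refine continuous_of_dominated (bound := fun _ => exp (M * B) * 2 ^ K)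
    (fun g => (integrable_baseI hf hb g c r _ _).aestronglyMeasurable) (fun g => Eventually.of_forall fun z => ?_)
    (integrable_const _) (Eventually.of_forall fun z => ?_)
  · rw [norm_eq_abs, abs_mul, abs_of_pos (hamS_pos g z _), abs_of_pos (bitW_pos c r _ z)]
    exact mul_le_mul (exp_le_exp.2 ((le_abs_self _).trans (abs_log_ham hb g z))) (bitW_le c r _ z)
      (bitW_pos c r _ z).le (exp_pos _).le
  · unfold hamS
    exact (continuous_exp.comp (continuous_finsetSum _ fun i _ =>
      hf.comp (by unfold dot; fun_prop))).mul continuous_const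

lemma integrable_logZ0_sys0 (hR : 1 ≤ R) (hf : Continuous f) (hb : ∀ x, |f x| ≤ B) (hh : ∀ j, |h j| ≤ 1)
    (hu : ∀ j, |u j| ≤ 1) (c : ℝ) (r : Fin K → Fin N → Bool) :
    Integrable (fun g : Fin M → Fin N → ℝ =>
      logZ0 R (lin R) (sys0 (S := S) (β := β) (Λ := Unit) R (hamS f g) c r h u)) (pats N M) := by
  refine Integrable.of_bound (Continuous.aestronglyMeasurable ?_) (gainCap S β + M * B)
    (Eventually.of_forall fun g => ?_)
  · refine Par.continuous_logZ0 (fun p => ?_) (fun g p => mul_pos (baseW_pos hf hb g c r _) (exp_pos _)) R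
    exact (continuous_baseW hf hb c r _).mul continuous_const
  · have h1 := abs_logZ0_sys0 (S := S) (β := β) hR hf hb hh hu g c r
    have h2 := Lim.abs_logZ hf hb (ν := dirLaw (Fin N)) g
    rw [norm_eq_abs, abs_le]
    obtain ⟨a1, a2⟩ := abs_le.1 h1
    obtain ⟨b1, b2⟩ := abs_le.1 h2
    constructor <;> linarith

lemma abs_pertS_sub (hR : 1 ≤ R) (hf : Continuous f) (hb : ∀ x, |f x| ≤ B) (hh : ∀ j, |h j| ≤ 1)
    (hu : ∀ j, |u j| ≤ 1) (c : ℝ) (M : ℕ) :
    |pertS f R S β c K h u N M - Lim.freeM f (dirLaw (Fin N)) M| ≤ gainCap S β := by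
  have key : ∀ r : Fin K → Fin N → Bool,
      |(∫ g, logZ0 R (lin R) (sys0 (S := S) (β := β) (Λ := Unit) R (hamS f g) c r h u) ∂pats N M) -
        Lim.freeM f (dirLaw (Fin N)) M| ≤ gainCap S β := fun r => by
    rw [Lim.freeM, show (Measure.pi fun _ : Fin M => gauss (Fin N)) = pats N M from rfl,
      ← integral_sub (integrable_logZ0_sys0 hR hf hb hh hu c r) (Lim.integrable_logZ hf hb), ← Real.norm_eq_abs]
    exact (norm_integral_le_of_norm_le_const (μ := pats N M) (C := gainCap S β)
      (Eventually.of_forall fun g => abs_logZ0_sys0 hR hf hb hh hu g c r)).trans_eq (by rw [probReal_univ, mul_one])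
  rw [abs_le]
  constructor
  · have := Vale.Agent.P168.MP.avg_le_avg fun r => (abs_le.1 (key r)).1
    simp only [avg, sum_sub_distrib, sum_const, card_univ, nsmul_eq_mul, pertS] at this ⊢
    have hc : (0 : ℝ) < Fintype.card (Fin K → Fin N → Bool) := Nat.cast_pos.2 Fintype.card_pos
    rw [sub_div, mul_div_cancel_left₀ _ hc.ne', mul_div_cancel_left₀ _ hc.ne'] at this
    linarith
  · have := Vale.Agent.P168.MP.avg_le_avg fun r => (abs_le.1 (key r)).2
    simp only [avg, sum_sub_distrib, sum_const, card_univ, nsmul_eq_mul, pertS] at this ⊢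
    have hc : (0 : ℝ) < Fintype.card (Fin K → Fin N → Bool) := Nat.cast_pos.2 Fintype.card_pos
    rw [sub_div, mul_div_cancel_left₀ _ hc.ne', mul_div_cancel_left₀ _ hc.ne'] at this
    linarith

lemma freeM_succ_le (hf : Continuous f) (hb : ∀ x, |f x| ≤ B) (M : ℕ) :
    Lim.freeM f (dirLaw (Fin N)) (M + 1) ≤ Lim.freeM f (dirLaw (Fin N)) M + B := by
  have hi := Lim.integrable_logZ (M := M + 1) hf hb (ν := dirLaw (Fin N))
  have hi0 := Lim.integrable_logZ (M := M) hf hb (ν := dirLaw (Fin N))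
  have e : Lim.freeM f (dirLaw (Fin N)) (M + 1) =
      ∫ g, ∫ y, Lim.logZ f (dirLaw (Fin N)) (ins 0 y g) ∂gauss (Fin N) ∂pats N M :=
    integral_pats_succ 0 hi
  have key : ∀ (g : Fin M → Fin N → ℝ) (y : Fin N → ℝ),
      Lim.logZ f (dirLaw (Fin N)) (ins 0 y g) ≤ Lim.logZ f (dirLaw (Fin N)) g + B := fun g y => by
    have h0 := Lim.integrable_exp_energy hf hb (P := dirLaw (Fin N)) measurable_id g
    have h1 := Lim.integrable_exp_energy hf hb (P := dirLaw (Fin N)) measurable_id (ins 0 y g)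
    have p0 := lt_of_lt_of_le (exp_pos _) (Lim.Z_bounds hf hb (ν := dirLaw (Fin N)) g).1
    have p1 := lt_of_lt_of_le (exp_pos _) (Lim.Z_bounds hf hb (ν := dirLaw (Fin N)) (ins 0 y g)).1
    refine (log_le_log p1 (le_of_le_of_eq (integral_mono h1 (h0.const_mul (exp B)) fun x => ?_)
      (integral_const_mul _ _))).trans_eq ?_
    · show exp _ ≤ exp B * exp _
      rw [← exp_add]
      refine exp_le_exp.2 ?_
      simp only [Lim.energy, Fin.sum_univ_succ, ins, Fin.insertNth_zero', Fin.cons_zero, Fin.cons_succ]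
      exact add_le_add ((le_abs_self _).trans (hb _)) le_rfl
    · simp only [id_eq]
      rw [log_mul (exp_pos _).ne' p0.ne', log_exp, add_comm]; rfl
  rw [e]
  refine (integral_mono ?_ (hi0.add (integrable_const B)) fun g => ?_).trans_eq ?_
  · exact ((Par.measurePreserving_ins (N := N) (M := M) 0).integrable_comp_of_integrable hi).integral_prod_right
  · refine (integral_mono_ae ?_ (integrable_const _) (Eventually.of_forall fun y => key g y)).trans_eq (by simp)
    refine Integrable.of_bound (((Lim.measurable_logZ hf hb).comp ?_).aestronglyMeasurable) (((M + 1 : ℕ) : ℝ) * B)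
      (Eventually.of_forall fun y => ?_)
    · exact (Par.continuous_ins g).measurable
    · rw [norm_eq_abs]; exact Lim.abs_logZ hf hb _
  · rw [integral_add' hi0 (integrable_const B)]
    simp [Lim.freeM]

end zero

end Vale.Agent.P157.Sph
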