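import Vale.Agent.P157.Sph.LowerBase
import Vale.Agent.P157.Full.FieldBase

/-! The atoms integrate out: the perturbation reads the bits only, so the weight with atoms induces the weight of
bit paths, and below the top level the atoms of two replicas are independent given their bit paths. Finite
approximations of the sphere exist, and a fine one barely changes the log partition function. -/

open MeasureTheory ProbabilityTheory Real Finset Filter
open Vale.Agent.P150 (gauss dot l1 l1_nonneg abs_dot_le)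
open Vale.Agent.P168.MP (lin Z ext ET logZ0 avg Batch gain1 Ok ok_lin Z_pos ext_sum ext_const_mul
  ext_mul_const ext_congr ext_zero ext_succ)
open Vale.Agent.P157.Lim (dirLaw xv sgn)

namespace Vale.Agent.P157.Sph

set_option linter.unusedSectionVars false

section general

variable {Ω B A : Type} [Fintype Ω] [Fintype B] [Fintype A] [Nonempty A] {R : ℕ} {m : ℕ → ℝ}
  {u : List B → A → ℝ}

/-- the marks below the atom -/
def projM (e : Ω ≃ A × B) (p : List Ω) : List B := p.map fun o => (e o).2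

/-- the atom of the last level -/
noncomputable def lastA (e : Ω ≃ A × B) (R : ℕ) (p : List Ω) : A :=
  (p.map fun o => (e o).1).getD (R - 1) (Classical.arbitrary A)

/-- the weight that reads the atom of the last level only -/
noncomputable def liftW (e : Ω ≃ A × B) (R : ℕ) (u : List B → A → ℝ) (p : List Ω) : ℝ :=
  u (projM e p) (lastA e R p)

/-- the weight with the atom averaged out -/
noncomputable def margU (u : List B → A → ℝ) (q : List B) : ℝ := avg fun s => u q s

/-- the mean over the atom given the other marks -/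
noncomputable def atomMean (u : List B → A → ℝ) (φ : A → ℝ) (q : List B) : ℝ :=
  (∑ s, u q s * φ s) / ∑ s, u q s

lemma margU_pos (hu : ∀ q s, 0 < u q s) (q : List B) : 0 < margU u q :=
  Vale.Agent.P168.MP.avg_pos fun s => hu q s

lemma sum_equiv (e : Ω ≃ A × B) (F : A × B → ℝ) : ∑ o, F (e o) = ∑ y, ∑ s, F (s, y) := by
  rw [e.sum_comp, Fintype.sum_prod_type, Finset.sum_comm]

lemma avg_snd (e : Ω ≃ A × B) (φ : B → ℝ) : (avg fun o => φ (e o).2) = avg φ := by
  have hA : (Fintype.card A : ℝ) ≠ 0 := Nat.cast_ne_zero.2 Fintype.card_ne_zero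
  rw [avg, avg, sum_equiv e fun x => φ x.2, Fintype.card_congr e, Fintype.card_prod]
  simp only [sum_const, card_univ, nsmul_eq_mul, ← Finset.mul_sum]
  push_cast
  rw [mul_div_mul_left _ _ hA]

variable (e : Ω ≃ A × B)

lemma projM_snoc (pre : List Ω) (o : Ω) : projM e (pre ++ [o]) = projM e pre ++ [(e o).2] := by
  simp [projM]

lemma projM_length (pre : List Ω) : (projM e pre).length = pre.length := by simp [projM]

lemma lastA_snoc {pre : List Ω} (h : pre.length + 1 = R) (o : Ω) : lastA e R (pre ++ [o]) = (e o).1 := by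
  have : R - 1 = (pre.map fun o => (e o).1).length := by simp; omega
  rw [lastA, List.map_append, this, List.getD_append_right _ _ _ _ le_rfl]
  simp

/-- the nested means of the marginal weight -/
lemma Z_marg (hm : m R = 1) : ∀ (k : ℕ) (pre : List Ω), pre.length + (k + 1) = R →
    Z m (liftW e R u) (k + 1) pre = Z m (margU u) (k + 1) (projM e pre) := by
  intro k
  induction k with
  | zero =>
    intro pre h
    have h1 : pre.length + 1 = R := h
    simp only [Z, projM_length, h1, hm, rpow_one, div_one]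
    simp only [liftW, margU, projM_snoc, lastA_snoc e h1]
    rw [avg, avg, sum_equiv e fun x => u (projM e pre ++ [x.2]) x.1, Fintype.card_congr e, Fintype.card_prod]
    simp only [avg, ← Finset.sum_div, div_div]
    push_cast
    ring
  | succ k ih =>
    intro pre h
    rw [Z, Z, projM_length]
    congr 1
    rw [← avg_snd e fun y => Z m (margU u) (k + 1) (projM e pre ++ [y]) ^ m (pre.length + 1)]
    congr 1
    funext o
    rw [ih (pre ++ [o]) (by simp; omega), projM_snoc]

/-- the log partition function does not see the atoms -/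
theorem logZ0_marg (hm : m R = 1) (hR : 1 ≤ R) : logZ0 R m (liftW e R u) = logZ0 R m (margU u) := by
  obtain ⟨k, rfl⟩ : ∃ k, R = k + 1 := ⟨R - 1, by omega⟩
  rw [logZ0, logZ0, Z_marg e hm k [] (by simp)]
  rfl

/-- one extension: the atom of the last level enters through its conditional mean -/
theorem ext_marg (hm : m R = 1) (hu : ∀ q s, 0 < u q s) :
    ∀ (k : ℕ) (pre : List Ω), pre.length + (k + 1) = R → ∀ (Φ : List B → A → ℝ),
      ext m (liftW e R u) (k + 1) pre (fun p => Φ (projM e p) (lastA e R p)) =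
        ext m (margU u) (k + 1) (projM e pre) fun q => atomMean u (Φ q) q := by
  intro k
  induction k with
  | zero =>
    intro pre h Φ
    have h1 : pre.length + 1 = R := h
    simp only [ext_succ, ext_zero, Vale.Agent.P168.MP.trans, Z, projM_length, h1, hm, rpow_one]
    simp only [liftW, projM_snoc, lastA_snoc e h1, div_mul_eq_mul_div, ← Finset.sum_div]
    rw [sum_equiv e fun x => u (projM e pre ++ [x.2]) x.1 * Φ (projM e pre ++ [x.2]) x.1,
      sum_equiv e fun x => u (projM e pre ++ [x.2]) x.1]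
    have hs : ∀ y, margU u (projM e pre ++ [y]) * atomMean u (Φ (projM e pre ++ [y])) (projM e pre ++ [y]) =
        (∑ s, u (projM e pre ++ [y]) s * Φ (projM e pre ++ [y]) s) / Fintype.card A := fun y => by
      have : (∑ s, u (projM e pre ++ [y]) s) ≠ 0 := (Finset.sum_pos (fun s _ => hu _ s) univ_nonempty).ne'
      rw [margU, avg, atomMean]
      field_simp
    simp only [hs]
    simp only [margU, avg, ← Finset.sum_div]
    rw [div_div_div_cancel_right₀ (Nat.cast_ne_zero.2 Fintype.card_ne_zero : (Fintype.card A : ℝ) ≠ 0)]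
  | succ k ih =>
    intro pre h Φ
    rw [ext_succ, ext_succ]
    have hA : (Fintype.card A : ℝ) ≠ 0 := Nat.cast_ne_zero.2 Fintype.card_ne_zero
    set T := fun y => Z m (margU u) (k + 1) (projM e pre ++ [y]) ^ m (pre.length + 1) with hT
    set X := fun y => ext m (margU u) (k + 1) (projM e pre ++ [y]) fun q => atomMean u (Φ q) q with hX
    have hZ : ∀ o, Z m (liftW e R u) (k + 1) (pre ++ [o]) ^ m (pre.length + 1) = T (e o).2 := fun o => by
      rw [Z_marg e hm k (pre ++ [o]) (by simp; omega), projM_snoc]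
    have hE : ∀ o, ext m (liftW e R u) (k + 1) (pre ++ [o]) (fun p => Φ (projM e p) (lastA e R p)) = X (e o).2 :=
      fun o => by rw [ih (pre ++ [o]) (by simp; omega) Φ, projM_snoc]
    simp only [Vale.Agent.P168.MP.trans, hZ, hE, projM_length, div_mul_eq_mul_div, ← Finset.sum_div]
    rw [sum_equiv e fun x => T x.2 * X x.2, sum_equiv e fun x => T x.2]
    simp only [sum_const, card_univ, nsmul_eq_mul, ← Finset.mul_sum]
    exact mul_div_mul_left _ _ hA

/-- two replicas that split below the top carry independent atoms given their other marks -/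
theorem pair_marg (hm : m R = 1) (hu : ∀ q s, 0 < u q s) {l : ℕ} (hl : l < R)
    (Φ : List B → List B → A → A → ℝ) :
    ET R m (liftW e R u) [(0, l), (0, 0)] (fun ps => Φ (projM e (ps.getD 0 [])) (projM e (ps.getD 1 []))
      (lastA e R (ps.getD 0 [])) (lastA e R (ps.getD 1 []))) =
    ET R m (margU u) [(0, l), (0, 0)] fun qs => atomMean u
      (fun s => atomMean u (Φ (qs.getD 0 []) (qs.getD 1 []) s) (qs.getD 1 [])) (qs.getD 0 []) := by
  simp only [Vale.Agent.P168.MP.ET_cons, Vale.Agent.P168.MP.ET_nil, List.nil_append, List.getD_cons_zero,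
    List.getD_nil, List.take_nil, Nat.sub_zero, List.singleton_append, List.getD_cons_succ]
  obtain ⟨j, hj⟩ : ∃ j, R - l = j + 1 := ⟨R - l - 1, by omega⟩
  obtain ⟨i, rfl⟩ : ∃ i, R = i + 1 := ⟨R - 1, by omega⟩
  rw [hj]
  set Ψ := fun q s => ext m (margU u) (j + 1) (q.take l) fun q' => atomMean u (Φ q q' s) q' with hΨ
  have h1 : ext m (liftW e (i + 1) u) (i + 1) [] (fun p => ext m (liftW e (i + 1) u) (j + 1) (p.take l)
      fun p' => Φ (projM e p) (projM e p') (lastA e (i + 1) p) (lastA e (i + 1) p')) =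
      ext m (liftW e (i + 1) u) (i + 1) [] fun p => Ψ (projM e p) (lastA e (i + 1) p) := by
    refine ext_congr fun suf hs => ?_
    rw [List.nil_append]
    rw [ext_marg e hm hu j (suf.take l) (by rw [List.length_take, hs]; omega) fun q' s' =>
      Φ (projM e suf) q' (lastA e (i + 1) suf) s']
    simp only [hΨ, projM, List.map_take]
  rw [h1, ext_marg e hm hu i [] (by simp) Ψ]
  congr 1
  funext q
  simp only [hΨ, atomMean, div_eq_mul_inv]
  rw [ext_mul_const, ext_sum]
  simp only [ext_const_mul]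

end general

/-! ### the system with atoms -/

variable {N K S : ℕ} [NeZero N] [NeZero K] {A Λ : Type} [Fintype A] [Nonempty A] {ι : Type} [Fintype ι]
  {β : ι → Batch}

/-- a mark as its atom and the rest -/
def eA : MkA A Λ K S β ≃ A × Mk0 Λ K S β := Equiv.prodAssoc _ _ _

/-- the weight of an atom given the rest of a path -/
noncomputable def uA (R : ℕ) (G : (Fin N → ℝ) → List Λ → ℝ) (c : ℝ) (r : Fin K → Fin N → Bool) (wt : A → ℝ)
    (a : A → Fin N → ℝ) (h u : ι → ℝ) (q : List (Mk0 Λ K S β)) (s : A) : ℝ :=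
  Fintype.card A * wt s * (G (a s) ((q.map Prod.fst).map Prod.snd) * bitW c r (bat R (q.map Prod.fst)) (a s)) *
    exp (∑ i : ι × Fin S, gain1 R h u (q.map (Full.plain fun o => o.1)) i)

/-- the weight of bit paths with the mesh in place of the sphere -/
noncomputable def meshW (R : ℕ) (G : (Fin N → ℝ) → List Λ → ℝ) (c : ℝ) (r : Fin K → Fin N → Bool) (wt : A → ℝ)
    (a : A → Fin N → ℝ) (p : List ((Fin K → Bool) × Λ)) : ℝ :=
  ∑ s, wt s * (G (a s) (p.map Prod.snd) * bitW c r (bat R p) (a s))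

variable (R : ℕ) (G : (Fin N → ℝ) → List Λ → ℝ) (c : ℝ) (r : Fin K → Fin N → Bool) (wt : A → ℝ)
  (a : A → Fin N → ℝ) (h u : ι → ℝ)

lemma vecA_eq (p : List (MkA A Λ K S β)) : vecA R a p = a (lastA eA R p) := by
  simp only [vecA, vat, lastA, List.map_map]
  rfl

lemma sysA_eq : sysA (S := S) (β := β) R G c r wt a h u = liftW eA R (uA R G c r wt a h u) := by
  funext p
  simp only [sysA, Full.pwX, atomW, liftW, uA, projM, lastA, vat, List.map_map]
  rw [mul_assoc ((Fintype.card A : ℝ) * _)]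
  rfl

lemma margU_uA : margU (uA (S := S) (β := β) R G c r wt a h u) =
    Full.pwX (fun o => o.1) R (meshW R G c r wt a) h u := by
  funext q
  have hA : (Fintype.card A : ℝ) ≠ 0 := Nat.cast_ne_zero.2 Fintype.card_ne_zero
  simp only [margU, avg, uA, Full.pwX, meshW, Finset.sum_mul, Finset.sum_div]
  refine Finset.sum_congr rfl fun s _ => ?_
  field_simp

variable {R G c r wt a h u}

lemma uA_pos (hwt : ∀ s, 0 < wt s) (hG : ∀ z x, 0 < G z x) (q : List (Mk0 Λ K S β)) (s : A) :
    0 < uA R G c r wt a h u q s :=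
  mul_pos (mul_pos (mul_pos (Nat.cast_pos.2 Fintype.card_pos) (hwt s)) (mul_pos (hG _ _) (bitW_pos c r _ _)))
    (exp_pos _)

/-! ### meshes -/

/-- fine meshes exist -/
theorem mesh_exists (N : ℕ) [NeZero N] {η : ℝ} (hη : 0 < η) :
    ∃ (A : Type) (_ : Fintype A) (_ : Nonempty A) (wt : A → ℝ) (a : A → Fin N → ℝ), Mesh N η wt a := by
  obtain ⟨A, i1, i2, W, a, Y, hW, ha, hY, hd, hi⟩ :=
    Vale.Agent.P157.Lim.exists_finite (ν := dirLaw (Fin N)) Vale.Agent.P157.Lim.dirLaw_unit hη
  exact ⟨A, i1, i2, W, a, hW, ha, Y, hY, hd, hi⟩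

omit [Nonempty A] [NeZero N] in
lemma mesh_sum {η : ℝ} (hM : Mesh N η wt a) [NeZero N] : ∑ s, wt s = 1 := by
  obtain ⟨Y, -, -, hi⟩ := hM.approx
  have := hi (fun _ => 1) continuous_const
  simpa using this.symm

lemma mem_cube {x : Fin N → ℝ} (hx : dot x x = 1) (k : Fin N) : |x k| ≤ 1 := by
  rw [← sq_le_one_iff_abs_le_one, sq]
  exact le_of_le_of_eq (Finset.single_le_sum (f := fun i => x i * x i) (fun i _ => mul_self_nonneg _)
    (Finset.mem_univ k)) hx

lemma integrable_dirLaw {F : (Fin N → ℝ) → ℝ} (hF : Continuous F) : Integrable F (dirLaw (Fin N)) := by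
  obtain ⟨C, hC⟩ := (isCompact_closedBall (0 : Fin N → ℝ) 2).exists_bound_of_continuousOn hF.continuousOn
  refine Integrable.of_bound hF.aestronglyMeasurable C ?_
  filter_upwards [Vale.Agent.P157.Lim.dirLaw_unit] with x hx
  refine hC x ?_
  rw [mem_closedBall_zero_iff, pi_norm_le_iff_of_nonneg (by norm_num)]
  exact fun k => (Real.norm_eq_abs _).trans_le ((mem_cube hx k).trans one_le_two)

/-- the mesh as a measurable displacement of the sphere by at most `η` -/
lemma Mesh.map_spec {η : ℝ} (hM : Mesh N η wt a) (hη : η ≤ 1) : ∃ Y : (Fin N → ℝ) → Fin N → ℝ,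
    (∀ᵐ x ∂dirLaw (Fin N), dot x x = 1 ∧ (∀ k, |x k| ≤ 2) ∧ (∀ k, |Y x k| ≤ 2) ∧ ∀ k, |x k - Y x k| ≤ η) ∧
    ∀ F : (Fin N → ℝ) → ℝ, Continuous F →
      Integrable (fun x => F (Y x)) (dirLaw (Fin N)) ∧ ∫ x, F (Y x) ∂dirLaw (Fin N) = ∑ s, wt s * F (a s) := by
  obtain ⟨Y, hY, hd, hi⟩ := hM.approx
  have hae : ∀ᵐ x ∂dirLaw (Fin N), dot x x = 1 ∧ (∀ k, |x k| ≤ 2) ∧ (∀ k, |Y x k| ≤ 2) ∧ ∀ k, |x k - Y x k| ≤ η := by
    filter_upwards [Vale.Agent.P157.Lim.dirLaw_unit, hd] with x hx hxy
    refine ⟨hx, fun k => (mem_cube hx k).trans one_le_two, fun k => ?_, hxy⟩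
    have h1 := mem_cube hx k
    have h2 := abs_sub_abs_le_abs_sub (Y x k) (x k)
    rw [abs_sub_comm] at h2
    linarith [hxy k]
  refine ⟨Y, hae, fun F hF => ⟨?_, hi F hF⟩⟩
  obtain ⟨C, hC⟩ := (isCompact_closedBall (0 : Fin N → ℝ) 2).exists_bound_of_continuousOn hF.continuousOn
  refine Integrable.of_bound (hF.measurable.comp hY).aestronglyMeasurable C ?_
  filter_upwards [hae] with x hx
  refine hC _ ?_
  rw [mem_closedBall_zero_iff, pi_norm_le_iff_of_nonneg (by norm_num)]
  exact fun k => (Real.norm_eq_abs _).trans_le (hx.2.2.1 k)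

/-- a mesh replaces the sphere in a slowly varying positive integral -/
lemma mesh_log {η : ℝ} (hM : Mesh N η wt a) (hη : η ≤ 1) {H : (Fin N → ℝ) → ℝ} (hH : Continuous H)
    (hH0 : ∀ z, 0 < H z) {τ : ℝ} (hτ : ∀ z z' : Fin N → ℝ, (∀ k, |z k| ≤ 2) → (∀ k, |z' k| ≤ 2) →
      (∀ k, |z k - z' k| ≤ η) → |log (H z) - log (H z')| ≤ τ) :
    |log (∑ s, wt s * H (a s)) - log (∫ z, H z ∂dirLaw (Fin N))| ≤ τ := by
  obtain ⟨Y, hae, hi⟩ := hM.map_spec hη
  obtain ⟨iY, eY⟩ := hi H hH
  have hb : ∀ᵐ x ∂dirLaw (Fin N), H (Y x) ≤ exp τ * H x ∧ H x ≤ exp τ * H (Y x) := by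
    filter_upwards [hae] with x hx
    have h1 := abs_le.1 (hτ x (Y x) hx.2.1 hx.2.2.1 hx.2.2.2)
    constructor
    · rw [← exp_log (hH0 (Y x)), ← exp_log (hH0 x), ← exp_add]
      exact exp_le_exp.2 (by linarith)
    · rw [← exp_log (hH0 (Y x)), ← exp_log (hH0 x), ← exp_add]
      exact exp_le_exp.2 (by linarith)
  have p1 : 0 < ∑ s, wt s * H (a s) := Finset.sum_pos (fun s _ => mul_pos (hM.pos s) (hH0 _)) univ_nonempty
  have c1 : ∑ s, wt s * H (a s) ≤ exp τ * ∫ z, H z ∂dirLaw (Fin N) := by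
    rw [← eY, ← integral_const_mul]
    exact integral_mono_ae iY ((integrable_dirLaw hH).const_mul _) (hb.mono fun x hx => hx.1)
  have c2 : ∫ z, H z ∂dirLaw (Fin N) ≤ exp τ * ∑ s, wt s * H (a s) := by
    rw [← eY, ← integral_const_mul]
    exact integral_mono_ae (integrable_dirLaw hH) (iY.const_mul _) (hb.mono fun x hx => hx.2)
  have p2 : 0 < ∫ z, H z ∂dirLaw (Fin N) := pos_of_mul_pos_right (p1.trans_le c1) (exp_pos τ).le
  rw [abs_le]
  have l1 := log_le_log p1 c1
  have l2 := log_le_log p2 c2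
  rw [log_mul (exp_pos τ).ne' p2.ne', log_exp] at l1
  rw [log_mul (exp_pos τ).ne' p1.ne', log_exp] at l2
  constructor <;> linarith

lemma log_tanhW (b : Bool) (t : ℝ) : log (1 + sgn b * tanh t) = sgn b * t - log (cosh t) := by
  have hc := (cosh_pos t).ne'
  have e : 1 + sgn b * tanh t = exp (sgn b * t) / cosh t := by
    rw [tanh_eq_sinh_div_cosh, eq_div_iff hc]
    cases b <;> simp only [sgn, Bool.false_eq_true, if_false, if_true] <;> field_simp
    · rw [← cosh_sub_sinh]; ring
    · rw [← cosh_add_sinh]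
  rw [e, log_div (exp_pos _).ne' hc, log_exp]

lemma hasDerivAt_log_tanhW (b : Bool) (t : ℝ) :
    HasDerivAt (fun t => log (1 + sgn b * tanh t)) (sgn b - tanh t) t := by
  simp only [log_tanhW]
  have h := ((hasDerivAt_id t).const_mul (sgn b)).sub ((hasDerivAt_cosh t).log (cosh_pos t).ne')
  rw [tanh_eq_sinh_div_cosh]
  exact h.congr_deriv (by ring)

lemma abs_tanhW_deriv (b : Bool) (t : ℝ) : |sgn b - tanh t| ≤ 2 := by
  have h := abs_lt.1 (abs_tanh_lt_one t)
  rw [abs_le]
  unfold sgn; split_ifs <;> constructor <;> linarith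

lemma abs_tanhW_lip (b : Bool) (x y : ℝ) :
    |log (1 + sgn b * tanh x) - log (1 + sgn b * tanh y)| ≤ 2 * |x - y| := by
  simpa [Real.norm_eq_abs] using Convex.norm_image_sub_le_of_norm_hasDerivWithin_le
    (fun t _ => (hasDerivAt_log_tanhW b t).hasDerivWithinAt)
    (fun t _ => (Real.norm_eq_abs _).trans_le (abs_tanhW_deriv b t)) convex_univ (Set.mem_univ y) (Set.mem_univ x)

/-- the bits vary slowly in the point -/
lemma log_bitW_lip (b : Fin K → Bool) {η : ℝ} {z z' : Fin N → ℝ} (hzz : ∀ k, |z k - z' k| ≤ η) :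
    |log (bitW c r b z) - log (bitW c r b z')| ≤ 2 * K * |c| * N * η := by
  have hp : ∀ (k : Fin K) (w : Fin N → ℝ), 1 + sgn (b k) * tanh (c * √(N : ℝ) * dot (xv N (r k)) w) ≠ 0 := fun k w => by
    have h := abs_lt.1 (abs_tanh_lt_one (c * √(N : ℝ) * dot (xv N (r k)) w))
    unfold sgn; split_ifs <;> linarith
  rw [bitW, bitW, Real.log_prod (fun k _ => hp k z), Real.log_prod (fun k _ => hp k z'), ← Finset.sum_sub_distrib]
  refine (Finset.abs_sum_le_sum_abs _ _).trans ((Finset.sum_le_sum fun k _ => ?_).trans (le_of_eq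
    (show ∑ _k : Fin K, 2 * |c| * N * η = 2 * K * |c| * N * η by simp; ring)))
  refine (abs_tanhW_lip _ _ _).trans ?_
  have hl : l1 (xv N (r k)) = √(N : ℝ) := by
    have hN : (0 : ℝ) < N := Nat.cast_pos.2 (NeZero.pos N)
    have : ∀ i, |xv N (r k) i| = (√(N : ℝ))⁻¹ := fun i => by
      unfold Vale.Agent.P157.Lim.xv sgn
      split_ifs <;> simp [abs_of_nonneg (sqrt_nonneg (N : ℝ)), abs_div]
    simp only [l1, this, sum_const, card_univ, Fintype.card_fin, nsmul_eq_mul]
    rw [← div_eq_mul_inv, Real.div_sqrt]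
  have hd : |dot (xv N (r k)) z - dot (xv N (r k)) z'| ≤ η * √(N : ℝ) := by
    rw [← hl, show dot (xv N (r k)) z - dot (xv N (r k)) z' = dot (fun i => z i - z' i) (xv N (r k)) by
      simp only [dot, ← Finset.sum_sub_distrib]; exact Finset.sum_congr rfl fun i _ => by ring]
    exact abs_dot_le hzz _
  rw [← mul_sub, abs_mul, abs_mul, abs_of_nonneg (sqrt_nonneg (N : ℝ))]
  calc 2 * (|c| * √(N : ℝ) * |dot (xv N (r k)) z - dot (xv N (r k)) z'|)
      ≤ 2 * (|c| * √(N : ℝ) * (η * √(N : ℝ))) := by gcongr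
    _ = 2 * |c| * N * η := by rw [show |c| * √(N : ℝ) * (η * √(N : ℝ)) = |c| * η * (√(N : ℝ) * √(N : ℝ)) by ring,
        mul_self_sqrt (Nat.cast_nonneg N)]; ring

/-- a fine mesh barely changes the log partition function -/
theorem mesh_logZ [Fintype Λ] [Nonempty Λ] [DecidableEq ι] {η : ℝ} (hM : Mesh N η wt a) (hη : η ≤ 1) (hR : 1 ≤ R)
    (hG : ∀ z x, 0 < G z x) (hc : ∀ x, Continuous fun z => G z x) {τ : ℝ}
    (hτ : ∀ x, ∀ z z' : Fin N → ℝ, (∀ k, |z k| ≤ 2) → (∀ k, |z' k| ≤ 2) → (∀ k, |z k - z' k| ≤ η) →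
      |log (G z x) - log (G z' x)| ≤ τ) :
    |logZ0 R (lin R) (sysA (S := S) (β := β) R G c r wt a h u) -
      logZ0 R (lin R) (sys0 (S := S) (β := β) R G c r h u)| ≤ τ + 2 * K * |c| * N * η := by
  have hint : ∀ q : List ((Fin K → Bool) × Λ),
      0 < ∫ z, G z (q.map Prod.snd) * bitW c r (bat R q) z ∂dirLaw (Fin N) := fun q => by
    have hH : Continuous fun z => G z (q.map Prod.snd) * bitW c r (bat R q) z := (hc _).mul (continuous_bitW c r _)
    rw [integral_pos_iff_support_of_nonneg (fun z => (mul_pos (hG _ _) (bitW_pos c r _ _)).le) (integrable_dirLaw hH),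
      Function.support_eq_univ (fun z => (mul_pos (hG _ _) (bitW_pos c r _ _)).ne')]
    exact (IsProbabilityMeasure.measure_univ (μ := dirLaw (Fin N))).symm ▸ zero_lt_one
  have hp0 : ∀ p : List (Mk0 Λ K S β), 0 < sys0 R G c r h u p := fun p => mul_pos (hint _) (exp_pos _)
  have htop : lin R R = 1 := (ok_lin (w := sys0 (S := S) (β := β) R G c r h u) hR hp0).top
  rw [sysA_eq, logZ0_marg eA htop hR]
  have hm : ∀ p : List (Mk0 Λ K S β), 0 < margU (uA R G c r wt a h u) p :=
    fun p => margU_pos (uA_pos hM.pos hG) p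
  refine Full.Fld.abs_logZ0_sub_le (ok_lin hR hp0) hm fun p _ => ?_
  have hs : 0 < meshW R G c r wt a (p.map Prod.fst) :=
    Finset.sum_pos (fun s _ => mul_pos (hM.pos s) (mul_pos (hG _ _) (bitW_pos c r _ _))) univ_nonempty
  rw [margU_uA, sys0, Full.pwX, Full.pwX, baseW, log_mul hs.ne' (exp_pos _).ne',
    log_mul (hint _).ne' (exp_pos _).ne', add_sub_add_right_eq_sub]
  refine mesh_log hM hη ((hc _).mul (continuous_bitW c r _)) (fun z => mul_pos (hG _ _) (bitW_pos c r _ _))
    fun z z' h1 h2 h3 => ?_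
  simp only [Pi.mul_apply]
  rw [log_mul (hG _ _).ne' (bitW_pos c r _ _).ne', log_mul (hG _ _).ne' (bitW_pos c r _ _).ne', add_sub_add_comm]
  exact (abs_add_le _ _).trans (add_le_add (hτ _ _ _ h1 h2 h3) (log_bitW_lip _ h3))

end Vale.Agent.P157.Sph
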