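import Vale.Agent.P157.Sph.DimDir
import Vale.Agent.P157.Sph.Marg
import Vale.Agent.P157.Sph.LowerInt
import Vale.Agent.P157.Par.Grow

/-! One dimension more at fixed patterns: the new partition function dominates the old one times a nested mean of
the factor of the new coordinate. -/

open MeasureTheory ProbabilityTheory Real Finset
open Vale.Agent.P150 (gauss dot l1)
open Vale.Agent.P168.MP (lin logZ0 avg nest ok_lin Batch)
open Vale.Agent.P157.Lim (dirLaw xv sgn)
open Vale.Agent.P157.Par (Sm)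

namespace Vale.Agent.P157.Sph.Dim

set_option linter.unusedSectionVars false

variable {N M K R S : ℕ} {f f1 f2 f3 : ℝ → ℝ} {B D L : ℝ}

/-- mass of the truncation window -/
noncomputable def win (L : ℝ) : ℝ := (gaussianReal 0 1).real (Set.Icc (-L) L)

/-- the patterns read at the lift of a point, with the last coordinate integrated over the window -/
noncomputable def siteH (f : ℝ → ℝ) (L : ℝ) (g : Fin M → Fin N → ℝ) (z : Fin M → ℝ) (u : Fin N → ℝ) : ℝ :=
  ∫ x in Set.Icc (-L) L, exp (∑ a, f (√(1 - x ^ 2 / N) * dot u (g a) + x / √(N : ℝ) * z a)) ∂gaussianReal 0 1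

/-- the factor of the new coordinate -/
noncomputable def siteY {Ω : Type} (f : ℝ → ℝ) (L : ℝ) (v : List Ω → Fin N → ℝ) (g : Fin M → Fin N → ℝ)
    (z : Fin M → ℝ) (p : List Ω) : ℝ :=
  siteH f L g z (v p) / exp (∑ a, f (dot (v p) (g a)))

lemma win_pos (hL : 0 < L) : 0 < win L := by
  have : (gaussianReal 0 1).IsOpenPosMeasure := (gaussianReal_absolutelyContinuous' 0 one_ne_zero).isOpenPosMeasure
  refine lt_of_lt_of_le ?_ (measureReal_mono (s₁ := Set.Ioo (-L) L) Set.Ioo_subset_Icc_self)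
  exact ENNReal.toReal_pos (isOpen_Ioo.measure_pos _ (Set.nonempty_Ioo.2 (by linarith))).ne' (measure_ne_top _ _)

lemma continuous_site (hf : Continuous f) (g : Fin M → Fin N → ℝ) (z : Fin M → ℝ) :
    Continuous fun q : (Fin N → ℝ) × ℝ =>
      exp (∑ a, f (√(1 - q.2 ^ 2 / N) * dot q.1 (g a) + q.2 / √(N : ℝ) * z a)) := by
  unfold dot
  fun_prop

lemma continuous_siteH (hf : Continuous f) (g : Fin M → Fin N → ℝ) (z : Fin M → ℝ) :
    Continuous (siteH f L g z) :=
  continuous_parametric_integral_of_continuous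
    (f := fun u x => exp (∑ a, f (√(1 - x ^ 2 / N) * dot u (g a) + x / √(N : ℝ) * z a)))
    (continuous_site hf g z) isCompact_Icc

lemma continuous_siteH₂ (hf : Continuous f) (u : Fin N → ℝ) :
    Continuous fun q : (Fin M → Fin N → ℝ) × (Fin M → ℝ) => siteH f L q.1 q.2 u := by
  refine continuous_parametric_integral_of_continuous
    (f := fun (q : (Fin M → Fin N → ℝ) × (Fin M → ℝ)) x =>
      exp (∑ a, f (√(1 - x ^ 2 / N) * dot u (q.1 a) + x / √(N : ℝ) * q.2 a))) ?_ isCompact_Icc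
  unfold dot Function.uncurry
  fun_prop

lemma siteH_bounds (hf : Continuous f) (hb : ∀ x, |f x| ≤ B) (g : Fin M → Fin N → ℝ) (z : Fin M → ℝ)
    (u : Fin N → ℝ) :
    exp (-(M * B)) * win L ≤ siteH f L g z u ∧ siteH f L g z u ≤ exp (M * B) * win L := by
  have hs : ∀ x, |∑ a, f (√(1 - x ^ 2 / N) * dot u (g a) + x / √(N : ℝ) * z a)| ≤ M * B := fun x =>
    (abs_sum_le_sum_abs _ _).trans ((sum_le_sum fun _ _ => hb _).trans_eq (by simp))
  have hi : IntegrableOn (fun x => exp (∑ a, f (√(1 - x ^ 2 / N) * dot u (g a) + x / √(N : ℝ) * z a)))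
      (Set.Icc (-L) L) (gaussianReal 0 1) :=
    ((continuous_site hf g z).comp (Continuous.prodMk_right u)).integrableOn_Icc
  have e : ∀ C : ℝ, ∫ _ in Set.Icc (-L) L, C ∂gaussianReal 0 1 = C * win L := fun C => by
    rw [setIntegral_const, smul_eq_mul, win, mul_comm]
  rw [siteH, ← e, ← e]
  exact ⟨setIntegral_mono_on (integrableOn_const (measure_ne_top _ _)) hi measurableSet_Icc fun x _ =>
      exp_le_exp.2 (abs_le.1 (hs x)).1,
    setIntegral_mono_on hi (integrableOn_const (measure_ne_top _ _)) measurableSet_Icc fun x _ =>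
      exp_le_exp.2 (abs_le.1 (hs x)).2⟩

lemma siteH_pos (hf : Continuous f) (hb : ∀ x, |f x| ≤ B) (hL : 0 < L) (g : Fin M → Fin N → ℝ)
    (z : Fin M → ℝ) (u : Fin N → ℝ) : 0 < siteH f L g z u :=
  (mul_pos (exp_pos _) (win_pos hL)).trans_le (siteH_bounds hf hb g z u).1

lemma siteY_bounds {Ω : Type} (hf : Continuous f) (hb : ∀ x, |f x| ≤ B) (hL : 0 < L)
    (v : List Ω → Fin N → ℝ) (g : Fin M → Fin N → ℝ) (z : Fin M → ℝ) (p : List Ω) :
    exp (-(2 * M * B + |log (win L)|)) ≤ siteY f L v g z p ∧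
      siteY f L v g z p ≤ exp (2 * M * B + |log (win L)|) := by
  obtain ⟨h1, h2⟩ := siteH_bounds (L := L) hf hb g z (v p)
  obtain ⟨e1, e2⟩ := abs_le.1 (abs_log_ham hb g (v p))
  have hw := exp_log (win_pos hL)
  rw [← hw, ← exp_add] at h1 h2
  constructor
  · rw [siteY, le_div_iff₀ (exp_pos _), ← exp_add]
    exact (exp_le_exp.2 (by linarith [neg_abs_le (log (win L))])).trans h1
  · rw [siteY, div_le_iff₀ (exp_pos _), ← exp_add]
    exact h2.trans (exp_le_exp.2 (by linarith [le_abs_self (log (win L))]))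

/-- the window integral varies slowly with the point -/
lemma abs_log_siteH_sub (hS : Sm f f1 f2 f3 B D) (hb : ∀ x, |f x| ≤ B) (hL : 0 < L) (g : Fin M → Fin N → ℝ)
    (z : Fin M → ℝ) {η : ℝ} {u u' : Fin N → ℝ} (h : ∀ k, |u k - u' k| ≤ η) :
    |log (siteH f L g z u) - log (siteH f L g z u')| ≤ D * η * ∑ a, l1 (g a) := by
  have hf := hS.cont0
  have one : ∀ u u' : Fin N → ℝ, (∀ k, |u k - u' k| ≤ η) →
      siteH f L g z u ≤ exp (D * η * ∑ a, l1 (g a)) * siteH f L g z u' := fun u u' h => by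
    rw [siteH, siteH, ← integral_const_mul]
    refine setIntegral_mono_on ?_ ?_ measurableSet_Icc fun x _ => ?_
    · exact ((continuous_site hf g z).comp (Continuous.prodMk_right u)).integrableOn_Icc
    · exact (continuous_const.mul ((continuous_site hf g z).comp (Continuous.prodMk_right u'))).integrableOn_Icc
    rw [← exp_add]
    refine exp_le_exp.2 ?_
    rw [mul_sum, ← sum_add_distrib]
    refine sum_le_sum fun a _ => ?_
    have h1 := (abs_le.1 (Par.lip_of_deriv hS.d0 hS.b1 (√(1 - x ^ 2 / N) * dot u (g a) + x / √(N : ℝ) * z a)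
      (√(1 - x ^ 2 / N) * dot u' (g a) + x / √(N : ℝ) * z a))).2
    have h2 : |√(1 - x ^ 2 / N) * dot u (g a) + x / √(N : ℝ) * z a -
        (√(1 - x ^ 2 / N) * dot u' (g a) + x / √(N : ℝ) * z a)| ≤ η * l1 (g a) := by
      rw [add_sub_add_right_eq_sub, ← mul_sub, abs_mul, abs_of_nonneg (sqrt_nonneg _)]
      refine (mul_le_of_le_one_left (abs_nonneg _) (sqrt_le_one.2 ?_)).trans ?_
      · linarith [show 0 ≤ x ^ 2 / N by positivity]
      · rw [show dot u (g a) - dot u' (g a) = dot (fun i => u i - u' i) (g a) by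
          simp only [dot, ← sum_sub_distrib]; exact sum_congr rfl fun i _ => by ring]
        exact Vale.Agent.P150.abs_dot_le h _
    have := mul_le_mul_of_nonneg_left h2 hS.nonneg
    linarith
  have p1 := siteH_pos hf hb hL g z u
  have p2 := siteH_pos hf hb hL g z u'
  have a1 := log_le_log p1 (one u u' h)
  have a2 := log_le_log p2 (one u' u fun k => by rw [abs_sub_comm]; exact h k)
  rw [log_mul (exp_pos _).ne' p2.ne', log_exp] at a1
  rw [log_mul (exp_pos _).ne' p1.ne', log_exp] at a2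
  rw [abs_le]
  constructor <;> linarith

lemma abs_log_hamS_sub (hS : Sm f f1 f2 f3 B D) (g : Fin M → Fin N → ℝ) {η : ℝ} {u u' : Fin N → ℝ}
    (h : ∀ k, |u k - u' k| ≤ η) (x : List Unit) :
    |log (hamS f g u x) - log (hamS f g u' x)| ≤ D * η * ∑ a, l1 (g a) := by
  simp only [hamS, log_exp, ← sum_sub_distrib, mul_sum]
  refine (abs_sum_le_sum_abs _ _).trans (sum_le_sum fun a _ => ?_)
  refine (Par.lip_of_deriv hS.d0 hS.b1 _ _).trans ?_
  rw [mul_assoc, show dot u (g a) - dot u' (g a) = dot (fun i => u i - u' i) (g a) by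
    simp only [dot, ← sum_sub_distrib]; exact sum_congr rfl fun i _ => by ring]
  exact mul_le_mul_of_nonneg_left (Vale.Agent.P150.abs_dot_le h _) hS.nonneg

/-! ### the bits -/

/-- the exponent of one bit -/
noncomputable def bitE (b : Bool) (x : ℝ) : ℝ := sgn b * x - log (cosh x)

lemma bitW_eq (c : ℝ) (r : Fin K → Fin N → Bool) (b : Fin K → Bool) (z : Fin N → ℝ) :
    bitW c r b z = exp (∑ k, bitE (b k) (c * √(N : ℝ) * dot (xv N (r k)) z)) := by
  rw [exp_sum]
  exact prod_congr rfl fun k _ => by rw [bitE, ← log_tanhW, exp_log (one_add_tanh_pos _ _)]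

lemma abs_bitE_sub_le (b : Bool) (x y : ℝ) : |bitE b x - bitE b y| ≤ 2 * |x - y| := by
  rw [bitE, bitE, ← log_tanhW, ← log_tanhW]
  exact abs_tanhW_lip b x y

lemma abs_sgn (b : Bool) : |sgn b| = 1 := by cases b <;> simp [sgn]

/-- the lift barely moves the bits -/
lemma bitW_lift [NeZero N] {c : ℝ} (hc : 0 ≤ c) (hL : 1 ≤ L) (hN : L ^ 2 ≤ (N:ℝ))
    (r : Fin K → Fin N → Bool) (σ b : Fin K → Bool) {x : ℝ} (hx : x ∈ Set.Icc (-L) L)
    {u : Fin N → ℝ} (hu : dot u u = 1) :
    exp (-(4 * K * c * L ^ 2 / √(N : ℝ))) * bitW c r b u ≤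
      bitW c (fun k => Fin.snoc (r k) (σ k)) b (lift1 N x u) := by
  have hN0 : (0:ℝ) < N := Nat.cast_pos.2 (NeZero.pos N)
  have hs : 0 < √(N:ℝ) := sqrt_pos.2 hN0
  rw [bitW_eq, bitW_eq, ← exp_add, exp_le_exp, ← le_sub_iff_add_le, ← sum_sub_distrib]
  refine neg_le_of_abs_le ((abs_sum_le_sum_abs _ _).trans ((sum_le_sum (g := fun _ => 4 * c * L ^ 2 / √(N:ℝ))
    fun k _ => ?_).trans_eq (by simp; ring)))
  refine (abs_bitE_sub_le _ _ _).trans ?_
  have e : c * √((N + 1 : ℕ) : ℝ) * dot (xv (N + 1) (Fin.snoc (r k) (σ k))) (lift1 N x u) =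
      c * (√(1 - x ^ 2 / N) * (√(N:ℝ) * dot (xv N (r k)) u) + sgn (σ k) * (x / √(N:ℝ))) := by
    have hs1 : √((N + 1 : ℕ) : ℝ) ≠ 0 := (sqrt_pos.2 (by positivity)).ne'
    simp only [dot, Fin.sum_univ_castSucc, lift1, xv, Fin.snoc_castSucc, Fin.snoc_last, mul_sum]
    rw [mul_add, mul_add]
    congr 1
    · rw [mul_sum, mul_sum]; refine sum_congr rfl fun i _ => ?_; field_simp
    · field_simp
  rw [e, mul_assoc, ← mul_sub, abs_mul, abs_of_nonneg hc]
  have hxL : x ^ 2 ≤ L ^ 2 := sq_le_sq' hx.1 hx.2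
  have hy : x ^ 2 / N ≤ 1 := (div_le_one hN0).2 (hxL.trans hN)
  have hcc : |√(1 - x ^ 2 / N) - 1| ≤ L ^ 2 / N := by
    have h1 : √(1 - x ^ 2 / N) ≤ 1 := sqrt_le_one.2 (by linarith [show 0 ≤ x ^ 2 / N by positivity])
    have h2 : 1 - x ^ 2 / N ≤ √(1 - x ^ 2 / N) := le_sqrt_of_sq_le (by nlinarith [show 0 ≤ x ^ 2 / N by positivity])
    have h3 : x ^ 2 / N ≤ L ^ 2 / N := div_le_div_of_nonneg_right hxL hN0.le
    rw [abs_le]; constructor <;> linarith
  have hd : |√(N:ℝ) * dot (xv N (r k)) u| ≤ √(N:ℝ) := by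
    rw [abs_mul, abs_of_nonneg hs.le]
    exact mul_le_of_le_one_right hs.le (abs_cv_le (v := fun l : List Bool => if l = [] then xv N (r k) else u)
      (fun l => by
        by_cases hl : l = [] <;> simp [Par.cv, hl, Lim.dot_xv (NeZero.pos N), hu]) [] [true])
  have h1 : |(√(1 - x ^ 2 / N) - 1) * (√(N:ℝ) * dot (xv N (r k)) u)| ≤ L ^ 2 / √(N:ℝ) := by
    rw [abs_mul]
    refine (mul_le_mul hcc hd (abs_nonneg _) (by positivity)).trans_eq ?_
    field_simp
    rw [sq_sqrt hN0.le]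
  have h2 : |sgn (σ k) * (x / √(N:ℝ))| ≤ L ^ 2 / √(N:ℝ) := by
    rw [abs_mul, abs_sgn, one_mul, abs_div, abs_of_pos hs]
    exact div_le_div_of_nonneg_right ((abs_le.2 hx).trans (by nlinarith)) hs.le
  have hb : |√(1 - x ^ 2 / N) * (√(N:ℝ) * dot (xv N (r k)) u) + sgn (σ k) * (x / √(N:ℝ)) -
      √(N:ℝ) * dot (xv N (r k)) u| ≤ 2 * (L ^ 2 / √(N:ℝ)) := by
    rw [show ∀ A B C : ℝ, A * B + C - B = (A - 1) * B + C from fun A B C => by ring]
    linarith [abs_add_le ((√(1 - x ^ 2 / N) - 1) * (√(N:ℝ) * dot (xv N (r k)) u)) (sgn (σ k) * (x / √(N:ℝ)))]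
  calc 2 * (c * |_|) ≤ 2 * (c * (2 * (L ^ 2 / √(N:ℝ)))) :=
        mul_le_mul_of_nonneg_left (mul_le_mul_of_nonneg_left hb hc) (by norm_num)
    _ = _ := by ring

/-- directions in one dimension more -/
def splitDir : (Fin K → Fin (N + 1) → Bool) ≃ (Fin K → Fin N → Bool) × (Fin K → Bool) where
  toFun r := (fun k i => r k i.castSucc, fun k => r k (Fin.last N))
  invFun p k := Fin.snoc (p.1 k) (p.2 k)
  left_inv r := funext fun k => Fin.snoc_init_self (r k)
  right_inv p := by simp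

lemma avg_splitDir (F : (Fin K → Fin (N + 1) → Bool) → ℝ) :
    avg F = avg fun r : Fin K → Fin N → Bool => avg fun σ : Fin K → Bool =>
      F fun k => Fin.snoc (r k) (σ k) := by
  rw [← Vale.Agent.P168.MP.avg_prod_eq fun p : (Fin K → Fin N → Bool) × (Fin K → Bool) =>
    F fun k => Fin.snoc (p.1 k) (p.2 k)]
  simp only [avg, Fintype.card_congr (splitDir (N := N) (K := K))]
  congr 1
  refine Fintype.sum_equiv splitDir _ _ fun r => congrArg F ?_
  exact funext fun k => (Fin.snoc_init_self (r k)).symm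

/-! ### one dimension more -/

variable {A : Type} [Fintype A] [Nonempty A] {ι : Type} [Fintype ι] [DecidableEq ι] {β : ι → Batch} [NeZero K]

/-- the nested log functional is monotone up to constant factors -/
lemma logZ0_le_add {Ω : Type} [Fintype Ω] [Nonempty Ω] (hR : 1 ≤ R) {w w' : List Ω → ℝ} (hw : ∀ p, 0 < w p)
    (hw' : ∀ p, 0 < w' p) {d : ℝ} (h : ∀ p, exp (-d) * w p ≤ w' p) :
    logZ0 R (lin R) w - d ≤ logZ0 R (lin R) w' := by
  have hY : ∀ p, 0 < w' p / w p := fun p => div_pos (hw' p) (hw p)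
  have e : w' = fun p => w p * (w' p / w p) := funext fun p => (mul_div_cancel₀ _ (hw p).ne').symm
  have e2 := Vale.Agent.P168.MP.logZ0_mul (R := R) (m := lin R) hw hY
  rw [← e] at e2
  suffices -d ≤ log (nest (lin R) w (fun p => w' p / w p) R []) by linarith
  have hm := ok_lin hR hw
  have h1 := Vale.Agent.P168.MP.nest_le_nest hm (Y := fun _ => exp (-d)) (fun _ => exp_pos _)
    (fun p => (le_div_iff₀ (hw p)).2 (h p)) R [] (by simp)
  obtain ⟨n1, -⟩ := Vale.Agent.P168.MP.nest_mem hm (exp_pos (-d)) (b := exp (-d))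
    (Y := fun _ => exp (-d)) (fun _ _ => ⟨le_rfl, le_rfl⟩) R [] (by simp)
  rw [le_log_iff_exp_le (Vale.Agent.P168.MP.nest_pos hw hY R [])]
  exact n1.trans h1

lemma hamS_lift (g : Fin M → Fin N → ℝ) (z : Fin M → ℝ) (x : ℝ) (u : Fin N → ℝ) :
    hamS f (Par.addC g z) (lift1 N x u) ([] : List Unit) =
      exp (∑ a, f (√(1 - x ^ 2 / N) * dot u (g a) + x / √(N : ℝ) * z a)) := by
  refine congrArg exp (sum_congr rfl fun a _ => congrArg f ?_)
  simp only [dot, Par.addC, lift1, Fin.sum_univ_castSucc, Fin.snoc_castSucc, Fin.snoc_last, mul_sum, mul_assoc]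

lemma baseW_step [NeZero N] (hf : Continuous f) (hL : 1 ≤ L) (hN : L ^ 2 ≤ (N:ℝ)) {c δ : ℝ}
    (hc : 0 ≤ c) (hδ : ∀ F : (Fin (N + 1) → ℝ) → ℝ, Continuous F → (∀ z, 0 ≤ F z) →
      exp (-δ) * ∫ u, (∫ x in Set.Icc (-L) L, F (lift1 N x u) ∂gaussianReal 0 1) ∂dirLaw (Fin N) ≤
        ∫ z, F z ∂dirLaw (Fin (N + 1)))
    (g : Fin M → Fin N → ℝ) (z : Fin M → ℝ) (r : Fin K → Fin N → Bool) (σ : Fin K → Bool)
    (p : List ((Fin K → Bool) × Unit)) :
    exp (-(δ + 4 * K * c * L ^ 2 / √(N : ℝ))) * baseW R (fun u _ => siteH f L g z u) c r p ≤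
      baseW R (hamS f (Par.addC g z)) c (fun k => Fin.snoc (r k) (σ k)) p := by
  set b := bat R p
  set r' : Fin K → Fin (N + 1) → Bool := fun k => Fin.snoc (r k) (σ k)
  set F : (Fin (N + 1) → ℝ) → ℝ := fun v => hamS f (Par.addC g z) v ([] : List Unit) * bitW c r' b v
  have hFc : Continuous F := (continuous_exp.comp (continuous_finsetSum _ fun a _ =>
    hf.comp (by unfold dot; fun_prop))).mul (continuous_bitW c r' b)
  have hF : ∀ v, 0 ≤ F v := fun v => mul_nonneg (exp_pos _).le (bitW_pos c r' b v).le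
  refine le_trans ?_ (hδ F hFc hF)
  rw [neg_add, exp_add, mul_assoc]
  refine mul_le_mul_of_nonneg_left ?_ (exp_pos _).le
  rw [baseW, ← integral_const_mul]
  have hl : Continuous fun q : (Fin N → ℝ) × ℝ => F (lift1 N q.2 q.1) :=
    hFc.comp (Continuous.finSnoc (by fun_prop) (by fun_prop))
  refine integral_mono_ae ((integrable_dir ((continuous_siteH hf g z).mul (continuous_bitW c r b))).const_mul _)
    (integrable_dir (continuous_parametric_integral_of_continuous (f := fun u x => F (lift1 N x u)) hl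
      isCompact_Icc)) ?_
  have : Nonempty (Fin N) := ⟨⟨0, NeZero.pos N⟩⟩
  filter_upwards [Lim.dirLaw_unit] with u hu
  simp only [siteH]
  rw [← integral_mul_const, ← integral_const_mul]
  refine setIntegral_mono_on ?_ (hl.comp (Continuous.prodMk_right u)).integrableOn_Icc measurableSet_Icc
    fun x hx => ?_
  · exact (continuous_const.mul (((continuous_site hf g z).comp (Continuous.prodMk_right u)).mul
      continuous_const)).integrableOn_Icc
  · simp only [F, hamS_lift]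
    rw [mul_left_comm]
    exact mul_le_mul_of_nonneg_left (bitW_lift hc hL hN r σ b hx hu) (exp_pos _).le

lemma sysA_one (G : (Fin N → ℝ) → List Unit → ℝ) (c : ℝ) (r : Fin K → Fin N → Bool) (wt : A → ℝ)
    (a : A → Fin N → ℝ) (h u : ι → ℝ) (p : List (MkA A Unit K S β)) :
    sysA R G c r wt a h u p =
      sysA R (fun _ _ => 1) c r wt a h u p * G (vecA R a p) ((p.map Prod.fst).map fun o => o.2.2) := by
  simp only [sysA, Full.pwX, atomW, vecA]
  ring

/-- **one dimension more, at fixed patterns** -/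
theorem step_dim (hS : Sm f f1 f2 f3 B D) (hB : ∀ x, f x ≤ B) (hL : 1 ≤ L) {δ : ℝ} (hδ : 0 < δ) :
    ∃ N₀ : ℕ, ∀ (N : ℕ) [NeZero N], N₀ ≤ N → ∀ {ι : Type} [Fintype ι] [DecidableEq ι] (β : ι → Batch)
      (R S K M : ℕ) [NeZero K], 1 ≤ R → ∀ (c : ℝ), 0 ≤ c → ∀ (h u : ι → ℝ) (g : Fin M → Fin N → ℝ)
      (z : Fin M → ℝ) (r : Fin K → Fin N → Bool) (σ : Fin K → Bool) {η : ℝ}, 0 ≤ η → η ≤ 1 →
      ∀ (A : Type) [Fintype A] [Nonempty A] (wt : A → ℝ) (a : A → Fin N → ℝ), Mesh N η wt a →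
      let w₀ := sysA (S := S) (β := β) (Λ := Unit) R (fun _ _ => 1) c r wt a h u
      log (nest (lin R) (wV f w₀ (vecA R a) g) (siteY f L (vecA R a) g z) R []) -
          (δ + 4 * K * c * L ^ 2 / √(N : ℝ) + η * (2 * D * ∑ a, l1 (g a) + 4 * K * c * N)) ≤
        logZ0 R (lin R) (sys0 (S := S) (β := β) (Λ := Unit) R (hamS f (Par.addC g z)) c
            (fun k => Fin.snoc (r k) (σ k)) h u) -
          logZ0 R (lin R) (sys0 (S := S) (β := β) (Λ := Unit) R (hamS f g) c r h u) := by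
  obtain ⟨N₁, hdir⟩ := dir_lower hL hδ
  refine ⟨max N₁ ⌈L ^ 2⌉₊, fun N _ hN ι _ _ β R S K M _ hR c hc h u g z r σ η hη hη1 A _ _ wt a hM => ?_⟩
  intro w₀
  have hNL : L ^ 2 ≤ (N:ℝ) := (Nat.le_ceil _).trans (Nat.cast_le.2 ((le_max_right _ _).trans hN))
  have hL0 : 0 < L := by linarith
  have hf := hS.cont0
  have hb : ∀ x, |f x| ≤ B := fun x => abs_le.2 ⟨hS.lb x, hB x⟩
  set G : (Fin N → ℝ) → List Unit → ℝ := fun u _ => siteH f L g z u
  have hG : ∀ u x, 0 < G u x := fun u _ => siteH_pos hf hb hL0 g z u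
  -- the lift
  have hGi : ∀ p : List ((Fin K → Bool) × Unit), 0 < baseW R G c r p := fun p => by
    have hH : Continuous fun u => G u (p.map Prod.snd) * bitW c r (bat R p) u :=
      (continuous_siteH hf g z).mul (continuous_bitW c r _)
    rw [baseW, integral_pos_iff_support_of_nonneg (fun u => (mul_pos (hG u (p.map Prod.snd)) (bitW_pos c r (bat R p) u)).le)
      (integrable_dir hH), Function.support_eq_univ (fun u => (mul_pos (hG u (p.map Prod.snd)) (bitW_pos c r (bat R p) u)).ne'),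
      measure_univ]
    exact zero_lt_one
  have h1 : logZ0 R (lin R) (sys0 (S := S) (β := β) R G c r h u) - (δ + 4 * K * c * L ^ 2 / √(N : ℝ)) ≤
      logZ0 R (lin R) (sys0 (S := S) (β := β) (Λ := Unit) R (hamS f (Par.addC g z)) c
        (fun k => Fin.snoc (r k) (σ k)) h u) := by
    refine logZ0_le_add hR (fun p => mul_pos (hGi _) (exp_pos _))
      (fun p => mul_pos (baseW_pos hf hb _ c _ _) (exp_pos _)) fun p => ?_
    show exp _ * (_ * _) ≤ _ * _
    rw [← mul_assoc]
    exact mul_le_mul_of_nonneg_right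
      (baseW_step hf hL hNL hc (hdir N ((le_max_left _ _).trans hN)) g z r σ _) (exp_pos _).le
  -- the meshes
  have h2 := (abs_le.1 (mesh_logZ (S := S) (β := β) (h := h) (u := u) (c := c) (r := r) hM hη1 hR (G := G) hG
    (fun _ => continuous_siteH hf g z) (τ := D * η * ∑ a, l1 (g a))
    fun _ u u' _ _ h3 => abs_log_siteH_sub hS hb hL0 g z h3)).2
  have h3 := (abs_le.1 (mesh_logZ (S := S) (β := β) (h := h) (u := u) (c := c) (r := r) hM hη1 hR
    (G := hamS (Λ := Unit) f g) (fun u x => hamS_pos g u x)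
    (fun _ => continuous_exp.comp (continuous_finsetSum _ fun i _ => hf.comp (by unfold dot; fun_prop)))
    (τ := D * η * ∑ a, l1 (g a)) fun x u u' _ _ h3 => abs_log_hamS_sub hS g h3 x)).1
  rw [abs_of_nonneg hc] at h2 h3
  -- the factor
  have hw : ∀ p : List (MkA A Unit K S β), 0 < wV f w₀ (vecA R a) g p := fun p =>
    mul_pos (sysA_pos (fun _ _ => one_pos) c r hM.pos a h u p) (exp_pos _)
  have hY : ∀ p : List (MkA A Unit K S β), 0 < siteY f L (vecA R a) g z p := fun p => div_pos (hG _ []) (exp_pos _)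
  have e := Vale.Agent.P168.MP.logZ0_mul (R := R) (m := lin R) hw hY
  have eA : sysA (S := S) (β := β) R G c r wt a h u =
      fun p => wV f w₀ (vecA R a) g p * siteY f L (vecA R a) g z p := by
    funext p
    rw [sysA_one, wV, siteY, mul_assoc (w₀ p), mul_div_cancel₀ _ (exp_pos _).ne']
  rw [← eA] at e
  rw [← sysA_ham] at e ⊢
  linarith

end Vale.Agent.P157.Sph.Dim
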