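import Vale.Agent.P157.Sph.DimSite
import Vale.Agent.P157.Par.SiteMoments
import Vale.Agent.P157.Par.Borel.Approx

/-! One dimension more: averages over the patterns. -/

open MeasureTheory ProbabilityTheory Real Finset
open Vale.Agent.P150 (gauss dot l1)
open Vale.Agent.P168.MP (lin ET nest ok_lin)
open Vale.Agent.P157.Par (Sm Prof adev devOf cv pats fac ins Gm)

namespace Vale.Agent.P157.Sph.Dim

set_option linter.unusedSectionVars false

variable {Ω : Type} [Fintype Ω] [Nonempty Ω] {N M R : ℕ} {f f1 f2 f3 : ℝ → ℝ} {B D L α : ℝ}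

/-- a Gaussian moment of order four -/
noncomputable def m4 : ℝ := ∫ z, z ^ 4 ∂gaussianReal 0 1

lemma m4_nonneg : 0 ≤ m4 := integral_nonneg fun z => by positivity

lemma pow_four_le {x y : Fin N → ℝ} (hx : dot x x = 1) : dot x y ^ 4 ≤ N * ∑ i, y i ^ 4 := by
  have h1 : dot x y ^ 2 ≤ ∑ i, y i ^ 2 := by
    refine (sum_mul_sq_le_sq_mul_sq univ x y).trans_eq ?_
    rw [show ∑ i, x i ^ 2 = 1 by simpa [dot, sq] using hx, one_mul]
  have h2 := sq_sum_le_card_mul_sum_sq (s := (univ : Finset (Fin N))) (f := fun i => y i ^ 2)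
  simp only [card_univ, Fintype.card_fin, ← pow_mul] at h2
  rw [show dot x y ^ 4 = (dot x y ^ 2) ^ 2 by ring]
  exact (pow_le_pow_left₀ (sq_nonneg _) h1 2).trans h2

lemma integrable_quad : Integrable (fun y : Fin N → ℝ => ∑ i, y i ^ 4) (gauss (Fin N)) := by
  have h : Integrable (fun z : ℝ => z ^ 4) (gaussianReal 0 1) := by
    simpa [Even.pow_abs (show Even 4 by decide)] using Par.integrable_pow_gaussian 4
  exact integrable_finsetSum _ fun i _ =>
    (measurePreserving_eval (fun _ : Fin N => gaussianReal 0 1) i).integrable_comp_of_integrable h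

/-- fourth moment of a unit linear form -/
lemma integral_dot_four {x : Fin N → ℝ} (hx : dot x x = 1) :
    Integrable (fun y => dot x y ^ 4) (gauss (Fin N)) ∧ ∫ y, dot x y ^ 4 ∂gauss (Fin N) = m4 := by
  refine ⟨(integrable_quad.const_mul (N:ℝ)).mono' ((Par.continuous_dot_left x).pow 4).aestronglyMeasurable
    (Filter.Eventually.of_forall fun y => ?_), Par.Borel.integral_dot (F := fun z => z ^ 4) (by fun_prop) x hx⟩
  rw [norm_of_nonneg (by positivity)]
  exact pow_four_le hx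

variable {w₀ : List Ω → ℝ} {v : List Ω → Fin N → ℝ}

lemma wV_ins (b : Fin (M + 1)) (y : Fin N → ℝ) (g : Fin M → Fin N → ℝ) :
    wV f w₀ v (ins b y g) = fun p => wV f w₀ v g p * fac f v y p := by
  funext p
  rw [wV, wV, fac, Fin.sum_univ_succAbove _ b, mul_assoc, ← exp_add]
  simp only [ins, Fin.insertNth_apply_same, Fin.insertNth_apply_succAbove, add_comm]

lemma integral_four_le (hS : Sm f f1 f2 f3 B D) (hB : ∀ x, f x ≤ B) (hR : 1 ≤ R) (hw : ∀ p, 0 < w₀ p)
    (hv : ∀ p, cv v p p = 1) (a : Fin M) :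
    Integrable (fun g => ET R (lin R) (wV f w₀ v g) [(0, 0)] fun ps => dot (v (ps.getD 0 [])) (g a) ^ 4)
        (pats N M) ∧
      ∫ g, ET R (lin R) (wV f w₀ v g) [(0, 0)] (fun ps => dot (v (ps.getD 0 [])) (g a) ^ 4) ∂pats N M ≤
        exp (2 * B) * m4 := by
  obtain ⟨M, rfl⟩ : ∃ M', M = M' + 1 := ⟨M - 1, by have := a.pos; omega⟩
  have hp : ∀ g : Fin (M + 1) → Fin N → ℝ, ∀ p, 0 < wV f w₀ v g p := fun g => wV_pos hw v g
  have hi : Integrable (fun g => ET R (lin R) (wV f w₀ v g) [(0, 0)] fun ps => dot (v (ps.getD 0 [])) (g a) ^ 4)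
      (pats N (M + 1)) := by
    refine (((measurePreserving_eval (fun _ : Fin (M + 1) => gauss (Fin N)) a).integrable_comp_of_integrable
      integrable_quad).const_mul (N:ℝ)).mono'
      (Par.continuous_ET (continuous_wV hS.cont0 w₀ v) hp R _
        fun ps => (((Par.continuous_dot_left _).comp (continuous_apply a)).pow 4)).aestronglyMeasurable
      (Filter.Eventually.of_forall fun g => ?_)
    refine (Real.norm_eq_abs _).trans_le (Vale.Agent.P168.MP.ET_bound (hp g) fun ps => ?_)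
    rw [abs_of_nonneg (by positivity)]
    exact pow_four_le (hv _)
  refine ⟨hi, ?_⟩
  rw [Par.integral_pats_succ a hi]
  refine (integral_mono_of_nonneg (Filter.Eventually.of_forall fun g => integral_nonneg fun y =>
    Vale.Agent.P168.MP.ET_nonneg (hp _) fun ps => by positivity) (integrable_const (exp (2 * B) * m4))
    (Filter.Eventually.of_forall fun g => ?_)).trans_eq (by simp)
  have hw' : ∀ p, 0 < wV f w₀ v g p := wV_pos hw v g
  obtain ⟨hI, hIe⟩ := Par.integral_ET_one (μ := gauss (Fin N)) (R := R) (m := lin R) (w := wV f w₀ v g)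
    (fun y p => dot (v p) y ^ 4 * exp (2 * B))
    fun p => (integral_dot_four (hv p)).1.mul_const _
  refine (integral_mono_of_nonneg (Filter.Eventually.of_forall fun y =>
    Vale.Agent.P168.MP.ET_nonneg (hp _) fun ps => by positivity) hI (Filter.Eventually.of_forall fun y => ?_)).trans ?_
  · beta_reduce
    rw [wV_ins]
    simp only [ins, Fin.insertNth_apply_same]
    refine (Par.ET_one_tilt hR hw' (exp_pos (-B)) (fun p => ?_)
      (H := fun p => dot (v p) y ^ 4) fun p => Even.pow_nonneg (by decide) _).trans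
      (Vale.Agent.P168.MP.ET_mono hw' fun ps => mul_le_mul_of_nonneg_left ?_ (Even.pow_nonneg (by decide) _))
    · exact exp_le_exp.2 (hS.lb _)
    · rw [fac, div_le_iff₀ (exp_pos _), ← exp_add]
      exact exp_le_exp.2 (by linarith [hB (dot (v (ps.getD 0 [])) y)])
  · rw [hIe]
    refine (Vale.Agent.P168.MP.ET_mono hw' (G := fun _ => exp (2 * B) * m4) fun ps => ?_).trans_eq
      (Vale.Agent.P168.MP.ET_const hw' _ _)
    rw [integral_mul_const, (integral_dot_four (hv _)).2, mul_comm]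

lemma integral_u4_le (hS : Sm f f1 f2 f3 B D) (hB : ∀ x, f x ≤ B) (hR : 1 ≤ R) (hw : ∀ p, 0 < w₀ p)
    (hv : ∀ p, cv v p p = 1) :
    Integrable (fun g => ET R (lin R) (wV f w₀ v g) [(0, 0)] fun ps => u4 v g (ps.getD 0 [])) (pats N M) ∧
      ∫ g, ET R (lin R) (wV f w₀ v g) [(0, 0)] (fun ps => u4 v g (ps.getD 0 [])) ∂pats N M ≤
        M * (exp (2 * B) * m4 + 2) := by
  have e : ∀ g : Fin M → Fin N → ℝ, ET R (lin R) (wV f w₀ v g) [(0, 0)] (fun ps => u4 v g (ps.getD 0 [])) =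
      ∑ a, (ET R (lin R) (wV f w₀ v g) [(0, 0)] (fun ps => dot (v (ps.getD 0 [])) (g a) ^ 4) + 2) := fun g => by
    simp only [u4]
    rw [Vale.Agent.P168.MP.ET_sum]
    exact sum_congr rfl fun a _ => by rw [Vale.Agent.P168.MP.ET_add, Vale.Agent.P168.MP.ET_const (wV_pos hw v g)]
  have hi : ∀ a : Fin M, Integrable (fun g => ET R (lin R) (wV f w₀ v g) [(0, 0)]
      (fun ps => dot (v (ps.getD 0 [])) (g a) ^ 4) + 2) (pats N M) := fun a =>
    (integral_four_le hS hB hR hw hv a).1.add (integrable_const _)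
  simp only [e]
  refine ⟨integrable_finsetSum _ fun a _ => hi a, ?_⟩
  rw [integral_finsetSum _ fun a _ => hi a]
  refine (sum_le_sum (g := fun _ => exp (2 * B) * m4 + 2) fun a _ => ?_).trans_eq (by simp; ring)
  rw [integral_add (integral_four_le hS hB hR hw hv a).1 (integrable_const _), integral_const, probReal_univ, one_smul]
  exact add_le_add (integral_four_le hS hB hR hw hv a).2 le_rfl

lemma abs_qKV_le (hS : Sm f f1 f2 f3 B D) (g : Fin M → Fin N → ℝ) (p p' : List Ω) :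
    |qKV f1 v g p p'| ≤ D ^ 2 := by
  rw [qKV, abs_div, Nat.abs_cast]
  refine div_le_of_le_mul₀ (Nat.cast_nonneg _) (sq_nonneg D) ((abs_sum_le_sum_abs _ _).trans
    ((sum_le_sum (g := fun _ => D ^ 2) fun i _ => ?_).trans_eq (by simp [mul_comm])))
  rw [abs_mul, sq]
  exact mul_le_mul (hS.b1 _) (hS.b1 _) (abs_nonneg _) hS.nonneg

/-- the covariance of the new field against the field path -/
lemma adev_av_le [NeZero N] (hS : Sm f f1 f2 f3 B D) (hR : 1 ≤ R) {w : List Ω → ℝ} (hw : ∀ p, 0 < w p)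
    (g : Fin M → Fin N → ℝ) {q : ℕ → ℝ} (hq : Prof R q 1) {A : ℝ} (hMA : (M : ℝ) / N ≤ A) :
    adev R w (cv (av f1 v g)) (fun l => α * Gm f f1 R q l) ≤
      A * adev R w (qKV f1 v g) (Gm f f1 R q) + 2 * (D ^ 2 * |(M : ℝ) / N - α|) := by
  have hN0 : (0:ℝ) < N := Nat.cast_pos.2 (NeZero.pos N)
  set ρ := (M : ℝ) / N
  have hρ : 0 ≤ ρ := by positivity
  have hG := Par.gm_prof hS hR hq
  have hd : ∀ l ≤ R, devOf R w (cv (av f1 v g)) (fun l => α * Gm f f1 R q l) l ≤
      A * devOf R w (qKV f1 v g) (Gm f f1 R q) l + D ^ 2 * |ρ - α| := fun l hl => by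
    simp only [devOf]
    rw [← Vale.Agent.P168.MP.ET_const_mul, ← Vale.Agent.P168.MP.ET_const (R := R) (m := lin R) hw [(0, l), (0, 0)]
      (D ^ 2 * |ρ - α|), ← Vale.Agent.P168.MP.ET_add]
    refine Vale.Agent.P168.MP.ET_mono hw fun ps => ?_
    have e : cv (av f1 v g) (ps.getD 0 []) (ps.getD 1 []) = ρ * qKV f1 v g (ps.getD 0 []) (ps.getD 1 []) := by
      rcases Nat.eq_zero_or_pos M with rfl | hM
      · simp [cv, dot, qKV]
      have : (M:ℝ) ≠ 0 := Nat.cast_ne_zero.2 hM.ne'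
      simp only [cv, dot, av, qKV, ρ, div_mul_div_comm, mul_self_sqrt hN0.le, ← sum_div]
      field_simp
    obtain ⟨g0, g1⟩ := hG.upper hl
    rw [e, show ρ * qKV f1 v g (ps.getD 0 []) (ps.getD 1 []) - α * Gm f f1 R q l =
      ρ * (qKV f1 v g (ps.getD 0 []) (ps.getD 1 []) - Gm f f1 R q l) + (ρ - α) * Gm f f1 R q l by ring]
    refine (abs_add_le _ _).trans (add_le_add ?_ ?_)
    · rw [abs_mul, abs_of_nonneg hρ]; exact mul_le_mul_of_nonneg_right hMA (abs_nonneg _)
    · rw [abs_mul, abs_of_nonneg g0, mul_comm]; exact mul_le_mul_of_nonneg_right g1 (abs_nonneg _)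
  have hR0 : (0:ℝ) < R := by exact_mod_cast hR
  have h1 : (∑ l ∈ range R, devOf R w (cv (av f1 v g)) (fun l => α * Gm f f1 R q l) l) / R ≤
      A * ((∑ l ∈ range R, devOf R w (qKV f1 v g) (Gm f f1 R q) l) / R) + D ^ 2 * |ρ - α| := by
    refine (div_le_div_of_nonneg_right (sum_le_sum fun l hl => hd l (mem_range.1 hl).le) hR0.le).trans_eq ?_
    rw [sum_add_distrib, ← mul_sum, sum_const, card_range, nsmul_eq_mul, add_div, mul_div_assoc,
      mul_div_cancel_left₀ _ hR0.ne']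
  have h2 := hd R le_rfl
  simp only [adev]
  linarith

lemma nest_log_mono (hR : 1 ≤ R) {w : List Ω → ℝ} (hw : ∀ p, 0 < w p) {F F' : List Ω → ℝ}
    (hF : ∀ p, 0 < F p) (hF' : ∀ p, 0 < F' p) {d : ℝ} (h : ∀ p, exp (-d) * F p ≤ F' p) :
    log (nest (lin R) w F R []) - d ≤ log (nest (lin R) w F' R []) := by
  have e1 := Vale.Agent.P168.MP.logZ0_mul (R := R) (m := lin R) hw hF
  have e2 := Vale.Agent.P168.MP.logZ0_mul (R := R) (m := lin R) hw hF'
  have h1 := logZ0_le_add hR (fun p => mul_pos (hw p) (hF p)) (fun p => mul_pos (hw p) (hF' p)) (d := d) fun p => by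
    rw [mul_left_comm]; exact mul_le_mul_of_nonneg_left (h p) (hw p).le
  linarith

/-- **the truncated site at every curvature is almost its functional** -/
theorem site_value (hS : Sm f f1 f2 f3 B D) (hs : SiteSm) (hL : 1 ≤ L) (Vb V : ℝ) (hVb : 0 ≤ Vb) {θ : ℝ}
    (hθ : 0 < θ) :
    ∃ K : ℝ, 0 ≤ K ∧ ∀ {Ω : Type} [Fintype Ω] [Nonempty Ω] {R N M : ℕ} [NeZero N], 1 ≤ R →
      ∀ {w : List Ω → ℝ}, (∀ p, 0 < w p) → ∀ (v : List Ω → Fin N → ℝ) (g : Fin M → Fin N → ℝ),
      (∀ p, cv (av f1 v g) p p ≤ V) → ∀ {b : ℝ}, |b| ≤ Vb → ∀ {q : ℕ → ℝ}, Prof R q V →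
      Par.Phi (fun y => exp (eL b L y)) R (lin R) q - K * adev R w (cv (av f1 v g)) q - 2 * (L ^ 2 * θ) ≤
        ∫ z, log (nest (lin R) w (fac (eL b L) (av f1 v g) z) R []) ∂gauss (Fin M) := by
  obtain ⟨B', D', hsm⟩ := hs hL Vb
  set n := ⌈2 * Vb / θ⌉₊
  set bk : Fin (n + 1) → ℝ := fun k => min Vb (-Vb + k * θ)
  have hbk : ∀ k, |bk k| ≤ Vb := fun k => abs_le.2 ⟨le_min (by linarith) (le_add_of_nonneg_right (by positivity)),
    min_le_left _ _⟩
  choose e1 e2 e3 he using fun k => (hsm (bk k) (hbk k)).1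
  choose Kf hKf hval using fun k => Par.value_close (he k) V
  refine ⟨∑ k, Kf k, sum_nonneg fun k _ => hKf k, ?_⟩
  intro Ω _ _ R N M _ hR w hw v g hav b hb q hq
  obtain ⟨hb1, hb2⟩ := abs_le.1 hb
  have hf0 : 0 ≤ (b + Vb) / θ := div_nonneg (by linarith) hθ.le
  set j := ⌊(b + Vb) / θ⌋₊
  have hj : j < n + 1 := Nat.lt_succ_of_le (Nat.floor_le_ceil _ |>.trans (Nat.ceil_mono
    (div_le_div_of_nonneg_right (by linarith) hθ.le)))
  have hd : |b - bk ⟨j, hj⟩| ≤ θ := by
    have h1 : (j:ℝ) * θ ≤ b + Vb := (le_div_iff₀ hθ).1 (Nat.floor_le hf0)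
    have h2 : b + Vb < (j + 1) * θ := (div_lt_iff₀ hθ).1 (Nat.lt_floor_add_one _)
    simp only [bk]
    rw [min_eq_right (by linarith), abs_le]
    constructor <;> linarith
  set k : Fin (n + 1) := ⟨j, hj⟩
  obtain ⟨g1, g2, g3, hg⟩ := (hsm b hb).1
  have hdist : ∀ y, |eL b L y - eL (bk k) L y| ≤ L ^ 2 * θ := fun y =>
    ((hsm b hb).2 _ y (hbk k)).trans (mul_le_mul_of_nonneg_left hd (sq_nonneg L))
  have h1 := (abs_le.1 (phi_sup hg (he k) hdist hR hq)).2
  have h2 := (abs_le.1 (hval k hR hw hav hq)).1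
  have hi : ∀ {e e1 e2 e3 : ℝ → ℝ} {B' D' : ℝ}, Sm e e1 e2 e3 B' D' →
      Integrable (fun z => log (nest (lin R) w (fac e (av f1 v g) z) R [])) (gauss (Fin M)) :=
    fun hE => integrable_log_fac hS hR hw hE v g
  have h3 : (∫ z, log (nest (lin R) w (fac (eL (bk k) L) (av f1 v g) z) R []) ∂gauss (Fin M)) - L ^ 2 * θ ≤
      ∫ z, log (nest (lin R) w (fac (eL b L) (av f1 v g) z) R []) ∂gauss (Fin M) := by
    have := integral_mono ((hi (he k)).sub (integrable_const (L ^ 2 * θ))) (hi hg) fun z =>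
      nest_log_mono hR hw (fun p => exp_pos _) (fun p => exp_pos _) fun p => by
        show exp _ * exp _ ≤ exp _; rw [← exp_add]
        exact exp_le_exp.2 (by linarith [(abs_le.1 (hdist (dot (av f1 v g p) z))).1])
    rwa [integral_sub' (hi (he k)) (integrable_const _), integral_const, probReal_univ, one_smul] at this
  have h4 : Kf k * adev R w (cv (av f1 v g)) q ≤ (∑ k, Kf k) * adev R w (cv (av f1 v g)) q :=
    mul_le_mul_of_nonneg_right (single_le_sum (fun k _ => hKf k) (mem_univ k)) (Par.adev_nn hw)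
  linarith

lemma continuous_radU (hS : Sm f f1 f2 f3 B D) (p : List Ω) :
    Continuous fun g : Fin M → Fin N → ℝ => radU f1 f2 v g p := by
  have h1 := hS.cont1
  have h2 := hS.cont2
  unfold radU dot
  fun_prop

lemma continuous_qKV (hS : Sm f f1 f2 f3 B D) (p p' : List Ω) :
    Continuous fun g : Fin M → Fin N → ℝ => qKV f1 v g p p' := by
  have h1 := hS.cont1
  unfold qKV dot
  fun_prop

/-- the mean radial term of a path is integrable -/
lemma integrable_rad [NeZero N] (hS : Sm f f1 f2 f3 B D) (hw : ∀ p, 0 < w₀ p) (hv : ∀ p, cv v p p = 1)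
    {H : (Fin M → Fin N → ℝ) → ℝ} (hH : Continuous H) {V : ℝ} (hV : ∀ g, |H g| ≤ V) :
    Integrable (fun g => ET R (lin R) (wV f w₀ v g) [(0, 0)] fun ps => |radU f1 f2 v g (ps.getD 0 []) + H g|)
      (pats N M) := by
  refine Par.integrable_of_gsq (C := D) (C' := (M:ℝ) * (2 * D) + V)
    (Par.continuous_ET (continuous_wV hS.cont0 w₀ v) (fun g => wV_pos hw v g) R _
      fun ps => ((continuous_radU hS _).add hH).abs) fun g => ?_
  refine Vale.Agent.P168.MP.ET_bound (wV_pos hw v g) fun ps => ?_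
  rw [abs_abs]
  refine (abs_add_le _ _).trans ?_
  have hN1 : (1:ℝ) ≤ N := Nat.one_le_cast.2 (NeZero.pos N)
  have h : |radU f1 f2 v g (ps.getD 0 [])| ≤ D * Par.gsq g + M * (2 * D) := by
    rw [radU, abs_div, Nat.abs_cast]
    refine (div_le_self (abs_nonneg _) hN1).trans ((abs_sum_le_sum_abs _ _).trans ?_)
    refine (sum_le_sum (g := fun i => D * ∑ j, g i j ^ 2 + 2 * D) fun i _ => ?_).trans_eq
      (by rw [sum_add_distrib, ← mul_sum, Par.gsq, sum_const, card_univ, Fintype.card_fin, nsmul_eq_mul])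
    refine (abs_sub _ _).trans ?_
    rw [abs_mul]
    have a1 := hS.b2 (dot (v (ps.getD 0 [])) (g i))
    have a2 := mul_le_mul_of_nonneg_left (hS.b1 (dot (v (ps.getD 0 [])) (g i))) (abs_nonneg (dot (v (ps.getD 0 [])) (g i)))
    have a3 : dot (v (ps.getD 0 [])) (g i) ^ 2 ≤ ∑ j, g i j ^ 2 := by
      refine (sum_mul_sq_le_sq_mul_sq univ _ _).trans_eq ?_
      rw [show ∑ j, v (ps.getD 0 []) j ^ 2 = 1 by simpa [cv, dot, sq] using hv (ps.getD 0 []), one_mul]
    have a4 : |dot (v (ps.getD 0 [])) (g i)| ≤ ∑ j, g i j ^ 2 + 1 := by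
      nlinarith [sq_abs (dot (v (ps.getD 0 [])) (g i)), sq_nonneg (|dot (v (ps.getD 0 [])) (g i)| - 1)]
    have a5 := mul_le_mul_of_nonneg_right a4 hS.nonneg
    linarith
  linarith [hV g]

lemma adev_qKV_facts (hk : KerProf) (hS : Sm f f1 f2 f3 B D) (hQ : QConcV f f1) : ∃ C : ℝ, 0 ≤ C ∧
    ∀ {Ω : Type} [Fintype Ω] [Nonempty Ω] {R N M : ℕ}, 1 ≤ R → 2 ≤ M →
      ∀ {w₀ : List Ω → ℝ}, (∀ p, 0 < w₀ p) → ∀ {v : List Ω → Fin N → ℝ}, (∀ p, cv v p p = 1) → ∀ {t : ℝ}, 0 < t →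
      Integrable (fun g => adev R (wV f w₀ v g) (qKV f1 v g) (Gm f f1 R (qV f R w₀ v g))) (pats N M) ∧
      ∫ g, adev R (wV f w₀ v g) (qKV f1 v g) (Gm f f1 R (qV f R w₀ v g)) ∂pats N M ≤
        2 * t + C / t * ((∫ g, adV f R w₀ v g ∂pats N M) + 1 / M) := by
  obtain ⟨C, hC, hq⟩ := hQ
  refine ⟨3 * C, by positivity, fun {Ω} _ _ {R N M} hR hM {w₀} hw {v} hv {t} ht => ?_⟩
  have hf := hS.cont0
  have hR0 : (0:ℝ) < R := by exact_mod_cast hR
  have hP : ∀ g : Fin M → Fin N → ℝ, Prof R (qV f R w₀ v g) 1 := fun g => (hk hR (wV_pos hw v g) hv).1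
  have hi : ∀ l ≤ R, Integrable (fun g => devOf R (wV f w₀ v g) (qKV f1 v g) (Gm f f1 R (qV f R w₀ v g)) l)
      (pats N M) := fun l hl => by
    have hG : Continuous fun g : Fin M → Fin N → ℝ => Gm f f1 R (qV f R w₀ v g) l := by
      simpa [hOf] using continuous_hOf (α := 1) hS hR hP (fun l => continuous_qV hf hw v l) hl
    refine Integrable.of_bound (Par.continuous_ET (continuous_wV hf w₀ v) (fun g => wV_pos hw v g) R _
      fun ps => ((continuous_qKV hS _ _).sub hG).abs).aestronglyMeasurable (D ^ 2 + D ^ 2)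
      (Filter.Eventually.of_forall fun g => ?_)
    rw [Real.norm_eq_abs, abs_of_nonneg (Par.devOf_nn (wV_pos hw v g) l)]
    obtain ⟨a, b⟩ := (Par.gm_prof hS hR (hP g)).upper hl
    exact Par.devOf_le (wV_pos hw v g) hl (abs_qKV_le hS g) ((abs_of_nonneg a).trans_le b)
  have hd : ∀ l ≤ R, Integrable (fun g => devOf R (wV f w₀ v g) (cv v) (qV f R w₀ v g) l) (pats N M) := fun l hl => by
    refine Integrable.of_bound (Par.continuous_ET (continuous_wV hf w₀ v) (fun g => wV_pos hw v g) R _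
      fun ps => (continuous_const.sub (continuous_qV hf hw v l)).abs).aestronglyMeasurable (1 + 1)
      (Filter.Eventually.of_forall fun g => ?_)
    rw [Real.norm_eq_abs, abs_of_nonneg (Par.devOf_nn (wV_pos hw v g) l)]
    obtain ⟨a, b⟩ := (hP g).upper hl
    exact Par.devOf_le (wV_pos hw v g) hl (abs_cv_le hv) ((abs_of_nonneg a).trans_le b)
  obtain ⟨iA, eA⟩ := Par.integrable_adev_of (C := fun g => qKV f1 v g) hR hi
  refine ⟨iA, ?_⟩
  have iV := integrable_adV (M := M) hf hR hw hv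
  set AD := ∫ g, adV f R w₀ v g ∂pats N M
  set W := fun l => ∫ g, devOf R (wV f w₀ v g) (cv v) (qV f R w₀ v g) l ∂pats N M
  have hAD : (∑ l ∈ range R, W l) / R + W R = AD := (Par.integrable_adev_of hR hd).2.symm
  have hb : ∀ l ≤ R, ∫ g, devOf R (wV f w₀ v g) (qKV f1 v g) (Gm f f1 R (qV f R w₀ v g)) l ∂pats N M ≤
      t + C / t * (W l + AD + 1 / M) := fun l hl => by
    refine (hq hR hM hw hv ht hl).trans_eq ?_
    rw [integral_add (hd l hl) iV]
  have hs := sum_le_sum (s := range R) fun l hl => hb l (mem_range.1 hl).le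
  rw [sum_add_distrib, ← mul_sum, sum_add_distrib, sum_add_distrib, sum_const, sum_const, sum_const,
    card_range, nsmul_eq_mul, nsmul_eq_mul, nsmul_eq_mul] at hs
  rw [eA]
  have h1 := div_le_div_of_nonneg_right hs hR0.le
  rw [show ((R:ℝ) * t + C / t * (∑ l ∈ range R, W l + R * AD + R * (1 / (M:ℝ)))) / R =
    t + C / t * ((∑ l ∈ range R, W l) / R + AD + 1 / M) by field_simp] at h1
  have h2 := hb R le_rfl
  have hCt : 0 ≤ C / t := by positivity
  have hM0 : 0 ≤ 1 / (M:ℝ) := by positivity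
  have e : C / t * ((∑ l ∈ range R, W l) / R + AD + 1 / M) + C / t * (W R + AD + 1 / M) =
      C / t * (3 * AD + 2 * (1 / M)) := by rw [← mul_add, ← hAD]; ring
  have e' : 3 * C / t * (AD + 1 / M) = C / t * (3 * AD + 2 * (1 / M)) + C / t * (1 / M) := by ring
  linarith [mul_nonneg hCt hM0]

end Vale.Agent.P157.Sph.Dim
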