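import Vale.Agent.P157.Sph.LowerInt
import Vale.Agent.P157.Par.EsiteLip

/-! The pointwise bound behind the lower bound: a profile with a small residue pays at least the infimum. -/

open MeasureTheory ProbabilityTheory Real Finset Filter
open scoped Topology
open Vale.Agent.P168.MP (lin avg)
open Vale.Agent.P157.Par (Sm Prof dist1 Gm)

namespace Vale.Agent.P157.Sph

set_option linter.unusedSectionVars false

variable {R : ℕ} {f f1 f2 f3 : ℝ → ℝ} {B D α : ℝ} {q : ℕ → ℝ}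

lemma hOf_prof (hS : Sm f f1 f2 f3 B D) (hα : 0 ≤ α) (hR : 1 ≤ R) (hq : Prof R q 1) :
    Prof R (hOf α f f1 R q) (α * D ^ 2) := (Par.gm_prof hS hR hq).scale hα

lemma root_le {V : ℝ} {h : ℕ → ℝ} (hR : 1 ≤ R) (hq : Prof R q 1) (hh : Prof R h V) : root R q h ≤ 1 + V := by
  have hR' : (0:ℝ) < R := by exact_mod_cast hR
  refine add_le_add le_rfl ((div_le_iff₀ hR').2 ((sum_le_sum (g := fun _ => V) fun l hl => ?_).trans_eq
    (by simp [mul_comm])))
  obtain ⟨a0, a1⟩ := hh.upper (mem_range.1 hl).le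
  obtain ⟨b0, b1⟩ := hq.upper (mem_range.1 hl).le
  calc h l * (1 - q l) ≤ V * 1 := mul_le_mul a1 (by linarith) (by linarith) (a0.trans a1)
    _ = V := mul_one V

lemma dd_top (hR : 1 ≤ R) (hqR : q R = 1) (h : ℕ → ℝ) :
    dd R (root R q h) h (R - 1) + h R - h (R - 1) = 1 + hqTop R h q := by
  have h1 := lam_prec (q := q) (h := h) hR (R - 1) (by omega)
  rw [lam_top hR] at h1
  simp only [precP, lt_irrefl, if_false, if_pos (show R - 1 < R by omega)] at h1
  simp only [hqTop, hqR, mul_one]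
  linarith

/-- **a profile with a small residue pays at least the infimum** -/
theorem pointwise_lower (hS : Sm f f1 f2 f3 B D) (hα : 0 ≤ α) {C4 C5 KL L : ℝ}
    (hR : 1 ≤ R) (hq : Prof R q 1) (hqR : q R = 1) (hKL : 0 ≤ KL) (hPL : Par.PhiLip f KL)
    (hF : ∀ {h : ℕ → ℝ}, Prof R h (α * D ^ 2) →
      ∃ q', Adm R q' ∧ dist1 R q q' ≤ C4 * ((∑ l ∈ range R, |prodU R (precP R q h) q l|) / R) ∧
        entS R q' ≤ psiG R (root R q h) h + (∑ l ∈ range R, h l * q l) / (2 * R) +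
          C4 * ((∑ l ∈ range R, |prodU R (precP R q h) q l|) / R))
    (hT : ∀ {h : ℕ → ℝ}, Prof R h (α * D ^ 2) → ∀ {d0 : ℝ}, 1 ≤ d0 → d0 ≤ 1 + α * D ^ 2 →
      psiG R d0 h - (dd R d0 h (R - 1) + h R - h (R - 1) - 1 - h R) / 2 - C5 / L ^ 2 ≤
        Par.Phi (fun y => exp (eL (dd R d0 h (R - 1) + h R - h (R - 1)) L y)) R (lin R) h)
    {s : ℝ} (hs : ∀ q', Adm R q' → s ≤ valS α f R q') :
    s - α * Par.Phi (fun y => exp (f y)) R (lin R) q - (α * KL + 1) * C4 * eRes α f f1 R q - C5 / L ^ 2 ≤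
      Par.Phi (fun y => exp (eL (1 + hqTop R (hOf α f f1 R q) q) L y)) R (lin R) (hOf α f f1 R q) := by
  set h := hOf α f f1 R q with hh
  have hp : Prof R h (α * D ^ 2) := hOf_prof hS hα hR hq
  obtain ⟨q', ha, hd, he⟩ := hF hp
  have h1 := hT hp (one_le_root hR (fun l hl => (hq.upper hl.le).2) fun l hl => (hp.upper hl.le).1)
    (root_le hR hq hp)
  rw [dd_top hR hqR] at h1
  have h2 := hs q' ha
  have h3 := (abs_le.1 (hPL R q q' hR hq ha.prof)).1
  have h4 := mul_le_mul_of_nonneg_left h3 hα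
  have h5 := mul_le_mul_of_nonneg_left hd (mul_nonneg hα hKL)
  have e : eRes α f f1 R q = (∑ l ∈ range R, |prodU R (precP R q h) q l|) / R := rfl
  have e2 : (1 + hqTop R h q - 1 - h R) / 2 = -((∑ l ∈ range R, h l * q l) / (2 * R)) := by
    simp only [hqTop, hqR, mul_one]; field_simp; ring
  rw [e2] at h1
  rw [e]
  simp only [valS] at h2
  linarith

lemma abs_gm_lip (hS : Sm f f1 f2 f3 B D) : ∃ C : ℝ, 0 ≤ C ∧ ∀ (R : ℕ) (q q' : ℕ → ℝ), 1 ≤ R → Prof R q 1 →
    Prof R q' 1 → ∀ l ≤ R, |Gm f f1 R q l - Gm f f1 R q' l| ≤ ((R : ℝ) + 1) * C * dist1 R q q' := by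
  obtain ⟨C, hC, h⟩ := Par.Phi_lip hS 1
  refine ⟨C, hC, fun R q q' hR hq hq' l hl => ((h R q q' hR hq hq').2 l hl).trans ?_⟩
  have hd : |q l - q' l| ≤ (R : ℝ) * dist1 R q q' := by
    rcases Nat.lt_or_eq_of_le hl with h' | rfl
    · have hR' : (0:ℝ) < R := by exact_mod_cast hR
      rw [dist1, mul_add, mul_div_cancel₀ _ hR'.ne']
      exact le_add_of_le_of_nonneg (single_le_sum (f := fun l => |q l - q' l|) (fun _ _ => abs_nonneg _)
        (mem_range.2 h')) (by positivity)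
    · refine le_trans ?_ (le_mul_of_one_le_left (Par.dist1_nonneg _ _ _) (by exact_mod_cast hR))
      exact le_add_of_nonneg_left (by positivity)
  have : |q l - q' l| + (∑ j ∈ range R, |q j - q' j|) / R + |q R - q' R| ≤ ((R:ℝ) + 1) * dist1 R q q' := by
    simp only [dist1] at hd ⊢; linarith
  calc _ ≤ C * (((R:ℝ) + 1) * dist1 R q q') := mul_le_mul_of_nonneg_left this hC
    _ = _ := by ring

section cont
variable {X : Type*} [TopologicalSpace X] {Q : X → ℕ → ℝ}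

lemma continuous_hOf (hS : Sm f f1 f2 f3 B D) (hR : 1 ≤ R) (hQ : ∀ x, Prof R (Q x) 1)
    (hc : ∀ l, Continuous fun x => Q x l) {l : ℕ} (hl : l ≤ R) : Continuous fun x => hOf α f f1 R (Q x) l := by
  obtain ⟨C, hC, h⟩ := abs_gm_lip hS
  exact ((Par.cont_functional hR (F := fun q => Gm f f1 R q l) (by positivity)
    (fun q q' hq hq' => h R q q' hR hq hq' l hl) hQ hc).1).const_mul α

lemma continuous_eRes (hS : Sm f f1 f2 f3 B D) (hR : 1 ≤ R) (hQ : ∀ x, Prof R (Q x) 1)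
    (hc : ∀ l, Continuous fun x => Q x l) : Continuous fun x => eRes α f f1 R (Q x) := by
  have hH : ∀ l ≤ R, Continuous fun x => hOf α f f1 R (Q x) l := fun l hl => continuous_hOf hS hR hQ hc hl
  have hP : ∀ l ≤ R, Continuous fun x => precP R (Q x) (hOf α f f1 R (Q x)) l := fun l hl => by
    simp only [precP]
    split_ifs with h
    · exact (hH l hl).neg
    · exact continuous_const.sub ((continuous_finsetSum _ fun j hj =>
        (hH j (mem_range.1 hj).le).mul (hc j)).div_const _)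
  unfold eRes
  refine (continuous_finsetSum _ fun l hl => Continuous.abs ?_).div_const _
  have hl' := mem_range.1 hl
  simp only [prodU, if_pos hl']
  refine ((((hP R le_rfl).mul (hc l)).add ((hP l hl'.le).mul (hc R))).sub
    ((((continuous_finsetSum _ fun j hj => (hP j ?_).mul (hc j)).add
      ((continuous_finsetSum _ fun j hj => hP j ?_).mul (hc l))).add
      ((hP l hl'.le).mul (continuous_finsetSum _ fun j _ => hc j))).div_const _)).sub
    (continuous_const.mul ((hP l hl'.le).mul (hc l)))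
  · have := mem_range.1 hj; omega
  · have := (mem_Ico.1 hj).2; omega

lemma continuous_hqTop (hS : Sm f f1 f2 f3 B D) (hR : 1 ≤ R) (hQ : ∀ x, Prof R (Q x) 1)
    (hc : ∀ l, Continuous fun x => Q x l) : Continuous fun x => hqTop R (hOf α f f1 R (Q x)) (Q x) :=
  ((continuous_hOf hS hR hQ hc le_rfl).mul (hc R)).sub ((continuous_finsetSum _ fun j hj =>
    (continuous_hOf hS hR hQ hc (mem_range.1 hj).le).mul (hc j)).div_const _)

lemma abs_hqTop_le {V : ℝ} {h : ℕ → ℝ} (hR : 1 ≤ R) (hq : Prof R q 1) (hh : Prof R h V) :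
    |hqTop R h q| ≤ 2 * V := by
  have hR' : (0:ℝ) < R := by exact_mod_cast hR
  have hb : ∀ l ≤ R, 0 ≤ h l * q l ∧ h l * q l ≤ V := fun l hl =>
    ⟨mul_nonneg (hh.upper hl).1 (hq.upper hl).1, (mul_le_of_le_one_right (hh.upper hl).1 (hq.upper hl).2).trans (hh.upper hl).2⟩
  have hs : 0 ≤ (∑ l ∈ range R, h l * q l) / R ∧ (∑ l ∈ range R, h l * q l) / R ≤ V := by
    refine ⟨div_nonneg (sum_nonneg fun l hl => (hb l (mem_range.1 hl).le).1) hR'.le, (div_le_iff₀ hR').2 ?_⟩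
    exact (sum_le_sum (g := fun _ => V) fun l hl => (hb l (mem_range.1 hl).le).2).trans_eq (by simp [mul_comm])
  rw [hqTop, abs_le]
  constructor <;> linarith [hb R le_rfl]

lemma continuous_phiEL (hS : Sm f f1 f2 f3 B D) (hα : 0 ≤ α) (hT : SiteSm) {L : ℝ} (hL : 1 ≤ L) (hR : 1 ≤ R)
    (hQ : ∀ x, Prof R (Q x) 1) (hc : ∀ l, Continuous fun x => Q x l) :
    Continuous fun x => Par.Phi (fun y => exp (eL (1 + hqTop R (hOf α f f1 R (Q x)) (Q x)) L y)) R (lin R)
      (hOf α f f1 R (Q x)) := by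
  set V := α * D ^ 2
  obtain ⟨B', D', hsm⟩ := hT hL (1 + 2 * V)
  have hb : ∀ x, |1 + hqTop R (hOf α f f1 R (Q x)) (Q x)| ≤ 1 + 2 * V := fun x =>
    (abs_add_le _ _).trans (add_le_add (by simp) (abs_hqTop_le hR (hQ x) (hOf_prof hS hα hR (hQ x))))
  refine continuous_iff_continuousAt.2 fun x₀ => tendsto_iff_norm_sub_tendsto_zero.2 ?_
  obtain ⟨⟨g1, g2, g3, hg⟩, hlip⟩ := hsm _ (hb x₀)
  obtain ⟨C, hC, hPL⟩ := Par.Phi_lip hg V
  set b := fun x => 1 + hqTop R (hOf α f f1 R (Q x)) (Q x)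
  set H := fun x => hOf α f f1 R (Q x)
  have hbound : ∀ x, ‖Par.Phi (fun y => exp (eL (b x) L y)) R (lin R) (H x) -
      Par.Phi (fun y => exp (eL (b x₀) L y)) R (lin R) (H x₀)‖ ≤
      L ^ 2 * |b x₀ - b x| + C * ((∑ l ∈ range R, |H x l - H x₀ l|) / R + |H x R - H x₀ R|) := fun x => by
    obtain ⟨⟨k1, k2, k3, hk⟩, -⟩ := hsm _ (hb x)
    have h1 := phi_sup hk hg (δ := L ^ 2 * |b x₀ - b x|) (fun y => by
      rw [abs_sub_comm]; exact hlip _ y (hb x)) hR (hOf_prof hS hα hR (hQ x))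
    have h2 := (hPL R (H x) (H x₀) hR (hOf_prof hS hα hR (hQ x)) (hOf_prof hS hα hR (hQ x₀))).1
    exact (Real.norm_eq_abs _).trans_le ((abs_sub_le _ _ _).trans (add_le_add h1 h2))
  refine squeeze_zero (fun x => norm_nonneg _) hbound ?_
  have cH : ∀ l ≤ R, Continuous fun x => |H x l - H x₀ l| := fun l hl =>
    ((continuous_hOf hS hR hQ hc hl).sub continuous_const).abs
  have hcont : Continuous fun x => L ^ 2 * |b x₀ - b x| +
      C * ((∑ l ∈ range R, |H x l - H x₀ l|) / R + |H x R - H x₀ R|) :=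
    (((continuous_const.sub ((continuous_hqTop hS hR hQ hc).const_add 1)).abs).const_mul _).add
      ((((continuous_finsetSum _ fun l hl => cH l (mem_range.1 hl).le).div_const _).add (cH R le_rfl)).const_mul C)
  simpa using hcont.tendsto x₀

end cont

end Vale.Agent.P157.Sph

namespace Vale.Agent.P157.Sph

/-- the site value is bounded over all profiles -/
lemma phiEL_bdd {f f1 f2 f3 : ℝ → ℝ} {B D α : ℝ} {R : ℕ} (hS : Sm f f1 f2 f3 B D) (hα : 0 ≤ α) (hT : SiteSm)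
    {L : ℝ} (hL : 1 ≤ L) (hR : 1 ≤ R) : ∃ C : ℝ, ∀ {q : ℕ → ℝ}, Prof R q 1 → q R = 1 →
      |Par.Phi (fun y => exp (eL (1 + hqTop R (hOf α f f1 R q) q) L y)) R (lin R) (hOf α f f1 R q)| ≤ C := by
  set V := α * D ^ 2
  obtain ⟨B', D', hsm⟩ := hT hL (1 + 2 * V)
  have hV : 0 ≤ V := by positivity
  obtain ⟨⟨g1, g2, g3, hg⟩, hlip⟩ := hsm 1 (by rw [abs_one]; linarith)
  obtain ⟨C, hC, hPL⟩ := Par.Phi_lip hg V
  set z := fun _ : ℕ => (0:ℝ)
  have hz : Prof R z V := ⟨le_rfl, fun _ _ => le_rfl, hV⟩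
  refine ⟨|Par.Phi (fun y => exp (eL 1 L y)) R (lin R) z| + L ^ 2 * (2 * V) + C * (2 * V), fun {q} hq _ => ?_⟩
  have hp := hOf_prof hS hα hR hq
  have hb : |1 + hqTop R (hOf α f f1 R q) q| ≤ 1 + 2 * V :=
    (abs_add_le _ _).trans (add_le_add (by simp) (abs_hqTop_le hR hq hp))
  obtain ⟨⟨k1, k2, k3, hk⟩, -⟩ := hsm _ hb
  have h1 := phi_sup hg hk (δ := L ^ 2 * |1 - (1 + hqTop R (hOf α f f1 R q) q)|) (fun y => hlip _ y hb) hR hp
  have h1' : L ^ 2 * |1 - (1 + hqTop R (hOf α f f1 R q) q)| ≤ L ^ 2 * (2 * V) :=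
    mul_le_mul_of_nonneg_left (by simpa using abs_hqTop_le hR hq hp) (sq_nonneg L)
  have h2 := (hPL R (hOf α f f1 R q) z hR hp hz).1
  have h3 : (∑ l ∈ range R, |hOf α f f1 R q l - z l|) / R + |hOf α f f1 R q R - z R| ≤ 2 * V := by
    have hR' : (0:ℝ) < R := by exact_mod_cast hR
    simp only [z, sub_zero]
    have a1 : (∑ l ∈ range R, |hOf α f f1 R q l|) / R ≤ V := by
      rw [div_le_iff₀ hR']
      refine (sum_le_sum (g := fun _ => V) fun l hl => ?_).trans_eq (by simp [mul_comm])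
      rw [abs_of_nonneg (hp.upper (mem_range.1 hl).le).1]; exact (hp.upper (mem_range.1 hl).le).2
    have a2 : |hOf α f f1 R q R| ≤ V := by
      rw [abs_of_nonneg (hp.upper le_rfl).1]; exact (hp.upper le_rfl).2
    linarith
  have h4 := mul_le_mul_of_nonneg_left h3 hC
  have := abs_sub_abs_le_abs_sub (Par.Phi (fun y => exp (eL (1 + hqTop R (hOf α f f1 R q) q) L y)) R (lin R)
    (hOf α f f1 R q)) (Par.Phi (fun y => exp (eL 1 L y)) R (lin R) (hOf α f f1 R q))
  have := abs_sub_abs_le_abs_sub (Par.Phi (fun y => exp (eL 1 L y)) R (lin R) (hOf α f f1 R q))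
    (Par.Phi (fun y => exp (eL 1 L y)) R (lin R) z)
  rw [abs_sub_comm] at h1
  linarith

end Vale.Agent.P157.Sph
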