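import Vale.Agent.P157.Sph.DimMesh
import Vale.Agent.P157.Sph.LowerPt
import Vale.Agent.P157.Par.Site

/-! One dimension more: the factor of the new coordinate at fixed patterns is almost a truncated site. -/

open MeasureTheory ProbabilityTheory Real Finset
open Vale.Agent.P150 (gauss dot l1)
open Vale.Agent.P168.MP (lin ET nest ok_lin)
open Vale.Agent.P157.Par (Sm Prof adev cv fac c4)

namespace Vale.Agent.P157.Sph.Dim

set_option linter.unusedSectionVars false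

variable {Ω : Type} {N M R : ℕ} {f f1 f2 f3 : ℝ → ℝ} {B D L : ℝ}

/-- the field of the new coordinate -/
noncomputable def av (f1 : ℝ → ℝ) (v : List Ω → Fin N → ℝ) (g : Fin M → Fin N → ℝ) (p : List Ω) : Fin M → ℝ :=
  fun i => f1 (dot (v p) (g i)) / √(N : ℝ)

/-- the centred second order term -/
noncomputable def Xs (f2 : ℝ → ℝ) (v : List Ω → Fin N → ℝ) (g : Fin M → Fin N → ℝ) (z : Fin M → ℝ)
    (p : List Ω) : ℝ :=
  ∑ i, (1 / √(N : ℝ)) ^ 2 / 2 * f2 (dot (v p) (g i)) * (z i ^ 2 - 1)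

/-- the third order moments of the old fields -/
noncomputable def u4 (v : List Ω → Fin N → ℝ) (g : Fin M → Fin N → ℝ) (p : List Ω) : ℝ :=
  ∑ i, (dot (v p) (g i) ^ 4 + 2)

lemma third_arith {u z e s D : ℝ} (hD : 0 ≤ D) (hs : |s| ≤ 1) (he : |e| ≤ s ^ 2 * |u| + |s| * |z|) :
    s ^ 2 * s ^ 2 * (D * |u|) + s ^ 2 * s ^ 2 * (u ^ 2 / 2) * D + |s| ^ 3 * (|u| * |z|) * D + D * |e| ^ 3 ≤
      D * |s| ^ 3 * (8 * ((u ^ 4 + 2) + |z| ^ 3)) := by
  have hs0 := abs_nonneg s
  have hu := abs_nonneg u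
  have hz := abs_nonneg z
  rw [← sq_abs s] at he ⊢
  rw [← sq_abs u, show u ^ 4 = |u| ^ 4 from (Even.pow_abs (by decide) u).symm]
  generalize |s| = a, |u| = b, |z| = c at *
  have he3 : |e| ^ 3 ≤ 4 * a ^ 3 * (b ^ 3 + c ^ 3) := by
    refine (pow_le_pow_left₀ (abs_nonneg e) (he.trans (show a ^ 2 * b + a * c ≤ a * (b + c) by
      nlinarith [mul_le_mul_of_nonneg_left hs (mul_nonneg hs0 hu)])) 3).trans ?_
    rw [mul_pow]
    nlinarith [mul_le_mul_of_nonneg_left
      (show (b + c) ^ 3 ≤ 4 * (b ^ 3 + c ^ 3) by nlinarith [mul_nonneg (add_nonneg hu hz) (sq_nonneg (b - c))])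
      (pow_nonneg hs0 3)]
  have b1 : b ≤ b ^ 4 + 2 := by nlinarith [sq_nonneg (b ^ 2 - 1), sq_nonneg (b - 1)]
  have b2 : b ^ 2 ≤ b ^ 4 + 2 := by nlinarith [sq_nonneg (b ^ 2 - 1)]
  have b3 : b ^ 3 ≤ b ^ 4 + 2 := by
    nlinarith [sq_nonneg (b ^ 2 - 1), mul_nonneg (sq_nonneg b) (sq_nonneg (b - 1))]
  have b4 : b * c ≤ (b ^ 4 + 2) + c ^ 3 := by
    have : c ^ 2 ≤ c ^ 3 + 1 := by nlinarith [mul_nonneg hz (sq_nonneg (c - 1)), sq_nonneg (c - 1)]
    nlinarith [sq_nonneg (b - c), sq_nonneg (b ^ 2 - 1)]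
  have a4 : a ^ 2 * a ^ 2 ≤ a ^ 3 := by nlinarith [mul_le_mul_of_nonneg_left hs (pow_nonneg hs0 3)]
  have p3 : 0 ≤ D * a ^ 3 := by positivity
  have c3 : 0 ≤ c ^ 3 := by positivity
  calc a ^ 2 * a ^ 2 * (D * b) + a ^ 2 * a ^ 2 * (b ^ 2 / 2) * D + a ^ 3 * (b * c) * D + D * |e| ^ 3
      ≤ a ^ 3 * (D * b) + a ^ 3 * (b ^ 2 / 2) * D + a ^ 3 * (b * c) * D + D * (4 * a ^ 3 * (b ^ 3 + c ^ 3)) := by
        gcongr
    _ = D * a ^ 3 * (b + b ^ 2 / 2 + b * c + 4 * b ^ 3 + 4 * c ^ 3) := by ring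
    _ ≤ _ := mul_le_mul_of_nonneg_left (by nlinarith) p3

/-- one pattern, one new coordinate -/
lemma one_pattern (hS : Sm f f1 f2 f3 B D) {cc s : ℝ} (hc : 0 ≤ cc) (h : cc ^ 2 + s ^ 2 = 1) (u z : ℝ) :
    s * z * f1 u + (s ^ 2 / 2 * f2 u * (z ^ 2 - 1) + s ^ 2 / 2 * (f2 u - u * f1 u)) -
        D * |s| ^ 3 * (8 * ((u ^ 4 + 2) + |z| ^ 3)) ≤ f (cc * u + s * z) - f u := by
  obtain ⟨h1, h2⟩ := Par.shrink hc h
  have hD := hS.nonneg
  have hs : |s| ≤ 1 := (sq_le_one_iff_abs_le_one s).1 (by nlinarith [sq_nonneg cc])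
  set e := (cc - 1) * u + s * z with he_def
  have he : |e| ≤ s ^ 2 * |u| + |s| * |z| := (abs_add_le _ _).trans (add_le_add (by
    rw [abs_mul]; exact mul_le_mul_of_nonneg_right h1 (abs_nonneg u)) (abs_mul _ _).le)
  have ht := (abs_le.1 (hS.taylor_two u e)).1
  rw [show u + e = cc * u + s * z by rw [he_def]; ring] at ht
  have A : |(cc - 1 + s ^ 2 / 2) * (u * f1 u)| ≤ s ^ 2 * s ^ 2 * (D * |u|) := by
    rw [abs_mul, abs_mul, mul_comm D |u|]
    exact mul_le_mul h2 (mul_le_mul_of_nonneg_left (hS.b1 u) (abs_nonneg u)) (by positivity) (by positivity)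
  have A' : |(cc - 1) ^ 2 * (u ^ 2 / 2) * f2 u| ≤ s ^ 2 * s ^ 2 * (u ^ 2 / 2) * D := by
    rw [abs_mul, abs_of_nonneg (show 0 ≤ (cc - 1) ^ 2 * (u ^ 2 / 2) by positivity)]
    refine mul_le_mul (mul_le_mul_of_nonneg_right ?_ (by positivity)) (hS.b2 u) (abs_nonneg _) (by positivity)
    rw [← sq_abs, sq]
    exact mul_le_mul h1 h1 (abs_nonneg _) (sq_nonneg s)
  have A'' : |(cc - 1) * (u * z) * s * f2 u| ≤ |s| ^ 3 * (|u| * |z|) * D := by
    rw [abs_mul, abs_mul, abs_mul, abs_mul u z]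
    refine mul_le_mul ?_ (hS.b2 u) (abs_nonneg _) (by positivity)
    rw [show |s| ^ 3 * (|u| * |z|) = s ^ 2 * (|u| * |z|) * |s| by rw [pow_succ, sq_abs]; ring]
    exact mul_le_mul_of_nonneg_right (mul_le_mul_of_nonneg_right h1 (by positivity)) (abs_nonneg s)
  have hb := third_arith (u := u) (z := z) hD hs he
  have r : e * f1 u + e ^ 2 / 2 * f2 u = s * z * f1 u + (s ^ 2 / 2 * f2 u * (z ^ 2 - 1) + s ^ 2 / 2 * (f2 u - u * f1 u)) +
      ((cc - 1 + s ^ 2 / 2) * (u * f1 u) + (cc - 1) ^ 2 * (u ^ 2 / 2) * f2 u + (cc - 1) * (u * z) * s * f2 u) := by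
    rw [he_def]; ring
  linarith [(abs_le.1 A).1, (abs_le.1 A').1, (abs_le.1 A'').1]

/-- the error of the new factor -/
noncomputable def err (f1 f2 : ℝ → ℝ) (D L : ℝ) (v : List Ω → Fin N → ℝ) (g : Fin M → Fin N → ℝ) (hq : ℝ)
    (z : Fin M → ℝ) (p : List Ω) : ℝ :=
  L ^ 2 * |Xs f2 v g z p| + L ^ 2 * |radU f1 f2 v g p + hq| +
    8 * D * (L / √(N : ℝ)) ^ 3 * (u4 v g p + ∑ i, |z i| ^ 3)

lemma err_nonneg (hS : Sm f f1 f2 f3 B D) (hL : 0 ≤ L) (v : List Ω → Fin N → ℝ) (g : Fin M → Fin N → ℝ) (hq : ℝ)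
    (z : Fin M → ℝ) (p : List Ω) : 0 ≤ err f1 f2 D L v g hq z p := by
  have := hS.nonneg
  have : 0 ≤ u4 v g p := sum_nonneg fun i _ => by positivity
  unfold err
  positivity

lemma eL_pos (hL : 0 < L) (b y : ℝ) :
    0 < ∫ s in Set.Icc (-L) L, exp (s * y - (b - 1) * s ^ 2 / 2) ∂gaussianReal 0 1 := by
  refine (integral_pos_iff_support_of_nonneg (fun s => (exp_pos _).le)
    (Continuous.integrableOn_Icc (by fun_prop))).2 ?_
  rw [Function.support_eq_univ fun s => (exp_pos _).ne', Measure.restrict_apply_univ, ← ofReal_measureReal,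
    ENNReal.ofReal_pos]
  exact win_pos hL

lemma exp_eL (hL : 0 < L) (b y : ℝ) :
    exp (eL b L y) = ∫ s in Set.Icc (-L) L, exp (s * y - (b - 1) * s ^ 2 / 2) ∂gaussianReal 0 1 :=
  exp_log (eL_pos hL b y)

/-- **the new factor is almost a truncated site** -/
lemma siteY_ge [NeZero N] (hS : Sm f f1 f2 f3 B D) (hL : 1 ≤ L) (hN : L ^ 2 ≤ (N : ℝ)) (v : List Ω → Fin N → ℝ)
    (g : Fin M → Fin N → ℝ) (hq : ℝ) (z : Fin M → ℝ) (p : List Ω) :
    fac (eL (1 + hq) L) (av f1 v g) z p * exp (-err f1 f2 D L v g hq z p) ≤ siteY f L v g z p := by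
  have hD := hS.nonneg
  have hf := hS.cont0
  have hN0 : (0:ℝ) < N := Nat.cast_pos.2 (NeZero.pos N)
  have hs : 0 < √(N:ℝ) := sqrt_pos.2 hN0
  rw [fac, exp_eL (by linarith), siteY, le_div_iff₀ (exp_pos _), siteH, mul_assoc, ← exp_add, ← integral_mul_const]
  refine setIntegral_mono_on ?_ ((continuous_site hf g z).comp (Continuous.prodMk_right (v p))).integrableOn_Icc
    measurableSet_Icc fun x hx => ?_
  · exact Continuous.integrableOn_Icc (by fun_prop)
  rw [← exp_add]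
  refine exp_le_exp.2 ?_
  have hxL : x ^ 2 ≤ L ^ 2 := sq_le_sq' hx.1 hx.2
  have hxL' : |x| ≤ L := abs_le.2 hx
  have hcs : √(1 - x ^ 2 / N) ^ 2 + (x / √(N:ℝ)) ^ 2 = 1 := by
    rw [sq_sqrt, div_pow, sq_sqrt hN0.le, sub_add_cancel]
    rw [sub_nonneg, div_le_one hN0]; linarith
  have h3 : |x / √(N:ℝ)| ^ 3 ≤ (L / √(N:ℝ)) ^ 3 := by
    rw [abs_div, abs_of_pos hs]
    exact pow_le_pow_left₀ (by positivity) (div_le_div_of_nonneg_right hxL' hs.le) 3
  have hsum := sum_le_sum (s := univ) fun i _ =>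
    one_pattern hS (sqrt_nonneg (1 - x ^ 2 / (N:ℝ))) hcs (dot (v p) (g i)) (z i)
  rw [sum_sub_distrib, sum_add_distrib, sum_add_distrib, sum_sub_distrib (f := fun i => f (_ + _))] at hsum
  have e1 : ∑ i, x / √(N:ℝ) * z i * f1 (dot (v p) (g i)) = x * dot (av f1 v g p) z := by
    simp only [dot, av, mul_sum]; exact sum_congr rfl fun i _ => by ring
  have e2 : ∑ i, (x / √(N:ℝ)) ^ 2 / 2 * f2 (dot (v p) (g i)) * (z i ^ 2 - 1) = x ^ 2 * Xs f2 v g z p := by
    simp only [Xs, mul_sum, div_pow]; exact sum_congr rfl fun i _ => by ring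
  have e3 : ∑ i, (x / √(N:ℝ)) ^ 2 / 2 * (f2 (dot (v p) (g i)) - dot (v p) (g i) * f1 (dot (v p) (g i))) =
      x ^ 2 / 2 * radU f1 f2 v g p := by
    simp only [radU, sum_div, mul_sum, div_pow, sq_sqrt hN0.le]; exact sum_congr rfl fun i _ => by ring
  have e4 : ∑ i, D * |x / √(N:ℝ)| ^ 3 * (8 * ((dot (v p) (g i) ^ 4 + 2) + |z i| ^ 3)) =
      8 * D * |x / √(N:ℝ)| ^ 3 * (u4 v g p + ∑ i, |z i| ^ 3) := by
    simp only [u4, ← sum_add_distrib, mul_sum]; exact sum_congr rfl fun i _ => by ring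
  rw [e1, e2, e3, e4] at hsum
  have hu : 0 ≤ u4 v g p + ∑ i, |z i| ^ 3 :=
    add_nonneg (sum_nonneg fun i _ => by positivity) (sum_nonneg fun i _ => by positivity)
  have r1 : -(L ^ 2 * |Xs f2 v g z p|) ≤ x ^ 2 * Xs f2 v g z p := by
    nlinarith [mul_le_mul_of_nonneg_left (neg_abs_le (Xs f2 v g z p)) (sq_nonneg x),
      mul_le_mul_of_nonneg_right hxL (abs_nonneg (Xs f2 v g z p))]
  have r2 : -(L ^ 2 * |radU f1 f2 v g p + hq|) ≤ x ^ 2 / 2 * (radU f1 f2 v g p + hq) := by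
    nlinarith [mul_le_mul_of_nonneg_left (neg_abs_le (radU f1 f2 v g p + hq)) (sq_nonneg x),
      mul_le_mul_of_nonneg_right hxL (abs_nonneg (radU f1 f2 v g p + hq)),
      mul_nonneg (sq_nonneg L) (abs_nonneg (radU f1 f2 v g p + hq))]
  have r3 := mul_le_mul_of_nonneg_right (mul_le_mul_of_nonneg_left h3 (show 0 ≤ 8 * D by positivity)) hu
  simp only [err]
  linarith

/-- the smaller half of the window -/
noncomputable def half (L : ℝ) : ℝ :=
  min ((gaussianReal 0 1).real (Set.Icc 0 L)) ((gaussianReal 0 1).real (Set.Icc (-L) 0))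

lemma half_pos (hL : 0 < L) : 0 < half L := by
  have : (gaussianReal 0 1).IsOpenPosMeasure := (gaussianReal_absolutelyContinuous' 0 one_ne_zero).isOpenPosMeasure
  have h : ∀ a b : ℝ, a < b → 0 < (gaussianReal 0 1).real (Set.Icc a b) := fun a b hab =>
    lt_of_lt_of_le (ENNReal.toReal_pos (isOpen_Ioo.measure_pos _ (Set.nonempty_Ioo.2 hab)).ne' (measure_ne_top _ _))
      (measureReal_mono Set.Ioo_subset_Icc_self)
  exact lt_min (h _ _ hL) (h _ _ (by linarith))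

lemma exp_eL_bounds {V : ℝ} (hL : 0 < L) {b : ℝ} (hb : |b - 1| ≤ V) (y : ℝ) :
    exp (-(V * L ^ 2)) * half L ≤ exp (eL b L y) ∧ exp (eL b L y) ≤ 2 * exp (V * L ^ 2) * cosh (L * y) := by
  have hi : ∀ a c, IntegrableOn (fun s => exp (s * y - (b - 1) * s ^ 2 / 2)) (Set.Icc a c) (gaussianReal 0 1) :=
    fun a c => Continuous.integrableOn_Icc (by fun_prop)
  have hq : ∀ s ∈ Set.Icc (-L) L, |(b - 1) * s ^ 2 / 2| ≤ V * L ^ 2 := fun s hs => by
    rw [abs_div, abs_mul, abs_of_nonneg (sq_nonneg s), abs_two]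
    have := mul_le_mul hb (sq_le_sq' hs.1 hs.2) (sq_nonneg s) ((abs_nonneg _).trans hb)
    linarith [mul_nonneg (abs_nonneg (b - 1)) (sq_nonneg s)]
  rw [exp_eL hL]
  constructor
  · have key : ∀ a c, Set.Icc a c ⊆ Set.Icc (-L) L → (∀ s ∈ Set.Icc a c, 0 ≤ s * y) →
        exp (-(V * L ^ 2)) * (gaussianReal 0 1).real (Set.Icc a c) ≤
          ∫ s in Set.Icc (-L) L, exp (s * y - (b - 1) * s ^ 2 / 2) ∂gaussianReal 0 1 := fun a c hsub hpos => by
      refine le_trans ?_ (setIntegral_mono_set (hi _ _) (Filter.Eventually.of_forall fun s => (exp_pos _).le)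
        (Filter.Eventually.of_forall hsub))
      rw [mul_comm, ← smul_eq_mul, ← setIntegral_const]
      refine setIntegral_mono_on (integrableOn_const (measure_ne_top _ _)) (hi _ _) measurableSet_Icc fun s hs => ?_
      exact exp_le_exp.2 (by linarith [hpos s hs, (abs_le.1 (hq s (hsub hs))).2])
    rcases le_total 0 y with hy | hy
    · exact (mul_le_mul_of_nonneg_left (min_le_left _ _) (exp_pos _).le).trans
        (key 0 L (Set.Icc_subset_Icc (by linarith) le_rfl) fun s hs => mul_nonneg hs.1 hy)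
    · exact (mul_le_mul_of_nonneg_left (min_le_right _ _) (exp_pos _).le).trans
        (key (-L) 0 (Set.Icc_subset_Icc le_rfl (by linarith)) fun s hs => mul_nonneg_of_nonpos_of_nonpos hs.2 hy)
  · refine (setIntegral_mono_on (hi _ _) (integrableOn_const (measure_ne_top _ _)) measurableSet_Icc
      (g := fun _ => 2 * exp (V * L ^ 2) * cosh (L * y)) fun s hs => ?_).trans ?_
    · rw [show 2 * exp (V * L ^ 2) * cosh (L * y) = exp (V * L ^ 2) * (exp (L * y) + exp (-(L * y))) by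
        rw [cosh_eq]; ring, sub_eq_add_neg, exp_add, mul_comm]
      refine mul_le_mul (exp_le_exp.2 (by linarith [(abs_le.1 (hq s hs)).1])) ?_ (exp_pos _).le (exp_pos _).le
      rcases le_total 0 y with hy | hy
      · exact le_add_of_le_of_nonneg (exp_le_exp.2 (mul_le_mul_of_nonneg_right hs.2 hy)) (exp_pos _).le
      · exact le_add_of_nonneg_of_le (exp_pos _).le (exp_le_exp.2 (by nlinarith [hs.1]))
    · rw [setIntegral_const, smul_eq_mul]
      exact mul_le_of_le_one_left (mul_nonneg (mul_nonneg zero_le_two (exp_pos _).le) (cosh_pos _).le)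
        measureReal_le_one

/-- a Gaussian absolute moment of order six -/
noncomputable def c6 : ℝ := ∫ z, |z| ^ 6 ∂gaussianReal 0 1

lemma integral_cube_cosh {ι : Type*} [Fintype ι] (x : ι → ℝ) :
    Integrable (fun z : ι → ℝ => (∑ i, |z i| ^ 3) * cosh (dot x z)) (gauss ι) ∧
      ∫ z, (∑ i, |z i| ^ 3) * cosh (dot x z) ∂gauss ι ≤ Fintype.card ι * (c6 + exp (2 * dot x x)) := by
  obtain ⟨hc, hce⟩ := Par.integrable_cosh_sq x
  have h6 : ∀ i : ι, Integrable (fun z : ι → ℝ => |z i| ^ 6) (gauss ι) := fun i =>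
    (measurePreserving_eval (fun _ : ι => gaussianReal 0 1) i).integrable_comp_of_integrable
      (Par.integrable_pow_gaussian 6)
  have hle : ∀ (i : ι) (z : ι → ℝ), |z i| ^ 3 * cosh (dot x z) ≤ |z i| ^ 6 + cosh (dot x z) ^ 2 := fun i z => by
    nlinarith [sq_nonneg (|z i| ^ 3 - cosh (dot x z)), mul_nonneg (pow_nonneg (abs_nonneg (z i)) 3) (cosh_pos (dot x z)).le]
  have hd : ∀ i : ι, Continuous fun z : ι → ℝ => |z i| ^ 3 * cosh (dot x z) := fun i => by unfold dot; fun_prop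
  have hi : ∀ i : ι, Integrable (fun z : ι → ℝ => |z i| ^ 3 * cosh (dot x z)) (gauss ι) := fun i =>
    ((h6 i).add hc).mono' (hd i).aestronglyMeasurable (Filter.Eventually.of_forall fun z => by
      rw [norm_of_nonneg (mul_nonneg (by positivity) (cosh_pos _).le)]; exact hle i z)
  simp only [sum_mul]
  refine ⟨integrable_finsetSum _ fun i _ => hi i, ?_⟩
  rw [integral_finsetSum _ fun i _ => hi i]
  refine (sum_le_sum (g := fun _ => c6 + exp (2 * dot x x)) fun i _ =>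
    (integral_mono (hi i) ((h6 i).add hc) (hle i)).trans ?_).trans_eq
      (by rw [sum_const, card_univ, nsmul_eq_mul])
  rw [integral_add' (h6 i) hc]
  refine add_le_add (le_of_eq ?_) hce
  rw [gauss, integral_comp_eval (μ := fun _ : ι => gaussianReal 0 1) (i := i) (f := fun z : ℝ => |z| ^ 6)
    (by fun_prop)]
  rfl

lemma c6_nonneg : 0 ≤ c6 := integral_nonneg fun z => by positivity

variable [Fintype Ω] [Nonempty Ω]

lemma av_self (hS : Sm f f1 f2 f3 B D) [NeZero N] (v : List Ω → Fin N → ℝ) (g : Fin M → Fin N → ℝ) {A : ℝ}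
    (hA : (M : ℝ) / N ≤ A) (p : List Ω) : cv (av f1 v g) p p ≤ A * D ^ 2 := by
  have hN0 : (0:ℝ) < N := Nat.cast_pos.2 (NeZero.pos N)
  refine le_trans ?_ (mul_le_mul_of_nonneg_right hA (sq_nonneg D))
  refine (sum_le_sum (s := (univ : Finset (Fin M))) (g := fun _ => D ^ 2 / N) fun i _ => ?_).trans_eq (by simp; ring)
  simp only [av, div_mul_div_comm, mul_self_sqrt hN0.le]
  refine div_le_div_of_nonneg_right ?_ hN0.le
  rw [← sq, ← sq_abs]
  exact pow_le_pow_left₀ (abs_nonneg _) (hS.b1 _) 2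

/-- the nested site value is integrable in the noise -/
lemma integrable_log_fac [NeZero N] (hS : Sm f f1 f2 f3 B D) (hR : 1 ≤ R) {w : List Ω → ℝ} (hw : ∀ p, 0 < w p)
    {e e1 e2 e3 : ℝ → ℝ} {B' D' : ℝ} (hE : Sm e e1 e2 e3 B' D') (v : List Ω → Fin N → ℝ)
    (g : Fin M → Fin N → ℝ) :
    Integrable (fun z => log (nest (lin R) w (fac e (av f1 v g) z) R [])) (gauss (Fin M)) := by
  have hm := ok_lin hR hw
  have hD := hS.nonneg
  set F : (Fin M → ℝ) → List Ω → ℝ := fun z => fac e (av f1 v g) z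
  have hFp : ∀ z p, 0 < F z p := fun z p => exp_pos _
  have hFc : ∀ p, Continuous fun z => F z p := fun p => by
    simp only [F, fac]
    exact continuous_exp.comp (hE.cont0.comp (Par.continuous_dot_left _))
  refine Vale.Agent.P150.integrable_of_bound ((Par.continuous_nest (w := fun _ => w) (fun _ => continuous_const)
    (fun _ => hw) hFc hFp R []).log fun z => (Vale.Agent.P168.MP.nest_pos hw (hFp z) R []).ne')
    (C := |e 0| + |D'| * D + 1) (M := 1) fun z => ?_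
  refine (Par.abs_log_nest_le hm (b := |e 0| + |D'| * (D * l1 z)) fun p => ?_).trans ?_
  · refine ⟨exp_le_exp.2 ?_, exp_le_exp.2 ?_⟩ <;>
    · have h1 := abs_le.1 (Par.lip_of_deriv hE.d0 hE.b1 (dot (av f1 v g p) z) 0)
      rw [sub_zero] at h1
      have h2 : |dot (av f1 v g p) z| ≤ D * l1 z := Vale.Agent.P150.abs_dot_le (fun i => by
        rw [av, abs_div, abs_of_nonneg (sqrt_nonneg _)]
        exact (div_le_self (abs_nonneg _) (one_le_sqrt.2 (Nat.one_le_cast.2 (NeZero.pos N)))).trans (hS.b1 _)) z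
      have h3 := mul_le_mul (le_abs_self D') h2 (abs_nonneg _) (abs_nonneg _)
      linarith [le_abs_self (e 0), neg_abs_le (e 0)]
  · have h1 := Vale.Agent.P150.l1_nonneg z
    have h2 := add_one_le_exp (1 * l1 z)
    nlinarith [mul_nonneg (abs_nonneg D') hD, abs_nonneg (e 0),
      mul_nonneg (mul_nonneg (abs_nonneg D') hD) (exp_pos (1 * l1 z)).le]

/-- **the factor of the new coordinate, at fixed patterns** -/
theorem site_fixed (hS : Sm f f1 f2 f3 B D) (hB : ∀ x, f x ≤ B) (hL : 1 ≤ L) {A V : ℝ} (hA : 0 ≤ A) :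
    ∃ C : ℝ, 0 ≤ C ∧ ∀ {Ω : Type} [Fintype Ω] [Nonempty Ω] {R N M : ℕ} [NeZero N], 1 ≤ R → L ^ 2 ≤ (N : ℝ) →
      (M : ℝ) / N ≤ A → ∀ {w : List Ω → ℝ}, (∀ p, 0 < w p) → ∀ (v : List Ω → Fin N → ℝ)
      (g : Fin M → Fin N → ℝ) {hq : ℝ}, |hq| ≤ V → ∀ {B' D' : ℝ} {e1 e2 e3 : ℝ → ℝ},
      Sm (eL (1 + hq) L) e1 e2 e3 B' D' →
      (∫ z, log (nest (lin R) w (fac (eL (1 + hq) L) (av f1 v g) z) R []) ∂gauss (Fin M)) -
          C * (1 / √(N : ℝ) + ET R (lin R) w [(0, 0)] (fun ps => |radU f1 f2 v g (ps.getD 0 []) + hq|) +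
            (1 / √(N : ℝ)) ^ 3 * ET R (lin R) w [(0, 0)] (fun ps => u4 v g (ps.getD 0 []))) ≤
        ∫ z, log (nest (lin R) w (siteY f L v g z) R []) ∂gauss (Fin M) := by
  have hD := hS.nonneg
  have hL0 : 0 < L := by linarith
  have hh := half_pos hL0
  set κ := 2 * exp (V * L ^ 2) / (exp (-(V * L ^ 2)) * half L)
  set E2 := exp (2 * (L ^ 2 * (A * D ^ 2)))
  have hκ : 0 ≤ κ := by positivity
  have hc6 := c6_nonneg
  have hc4 := Par.c4_nonneg
  refine ⟨κ * (L ^ 2 * (A * c4 * D ^ 2 + E2) + 8 * D * L ^ 3 * A * (c6 + E2) + L ^ 2 * E2 + 8 * D * L ^ 3 * E2),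
    by positivity, ?_⟩
  intro Ω _ _ R N M _ hR hNL hMA w hw v g hq hhq B' D' e1 e2 e3 hE
  have hN0 : (0:ℝ) < N := Nat.cast_pos.2 (NeZero.pos N)
  have hm := ok_lin hR hw
  have hf := hS.cont0
  have hb : ∀ x, |f x| ≤ B := fun x => abs_le.2 ⟨hS.lb x, hB x⟩
  set F : (Fin M → ℝ) → List Ω → ℝ := fun z => fac (eL (1 + hq) L) (av f1 v g) z
  set Er : (Fin M → ℝ) → List Ω → ℝ := fun z p => err f1 f2 D L v g hq z p
  set bv : List Ω → Fin M → ℝ := fun p i => L * av f1 v g p i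
  have hFp : ∀ z p, 0 < F z p := fun z p => exp_pos _
  have hE0 : ∀ z p, 0 ≤ Er z p := fun z p => err_nonneg hS hL0.le v g hq z p
  have hF : ∀ z p, exp (-(V * L ^ 2)) * half L ≤ F z p ∧ F z p ≤ 2 * exp (V * L ^ 2) * cosh (dot (bv p) z) := fun z p => by
    have := exp_eL_bounds hL0 (b := 1 + hq) (V := V) (by simpa using hhq) (dot (av f1 v g p) z)
    rw [show L * dot (av f1 v g p) z = dot (bv p) z by simp only [dot, bv, mul_sum, mul_assoc]] at this
    exact this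
  -- for every value of the noise
  have hlow : ∀ z, log (nest (lin R) w (F z) R []) -
      κ * ET R (lin R) w [(0, 0)] (fun ps => Er z (ps.getD 0 []) * cosh (dot (bv (ps.getD 0 [])) z)) ≤
      log (nest (lin R) w (siteY f L v g z) R []) := fun z => by
    have h1 := Par.log_nest_add_ET_le hm (hFp z) fun p => -Er z p
    have h2 := log_le_log (Vale.Agent.P168.MP.nest_pos hw (fun p => mul_pos (hFp z p) (exp_pos _)) R [])
      (Vale.Agent.P168.MP.nest_le_nest hm (fun p => mul_pos (hFp z p) (exp_pos _))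
        (fun p => siteY_ge hS hL hNL v g hq z p) R [] (by simp))
    have h3 := Par.ET_one_tilt hR hw (mul_pos (exp_pos (-(V * L ^ 2))) hh) (fun p => (hF z p).1) (hE0 z)
    have h4 : ET R (lin R) w [(0, 0)] (fun ps => Er z (ps.getD 0 []) *
          (F z (ps.getD 0 []) / (exp (-(V * L ^ 2)) * half L))) ≤
        κ * ET R (lin R) w [(0, 0)] (fun ps => Er z (ps.getD 0 []) * cosh (dot (bv (ps.getD 0 [])) z)) := by
      rw [← Vale.Agent.P168.MP.ET_const_mul]
      refine Vale.Agent.P168.MP.ET_mono hw fun ps => ?_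
      rw [mul_left_comm κ]
      refine mul_le_mul_of_nonneg_left ?_ (hE0 z _)
      rw [div_mul_eq_mul_div, div_le_div_iff_of_pos_right (mul_pos (exp_pos _) hh)]
      exact (hF z _).2
    have e : ET R (lin R) (fun p => w p * F z p) [(0, 0)] (fun ps => -Er z (ps.getD 0 [])) =
        -ET R (lin R) (fun p => w p * F z p) [(0, 0)] (fun ps => Er z (ps.getD 0 [])) := by
      rw [← neg_one_mul (ET _ _ _ _ _), ← Vale.Agent.P168.MP.ET_const_mul]; simp
    rw [e] at h1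
    linarith
  -- moments of the error
  have hbb : ∀ p, dot (bv p) (bv p) ≤ L ^ 2 * (A * D ^ 2) := fun p => by
    refine le_of_eq_of_le ?_ (mul_le_mul_of_nonneg_left (av_self hS v g hMA p) (sq_nonneg L))
    simp only [cv, dot, bv, mul_sum]
    exact sum_congr rfl fun i _ => by ring
  have hcc : ∀ p, Integrable (fun z => cosh (dot (bv p) z)) (gauss (Fin M)) ∧
      ∫ z, cosh (dot (bv p) z) ∂gauss (Fin M) ≤ E2 := fun p => by
    obtain ⟨i2, e2⟩ := Par.integrable_cosh_sq (bv p)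
    have hle : ∀ z, cosh (dot (bv p) z) ≤ cosh (dot (bv p) z) ^ 2 := fun z =>
      le_self_pow₀ (one_le_cosh _) two_ne_zero
    have i1 : Integrable (fun z => cosh (dot (bv p) z)) (gauss (Fin M)) :=
      i2.mono' (continuous_cosh.comp (Par.continuous_dot_left _)).aestronglyMeasurable
        (Filter.Eventually.of_forall fun z => by rw [norm_of_nonneg (cosh_pos _).le]; exact hle z)
    exact ⟨i1, (integral_mono i1 i2 hle).trans (e2.trans (exp_le_exp.2 (by linarith [hbb p])))⟩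
  set t := 1 / √(N:ℝ)
  have ht : 0 < t := by positivity
  have hMt : (M : ℝ) * t ^ 2 ≤ A := by rwa [div_pow, one_pow, sq_sqrt hN0.le, mul_one_div]
  have hu4 : ∀ p, 0 ≤ u4 v g p := fun p => sum_nonneg fun i _ => by positivity
  have hp : ∀ p, Integrable (fun z => Er z p * cosh (dot (bv p) z)) (gauss (Fin M)) ∧
      ∫ z, Er z p * cosh (dot (bv p) z) ∂gauss (Fin M) ≤
        L ^ 2 * (t * (A * c4 * D ^ 2 + E2)) + 8 * D * L ^ 3 * (t * (A * (c6 + E2))) +
          L ^ 2 * E2 * |radU f1 f2 v g p + hq| + 8 * D * L ^ 3 * E2 * (t ^ 3 * u4 v g p) := fun p => by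
    obtain ⟨iA, eA⟩ := Par.integral_centred_le hS (fun i => f2 (dot (v p) (g i))) (fun i => hS.b2 _) (bv p) ht hMt (hbb p)
    obtain ⟨iB, eB⟩ := integral_cube_cosh (bv p)
    obtain ⟨iC, eC⟩ := hcc p
    have e : ∀ z, Er z p * cosh (dot (bv p) z) = L ^ 2 * (|Xs f2 v g z p| * cosh (dot (bv p) z)) +
        (8 * D * L ^ 3 * t ^ 3 * ((∑ i, |z i| ^ 3) * cosh (dot (bv p) z)) +
          (L ^ 2 * |radU f1 f2 v g p + hq| + 8 * D * L ^ 3 * t ^ 3 * u4 v g p) * cosh (dot (bv p) z)) := fun z => by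
      simp only [Er, err, t]; ring
    have iA' : Integrable (fun z => L ^ 2 * (|Xs f2 v g z p| * cosh (dot (bv p) z))) (gauss (Fin M)) := iA.const_mul _
    have iBC : Integrable (fun z => 8 * D * L ^ 3 * t ^ 3 * ((∑ i, |z i| ^ 3) * cosh (dot (bv p) z)) +
        (L ^ 2 * |radU f1 f2 v g p + hq| + 8 * D * L ^ 3 * t ^ 3 * u4 v g p) * cosh (dot (bv p) z)) (gauss (Fin M)) :=
      (iB.const_mul _).add (iC.const_mul _)
    simp only [e]
    refine ⟨iA'.add iBC, ?_⟩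
    rw [integral_add iA' iBC, integral_add (iB.const_mul _) (iC.const_mul _), integral_const_mul,
      integral_const_mul, integral_const_mul]
    have k1 := mul_le_mul_of_nonneg_left eA (sq_nonneg L)
    rw [Fintype.card_fin] at eB
    have k2 : 8 * D * L ^ 3 * t ^ 3 * ∫ z, (∑ i, |z i| ^ 3) * cosh (dot (bv p) z) ∂gauss (Fin M) ≤
        8 * D * L ^ 3 * (t * (A * (c6 + E2))) := by
      refine (mul_le_mul_of_nonneg_left (eB.trans (mul_le_mul_of_nonneg_left
        (add_le_add le_rfl (exp_le_exp.2 (show 2 * dot (bv p) (bv p) ≤ 2 * (L ^ 2 * (A * D ^ 2)) by linarith [hbb p])))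
          (Nat.cast_nonneg M))) (by positivity)).trans ?_
      calc 8 * D * L ^ 3 * t ^ 3 * ((M:ℝ) * (c6 + E2)) = 8 * D * L ^ 3 * (t * ((M:ℝ) * t ^ 2 * (c6 + E2))) := by ring
        _ ≤ _ := by gcongr
    have hco : 0 ≤ L ^ 2 * |radU f1 f2 v g p + hq| + 8 * D * L ^ 3 * t ^ 3 * u4 v g p := by
      have := hu4 p; positivity
    have k3 := mul_le_mul_of_nonneg_left eC hco
    simp only [Xs] at k1 ⊢
    linarith
  obtain ⟨iET, eET⟩ := Par.integral_ET_one (R := R) (m := lin R) (w := w) (μ := gauss (Fin M))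
    (fun z p => Er z p * cosh (dot (bv p) z)) fun p => (hp p).1
  -- integrability
  have hYp : ∀ z p, 0 < siteY f L v g z p := fun z p => (exp_pos _).trans_le (siteY_bounds hf hb hL0 v g z p).1
  have i1 : Integrable (fun z => log (nest (lin R) w (siteY f L v g z) R [])) (gauss (Fin M)) := by
    refine Integrable.of_bound (Continuous.aestronglyMeasurable ?_) (2 * M * B + |log (win L)|)
      (Filter.Eventually.of_forall fun z =>
        Par.abs_log_nest_le hm fun p => siteY_bounds hf hb hL0 v g z p)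
    exact (Par.continuous_nest (w := fun _ => w) (fun _ => continuous_const) (fun _ => hw)
      (fun p => ((continuous_siteH₂ hf (v p)).comp (Continuous.prodMk_right g)).div_const _) hYp R []).log fun z =>
      (Vale.Agent.P168.MP.nest_pos hw (hYp z) R []).ne'
  have i2 : Integrable (fun z => log (nest (lin R) w (F z) R [])) (gauss (Fin M)) :=
    integrable_log_fac hS hR hw hE v g
  have hI := integral_mono (i2.sub (iET.const_mul κ)) i1 hlow
  rw [integral_sub' i2 (iET.const_mul κ), integral_const_mul, eET] at hI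
  refine le_trans ?_ hI
  refine sub_le_sub le_rfl ((mul_le_mul_of_nonneg_left (Vale.Agent.P168.MP.ET_mono hw fun ps => (hp _).2) hκ).trans ?_)
  simp only [Vale.Agent.P168.MP.ET_add, Vale.Agent.P168.MP.ET_const_mul, Vale.Agent.P168.MP.ET_const hw]
  have n1 : 0 ≤ ET R (lin R) w [(0, 0)] fun ps => |radU f1 f2 v g (ps.getD 0 []) + hq| :=
    Vale.Agent.P168.MP.ET_nonneg hw fun _ => abs_nonneg _
  have n2 : 0 ≤ t ^ 3 * ET R (lin R) w [(0, 0)] fun ps => u4 v g (ps.getD 0 []) :=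
    mul_nonneg (by positivity) (Vale.Agent.P168.MP.ET_nonneg hw fun _ => hu4 _)
  rw [mul_assoc κ]
  refine mul_le_mul_of_nonneg_left ?_ hκ
  have a0 : 0 ≤ A * c4 * D ^ 2 + E2 := by positivity
  have a1 : 0 ≤ A * (c6 + E2) := by positivity
  have a2 : 0 ≤ L ^ 2 * E2 := by positivity
  have a3 : 0 ≤ 8 * D * L ^ 3 := by positivity
  nlinarith [mul_nonneg (mul_nonneg (sq_nonneg L) a0) (add_nonneg n1 n2), mul_nonneg (mul_nonneg a3 a1) (add_nonneg n1 n2),
    mul_nonneg a2 (add_nonneg ht.le n2), mul_nonneg (mul_nonneg a3 (exp_pos (2 * (L ^ 2 * (A * D ^ 2)))).le) (add_nonneg ht.le n1)]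

end Vale.Agent.P157.Sph.Dim
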