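import Vale.Agent.P157.Full.EnvOverlap
import Vale.Agent.P157.Full.Tangent
import Vale.Agent.P157.Full.Reps
import Vale.Agent.P157.Par.Incr

/-! Random profiles on one probability space: the variance of a block tail from two integrations by
parts, and the value of the nested functional at the random profile. -/

open MeasureTheory Real Finset
open Vale.Agent.P168.MP (lin)
open Vale.Agent.P157.Full (tailAvg tail_mem tail_block tailAvg_rep dist_block phi_anti Phi_rep rep)

namespace Vale.Agent.P157.Sph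

open Par (Sm Prof dist1)

variable {Ω : Type} [MeasurableSpace Ω] {μ : Measure Ω} [IsProbabilityMeasure μ] {R J : ℕ} {r : Ω → ℕ → ℝ}

/-- the mean profile -/
noncomputable def rmean (μ : Measure Ω) (r : Ω → ℕ → ℝ) (l : ℕ) : ℝ := ∫ ω, r ω l ∂μ

lemma rmean_prof (hr : ∀ ω, Prof R (r ω) 1 ∧ r ω R = 1) (hi : ∀ l, l ≤ R → Integrable (fun ω => r ω l) μ) :
    Prof R (rmean μ r) 1 ∧ rmean μ r R = 1 := by
  have htop : rmean μ r R = 1 := by simp [rmean, (hr _).2]
  exact ⟨⟨integral_nonneg fun ω => (hr ω).1.zero,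
    fun l hl => integral_mono (hi l hl.le) (hi (l + 1) hl) fun ω => (hr ω).1.mono l hl, htop.le⟩, htop⟩

omit [IsProbabilityMeasure μ] in
lemma tail_rmean (hi : ∀ l, l ≤ R → Integrable (fun ω => r ω l) μ) :
    tailAvg R J (rmean μ r) = ∫ ω, tailAvg R J (r ω) ∂μ := by
  simp only [tailAvg, rmean]
  rw [integral_div, integral_finsetSum _ fun l hl => hi l (mem_Ico.1 hl).2.le]

omit [IsProbabilityMeasure μ] in
lemma integrable_tail (hi : ∀ l, l ≤ R → Integrable (fun ω => r ω l) μ) :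
    Integrable (fun ω => tailAvg R J (r ω)) μ :=
  (integrable_finsetSum _ fun l hl => hi l (mem_Ico.1 hl).2.le).div_const _

/-- the variance of a block tail -/
lemma tail_var (hr : ∀ ω, Prof R (r ω) 1) (hi : ∀ l, l ≤ R → Integrable (fun ω => r ω l) μ) {H : Ω → ℝ}
    (hH : Integrable H μ) {N x e1 e2 Θ : ℝ}
    (h1 : |(∫ ω, H ω ∂μ) / N - x * (1 - tailAvg R J (rmean μ r))| ≤ e1)
    (h2 : |(∫ ω, H ω * tailAvg R J (r ω) ∂μ) / N -
      x * ∫ ω, (1 - tailAvg R J (r ω)) * tailAvg R J (r ω) ∂μ| ≤ e2)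
    (h3 : ∫ ω, |H ω / N - (∫ y, H y ∂μ) / N| ∂μ ≤ Θ) :
    x * ∫ ω, (tailAvg R J (r ω) - tailAvg R J (rmean μ r)) ^ 2 ∂μ ≤ e1 + e2 + Θ := by
  rw [tail_rmean hi] at h1 ⊢
  set T := fun ω => tailAvg R J (r ω)
  set t := ∫ ω, T ω ∂μ
  set G' := (∫ y, H y ∂μ) / N
  have iT : Integrable T μ := integrable_tail hi
  have hT : ∀ ω, 0 ≤ T ω ∧ T ω ≤ 1 := fun ω => tail_mem (hr ω)
  have hTn : ∀ ω, ‖T ω‖ ≤ 1 := fun ω => by rw [Real.norm_eq_abs, abs_of_nonneg (hT ω).1]; exact (hT ω).2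
  have iTT : Integrable (fun ω => T ω * T ω) μ :=
    iT.bdd_mul iT.aestronglyMeasurable (Filter.Eventually.of_forall hTn)
  have iHT : Integrable (fun ω => H ω * T ω) μ :=
    hH.mul_bdd iT.aestronglyMeasurable (Filter.Eventually.of_forall hTn)
  have hvar : ∫ ω, (T ω - t) ^ 2 ∂μ = (∫ ω, T ω * T ω ∂μ) - t * t := by
    rw [show (fun ω => (T ω - t) ^ 2) = fun ω => T ω * T ω - (2 * t * T ω - t * t) by funext ω; ring,
      integral_sub iTT (show Integrable (fun ω => 2 * t * T ω - t * t) μ from (iT.const_mul _).sub (integrable_const _)),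
      integral_sub (iT.const_mul _) (integrable_const _), integral_const_mul, integral_const, probReal_univ, one_smul]
    ring
  have hone : ∫ ω, (1 - T ω) * T ω ∂μ = t - ∫ ω, T ω * T ω ∂μ := by
    rw [show (fun ω => (1 - T ω) * T ω) = fun ω => T ω - T ω * T ω by funext ω; ring, integral_sub iT iTT]
  have hmix : |(∫ ω, H ω * T ω ∂μ) / N - G' * t| ≤ Θ := by
    have e : ∫ ω, (H ω / N - G') * T ω ∂μ = (∫ ω, H ω * T ω ∂μ) / N - G' * t := by
      rw [show (fun ω => (H ω / N - G') * T ω) = fun ω => H ω * T ω / N - G' * T ω by funext ω; ring,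
        integral_sub (iHT.div_const _) (iT.const_mul _), integral_div, integral_const_mul]
    rw [← e]
    refine (abs_integral_le_integral_abs.trans (integral_mono ?_ ?_ fun ω => ?_)).trans h3
    · rw [show (fun ω => |(H ω / N - G') * T ω|) = fun ω => |H ω * T ω / N - G' * T ω| by funext ω; ring_nf]
      exact ((iHT.div_const _).sub (iT.const_mul _)).abs
    · exact ((hH.div_const _).sub (integrable_const _)).abs
    · rw [abs_mul, abs_of_nonneg (hT ω).1]
      exact mul_le_of_le_one_right (abs_nonneg _) (hT ω).2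
  have ht : 0 ≤ t ∧ t ≤ 1 := ⟨integral_nonneg fun ω => (hT ω).1,
    (integral_mono iT (integrable_const 1) fun ω => (hT ω).2).trans_eq (by simp)⟩
  rw [hone] at h2
  rw [hvar]
  have h1' : |(G' - x * (1 - t)) * t| ≤ e1 := by
    rw [abs_mul, abs_of_nonneg ht.1]
    exact (mul_le_of_le_one_right (abs_nonneg _) ht.2).trans h1
  linarith [abs_le.1 hmix, abs_le.1 h1', abs_le.1 h2]

variable {R₀ k : ℕ} {f f1 f2 f3 : ℝ → ℝ} {B D : ℝ}

/-- the nested functional at the random profile, from the block tails -/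
lemma phi_bound (hS : Sm f f1 f2 f3 B D) (hR₀ : 1 ≤ R₀) (hk : 1 ≤ k) {q₀ : ℕ → ℝ} (hq : Prof R₀ q₀ 1)
    (hq1 : q₀ R₀ = 1) {KL : ℝ} (hKL : 0 ≤ KL) (hL : Par.PhiLip f KL) {e σ v : ℝ} (he : 0 ≤ e) (hσ : 0 < σ)
    (hr : ∀ ω, Prof (k * R₀) (r ω) 1 ∧ r ω (k * R₀) = 1)
    (hi : ∀ l, l ≤ k * R₀ → Integrable (fun ω => r ω l) μ)
    (hiP : Integrable (fun ω => Par.Phi (fun y => exp (f y)) (k * R₀) (lin (k * R₀)) (r ω)) μ)
    (htail : ∀ j < R₀, tailAvg R₀ j q₀ - e ≤ tailAvg (k * R₀) (j * k) (rmean μ r))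
    (hv : ∀ j : Fin R₀, ∫ ω, (tailAvg (k * R₀) (j * k) (r ω) - tailAvg (k * R₀) (j * k) (rmean μ r)) ^ 2 ∂μ ≤ v) :
    ∫ ω, Par.Phi (fun y => exp (f y)) (k * R₀) (lin (k * R₀)) (r ω) ∂μ ≤
      Par.Phi (fun y => exp (f y)) R₀ (lin R₀) q₀ + D ^ 2 * e + KL * (2 / R₀ + R₀ * (v / σ + σ)) := by
  have hR : 1 ≤ k * R₀ := Nat.one_le_iff_ne_zero.2 (Nat.mul_ne_zero (by omega) (by omega))
  obtain ⟨hb1, hb2⟩ := rmean_prof hr hi
  set rb := rmean μ r
  have hq' : Prof (k * R₀) (rep k q₀) 1 ∧ rep k q₀ (k * R₀) = 1 := by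
    have e : rep k q₀ (k * R₀) = 1 := by rw [rep, Nat.mul_div_cancel_left _ (by omega)]; exact hq1
    refine ⟨⟨by simpa [rep] using hq.zero, fun l hl => ?_, e.le⟩, e⟩
    exact hq.le_of_le (Nat.div_le_div_right (Nat.le_succ l)) (Nat.div_le_of_le_mul (by omega))
  have hup : Par.Phi (fun y => exp (f y)) (k * R₀) (lin (k * R₀)) rb ≤
      Par.Phi (fun y => exp (f y)) R₀ (lin R₀) q₀ + D ^ 2 * e := by
    refine (phi_anti hS hR hq'.1 hb1 hq'.2 hb2 he fun J hJ => tail_block hk (fun l hl => hb1.mono l (by omega)) he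
      (fun j hj => ?_) hJ).trans_eq (by rw [Phi_rep (Par.adm_exp hS) hR₀ hk hq])
    rw [tailAvg_rep hk q₀ (R₀ - j) j (by omega)]
    exact htail j hj
  have iD : ∀ j : Fin R₀, Integrable
      (fun ω => (tailAvg (k * R₀) (j * k) (r ω) - tailAvg (k * R₀) (j * k) rb) ^ 2) μ := fun j =>
    Integrable.of_bound (((integrable_tail hi).aestronglyMeasurable.sub aestronglyMeasurable_const).pow 2) 1
      (Filter.Eventually.of_forall fun ω => by
        obtain ⟨x0, x1⟩ := tail_mem (J := (j:ℕ) * k) (hr ω).1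
        obtain ⟨y0, y1⟩ := tail_mem (J := (j:ℕ) * k) hb1
        rw [Real.norm_eq_abs, abs_of_nonneg (sq_nonneg _), sq_le_one_iff_abs_le_one, abs_le]
        constructor <;> linarith)
  set S := fun ω => ∑ j : Fin R₀, ((tailAvg (k * R₀) (j * k) (r ω) - tailAvg (k * R₀) (j * k) rb) ^ 2 / σ + σ)
  have iS : Integrable S μ := integrable_finsetSum _ fun j _ => ((iD j).div_const σ).add (integrable_const σ)
  have hpt : ∀ ω, Par.Phi (fun y => exp (f y)) (k * R₀) (lin (k * R₀)) (r ω) ≤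
      Par.Phi (fun y => exp (f y)) (k * R₀) (lin (k * R₀)) rb + KL * (2 / R₀ + S ω) := fun ω => by
    have h1 := (abs_le.1 (hL _ _ _ hR (hr ω).1 hb1)).2
    have h2 : dist1 (k * R₀) (r ω) rb ≤ 2 / R₀ + S ω := by
      refine (dist_block hR₀ hk (hr ω).1 (hr ω).2 hb1 hb2).trans (add_le_add le_rfl ?_)
      rw [← Fin.sum_univ_eq_sum_range (fun j => |tailAvg (k * R₀) (j * k) (r ω) - tailAvg (k * R₀) (j * k) rb|),
        mul_sum]
      refine sum_le_sum fun j _ => ?_
      set d := tailAvg (k * R₀) (j * k) (r ω) - tailAvg (k * R₀) (j * k) rb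
      rw [← sub_nonneg, show d ^ 2 / σ + σ - 2 * |d| = (|d| - σ) ^ 2 / σ by field_simp; rw [← sq_abs d]; ring]
      positivity
    have := mul_le_mul_of_nonneg_left h2 hKL
    linarith
  have jS : Integrable (fun ω => 2 / (R₀ : ℝ) + S ω) μ := (integrable_const _).add iS
  have jK : Integrable (fun ω => KL * (2 / R₀ + S ω)) μ := jS.const_mul KL
  refine (integral_mono (g := fun ω => Par.Phi (fun y => exp (f y)) (k * R₀) (lin (k * R₀)) rb +
    KL * (2 / R₀ + S ω)) hiP ((integrable_const _).add jK) hpt).trans ?_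
  have hS' : ∫ ω, S ω ∂μ ≤ R₀ * (v / σ + σ) := by
    rw [integral_finsetSum _ fun (j : Fin R₀) _ => show Integrable (fun ω => (tailAvg (k * R₀) (j * k) (r ω) -
      tailAvg (k * R₀) (j * k) rb) ^ 2 / σ + σ) μ from ((iD j).div_const σ).add (integrable_const σ)]
    refine (sum_le_card_nsmul _ _ (v / σ + σ) fun j _ => ?_).trans_eq ?_
    · rw [integral_add ((iD j).div_const σ) (integrable_const σ), integral_div, integral_const, probReal_univ, one_smul]
      exact add_le_add (div_le_div_of_nonneg_right (hv j) hσ.le) le_rfl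
    · rw [nsmul_eq_mul, card_univ, Fintype.card_fin]
  rw [integral_add (integrable_const _) jK, integral_const,
    probReal_univ, one_smul, integral_const_mul, integral_add (integrable_const _) iS, integral_const,
    probReal_univ, one_smul]
  have := mul_le_mul_of_nonneg_left hS' hKL
  linarith

end Vale.Agent.P157.Sph
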