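import Vale.Agent.P157.Sph.EnvAbsMax
import Vale.Agent.P157.Sph.EnvAbsVar

/-! The upper envelope for abstract families: induction over maximisers in the number of patterns. -/

open MeasureTheory Real Finset
open Vale.Agent.P168.MP (lin)
open Vale.Agent.P157.Full (affX aCoef tailAvg tail_mem confine)

namespace Vale.Agent.P157.Sph

open Par (Sm Prof)

/-- what the envelope takes from a system with `M` patterns at one amplitude vector -/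
structure EnvIn {Ω : Type} [MeasurableSpace Ω] (μ : Measure Ω) (R₀ k : ℕ) (N θ e e' : ℝ) (lo hi : ℝ)
    (F : (Fin R₀ → ℝ) → Ω → ℝ) (H : (Fin R₀ → ℝ) → Ω → Fin R₀ → ℝ) (r : (Fin R₀ → ℝ) → Ω → ℕ → ℝ) : Prop where
  cont : Continuous fun l => ∫ ω, F l ω ∂μ
  prof : ∀ l ω, Par.Prof (k * R₀) (r l ω) 1 ∧ r l ω (k * R₀) = 1
  intF : ∀ l ∈ box lo hi, Integrable (F l) μ
  intH : ∀ l ∈ box lo hi, ∀ j, Integrable (fun ω => H l ω j) μ
  intr : ∀ l ∈ box lo hi, ∀ i, i ≤ k * R₀ → Integrable (fun ω => r l ω i) μ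
  conv : ∀ l ∈ box lo hi, ∀ j ω, ConvexOn ℝ Set.univ (fun t => F (Function.update l j t) ω) ∧
    HasDerivAt (fun t => F (Function.update l j t) ω) (H l ω j) (l j)
  dmean : ∀ l ∈ box lo hi, ∀ j,
    HasDerivAt (fun t => ∫ ω, F (Function.update l j t) ω ∂μ) (∫ ω, H l ω j ∂μ) (l j)
  dev : ∀ l ∈ box lo hi, ∫ ω, |F l ω - ∫ x, F l x ∂μ| ∂μ ≤ N * θ
  ibp1 : ∀ l ∈ box lo hi, ∀ j : Fin R₀,
    |(∫ ω, H l ω j ∂μ) / N - l j * (1 - tailAvg (k * R₀) (j * k) (rmean μ (r l)))| ≤ e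
  ibp2 : ∀ l ∈ box lo hi, ∀ j : Fin R₀,
    |(∫ ω, H l ω j * tailAvg (k * R₀) (j * k) (r l ω) ∂μ) / N -
      l j * ∫ ω, (1 - tailAvg (k * R₀) (j * k) (r l ω)) * tailAvg (k * R₀) (j * k) (r l ω) ∂μ| ≤ e'

variable {f f1 f2 f3 : ℝ → ℝ} {B D : ℝ} {R₀ k : ℕ} {Ω : Type} [MeasurableSpace Ω] {μ : Measure Ω}
  [IsProbabilityMeasure μ] {N θ e e' lo hi : ℝ} {F : (Fin R₀ → ℝ) → Ω → ℝ}
  {H : (Fin R₀ → ℝ) → Ω → Fin R₀ → ℝ} {r : (Fin R₀ → ℝ) → Ω → ℕ → ℝ}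

/-- the nested functional at a maximiser with room around it -/
theorem value_at_max (hS : Sm f f1 f2 f3 B D) (hE : EnvIn μ R₀ k N θ e e' lo hi F H r) (hN : 0 < N)
    (hR₀ : 1 ≤ R₀) (hk : 1 ≤ k) {q : ℕ → ℝ} (hq : Prof R₀ q 1) (hq1 : q R₀ = 1) {KL : ℝ} (hKL : 0 ≤ KL)
    (hL : Par.PhiLip f KL) {η δ σ w : ℝ} (hlo : 0 < lo) (hη : 0 ≤ η) {lam : Fin R₀ → ℝ} (hbox : lam ∈ box lo hi)
    (hmax : ∀ l ∈ box lo hi, GA μ F N q η l ≤ GA μ F N q η lam) (hδ : 0 < δ)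
    (hroom : ∀ j, lo ≤ lam j - δ ∧ lam j + δ ≤ hi ∧ δ ≤ lam j / 2) (he : 0 ≤ e) (hσ : 0 < σ)
    (hiP : Integrable (fun ω => Par.Phi (fun y => exp (f y)) (k * R₀) (lin (k * R₀)) (r lam ω)) μ)
    (hnum : e + e' + ((1 / 2 + 2 * η / lo ^ 2) * δ + 3 * θ / δ) ≤ lo * w) :
    ∫ ω, Par.Phi (fun y => exp (f y)) (k * R₀) (lin (k * R₀)) (r lam ω) ∂μ ≤
      Par.Phi (fun y => exp (f y)) R₀ (lin R₀) q + D ^ 2 * (e / lo) + KL * (2 / R₀ + R₀ * (w / σ + σ)) := by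
  refine phi_bound hS hR₀ hk hq hq1 hKL hL (div_nonneg he hlo.le) hσ (hE.prof lam) (hE.intr lam hbox) hiP
    (fun j hj => ?_) (fun j => ?_)
  · have hx : 0 < lam ⟨j, hj⟩ := hlo.trans_le (hbox _).1
    have h1 := hE.ibp1 lam hbox ⟨j, hj⟩
    rw [first_order hlo hbox hmax ⟨by linarith [(hroom ⟨j, hj⟩).1], by linarith [(hroom ⟨j, hj⟩).2.1]⟩
      (hE.dmean lam hbox _), aCoef] at h1
    set T := tailAvg (k * R₀) (j * k) (rmean μ (r lam))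
    simp only at h1
    have h4 : lam ⟨j, hj⟩ * (tailAvg R₀ j q - T) ≤ e := by
      have : 0 ≤ η / lam ⟨j, hj⟩ := by positivity
      nlinarith [(abs_le.1 h1).1]
    have h5 : tailAvg R₀ j q - T ≤ e / lam ⟨j, hj⟩ := by rwa [le_div_iff₀ hx, mul_comm]
    have h6 := div_le_div_of_nonneg_left he hlo (hbox ⟨j, hj⟩).1
    linarith
  · have hΘ := energy_conc (H := fun ω => H lam ω j) hN hlo hη hbox hmax hδ (hroom j).1 (hroom j).2.1
      (hroom j).2.2 (hE.intH lam hbox j) hE.intF (hE.conv lam hbox j) (hE.dmean lam hbox j) hE.dev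
    have ha : |aCoef R₀ q j| ≤ 1 / 2 := by
      obtain ⟨x0, x1⟩ := tail_mem (J := (j:ℕ)) hq
      rw [aCoef, abs_le]; constructor <;> linarith
    have e3 := mul_le_mul_of_nonneg_right (add_le_add ha (le_refl (2 * η / lo ^ 2))) hδ.le
    have hvar := tail_var (fun ω => (hE.prof lam ω).1) (hE.intr lam hbox) (hE.intH lam hbox j)
      (hE.ibp1 lam hbox j) (hE.ibp2 lam hbox j) hΘ
    refine le_of_mul_le_mul_left ?_ hlo
    refine (mul_le_mul_of_nonneg_right (hbox j).1 (integral_nonneg fun ω => sq_nonneg _)).trans (hvar.trans ?_)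
    linarith

end Vale.Agent.P157.Sph
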