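import Vale.Agent.P157.Sph.EnvAbs

/-! The upper envelope for abstract families: the bound at a fixed dimension. -/

open MeasureTheory Real Finset
open Vale.Agent.P168.MP (lin)
open Vale.Agent.P157.Full (affX confine)

namespace Vale.Agent.P157.Sph

open Par (Sm Prof)

variable {f f1 f2 f3 : ℝ → ℝ} {B D : ℝ} {R₀ k : ℕ} {Ω : ℕ → Type} [∀ M, MeasurableSpace (Ω M)]
  {μ : ∀ M, Measure (Ω M)} [∀ M, IsProbabilityMeasure (μ M)] {N θ e e' lo hi : ℝ}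
  {F : ∀ M, (Fin R₀ → ℝ) → Ω M → ℝ} {H : ∀ M, (Fin R₀ → ℝ) → Ω M → Fin R₀ → ℝ}
  {r : ∀ M, (Fin R₀ → ℝ) → Ω M → ℕ → ℝ}

/-- after `M₀` patterns the objective is at most its start plus the value of the patterns -/
theorem climb_bound (hS : Sm f f1 f2 f3 B D) (hN : 0 < N) (hR₀ : 1 ≤ R₀) (hk : 1 ≤ k) {q : ℕ → ℝ}
    (hq : Prof R₀ q 1) (hq1 : q R₀ = 1) {KL : ℝ} (hKL : 0 ≤ KL) (hL : Par.PhiLip f KL)
    {α c C J L η δ σ w s P : ℝ} {M₀ : ℕ} (hM₀ : (M₀ : ℝ) ≤ α * N) (hB : 0 ≤ B) (hc : 0 < c) (hη : 0 < η)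
    (hη1 : η ≤ 1) (hlo : 0 < lo) {l1 : ℝ} (hl1 : lo ≤ l1 ∧ l1 ≤ hi) (hδ : 0 < δ)
    (hhi : √(2 * ((C + α * B) + L + R₀ / (2 * c)) / c) + δ ≤ hi)
    (hx1 : lo + δ ≤ exp (-((C + α * B) + L + R₀ / (2 * c)) / η))
    (hx2 : 2 * δ ≤ exp (-((C + α * B) + L + R₀ / (2 * c)) / η)) (he : 0 ≤ e) (hσ : 0 < σ)
    (hnum : e + e' + ((1 / 2 + 2 * η / lo ^ 2) * δ + 3 * θ / δ) ≤ lo * w)
    (hP : Par.Phi (fun y => exp (f y)) R₀ (lin R₀) q + D ^ 2 * (e / lo) + KL * (2 / R₀ + R₀ * (w / σ + σ)) + s ≤ P)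
    (hE : ∀ M, M + 1 ≤ M₀ → EnvIn (μ (M + 1)) R₀ k N θ e e' lo hi (F (M + 1)) (H (M + 1)) (r (M + 1)))
    (hz : ∀ l ∈ box lo hi, GA (μ 0) (F 0) N q η l ≤ C - c * ∑ i, l i ^ 2 + η * ∑ i, log (l i))
    (hzJ : ∀ l ∈ box lo hi, GA (μ 0) (F 0) N q η l ≤ J)
    (hup : ∀ M ≤ M₀, ∀ l ∈ box lo hi, ∫ ω, F M l ω ∂μ M ≤ ∫ ω, F 0 l ω ∂μ 0 + M * B)
    (hlow : ∀ M ≤ M₀, -L ≤ GA (μ M) (F M) N q η fun _ => l1)
    (hiP : ∀ M, M + 1 ≤ M₀ → ∀ l ∈ box lo hi, Integrable (fun ω =>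
      Par.Phi (fun y => exp (f y)) (k * R₀) (lin (k * R₀)) (r (M + 1) l ω)) (μ (M + 1)))
    (hstep : ∀ M, M + 1 ≤ M₀ → ∀ l ∈ box lo hi, ∫ ω, F (M + 1) l ω ∂μ (M + 1) ≤ ∫ ω, F M l ω ∂μ M +
      ∫ ω, Par.Phi (fun y => exp (f y)) (k * R₀) (lin (k * R₀)) (r (M + 1) l ω) ∂μ (M + 1) + s) :
    ∀ M ≤ M₀, ∀ l ∈ box lo hi, GA (μ M) (F M) N q η l ≤ J + M * (P / N) := by
  intro M
  induction M with
  | zero => intro _ l hl; simpa using hzJ l hl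
  | succ M ih =>
    intro hM l hl
    have hEM := hE M hM
    obtain ⟨lam, hbox, hmax⟩ := exists_max (μ := μ (M + 1)) (F := F (M + 1)) (N := N) (q := q) (η := η)
      hlo (hl1.1.trans hl1.2) hEM.cont
    refine (hmax l hl).trans ?_
    have hMN : ((M + 1 : ℕ) : ℝ) ≤ α * N := (show ((M + 1 : ℕ) : ℝ) ≤ M₀ by exact_mod_cast hM).trans hM₀
    have hroom : ∀ j, lo ≤ lam j - δ ∧ lam j + δ ≤ hi ∧ δ ≤ lam j / 2 := fun j => by
      have h0 := hz lam hbox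
      have h1 := (hlow (M + 1) hM).trans (hmax _ fun _ => hl1)
      have h2 : (∫ ω, F (M + 1) lam ω ∂μ (M + 1)) / N ≤ (∫ ω, F 0 lam ω ∂μ 0) / N + α * B := by
        refine (div_le_div_of_nonneg_right (hup (M + 1) hM lam hbox) hN.le).trans ?_
        rw [add_div]
        refine add_le_add le_rfl ?_
        rw [mul_div_right_comm]
        exact mul_le_mul_of_nonneg_right ((div_le_iff₀ hN).2 hMN) hB
      obtain ⟨x, y⟩ := confine (C := C + α * B) (L := L) hc hη hη1 lam (fun i => hlo.trans_le (hbox i).1)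
        (by simp only [GA] at h0 h1; linarith) j
      exact ⟨by linarith, by linarith, by linarith⟩
    have hΦ := value_at_max hS hEM hN hR₀ hk hq hq1 hKL hL hlo hη.le hbox hmax hδ hroom he hσ
      (hiP M hM lam hbox) hnum
    have hst := div_le_div_of_nonneg_right ((hstep M hM lam hbox).trans (show _ ≤
      ∫ ω, F M lam ω ∂μ M + P by linarith)) hN.le
    rw [add_div] at hst
    have hih := ih (by omega) lam hbox
    simp only [GA] at hih ⊢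
    push_cast
    linarith

end Vale.Agent.P157.Sph
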