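import Vale.Agent.P157.Full.EnvMax

/-! The envelope objective of an abstract family of log partition functions on one probability space:
its maximiser, the first order condition and the concentration of the field energy there. -/

open MeasureTheory Real Finset
open Vale.Agent.P157.Full (affX affX_update aCoef aff_one convex_sandwich)

namespace Vale.Agent.P157.Sph

variable {Ω : Type} [MeasurableSpace Ω] {μ : Measure Ω} [IsProbabilityMeasure μ] {R₀ : ℕ}
  {F : (Fin R₀ → ℝ) → Ω → ℝ} {H : Ω → ℝ} {q : ℕ → ℝ} {N η : ℝ} {lam : Fin R₀ → ℝ} {j : Fin R₀}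

/-- the objective -/
noncomputable def GA (μ : Measure Ω) (F : (Fin R₀ → ℝ) → Ω → ℝ) (N : ℝ) (q : ℕ → ℝ) (η : ℝ)
    (lam : Fin R₀ → ℝ) : ℝ := (∫ ω, F lam ω ∂μ) / N + affX q η lam

/-- the box of amplitudes -/
def box (lo hi : ℝ) : Set (Fin R₀ → ℝ) := {x | ∀ i, lo ≤ x i ∧ x i ≤ hi}

lemma update_mem {lo hi t : ℝ} (hb : lam ∈ box lo hi) (ht : lo ≤ t ∧ t ≤ hi) :
    Function.update lam j t ∈ box lo hi := fun i => by
  rcases eq_or_ne i j with rfl | hij
  · rw [Function.update_self]; exact ht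
  · rw [Function.update_of_ne hij]; exact hb i

omit [IsProbabilityMeasure μ] in
lemma exists_max {lo hi : ℝ} (hlo : 0 < lo) (hlh : lo ≤ hi) (hc : Continuous fun l => ∫ ω, F l ω ∂μ) :
    ∃ lam ∈ box (R₀ := R₀) lo hi, ∀ l ∈ box lo hi, GA μ F N q η l ≤ GA μ F N q η lam := by
  set T : Set (Fin R₀ → ℝ) := Set.univ.pi fun _ => Set.Icc lo hi
  have hT : IsCompact T := isCompact_univ_pi fun _ => isCompact_Icc
  have hne : T.Nonempty := ⟨fun _ => lo, fun i _ => ⟨le_rfl, hlh⟩⟩
  have ha : ContinuousOn (affX q η) T := by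
    unfold affX
    refine continuousOn_finsetSum _ fun i _ => (continuousOn_const.mul
      ((continuous_apply i).pow 2).continuousOn).add (continuousOn_const.mul ?_)
    exact (continuous_apply i).continuousOn.log fun x hx => (hlo.trans_le (hx i (Set.mem_univ i)).1).ne'
  obtain ⟨lam, hm, hmax⟩ := hT.exists_isMaxOn hne (((hc.div_const N).continuousOn (s := T)).add ha)
  exact ⟨lam, fun i => hm i (Set.mem_univ i), fun l h' => hmax fun i _ => h' i⟩

omit [IsProbabilityMeasure μ] in
/-- first order condition at a maximiser inside the box -/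
lemma first_order {lo hi : ℝ} (hlo : 0 < lo) (hbox : lam ∈ box lo hi)
    (hmax : ∀ l ∈ box lo hi, GA μ F N q η l ≤ GA μ F N q η lam) (hin : lo < lam j ∧ lam j < hi)
    (hd : HasDerivAt (fun t => ∫ ω, F (Function.update lam j t) ω ∂μ) (∫ ω, H ω ∂μ) (lam j)) :
    (∫ ω, H ω ∂μ) / N = -(2 * aCoef R₀ q j * lam j + η / lam j) := by
  have hx : 0 < lam j := hlo.trans hin.1
  have hloc : IsLocalMax (fun t => GA μ F N q η (Function.update lam j t)) (lam j) := by
    filter_upwards [Ioo_mem_nhds hin.1 hin.2] with t ht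
    rw [Function.update_eq_self]
    exact hmax _ (update_mem hbox ⟨ht.1.le, ht.2.le⟩)
  have h2 : HasDerivAt (fun t => affX q η (Function.update lam j t))
      (2 * aCoef R₀ q j * lam j + η / lam j) (lam j) := by
    simp only [affX_update]
    refine ((((hasDerivAt_pow 2 (lam j)).const_mul _).add ((hasDerivAt_log hx.ne').const_mul η)).sub_const _).const_add _
      |>.congr_deriv ?_
    simp [div_eq_mul_inv]; ring
  have := hloc.hasDerivAt_eq_zero ((hd.div_const N).add h2)
  linarith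

omit [IsProbabilityMeasure μ] in
/-- the second difference of the mean at a maximiser -/
lemma second_order {lo hi d : ℝ} (hlo : 0 < lo) (hη : 0 ≤ η) (hbox : lam ∈ box lo hi)
    (hmax : ∀ l ∈ box lo hi, GA μ F N q η l ≤ GA μ F N q η lam)
    (hd : lo ≤ lam j + d ∧ lam j + d ≤ hi) (hd2 : |d| ≤ lam j / 2) :
    (∫ ω, F (Function.update lam j (lam j + d)) ω ∂μ) / N ≤ (∫ ω, F lam ω ∂μ) / N +
        -(2 * aCoef R₀ q j * lam j + η / lam j) * d + (|aCoef R₀ q j| + 2 * η / lo ^ 2) * d ^ 2 := by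
  have hx : 0 < lam j := hlo.trans_le (hbox j).1
  have h := hmax _ (update_mem (j := j) hbox hd)
  rw [GA, GA, affX_update] at h
  have h2 := aff_one (aCoef R₀ q j) η hη hx hd2
  have h3 : 2 * η / lam j ^ 2 * d ^ 2 ≤ 2 * η / lo ^ 2 * d ^ 2 :=
    mul_le_mul_of_nonneg_right (div_le_div_of_nonneg_left (by positivity) (by positivity)
      (pow_le_pow_left₀ hlo.le (hbox j).1 2)) (sq_nonneg d)
  nlinarith

/-- at a maximiser the field energy is concentrated -/
theorem energy_conc {lo hi δ θ : ℝ} (hN : 0 < N) (hlo : 0 < lo) (hη : 0 ≤ η) (hbox : lam ∈ box lo hi)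
    (hmax : ∀ l ∈ box lo hi, GA μ F N q η l ≤ GA μ F N q η lam)
    (hδ : 0 < δ) (hδl : lo ≤ lam j - δ) (hδh : lam j + δ ≤ hi) (hδ2 : δ ≤ lam j / 2)
    (hiH : Integrable H μ) (hiF : ∀ l ∈ box lo hi, Integrable (F l) μ)
    (hcv : ∀ ω, ConvexOn ℝ Set.univ (fun t => F (Function.update lam j t) ω) ∧
      HasDerivAt (fun t => F (Function.update lam j t) ω) (H ω) (lam j))
    (hd : HasDerivAt (fun t => ∫ ω, F (Function.update lam j t) ω ∂μ) (∫ ω, H ω ∂μ) (lam j))
    (hdev : ∀ l ∈ box lo hi, ∫ ω, |F l ω - ∫ x, F l x ∂μ| ∂μ ≤ N * θ) :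
    ∫ ω, |H ω / N - (∫ x, H x ∂μ) / N| ∂μ ≤
      (|aCoef R₀ q j| + 2 * η / lo ^ 2) * δ + 3 * θ / δ := by
  set C := |aCoef R₀ q j| + 2 * η / lo ^ 2 with hC
  have hin : lo < lam j ∧ lam j < hi := ⟨by linarith, by linarith⟩
  rw [first_order hlo hbox hmax hin hd]
  set G' := -(2 * aCoef R₀ q j * lam j + η / lam j) with hG'
  set G := fun t => (∫ ω, F (Function.update lam j t) ω ∂μ) / N with hG
  set φ := fun t ω => |F (Function.update lam j t) ω / N - G t| with hφ
  have hp := second_order (d := δ) hlo hη hbox hmax ⟨by linarith, hδh⟩ (by rwa [abs_of_pos hδ])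
  have hm := second_order (d := -δ) (j := j) hlo hη hbox hmax ⟨by linarith, by linarith⟩
    (by rwa [abs_neg, abs_of_pos hδ])
  rw [← sub_eq_add_neg] at hm
  have e0 : Function.update lam j (lam j) = lam := Function.update_eq_self _ _
  have hpt : ∀ ω, |H ω / N - G'| ≤ C * δ + (φ (lam j + δ) ω + φ (lam j - δ) ω + φ (lam j) ω) / δ := fun ω => by
    refine convex_sandwich (φ := fun t => F (Function.update lam j t) ω / N) (G := G) hδ ?_
      ((hcv ω).2.div_const N) ?_ ?_
    · simpa [div_eq_inv_mul] using (hcv ω).1.smul (show (0:ℝ) ≤ N⁻¹ by positivity)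
    · simp only [hG, hC, hG', e0]; linarith [hp]
    · simp only [hG, hC, hG', e0]; linarith [hm]
  have hi' : ∀ t, lo ≤ t → t ≤ hi → Integrable (φ t) μ ∧ ∫ ω, φ t ω ∂μ ≤ θ := fun t h1 h2 => by
    have hl := update_mem (j := j) hbox ⟨h1, h2⟩
    refine ⟨(((hiF _ hl).div_const N).sub (integrable_const _)).abs, ?_⟩
    have : φ t = fun ω => |F (Function.update lam j t) ω - ∫ x, F (Function.update lam j t) x ∂μ| / N := by
      funext ω; simp only [hφ, hG]; rw [← sub_div, abs_div, abs_of_pos hN]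
    rw [this, integral_div, div_le_iff₀ hN]
    exact (hdev _ hl).trans_eq (mul_comm _ _)
  obtain ⟨i1, b1⟩ := hi' _ (show lo ≤ lam j + δ by linarith) hδh
  obtain ⟨i2, b2⟩ := hi' _ hδl (show lam j - δ ≤ hi by linarith)
  obtain ⟨i3, b3⟩ := hi' _ (hbox j).1 (hbox j).2
  have j2 : Integrable (fun ω => φ (lam j + δ) ω + φ (lam j - δ) ω) μ := i1.add i2
  have j3 : Integrable (fun ω => φ (lam j + δ) ω + φ (lam j - δ) ω + φ (lam j) ω) μ := j2.add i3
  have j4 : Integrable (fun ω => (φ (lam j + δ) ω + φ (lam j - δ) ω + φ (lam j) ω) / δ) μ := j3.div_const δ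
  refine (integral_mono (g := fun ω => C * δ + (φ (lam j + δ) ω + φ (lam j - δ) ω + φ (lam j) ω) / δ)
    ((hiH.div_const N).sub (integrable_const G')).abs ((integrable_const (C * δ)).add j4) hpt).trans ?_
  rw [integral_add (integrable_const _) j4, integral_const, probReal_univ, one_smul,
    integral_div, integral_add j2 i3, integral_add i1 i2]
  refine add_le_add le_rfl (div_le_div_of_nonneg_right ?_ hδ.le)
  linarith

end Vale.Agent.P157.Sph
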