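import Vale.Agent.P157.Sph.EnvFieldSys
import Vale.Agent.P168.MP.Upper.ZBase

/-! Collisions of the labels of two replicas, and the reduction of a tree to its labels when the other marks
are read at the last level only. -/

open MeasureTheory ProbabilityTheory Finset
open Vale.Agent.P150 (gauss dot l1)
open Vale.Agent.P168.MP (lin ET ext trans Z avg logZ0 Ok ok_lin Valid)
open Vale.Agent.P157.Par (Ix fmax)

namespace Vale.Agent.P157.Sph

variable {Ω : Type} [Fintype Ω] [Nonempty Ω] {R : ℕ} {m : ℕ → ℝ} {w : List Ω → ℝ}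

omit [Nonempty Ω] in
/-- marks read at the last level only do not change the nested means beyond it -/
lemma Z_collapse {Λ : Type} [Fintype Λ] [Nonempty Λ] {W : List Λ → ℝ} (π : Ω → Λ)
    (hπ : ∀ φ : Λ → ℝ, avg (fun o => φ (π o)) = avg φ) (hm : Ok R m w)
    (h : ∀ pre : List Ω, pre.length + 1 = R →
      avg (fun o => w (pre ++ [o])) = avg (fun x => W (pre.map π ++ [x]))) :
    ∀ (k : ℕ) (pre : List Ω), pre.length + (k + 1) = R → Z m w (k + 1) pre = Z m W (k + 1) (pre.map π) := by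
  intro k
  induction k with
  | zero =>
    intro pre hk
    simp only [Z, List.length_map, show pre.length + 1 = R by omega, hm.top, Real.rpow_one, one_div, inv_one]
    exact h pre hk
  | succ k ih =>
    intro pre hk
    rw [Z, Z.eq_def m W (k + 1 + 1)]
    simp only [ih _ (show (pre ++ [_]).length + (k + 1) = R by simp; omega), List.map_append, List.map_cons,
      List.map_nil, List.length_map]
    rw [hπ fun x => Z m W (k + 1) (pre.map π ++ [x]) ^ m (pre.length + 1)]

lemma logZ0_collapse {Λ : Type} [Fintype Λ] [Nonempty Λ] {W : List Λ → ℝ} (π : Ω → Λ)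
    (hπ : ∀ φ : Λ → ℝ, avg (fun o => φ (π o)) = avg φ) (hm : Ok R m w) (hR : 1 ≤ R)
    (h : ∀ pre : List Ω, pre.length + 1 = R →
      avg (fun o => w (pre ++ [o])) = avg (fun x => W (pre.map π ++ [x]))) :
    logZ0 R m w = logZ0 R m W := by
  obtain ⟨k, rfl⟩ : ∃ k, R = k + 1 := ⟨R - 1, by omega⟩
  rw [logZ0, logZ0, Z_collapse π hπ hm h k [] (by simp), List.map_nil]

/-- the first new mark under a weight read at the last level only -/
lemma ext_first (hw : ∀ p, 0 < w p) (d : Ω) (k : ℕ) (pre : List Ω) (φ : Ω → ℝ) :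
    ext m w (k + 1) pre (fun q => φ (q.getD pre.length d)) = ∑ o, trans m w k pre o * φ o := by
  rw [Vale.Agent.P168.MP.ext_succ]
  refine sum_congr rfl fun o _ => congrArg _ ?_
  rw [Vale.Agent.P168.MP.ext_congr (G := fun _ => φ o) fun suf _ => ?_, Vale.Agent.P168.MP.ext_const hw]
  rw [List.append_assoc, List.getD_append_right _ _ _ _ le_rfl, Nat.sub_self]
  rfl

/-- two replicas under a weight read at the last level, with labels independent of it -/
lemma ET_coll_last {Λ : Type} [DecidableEq Λ] (hm : Ok R m w) (d : Ω) {h : Ω → ℝ} (hh : ∀ o, 0 < h o)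
    (hwh : ∀ p : List Ω, p.length = R → w p = h (p.getD (R - 1) d)) (lab : Ω → Λ) {δ : ℝ}
    (h1 : ∀ x, avg (fun o => if lab o = x then (1 : ℝ) else 0) = δ)
    (h2 : ∀ x, avg (fun o => h o * if lab o = x then (1 : ℝ) else 0) = δ * avg h) {l : ℕ} (hl : l < R) :
    ET R m w [(0, l), (0, 0)] (fun ps =>
      if lab ((ps.getD 1 []).getD l d) = lab ((ps.getD 0 []).getD l d) then (1 : ℝ) else 0) = δ := by
  rw [Vale.Agent.P168.MP.ET_cons, Vale.Agent.P168.MP.ET_single,
    Vale.Agent.P168.MP.ext_congr (G := fun _ => δ) fun suf hs => ?_, Vale.Agent.P168.MP.ext_const hm.wpos]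
  simp only [List.nil_append, List.getD_cons_zero, List.cons_append, List.getD_cons_succ]
  have hlen : (suf.take l).length = l := by simp [hs]; omega
  obtain ⟨k, hk⟩ : ∃ k, R - l = k + 1 := ⟨R - l - 1, by omega⟩
  set pre := suf.take l
  set φ := fun o => if lab o = lab (suf.getD l d) then (1 : ℝ) else 0
  have e := ext_first (m := m) hm.wpos d k pre φ
  rw [hlen] at e
  rw [hk, e]
  have hp : pre.length + (k + 1) = R := by omega
  rcases Nat.eq_zero_or_pos k with rfl | hk0
  · have e1 : ∀ o, Z m w 0 (pre ++ [o]) ^ m (pre.length + 1) = h o := fun o => by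
      rw [show pre.length + 1 = R by omega, hm.top, Real.rpow_one, Z, hwh _ (by simp; omega),
        List.getD_append_right _ _ _ _ (by omega), show R - 1 - pre.length = 0 by omega]
      rfl
    have hs : (0 : ℝ) < ∑ o, h o := sum_pos (fun o _ => hh o) univ_nonempty
    simp only [Vale.Agent.P168.MP.trans, e1, div_mul_eq_mul_div, ← sum_div]
    rw [div_eq_iff hs.ne']
    have := h2 (lab (suf.getD l d))
    simp only [avg, mul_div_assoc'] at this
    exact (div_left_inj' (Nat.cast_ne_zero.2 Fintype.card_ne_zero)).1 this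
  · obtain ⟨k', rfl⟩ : ∃ k', k = k' + 1 := ⟨k - 1, by omega⟩
    have e1 : ∀ o, Z m w (k' + 1) (pre ++ [o]) = avg h := fun o => Par.Z_last hm d hh hwh k' _ (by simp; omega)
    have hS : 0 < avg h ^ m (pre.length + 1) := Real.rpow_pos_of_pos (Vale.Agent.P168.MP.avg_pos hh) _
    simp only [Vale.Agent.P168.MP.trans, e1, sum_const, card_univ, nsmul_eq_mul, div_mul_cancel_right₀ hS.ne', ← mul_sum]
    rw [← h1 (lab (suf.getD l d)), avg, div_eq_inv_mul]

variable {N n R₀ k : ℕ} {lam : Fin R₀ → ℝ} {w₀ : List Ω → ℝ} {v : List Ω → Fin N → ℝ} {lab : Ω → Fin (n + 1)}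

/-- the bound of the collisions, at a fixed dimension and depth -/
noncomputable def collS (N R : ℕ) (V C : ℝ) : ℝ :=
  Real.exp (4 * C) *
    max 1 (N * (2 * Real.exp ((((2 * R : ℕ) : ℝ) * (4 * (√(N : ℝ) * N))) ^ 2 * V / 2)))

/-- the field at a point is at most the largest field of one coordinate -/
lemma abs_dot_fvec_fmax [NeZero N] {y : Fin N → ℝ} (hy : dot y y = 1) (x : List (Fin (n + 1)))
    (Z : Fin N × Ix (k * R₀) n → ℝ) :
    |dot (fvec R₀ k lam y x) Z| ≤ √(N : ℝ) * N *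
      fmax (fun q : Fin N × (Fin (k * R₀) → Fin (n + 1)) => fun ik => if ik.1 = q.1 then
        ∑ j : Fin R₀, lam j * nodeB (k * R₀) (j * k) (List.ofFn q.2) ik.2 else 0) Z := by
  classical
  set a := fun q : Fin N × (Fin (k * R₀) → Fin (n + 1)) => fun ik : Fin N × Ix (k * R₀) n => if ik.1 = q.1 then
    ∑ j : Fin R₀, lam j * nodeB (k * R₀) (j * k) (List.ofFn q.2) ik.2 else 0
  have hmax : 0 ≤ fmax a Z :=
    (abs_nonneg _).trans (Par.le_fmax a Z (⟨0, NeZero.pos N⟩, fun _ => 0))
  by_cases hx : x.length = k * R₀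
  swap
  · have e : ∀ ik, fvec R₀ k lam y x ik = 0 := fun ik => sum_eq_zero fun j _ => by
      simp [bvec, nodeB, hx]
    simp only [dot, e, zero_mul, sum_const_zero, abs_zero]
    exact mul_nonneg (by positivity) hmax
  obtain ⟨q, rfl⟩ : ∃ q : Fin (k * R₀) → Fin (n + 1), x = List.ofFn q :=
    ⟨fun i => x.get (i.cast hx.symm), by
      apply List.ext_getElem <;> simp [hx]⟩
  have e : dot (fvec R₀ k lam y (List.ofFn q)) Z = √(N : ℝ) * ∑ i, y i * dot (a (i, q)) Z := by
    simp only [dot, a, fvec, bvec, Fintype.sum_prod_type, ite_mul, zero_mul, mul_sum, sum_mul]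
    refine sum_congr rfl fun i _ => ?_
    rw [sum_eq_single_of_mem i (mem_univ _) fun b _ hb => by simp [hb]]
    simp only [if_true, mul_sum]
    exact sum_congr rfl fun κ _ => sum_congr rfl fun j _ => by ring
  rw [e, abs_mul, abs_of_nonneg (Real.sqrt_nonneg _), mul_assoc]
  refine mul_le_mul_of_nonneg_left ((abs_sum_le_sum_abs _ _).trans
    ((sum_le_card_nsmul _ _ (fmax a Z) fun i _ => ?_).trans_eq (by simp))) (Real.sqrt_nonneg _)
  rw [abs_mul]
  exact (mul_le_of_le_one_left (abs_nonneg _) (abs_coord_le hy i)).trans (Par.le_fmax a Z (i, q))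

/-- collisions of labels are rare under a bounded factor of a weight with free labels -/
lemma CF_le [NeZero N] (hR : 1 ≤ k * R₀) (hk : 1 ≤ k) (d : Ω) {h : Ω → ℝ} (hh : ∀ o, 0 < h o)
    (h1 : ∀ x, avg (fun o => if lab o = x then (1 : ℝ) else 0) = 1 / ((n + 1 : ℕ) : ℝ))
    (h2 : ∀ x, avg (fun o => h o * if lab o = x then (1 : ℝ) else 0) = 1 / ((n + 1 : ℕ) : ℝ) * avg h)
    {C V : ℝ} (hw : ∀ p, 0 < w₀ p)
    (hY : ∀ p : List Ω, Real.exp (-C) ≤ w₀ p / h (p.getD (k * R₀ - 1) d) ∧
      w₀ p / h (p.getD (k * R₀ - 1) d) ≤ Real.exp C)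
    (hv : ∀ p, dot (v p) (v p) = 1) (hV : ∑ j, lam j ^ 2 ≤ V) :
    ∫ Z, CF R₀ k lam w₀ v lab Z ∂gauss (Fin N × Ix (k * R₀) n) ≤
      collS N (k * R₀) V C / √((n + 1 : ℕ) : ℝ) := by
  classical
  set R := k * R₀
  set a := fun q : Fin N × (Fin R → Fin (n + 1)) => fun ik : Fin N × Ix R n => if ik.1 = q.1 then
    ∑ j : Fin R₀, lam j * nodeB R (j * k) (List.ofFn q.2) ik.2 else 0
  set s := 4 * (√(N : ℝ) * N)
  have hs : 0 ≤ s := by positivity
  have ha : ∀ q, dot (a q) (a q) ≤ V := fun q => by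
    refine le_trans (le_of_eq ?_) hV
    simp only [dot, a, Fintype.sum_prod_type, ite_mul, mul_ite, mul_zero, zero_mul]
    rw [sum_eq_single_of_mem q.1 (mem_univ _) fun b _ hb => by simp [hb]]
    simp only [if_true, sum_mul_sum]
    rw [sum_comm]
    refine sum_congr rfl fun i _ => ?_
    rw [sum_comm, sum_eq_single_of_mem i (mem_univ _) fun i' _ hi => ?_]
    · rw [show (∑ κ : Ix R n, lam i * nodeB R (i * k) (List.ofFn q.2) κ * (lam i * nodeB R (i * k) (List.ofFn q.2) κ)) =
          lam i * lam i * ∑ κ, nodeB R (i * k) (List.ofFn q.2) κ * nodeB R (i * k) (List.ofFn q.2) κ from by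
        rw [mul_sum]; exact sum_congr rfl fun κ _ => by ring, sum_nodeB (jk_le i) (jk_le i),
        if_pos ⟨List.length_ofFn, List.length_ofFn, rfl, rfl⟩, mul_one, sq]
    · rw [show (∑ κ : Ix R n, lam i * nodeB R (i * k) (List.ofFn q.2) κ * (lam i' * nodeB R (i' * k) (List.ofFn q.2) κ)) =
          lam i * lam i' * ∑ κ, nodeB R (i * k) (List.ofFn q.2) κ * nodeB R (i' * k) (List.ofFn q.2) κ from by
        rw [mul_sum]; exact sum_congr rfl fun κ _ => by ring, sum_nodeB (jk_le i) (jk_le i'),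
        if_neg fun hc => hi (Fin.ext (Nat.eq_of_mul_eq_mul_right (by omega) hc.2.2.1).symm), mul_zero]
  obtain ⟨hI, hIn⟩ := Par.integral_exp_fmax a ha hs (2 * R)
  set I := ∫ Z, Real.exp (s * fmax a Z) ∂gauss (Fin N × Ix R n)
  set Lb : ℝ := ((n + 1 : ℕ) : ℝ)
  have hL : (0 : ℝ) < Lb := Nat.cast_pos.2 n.succ_pos
  have hsL : 0 < √Lb := Real.sqrt_pos.2 hL
  set w₁ := fun p : List Ω => h (p.getD (R - 1) d)
  have hok : Ok R (lin R) w₁ := ok_lin hR fun p => hh _
  have hl1 : ∀ l < R, ∀ Z, ET R (lin R) (wF R₀ k lam w₀ v lab Z) [(0, l), (0, 0)] (fun ps =>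
      if ((ps.getD 0 []).map lab).getD l 0 = ((ps.getD 1 []).map lab).getD l 0 then (1 : ℝ) else 0) ≤
      Real.exp (4 * C) * Real.exp (s * fmax a Z) * (1 / Lb) := fun l hl Z => by
    set b := C + √(N : ℝ) * N * fmax a Z
    set Y := fun p => w₀ p / w₁ p * Real.exp (dot (fvec R₀ k lam (v p) (p.map lab)) Z)
    have hb : ∀ p, Real.exp (-b) ≤ Y p ∧ Y p ≤ Real.exp b := fun p => by
      have hx := abs_le.1 (abs_dot_fvec_fmax (lam := lam) (hv p) (p.map lab) Z)
      simp only [b, neg_add, Real.exp_add]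
      exact ⟨mul_le_mul (hY p).1 (Real.exp_le_exp.2 hx.1) (Real.exp_pos _).le ((Real.exp_pos _).le.trans (hY p).1),
        mul_le_mul (hY p).2 (Real.exp_le_exp.2 hx.2) (Real.exp_pos _).le (Real.exp_pos _).le⟩
    have ew : wF R₀ k lam w₀ v lab Z = fun p => w₁ p * Y p := funext fun p => by
      simp only [Y, wF, ← mul_assoc, mul_div_cancel₀ _ (hh _).ne', w₁]
    rw [ew]
    refine (Par.ET_tilt_le hok (Real.exp_pos _) hb hl.le fun ps => by split_ifs <;> norm_num).trans ?_
    refine le_of_eq (congrArg₂ _ ?_ ?_)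
    · rw [← Real.exp_sub, ← Real.exp_nat_mul, ← Real.exp_add]
      simp only [b, s]; push_cast; ring_nf
    · rw [← ET_coll_last hok d hh (fun p _ => rfl) lab h1 h2 hl]
      have hT : Valid R [(0, l), (0, 0)] := ⟨Nat.zero_lt_one, hl.le, rfl, rfl⟩
      refine Vale.Agent.P168.MP.ET_congr hT fun ps hp => ?_
      have g : ∀ q : List Ω, q.length = R → (q.map lab).getD l 0 = lab (q.getD l d) := fun q hq => by
        rw [List.getD_eq_getElem _ _ (by simp [hq, hl]), List.getD_eq_getElem _ _ (hq ▸ hl)]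
        simp
      simp only [g _ (hp.2.1 0 (by simp)), g _ (hp.2.1 1 (by simp)), eq_comm]
  have hroot : I / √Lb ≤ max 1 (N * (2 * Real.exp ((((2 * R : ℕ) : ℝ) * s) ^ 2 * V / 2))) := by
    rcases le_or_gt (I / √Lb) 1 with h' | h'
    · exact h'.trans (le_max_left _ _)
    refine (le_self_pow₀ h'.le (show 2 * R ≠ 0 by omega)).trans (le_trans ?_ (le_max_right _ _))
    rw [div_pow, div_le_iff₀ (pow_pos hsL _)]
    refine hIn.trans (le_of_eq ?_)
    rw [pow_mul (√Lb), Real.sq_sqrt hL.le]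
    simp only [Fintype.card_prod, Fintype.card_fun, Fintype.card_fin, Lb, R]
    push_cast; ring
  have hbd : ∀ Z, CF R₀ k lam w₀ v lab Z ≤ Real.exp (4 * C) * Real.exp (s * fmax a Z) * (1 / Lb) := fun Z => by
    refine div_le_of_le_mul₀ (Nat.cast_nonneg _) (by positivity) ((sum_le_card_nsmul _ _ _ fun l hl =>
      hl1 l (mem_range.1 hl) Z).trans_eq ?_)
    rw [card_range, nsmul_eq_mul, mul_comm]
  refine (integral_mono_of_nonneg (Filter.Eventually.of_forall fun Z => (CF_bounds hw Z).1)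
    ((hI.const_mul _).mul_const _) (Filter.Eventually.of_forall hbd)).trans ?_
  rw [integral_mul_const, integral_const_mul]
  calc Real.exp (4 * C) * I * (1 / Lb) = Real.exp (4 * C) * (I / √Lb) / √Lb := by
        rw [mul_div_assoc' (Real.exp (4 * C)) I, div_div, Real.mul_self_sqrt hL.le]; ring
    _ ≤ _ := div_le_div_of_nonneg_right (mul_le_mul_of_nonneg_left hroot (Real.exp_pos _).le) hsL.le

end Vale.Agent.P157.Sph
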