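import Vale.Agent.P157.Gen.Chan
import Vale.Agent.P157.Lim.Sphere

/-! A point of the sphere in a field against the Gaussian prior of precision `b`. -/

open MeasureTheory ProbabilityTheory Real Finset
open Vale.Agent.P150 (gauss dot)
open Vale.Agent.P157.Lim (nd dirLaw radLaw)

namespace Vale.Agent.P157.Sph

variable {N : ℕ}

/-- exponential of a quadratic form -/
noncomputable def gq (A δ : ℝ) (y : Fin N → ℝ) : ℝ := exp (A + dot y y / (2 * δ))

/-- a Gaussian product integral of a quadratic exponent -/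
lemma gauss_prod {a : ℝ} (ha : -1 < a) (u : Fin N → ℝ) :
    Integrable (fun z => exp (dot u z - a * dot z z / 2)) (gauss (Fin N)) ∧
      ∫ z, exp (dot u z - a * dot z z / 2) ∂gauss (Fin N) =
        exp (-(N * log (1 + a) / 2) + dot u u / (2 * (1 + a))) := by
  have hq := fun i => Gen.gauss_quad ha (u i)
  have e : ∀ z : Fin N → ℝ, exp (dot u z - a * dot z z / 2) = ∏ i, exp (u i * z i - a * z i ^ 2 / 2) := fun z => by
    rw [← exp_sum]
    simp only [dot, mul_sum, sum_div, ← sum_sub_distrib]
    exact congrArg exp (sum_congr rfl fun i _ => by ring)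
  simp only [e]
  refine ⟨Integrable.fintype_prod (f := fun i t => exp (u i * t - a * t ^ 2 / 2)) fun i => (hq i).1, ?_⟩
  rw [gauss, integral_fintype_prod_eq_prod fun i t => exp (u i * t - a * t ^ 2 / 2),
    Finset.prod_congr rfl fun i _ => (hq i).2, ← exp_sum]
  refine congrArg exp ?_
  simp only [sum_add_distrib, sum_const, card_univ, Fintype.card_fin, nsmul_eq_mul, dot, sum_div]
  congr 1
  · ring
  · exact sum_congr rfl fun i _ => by ring

/-- the law of a direction is even -/
lemma integral_dirLaw_neg {G : (Fin N → ℝ) → ℝ} (hG : Measurable G) :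
    ∫ y, G (-y) ∂dirLaw (Fin N) = ∫ y, G y ∂dirLaw (Fin N) := by
  have hneg : (gauss (Fin N)).map (fun z => -z) = gauss (Fin N) := by
    have h : (gaussianReal 0 1).map (fun t : ℝ => -t) = gaussianReal 0 1 := by
      rw [gaussianReal_map_neg, neg_zero]
    conv_rhs => rw [gauss, ← funext fun _ : Fin N => h]
    rw [← Measure.pi_map_pi (f := fun _ (t : ℝ) => -t) (fun _ => measurable_neg.aemeasurable)]
    rfl
  rw [dirLaw, integral_map (f := fun y => G (-y)) Lim.measurable_nd.aemeasurable
      (hG.comp measurable_neg).aestronglyMeasurable,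
    integral_map Lim.measurable_nd.aemeasurable hG.aestronglyMeasurable]
  conv_rhs => rw [← hneg]
  rw [integral_map (f := fun x => G (nd x)) (Measurable.aemeasurable (by fun_prop))
    (hG.comp Lim.measurable_nd).aestronglyMeasurable]
  refine integral_congr_ae (Filter.Eventually.of_forall fun z => ?_)
  have : dot (-z) (-z) = dot z z := by simp [dot]
  simp [nd, this, smul_neg]

lemma abs_dot_dir (hN : 0 < N) (X : Fin N → ℝ) :
    ∀ᵐ y ∂dirLaw (Fin N), |dot y X| ≤ ∑ i, |X i| := by
  have : Nonempty (Fin N) := ⟨⟨0, hN⟩⟩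
  filter_upwards [Lim.dirLaw_unit (ι := Fin N)] with y hy
  refine (abs_sum_le_sum_abs _ _).trans (sum_le_sum fun i _ => ?_)
  rw [abs_mul]
  refine mul_le_of_le_one_left (abs_nonneg _) ?_
  rw [← sq_le_one_iff_abs_le_one, sq, ← hy]
  exact single_le_sum (f := fun j => y j * y j) (fun j _ => mul_self_nonneg _) (mem_univ i)

lemma integrable_exp_dot_dir (hN : 0 < N) (X : Fin N → ℝ) (t : ℝ) :
    Integrable (fun y => exp (t * dot y X)) (dirLaw (Fin N)) := by
  refine Integrable.of_bound (Measurable.aestronglyMeasurable (by unfold dot; fun_prop))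
    (exp (|t| * ∑ i, |X i|)) ((abs_dot_dir hN X).mono fun y hy => ?_)
  rw [Real.norm_eq_abs, abs_exp]
  refine exp_le_exp.2 ((le_abs_self _).trans ?_)
  rw [abs_mul]
  exact mul_le_mul_of_nonneg_left hy (abs_nonneg _)

/-- the partition function grows with the length of the field -/
lemma dir_mono (hN : 0 < N) (X : Fin N → ℝ) {t₁ t₂ : ℝ} (h : |t₁| ≤ |t₂|) :
    ∫ y, exp (t₁ * dot y X) ∂dirLaw (Fin N) ≤ ∫ y, exp (t₂ * dot y X) ∂dirLaw (Fin N) := by
  have hc : ∀ t, ∫ y, exp (t * dot y X) ∂dirLaw (Fin N) = ∫ y, cosh (t * dot y X) ∂dirLaw (Fin N) := fun t => by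
    have hi := integrable_exp_dot_dir hN X
    have h2 := integral_dirLaw_neg (N := N) (G := fun y => exp (t * dot y X)) (by unfold dot; fun_prop)
    have e : ∀ y : Fin N → ℝ, exp (t * dot (-y) X) = exp (-t * dot y X) := fun y => by simp [dot]
    simp only [e] at h2
    simp only [cosh_eq, ← neg_mul]
    rw [integral_div, integral_add (hi t) (hi (-t)), h2]
    ring
  have hci : ∀ t, Integrable (fun y => cosh (t * dot y X)) (dirLaw (Fin N)) := fun t => by
    simp only [cosh_eq, ← neg_mul]
    exact ((integrable_exp_dot_dir hN X t).add (integrable_exp_dot_dir hN X (-t))).div_const 2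
  rw [hc, hc]
  refine integral_mono (hci _) (hci _) fun y => cosh_le_cosh.2 ?_
  rw [abs_mul, abs_mul]
  exact mul_le_mul_of_nonneg_right h (abs_nonneg _)

/-- the squared length of a Gaussian vector is near `N` with probability one half -/
lemma shell_half (hN : 0 < N) {η : ℝ} (hη : 0 < η) (hK : 2 * Lim.K₂ ≤ η ^ 2 * N) :
    1 / 2 ≤ (gauss (Fin N)).real {z : Fin N → ℝ | |dot z z - N| ≤ η * N} := by
  have hN0 : (0 : ℝ) < N := by exact_mod_cast hN
  have hA : MeasurableSet {z : Fin N → ℝ | |dot z z - N| ≤ η * N} :=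
    measurableSet_le (by unfold dot; fun_prop) measurable_const
  obtain ⟨hi, hb⟩ := Lim.integral_lin_sq (fun _ : Fin N => (1 : ℝ)) (by simp)
  have e : ∀ z : Fin N → ℝ, ∑ k, (1 : ℝ) * (z k ^ 2 - 1) = dot z z - N := fun z => by
    simp [dot, sq]
  simp only [e] at hi hb
  rw [Fintype.card_fin] at hb
  have h := mul_meas_ge_le_integral_of_nonneg
    (Filter.Eventually.of_forall fun z : Fin N → ℝ => sq_nonneg (dot z z - N)) hi ((η * N) ^ 2)
  have hsub : {z : Fin N → ℝ | |dot z z - N| ≤ η * N}ᶜ ⊆ {z | (η * N) ^ 2 ≤ (dot z z - N) ^ 2} := fun z hz => by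
    simp only [Set.mem_compl_iff, Set.mem_ofPred_eq, not_le] at hz ⊢
    rw [← sq_abs (dot z z - N)]
    exact pow_le_pow_left₀ (by positivity) hz.le 2
  have h2 := measureReal_mono (μ := gauss (Fin N)) hsub
  rw [measureReal_compl hA, probReal_univ] at h2
  nlinarith [mul_le_mul_of_nonneg_left h2 (sq_nonneg (η * N)), mul_le_mul_of_nonneg_right hK hN0.le,
    show 0 < (η * N) ^ 2 by positivity]

/-- **a point of the sphere in a field is below the Gaussian prior of precision `b`** -/
theorem radial_le (hN : 0 < N) {η : ℝ} (hη : 0 < η) (hη1 : η ≤ 1 / 2) (hK : 2 * Lim.K₂ ≤ η ^ 2 * N)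
    {b : ℝ} (hb : 0 < b) (X : Fin N → ℝ) :
    ∫ y, exp (√(N : ℝ) * dot y X) ∂dirLaw (Fin N) ≤
      gq (log 2 + N * ((b - 1) + η * (4 * b + 1)) / 2 - N * log b / 2) b X := by
  have hN0 : (0 : ℝ) < N := by exact_mod_cast hN
  set τ := (1 - η)⁻¹
  have h1η : 0 < 1 - η := by linarith
  have hτ : 1 ≤ τ := (one_le_inv₀ h1η).2 (by linarith)
  have hτ2 : τ - 1 ≤ 2 * η := by
    have : τ * (1 - η) = 1 := inv_mul_cancel₀ h1η.ne'
    nlinarith
  set c := τ * b - 1
  have hc : -1 < c := by have := mul_pos (zero_lt_one.trans_le hτ) hb; simp only [c]; linarith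
  set Φ : ℝ → ℝ := fun t => ∫ y, exp (t * dot y X) ∂dirLaw (Fin N)
  set S : Set ℝ := {r | |r ^ 2 - N| ≤ η * N}
  have hS : MeasurableSet S := measurableSet_le (by fun_prop) measurable_const
  set K := exp (-((c + |c| * η) * N / 2))
  set G : (Fin N → ℝ) × ℝ → ℝ := fun p => S.indicator (fun r => exp (√τ * |r| * dot p.1 X)) p.2
  have hGm : Measurable G := by
    have : G = (Prod.snd ⁻¹' S).indicator fun p : (Fin N → ℝ) × ℝ => exp (√τ * |p.2| * dot p.1 X) := by
      funext p; simp only [G, Set.indicator, Set.mem_preimage]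
    rw [this]
    exact Measurable.indicator (by unfold dot; fun_prop) (measurable_snd hS)
  obtain ⟨hI, hIe⟩ := gauss_prod hc fun i => √τ * X i
  have hpt : ∀ z, K * G (nd z, √(dot z z)) ≤ exp (dot (fun i => √τ * X i) z - c * dot z z / 2) := fun z => by
    have hzz : 0 ≤ dot z z := sum_nonneg fun i _ => mul_self_nonneg _
    simp only [G, Set.indicator]
    split_ifs with hz
    · have hz' : |dot z z - N| ≤ η * N := by simpa [S, sq_sqrt hzz] using hz
      have e : √τ * |√(dot z z)| * dot (nd z) X = dot (fun i => √τ * X i) z := by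
        rw [abs_of_nonneg (sqrt_nonneg _)]
        rcases hzz.eq_or_lt with h0 | h0
        · have hz0 : ∀ i, z i = 0 := fun i => mul_self_eq_zero.1
            ((sum_eq_zero_iff_of_nonneg fun i _ => mul_self_nonneg (z i)).1 h0.symm i (mem_univ i))
          simp [dot, nd, hz0]
        · simp only [dot, nd, Pi.smul_apply, smul_eq_mul, mul_sum]
          refine sum_congr rfl fun i _ => ?_
          have : √(∑ k, z k * z k) ≠ 0 := (sqrt_pos.2 h0).ne'
          linear_combination (√τ * z i * X i) * mul_inv_cancel₀ this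
      rw [e, ← exp_add]
      refine exp_le_exp.2 ?_
      have : c * dot z z ≤ c * N + |c| * (η * N) := by
        have h1 : c * (dot z z - N) ≤ |c| * (η * N) :=
          ((le_abs_self _).trans_eq (abs_mul _ _)).trans (mul_le_mul_of_nonneg_left hz' (abs_nonneg _))
        linarith
      linarith
    · rw [mul_zero]; exact (exp_pos _).le
  have hlaw := Lim.dirLaw_indep N hN
  have hmz : Measurable fun z : Fin N → ℝ => (nd z, √(dot z z)) := Lim.measurable_nd.prodMk Lim.measurable_rad
  have hG0 : ∀ p, 0 ≤ G p := fun p => Set.indicator_nonneg (fun r _ => (exp_pos _).le) _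
  have hGi : Integrable (fun z => K * G (nd z, √(dot z z))) (gauss (Fin N)) :=
    hI.mono' ((hGm.comp hmz).const_mul K).aestronglyMeasurable (Filter.Eventually.of_forall fun z => by
      rw [Real.norm_eq_abs, abs_of_nonneg (mul_nonneg (exp_pos _).le (hG0 _))]; exact hpt z)
  have hGi' : Integrable G ((dirLaw (Fin N)).prod (radLaw (Fin N))) := by
    rw [← hlaw, integrable_map_measure hGm.aestronglyMeasurable hmz.aemeasurable]
    simpa [mul_inv_cancel_left₀, K, Function.comp_def] using hGi.const_mul K⁻¹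
  have h1 := integral_mono hGi hI hpt
  rw [hIe, integral_const_mul, ← integral_map hmz.aemeasurable hGm.aestronglyMeasurable, hlaw,
    integral_prod_symm _ hGi'] at h1
  have h2 : ∀ r, S.indicator (fun _ => Φ √(N : ℝ)) r ≤ ∫ y, G (y, r) ∂dirLaw (Fin N) := fun r => by
    simp only [G, Set.indicator]
    split_ifs with hr
    · refine dir_mono hN X ?_
      rw [abs_of_nonneg (sqrt_nonneg _), abs_mul, abs_abs, abs_of_nonneg (sqrt_nonneg _), ← sqrt_sq_eq_abs,
        ← sqrt_mul (by positivity)]
      refine sqrt_le_sqrt ?_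
      have h := (abs_le.1 (show |r ^ 2 - N| ≤ η * N from hr)).1
      rw [show (N : ℝ) = τ * ((1 - η) * N) by rw [← mul_assoc, inv_mul_cancel₀ h1η.ne', one_mul]]
      exact mul_le_mul_of_nonneg_left (by linarith) (by positivity)
    · exact integral_nonneg fun y => le_rfl
  have hrad : Lim.radLaw (Fin N) = (gauss (Fin N)).map fun z => √(dot z z) := rfl
  have h3 : Φ √(N : ℝ) * (1 / 2) ≤ ∫ r, ∫ y, G (y, r) ∂dirLaw (Fin N) ∂radLaw (Fin N) := by
    refine le_trans ?_ (integral_mono ((integrable_const (Φ √(N : ℝ))).indicator hS) hGi'.integral_prod_right h2)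
    rw [integral_indicator_const _ hS, smul_eq_mul, mul_comm]
    refine mul_le_mul_of_nonneg_right ((shell_half hN hη hK).trans_eq ?_) (integral_nonneg fun y => (exp_pos _).le)
    rw [hrad, map_measureReal_apply Lim.measurable_rad hS]
    congr 1
    ext z
    simp [S, sq_sqrt (show 0 ≤ dot z z from sum_nonneg fun i _ => mul_self_nonneg _)]
  have h4 : K * (Φ √(N : ℝ) * (1 / 2)) ≤
      exp (-(N * log (1 + c) / 2) + dot (fun i => √τ * X i) (fun i => √τ * X i) / (2 * (1 + c))) :=
    (mul_le_mul_of_nonneg_left h3 (exp_pos _).le).trans h1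
  have hXX : dot (fun i => √τ * X i) (fun i => √τ * X i) / (2 * (1 + c)) = dot X X / (2 * b) := by
    have : dot (fun i => √τ * X i) (fun i => √τ * X i) = τ * dot X X := by
      simp only [dot, mul_sum]
      exact sum_congr rfl fun i _ => by
        rw [mul_mul_mul_comm, mul_self_sqrt (by positivity)]
    rw [this, show 2 * (1 + c) = τ * (2 * b) by simp only [c]; ring, mul_div_mul_left _ _ (by positivity)]
  rw [hXX] at h4
  have h5 : Φ √(N : ℝ) ≤ exp (log 2 + (c + |c| * η) * N / 2) *
      exp (-(N * log (1 + c) / 2) + dot X X / (2 * b)) := by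
    have hK0 : 0 < K := exp_pos _
    have e : exp (log 2 + (c + |c| * η) * N / 2) = 2 * K⁻¹ := by
      rw [exp_add, exp_log two_pos, ← exp_neg, neg_neg]
    rw [e, mul_assoc, ← div_le_iff₀' two_pos, le_inv_mul_iff₀ hK0]
    linarith
  refine h5.trans ?_
  rw [gq, ← exp_add, exp_le_exp]
  have hlog : log b ≤ log (1 + c) :=
    log_le_log hb (by have := mul_le_mul_of_nonneg_right hτ hb.le; simp only [c]; linarith)
  have hc' : c + |c| * η ≤ (b - 1) + η * (4 * b + 1) := by
    have a1 : (τ - 1) * b ≤ 2 * η * b := mul_le_mul_of_nonneg_right hτ2 hb.le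
    have a2 : |c| ≤ 2 * b + 1 := by
      rw [abs_le]
      have := mul_le_mul_of_nonneg_right (show τ ≤ 2 by linarith) hb.le
      simp only [c]
      constructor <;> nlinarith
    have a3 := mul_le_mul_of_nonneg_right a2 hη.le
    simp only [c] at *
    linarith
  linarith [mul_le_mul_of_nonneg_left hlog hN0.le, mul_le_mul_of_nonneg_left hc' hN0.le]

end Vale.Agent.P157.Sph
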