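import Vale.Agent.P157.Sph.EnvEndRad
import Vale.Agent.P157.Par.Node
import Vale.Agent.P157.Par.Basics

/-! Nested Gaussian weights on a tree of labels: Jensen up the tree gives the Gaussian value for every number of
labels. -/

open MeasureTheory ProbabilityTheory Real Finset
open Vale.Agent.P150 (gauss dot)
open Vale.Agent.P168.MP (lin avg Z logZ0)
open Vale.Agent.P157.Par (Ix key key_inj ex_lin)

namespace Vale.Agent.P157.Sph

variable {N n R : ℕ}

/-- the vector of the variables at a node -/
def zeta (R : ℕ) (Zv : Fin N × Ix R n → ℝ) (q : List (Fin (n + 1))) : Fin N → ℝ := fun i => Zv (i, key q)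

/-- the variables accumulated along a path -/
noncomputable def xs (R : ℕ) (s : ℕ → ℝ) (Zv : Fin N × Ix R n → ℝ) (p : List (Fin (n + 1))) : Fin N → ℝ :=
  fun i => ∑ l ∈ range (p.length + 1), s l * zeta R Zv (p.take l) i

lemma xs_append (s : ℕ → ℝ) (Zv : Fin N × Ix R n → ℝ) (p : List (Fin (n + 1))) (o : Fin (n + 1)) :
    xs R s Zv (p ++ [o]) = fun i => xs R s Zv p i + s (p.length + 1) * zeta R Zv (p ++ [o]) i := by
  funext i
  simp only [xs, List.length_append, List.length_singleton, sum_range_succ _ (p.length + 1)]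
  rw [List.take_of_length_le (l := p ++ [o]) (by simp)]
  congr 1
  exact sum_congr rfl fun l hl => by rw [List.take_append_of_le_length (by have := mem_range.1 hl; omega)]

lemma gq_pos (A δ : ℝ) (y : Fin N → ℝ) : 0 < gq A δ y := exp_pos _

lemma log_gq (A δ : ℝ) (y : Fin N → ℝ) : log (gq A δ y) = A + dot y y / (2 * δ) := log_exp _

lemma measurable_gq (A δ : ℝ) : Measurable (gq (N := N) A δ) := by unfold gq dot; fun_prop

/-- one Gaussian step of a quadratic exponent -/
lemma gq_step {A δ δ' m s : ℝ} (hm : 0 < m) (hδ : 0 < δ) (hδ' : 0 < δ') (he : δ = δ' + m * s ^ 2) (y : Fin N → ℝ) :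
    Integrable (fun g => gq A δ (fun i => y i + s * g i) ^ m) (gauss (Fin N)) ∧
      ∫ g, gq A δ (fun i => y i + s * g i) ^ m ∂gauss (Fin N) = gq (A + N * log (δ / δ') / (2 * m)) δ' y ^ m := by
  have ha : -1 < -(m * s ^ 2 / δ) := by rw [neg_lt_neg_iff, div_lt_one hδ]; linarith
  have h1a : 1 + -(m * s ^ 2 / δ) = δ' / δ := by field_simp; linarith
  obtain ⟨hi, hI⟩ := gauss_prod ha fun i => m * s / δ * y i
  have e : ∀ g : Fin N → ℝ, gq A δ (fun i => y i + s * g i) ^ m = exp (m * A + m * dot y y / (2 * δ)) *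
      exp (dot (fun i => m * s / δ * y i) g - -(m * s ^ 2 / δ) * dot g g / 2) := fun g => by
    rw [gq, ← exp_mul, ← exp_add]
    congr 1
    simp only [dot, mul_sum, sum_mul, sum_div, ← sum_sub_distrib, add_assoc, ← sum_add_distrib, add_mul]
    rw [mul_comm A m]
    congr 1
    refine sum_congr rfl fun i _ => ?_
    field_simp
    ring
  simp only [e]
  refine ⟨hi.const_mul _, ?_⟩
  rw [integral_const_mul, hI, h1a, gq, ← exp_mul, ← exp_add]
  congr 1
  have hd : dot (fun i => m * s / δ * y i) (fun i => m * s / δ * y i) = (m * s / δ) ^ 2 * dot y y := by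
    simp only [dot, mul_sum]; exact sum_congr rfl fun i _ => by ring
  rw [hd, log_div hδ'.ne' hδ.ne', log_div hδ.ne' hδ'.ne']
  subst he
  field_simp
  ring

/-- the accumulated constant below the level `J` -/
noncomputable def acon (N R : ℕ) (A : ℝ) (D : ℕ → ℝ) (J : ℕ) : ℝ :=
  A + ∑ i ∈ Ico J R, N * log (D (i + 1) / D i) / (2 * lin R (i + 1))

/-- the nested weight of `k` levels below a node, started at `y` -/
noncomputable def treeW (R : ℕ) (A δ : ℝ) (s : ℕ → ℝ) (Zv : Fin N × Ix R n → ℝ) :
    ℕ → List (Fin (n + 1)) → (Fin N → ℝ) → ℝ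
  | 0, _, y => gq A δ y
  | k + 1, pre, y => (avg fun o => treeW R A δ s Zv k (pre ++ [o])
      (fun i => y i + s (pre.length + 1) * zeta R Zv (pre ++ [o]) i) ^ lin R (pre.length + 1)) ^
        (1 / lin R (pre.length + 1))

variable {A δ : ℝ} {s : ℕ → ℝ}

lemma tW_pos (Zv : Fin N × Ix R n → ℝ) : ∀ k pre y, 0 < treeW R A δ s Zv k pre y
  | 0, _, y => gq_pos _ _ y
  | k + 1, pre, _ =>
    rpow_pos_of_pos (Vale.Agent.P168.MP.avg_pos fun o => rpow_pos_of_pos (tW_pos Zv k _ _) _) _

lemma measurable_tW : ∀ (k : ℕ) (pre : List (Fin (n + 1))),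
    Measurable fun x : (Fin N → ℝ) × (Fin N × Ix R n → ℝ) => treeW R A δ s x.2 k pre x.1
  | 0, pre => (measurable_gq A δ).comp measurable_fst
  | k + 1, pre => by
    simp only [treeW, avg]
    refine ((Finset.measurable_sum _ fun o _ => ?_).div_const _).pow_const _
    refine Measurable.pow_const ?_ _
    refine (measurable_tW k (pre ++ [o])).comp (f := fun x : (Fin N → ℝ) × (Fin N × Ix R n → ℝ) =>
      ((fun i => x.1 i + s (pre.length + 1) * zeta R x.2 (pre ++ [o]) i), x.2)) ?_
    refine Measurable.prodMk (measurable_pi_lambda _ fun i => ?_) measurable_snd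
    unfold zeta
    fun_prop

/-- the variables of one node replaced -/
def upd (κ : Ix R n) (p : (Fin N → ℝ) × (Fin N × Ix R n → ℝ)) : Fin N × Ix R n → ℝ :=
  fun ik => if ik.2 = κ then p.1 ik.1 else p.2 ik

lemma upd_preserving (κ : Ix R n) :
    MeasurePreserving (upd (N := N) κ) ((gauss (Fin N)).prod (gauss (Fin N × Ix R n))) (gauss (Fin N × Ix R n)) := by
  classical
  have hm : Measurable (upd (N := N) κ) := measurable_pi_lambda _ fun ik => by
    unfold upd; split_ifs <;> fun_prop
  refine ⟨hm, (Measure.pi_eq fun t ht => ?_).symm⟩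
  rw [Measure.map_apply hm (MeasurableSet.univ_pi ht)]
  have e : upd (N := N) κ ⁻¹' Set.univ.pi t = (Set.univ.pi fun i => t (i, κ)) ×ˢ
      Set.univ.pi fun ik => if ik.2 = κ then Set.univ else t ik := by
    ext p
    simp only [Set.mem_preimage, Set.mem_univ_pi, Set.mem_prod, upd]
    refine ⟨fun H => ⟨fun i => by simpa using H (i, κ), fun ik => ?_⟩, fun H ik => ?_⟩
    · split_ifs with h
      · exact Set.mem_univ _
      · simpa [h] using H ik
    · split_ifs with h
      · obtain ⟨i, l⟩ := ik
        obtain rfl : l = κ := h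
        exact H.1 i
      · simpa [h] using H.2 ik
  rw [e, Measure.prod_prod, gauss, gauss, Measure.pi_pi, Measure.pi_pi, Fintype.prod_prod_type,
    Fintype.prod_prod_type, ← prod_mul_distrib]
  refine prod_congr rfl fun i _ => ?_
  rw [← mul_prod_erase univ (fun l => gaussianReal 0 1 (t (i, l))) (mem_univ κ),
    ← mul_prod_erase univ (fun l => gaussianReal 0 1 (if (i, l).2 = κ then Set.univ else t (i, l))) (mem_univ κ)]
  simp only [if_true, measure_univ, one_mul]
  congr 1
  exact prod_congr rfl fun l hl => by rw [if_neg (ne_of_mem_erase hl)]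

lemma zeta_upd (q : List (Fin (n + 1))) (g : Fin N → ℝ) (Zv : Fin N × Ix R n → ℝ) :
    zeta R (upd (key q) (g, Zv)) q = g := by funext i; simp [zeta, upd]

/-- the levels below a node do not see the variables of the node -/
lemma tW_upd (g : Fin N → ℝ) (Zv : Fin N × Ix R n → ℝ) {c : List (Fin (n + 1))} (hc : c.length ≤ R) :
    ∀ (k : ℕ) (pre : List (Fin (n + 1))), c.length ≤ pre.length → pre.length + k ≤ R → ∀ y,
      treeW R A δ s (upd (key c) (g, Zv)) k pre y = treeW R A δ s Zv k pre y
  | 0, _, _, _, _ => rfl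
  | k + 1, pre, hl, hR, y => by
    have hz : ∀ o, zeta R (upd (key c) (g, Zv)) (pre ++ [o]) = zeta R Zv (pre ++ [o]) := fun o => by
      funext i
      simp only [zeta, upd]
      refine if_neg fun h => ?_
      have := congrArg List.length (key_inj (by simp; omega) hc h)
      simp at this
      omega
    simp only [treeW, hz]
    have ih := fun o => tW_upd g Zv hc k (pre ++ [o]) (by simp; omega) (by simp; omega)
    simp only [ih]

variable {D : ℕ → ℝ}

/-- **Jensen up the tree** -/
theorem tW_moment (hD : ∀ i ≤ R, 0 < D i) (hstep : ∀ i < R, D (i + 1) = D i + lin R (i + 1) * s (i + 1) ^ 2) :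
    ∀ (k : ℕ) (pre : List (Fin (n + 1))), pre.length + k = R → ∀ (y : Fin N → ℝ) (p : ℝ), 0 < p →
      (1 ≤ k → p ≤ lin R (pre.length + 1)) →
      Integrable (fun Zv => treeW R A (D R) s Zv k pre y ^ p) (gauss (Fin N × Ix R n)) ∧
        ∫ Zv, treeW R A (D R) s Zv k pre y ^ p ∂gauss (Fin N × Ix R n) ≤
          gq (acon N R A D pre.length) (D pre.length) y ^ p
  | 0, pre, hk, y, p, _, _ => by
    simp only [add_zero] at hk
    simp [treeW, acon, hk]
  | k + 1, pre, hk, y, p, hp, hpm => by
    set L := pre.length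
    set m := lin R (L + 1) with hm_def
    have hm : 0 < m := (ex_lin R).pos _ (by omega) (by omega)
    have hpm' : p ≤ m := hpm (by omega)
    set θ := p / m with hθ_def
    have hθ : 0 < θ := div_pos hp hm
    have hθ1 : θ ≤ 1 := div_le_one_of_le₀ hpm' hm.le
    set Vc := gq (N := N) (acon N R A D (L + 1)) (D (L + 1))
    obtain ⟨hgi, hgI⟩ := gq_step (A := acon N R A D (L + 1)) hm (hD _ (by omega)) (hD L (by omega))
      (hstep L (by omega)) y
    have hac : acon N R A D (L + 1) + N * log (D (L + 1) / D L) / (2 * m) = acon N R A D L := by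
      simp only [acon, sum_eq_sum_Ico_succ_bot (show L < R by omega), hm_def]
      ring
    rw [hac] at hgI
    set W := gq (acon N R A D L) (D L) y ^ m with hW_def
    have hW : 0 < W := rpow_pos_of_pos (gq_pos _ _ _) _
    set F : Fin (n + 1) → (Fin N × Ix R n → ℝ) → ℝ := fun o Zv =>
      treeW R A (D R) s Zv k (pre ++ [o]) (fun i => y i + s (L + 1) * zeta R Zv (pre ++ [o]) i) ^ m
    have hFm : ∀ o, Measurable (F o) := fun o => by
      refine ((measurable_tW k (pre ++ [o])).comp (f := fun Zv : Fin N × Ix R n → ℝ =>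
        ((fun i => y i + s (L + 1) * zeta R Zv (pre ++ [o]) i), Zv))
        (Measurable.prodMk (measurable_pi_lambda _ fun i => ?_) measurable_id)).pow_const _
      unfold zeta; fun_prop
    have hchild : ∀ o, Integrable (F o) (gauss (Fin N × Ix R n)) ∧ ∫ Zv, F o Zv ∂gauss (Fin N × Ix R n) ≤ W := by
      intro o
      have hl : (pre ++ [o]).length = L + 1 := by simp [L]
      have ih := fun y' => tW_moment hD hstep k (pre ++ [o]) (by rw [hl]; omega) y' m hm fun hk1 => by
        rw [hl]; exact (ex_lin R).mono _ (by omega) (by omega)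
      simp only [hl] at ih
      have mp := upd_preserving (N := N) (key (pre ++ [o]) : Ix R n)
      set H : (Fin N → ℝ) × (Fin N × Ix R n → ℝ) → ℝ := fun x =>
        treeW R A (D R) s x.2 k (pre ++ [o]) (fun i => y i + s (L + 1) * x.1 i) ^ m
      have e : ∀ x, F o (upd (key (pre ++ [o])) x) = H x := fun ⟨g, Zv⟩ => by
        simp only [F, H, zeta_upd]
        rw [tW_upd g Zv (by rw [hl]; omega) k (pre ++ [o]) le_rfl (by rw [hl]; omega)]
      have hHm : Measurable H := by
        refine ((measurable_tW k (pre ++ [o])).comp (f := fun x : (Fin N → ℝ) × (Fin N × Ix R n → ℝ) =>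
          ((fun i => y i + s (L + 1) * x.1 i), x.2))
          (Measurable.prodMk (measurable_pi_lambda _ fun i => ?_) measurable_snd)).pow_const _
        fun_prop
      have hH0 : ∀ x, 0 ≤ H x := fun x => rpow_nonneg (tW_pos _ _ _ _).le _
      have hHint : Integrable H ((gauss (Fin N)).prod (gauss (Fin N × Ix R n))) := by
        refine (integrable_prod_iff hHm.aestronglyMeasurable).2 ⟨Filter.Eventually.of_forall fun g => (ih fun i => y i + s (L + 1) * g i).1, ?_⟩
        simp only [Real.norm_eq_abs, abs_of_nonneg (hH0 _)]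
        refine hgi.mono' hHm.stronglyMeasurable.integral_prod_right'.aestronglyMeasurable
          (Filter.Eventually.of_forall fun g => ?_)
        rw [Real.norm_eq_abs, abs_of_nonneg (integral_nonneg fun Zv => hH0 (g, Zv))]
        exact (ih fun i => y i + s (L + 1) * g i).2
      constructor
      · exact (mp.integrable_comp (hFm o).aestronglyMeasurable).1
          (hHint.congr (Filter.Eventually.of_forall fun x => (e x).symm))
      · rw [← mp.map_eq, integral_map mp.measurable.aemeasurable (hFm o).aestronglyMeasurable]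
        simp only [e]
        rw [integral_prod _ hHint]
        exact (integral_mono hHint.integral_prod_left hgi fun g =>
          (ih fun i => y i + s (L + 1) * g i).2).trans_eq hgI
    have hpt : ∀ Zv, treeW R A (D R) s Zv (k + 1) pre y ^ p ≤
        θ * W ^ (θ - 1) * avg (fun o => F o Zv) + (1 - θ) * W ^ θ := fun Zv => by
      have e : treeW R A (D R) s Zv (k + 1) pre y = avg (fun o => F o Zv) ^ (1 / m) := by simp only [treeW, F, L, m]
      have ha : 0 < avg fun o => F o Zv :=
        Vale.Agent.P168.MP.avg_pos fun o => rpow_pos_of_pos (tW_pos _ _ _ _) _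
      rw [e, ← rpow_mul ha.le, show 1 / m * p = θ by simp only [θ]; ring]
      set a := avg fun o => F o Zv
      have h := rpow_one_add_le_one_add_mul_self (show -1 ≤ (a - W) / W by
        rw [le_div_iff₀ hW]; linarith) hθ.le hθ1
      rw [show 1 + (a - W) / W = a / W by field_simp; ring, div_rpow ha.le hW.le,
        div_le_iff₀ (rpow_pos_of_pos hW _)] at h
      refine h.trans_eq ?_
      rw [rpow_sub_one hW.ne']
      field_simp
      ring
    have hai : Integrable (fun Zv => avg fun o => F o Zv) (gauss (Fin N × Ix R n)) := by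
      simp only [avg]; exact (integrable_finsetSum _ fun o _ => (hchild o).1).div_const _
    have hrhs : Integrable (fun Zv => θ * W ^ (θ - 1) * avg (fun o => F o Zv) + (1 - θ) * W ^ θ)
        (gauss (Fin N × Ix R n)) := (hai.const_mul _).add (integrable_const _)
    have hlhs : Integrable (fun Zv => treeW R A (D R) s Zv (k + 1) pre y ^ p) (gauss (Fin N × Ix R n)) :=
      hrhs.mono' (((measurable_tW (k + 1) pre).comp (measurable_prodMk_left (x := y))).pow_const _).aestronglyMeasurable
        (Filter.Eventually.of_forall fun Zv => by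
          rw [Real.norm_eq_abs, abs_of_nonneg (rpow_nonneg (tW_pos _ _ _ _).le _)]; exact hpt Zv)
    refine ⟨hlhs, (integral_mono hlhs hrhs hpt).trans ?_⟩
    rw [integral_add (hai.const_mul _) (integrable_const _), integral_const_mul, integral_const, probReal_univ,
      one_smul]
    have havg : ∫ Zv, avg (fun o => F o Zv) ∂gauss (Fin N × Ix R n) ≤ W := by
      simp only [avg]
      rw [integral_div, integral_finsetSum _ fun o _ => (hchild o).1,
        div_le_iff₀ (by exact_mod_cast Fintype.card_pos)]
      exact (sum_le_sum fun o _ => (hchild o).2).trans_eq (by simp [mul_comm])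
    refine (add_le_add (mul_le_mul_of_nonneg_left havg (by positivity)) le_rfl).trans_eq ?_
    rw [show θ * W ^ (θ - 1) * W + (1 - θ) * W ^ θ = W ^ θ by rw [rpow_sub_one hW.ne']; field_simp; ring,
      hW_def, ← rpow_mul (gq_pos _ _ _).le, show m * θ = p by simp only [θ]; field_simp]

/-- a weight below the Gaussian one is below the nested Gaussian one -/
lemma Z_le_tW (Zv : Fin N × Ix R n → ℝ) {w : List (Fin (n + 1)) → ℝ} (hw : ∀ p, 0 < w p)
    (h : ∀ p, p.length = R → w p ≤ gq A δ (xs R s Zv p)) :
    ∀ k pre, pre.length + k = R → Z (lin R) w k pre ≤ treeW R A δ s Zv k pre (xs R s Zv pre)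
  | 0, pre, hk => by simpa [Z, treeW] using h pre (by omega)
  | k + 1, pre, hk => by
    have hm : 0 < lin R (pre.length + 1) := (ex_lin R).pos _ (by omega) (by omega)
    simp only [Z, treeW]
    refine rpow_le_rpow ?_ ?_ (one_div_pos.2 hm).le
    · exact (Vale.Agent.P168.MP.avg_pos fun o => rpow_pos_of_pos (Vale.Agent.P168.MP.Z_pos hw _ _) _).le
    · simp only [avg]
      refine div_le_div_of_nonneg_right (Finset.sum_le_sum fun o _ => ?_) (Nat.cast_nonneg _)
      refine rpow_le_rpow (Vale.Agent.P168.MP.Z_pos hw _ _).le ?_ hm.le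
      rw [← xs_append]
      exact Z_le_tW Zv hw h k (pre ++ [o]) (by simp; omega)

lemma integral_dot_self (N : ℕ) :
    Integrable (fun g : Fin N → ℝ => dot g g) (gauss (Fin N)) ∧ ∫ g, dot g g ∂gauss (Fin N) = N := by
  have i2 : Integrable (fun t : ℝ => t * t) (gaussianReal 0 1) := by
    simpa [sq] using (memLp_id_gaussianReal (μ := 0) (v := 1) 2).integrable_sq
  have h1 : ∫ t, t * t ∂gaussianReal 0 1 = 1 := by
    have h := variance_of_integral_eq_zero (μ := gaussianReal 0 1) (X := id) (by fun_prop) (by simp)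
    rw [variance_id_gaussianReal] at h
    simpa [sq] using h.symm
  have hi : ∀ i : Fin N, Integrable (fun g : Fin N → ℝ => g i * g i) (gauss (Fin N)) := fun i =>
    (measurePreserving_eval (fun _ : Fin N => gaussianReal 0 1) i).integrable_comp_of_integrable i2
  refine ⟨integrable_finsetSum _ fun i _ => hi i, ?_⟩
  simp only [dot]
  rw [integral_finsetSum _ fun i _ => hi i, Finset.sum_congr rfl fun i _ =>
    (show ∫ g : Fin N → ℝ, g i * g i ∂gauss (Fin N) = 1 by
      rw [gauss, integral_comp_eval (μ := fun _ : Fin N => gaussianReal 0 1) i2.aestronglyMeasurable, h1])]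
  simp

/-- the nested value of a weight below the Gaussian one -/
theorem nested_gauss_le (hR : 1 ≤ R) (hD : ∀ i ≤ R, 0 < D i)
    (hstep : ∀ i < R, D (i + 1) = D i + lin R (i + 1) * s (i + 1) ^ 2)
    {w : (Fin N × Ix R n → ℝ) → List (Fin (n + 1)) → ℝ} (hw : ∀ Zv p, 0 < w Zv p)
    (h : ∀ Zv p, p.length = R → w Zv p ≤ gq A (D R) (xs R s Zv p))
    (hi : Integrable (fun Zv => logZ0 R (lin R) (w Zv)) (gauss (Fin N × Ix R n))) :
    ∫ Zv, logZ0 R (lin R) (w Zv) ∂gauss (Fin N × Ix R n) ≤ acon N R A D 0 + N * s 0 ^ 2 / (2 * D 0) := by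
  set p := lin R 1
  have hp : 0 < p := (ex_lin R).pos _ le_rfl hR
  set V := fun g : Fin N → ℝ => gq (acon N R A D 0) (D 0) (fun i => s 0 * g i)
  have hV : ∀ g, 0 < V g := fun g => gq_pos _ _ _
  set T : (Fin N → ℝ) × (Fin N × Ix R n → ℝ) → ℝ := fun x =>
    treeW R A (D R) s x.2 R [] (fun i => s 0 * x.1 i) ^ p / V x.1 ^ p
  set F : (Fin N → ℝ) × (Fin N × Ix R n → ℝ) → ℝ := fun x => log (V x.1) + (T x - 1) / p
  have hyz : Measurable fun x : (Fin N → ℝ) × (Fin N × Ix R n → ℝ) => ((fun i => s 0 * x.1 i), x.2) :=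
    Measurable.prodMk (measurable_pi_lambda _ fun i => by fun_prop) measurable_snd
  have hTm : Measurable T := by
    refine (((measurable_tW R []).comp hyz).pow_const _).div (Measurable.pow_const ?_ _)
    unfold V gq dot
    fun_prop
  have hT0 : ∀ x, 0 ≤ T x := fun x => div_nonneg (rpow_nonneg (tW_pos _ _ _ _).le _) (rpow_nonneg (hV _).le _)
  have ih := fun g : Fin N → ℝ => tW_moment (A := A) hD hstep R ([] : List (Fin (n + 1))) (by simp)
    (fun i => s 0 * g i) p hp fun _ => le_rfl
  have hT1 : ∀ g, Integrable (fun Zv => T (g, Zv)) (gauss (Fin N × Ix R n)) ∧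
      ∫ Zv, T (g, Zv) ∂gauss (Fin N × Ix R n) ≤ 1 := fun g => by
    refine ⟨(ih g).1.div_const (V g ^ p), ?_⟩
    simp only [T]
    rw [integral_div, div_le_one (rpow_pos_of_pos (hV g) _)]
    exact (ih g).2
  have hTi : Integrable T ((gauss (Fin N)).prod (gauss (Fin N × Ix R n))) := by
    refine (integrable_prod_iff hTm.aestronglyMeasurable).2
      ⟨Filter.Eventually.of_forall fun g => (hT1 g).1, ?_⟩
    simp only [Real.norm_eq_abs, abs_of_nonneg (hT0 _)]
    refine (integrable_const (1 : ℝ)).mono' hTm.stronglyMeasurable.integral_prod_right'.aestronglyMeasurable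
      (Filter.Eventually.of_forall fun g => ?_)
    rw [Real.norm_eq_abs, abs_of_nonneg (integral_nonneg fun Zv => hT0 (g, Zv))]
    exact (hT1 g).2
  obtain ⟨hsq, hsqI⟩ := integral_dot_self N
  have hlV : ∀ g, log (V g) = acon N R A D 0 + s 0 ^ 2 / (2 * D 0) * dot g g := fun g => by
    simp only [V, log_gq, dot, sum_div, mul_sum]
    congr 1
    exact sum_congr rfl fun i _ => by ring
  have hVi : Integrable (fun g => log (V g)) (gauss (Fin N)) := by
    simp only [hlV]; exact (integrable_const _).add (hsq.const_mul _)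
  have hFi : Integrable F ((gauss (Fin N)).prod (gauss (Fin N × Ix R n))) :=
    (hVi.comp_fst _).add ((hTi.sub (integrable_const 1)).div_const p)
  have mp := upd_preserving (N := N) (key ([] : List (Fin (n + 1))) : Ix R n)
  have e : ∀ x, F (zeta R (upd (key []) x) [], upd (key []) x) = F x := fun ⟨g, Zv⟩ => by
    simp only [F, T, zeta_upd, tW_upd g Zv (c := []) (Nat.zero_le R) R [] le_rfl (by simp)]
  have hFm : Measurable fun Zv : Fin N × Ix R n → ℝ => F (zeta R Zv [], Zv) := by
    refine Measurable.comp (g := F) ?_ (Measurable.prodMk (measurable_pi_lambda _ fun i => ?_) measurable_id)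
    · have : Measurable fun g => log (V g) := by simp only [hlV]; unfold dot; fun_prop
      exact (this.comp measurable_fst).add ((hTm.sub_const _).div_const _)
    · unfold zeta; fun_prop
  have hi2 : Integrable (fun Zv => F (zeta R Zv [], Zv)) (gauss (Fin N × Ix R n)) :=
    (mp.integrable_comp hFm.aestronglyMeasurable).1 (hFi.congr (Filter.Eventually.of_forall fun x => (e x).symm))
  have hpt : ∀ Zv, logZ0 R (lin R) (w Zv) ≤ F (zeta R Zv [], Zv) := fun Zv => by
    have hx : xs R s Zv [] = fun i => s 0 * zeta R Zv [] i := funext fun i => by simp [xs]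
    have h1 := Z_le_tW Zv (hw Zv) (h Zv) R [] (by simp)
    rw [hx] at h1
    set a := treeW R A (D R) s Zv R [] (fun i => s 0 * zeta R Zv [] i)
    set v := V (zeta R Zv [])
    have ha : 0 < a := tW_pos _ _ _ _
    refine (log_le_log (Vale.Agent.P168.MP.Z_pos (hw Zv) _ _) h1).trans ?_
    have h2 := log_le_sub_one_of_pos (div_pos (rpow_pos_of_pos ha p) (rpow_pos_of_pos (hV (zeta R Zv [])) p))
    rw [log_div (rpow_pos_of_pos ha p).ne' (rpow_pos_of_pos (hV _) p).ne', log_rpow ha, log_rpow (hV _)] at h2
    show log a ≤ log v + (a ^ p / v ^ p - 1) / p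
    rw [← sub_le_iff_le_add', le_div_iff₀ hp]
    linarith
  refine (integral_mono hi hi2 hpt).trans ?_
  rw [← mp.map_eq, integral_map mp.measurable.aemeasurable hFm.aestronglyMeasurable]
  simp only [e]
  rw [integral_prod _ hFi]
  refine (integral_mono hFi.integral_prod_left hVi fun g => ?_).trans_eq ?_
  · simp only [F]
    have hT' : Integrable (fun Zv => (T (g, Zv) - 1) / p) (gauss (Fin N × Ix R n)) :=
      (((hT1 g).1).sub (integrable_const 1)).div_const p
    rw [integral_add (integrable_const _) hT', integral_div,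
      integral_sub (hT1 g).1 (integrable_const 1)]
    simp only [integral_const, probReal_univ, one_smul]
    linarith [div_nonpos_of_nonpos_of_nonneg (sub_nonpos.2 (hT1 g).2) hp.le]
  · simp only [hlV]
    rw [integral_add (integrable_const _) (hsq.const_mul _), integral_const_mul, hsqI, integral_const,
      probReal_univ, one_smul]
    ring

end Vale.Agent.P157.Sph
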