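import Vale.Agent.P157.Sph.Defs
import Vale.Agent.P157.Full.UDefs
import Vale.Agent.P157.Par.Upper

/-! The field of the envelope on the sphere: a point of the sphere against Gaussian variables on the nodes of a
tree of labels, one block of levels for each amplitude. -/

open MeasureTheory Real Finset
open Vale.Agent.P150 (gauss dot l1 abs_dot_le)
open Vale.Agent.P157.Par (Ix key)

namespace Vale.Agent.P157.Sph

variable {N n R R₀ k J J' : ℕ}

/-- indicator of the node of a path at depth `J` -/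
noncomputable def nodeB (R J : ℕ) (x : List (Fin (n + 1))) (κ : Ix R n) : ℝ :=
  if x.length = R ∧ κ = key (x.take J) then 1 else 0

/-- coefficients of the field of block `j` at a point and a path of labels -/
noncomputable def bvec (R k j : ℕ) (y : Fin N → ℝ) (x : List (Fin (n + 1))) (ik : Fin N × Ix R n) : ℝ :=
  √(N : ℝ) * y ik.1 * nodeB R (j * k) x ik.2

/-- coefficients of the whole field, amplitudes `lam` on `R₀` blocks of length `k` -/
noncomputable def fvec (R₀ k : ℕ) (lam : Fin R₀ → ℝ) (y : Fin N → ℝ) (x : List (Fin (n + 1)))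
    (ik : Fin N × Ix (k * R₀) n) : ℝ :=
  ∑ j : Fin R₀, lam j * bvec (k * R₀) k j y x ik

lemma jk_le (j : Fin R₀) : (j : ℕ) * k ≤ k * R₀ := by
  rw [mul_comm]; exact Nat.mul_le_mul_left k j.2.le

lemma sum_nodeB (hJ : J ≤ R) (hJ' : J' ≤ R) (x x' : List (Fin (n + 1))) :
    ∑ κ : Ix R n, nodeB R J x κ * nodeB R J' x' κ =
      if x.length = R ∧ x'.length = R ∧ J = J' ∧ x.take J = x'.take J' then 1 else 0 := by
  classical
  by_cases hx : x.length = R
  · by_cases hx' : x'.length = R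
    · simp only [nodeB, hx, hx', true_and, ite_mul, one_mul, zero_mul, sum_ite_eq', mem_univ, if_true]
      exact if_congr (Par.key_take_eq (by omega) (by omega)) rfl rfl
    · simp [nodeB, hx']
  · simp [nodeB, hx]

lemma dot_unit_le {ι : Type} [Fintype ι] {a b : ι → ℝ} (ha : dot a a = 1) (hb : dot b b = 1) :
    |dot a b| ≤ 1 := by
  have h := sum_mul_sq_le_sq_mul_sq univ a b
  simp only [dot, ← sq] at ha hb
  rw [ha, hb, one_mul] at h
  exact (sq_le_one_iff_abs_le_one _).1 h

lemma abs_coord_le {ι : Type} [Fintype ι] {a : ι → ℝ} (ha : dot a a = 1) (i : ι) : |a i| ≤ 1 := by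
  rw [← sq_le_one_iff_abs_le_one, sq, ← ha]
  exact single_le_sum (f := fun j => a j * a j) (fun j _ => mul_self_nonneg _) (mem_univ i)

/-- the products of two blocks -/
lemma dot_bvec (hJ : J * k ≤ R) (hJ' : J' * k ≤ R) (y y' : Fin N → ℝ) (x x' : List (Fin (n + 1))) :
    dot (bvec R k J y x) (bvec R k J' y' x') = N * dot y y' *
      (if x.length = R ∧ x'.length = R ∧ J * k = J' * k ∧ x.take (J * k) = x'.take (J' * k) then 1 else 0) := by
  rw [← sum_nodeB hJ hJ', mul_sum, dot, dot, Fintype.sum_prod_type, sum_comm]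
  refine sum_congr rfl fun κ _ => ?_
  rw [mul_sum, sum_mul]
  refine sum_congr rfl fun i _ => ?_
  simp only [bvec]
  linear_combination (y i * y' i * nodeB R (J * k) x κ * nodeB R (J' * k) x' κ) *
    Real.mul_self_sqrt (Nat.cast_nonneg (α := ℝ) N)

lemma abs_dot_bvec_le (hJ : J * k ≤ R) {y y' : Fin N → ℝ} (hy : dot y y = 1) (hy' : dot y' y' = 1)
    (x x' : List (Fin (n + 1))) : |dot (bvec R k J y x) (bvec R k J y' x')| ≤ N := by
  rw [dot_bvec hJ hJ, abs_mul, abs_mul, Nat.abs_cast]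
  refine (mul_le_of_le_one_right (mul_nonneg (Nat.cast_nonneg _) (abs_nonneg _)) ?_).trans
    (mul_le_of_le_one_right (Nat.cast_nonneg _) (dot_unit_le hy hy'))
  split_ifs <;> norm_num

lemma abs_bvec_le (R k J : ℕ) {y : Fin N → ℝ} (hy : dot y y = 1) (x : List (Fin (n + 1))) (ik : Fin N × Ix R n) :
    |bvec R k J y x ik| ≤ √(N : ℝ) := by
  rw [bvec, abs_mul, abs_mul, abs_of_nonneg (Real.sqrt_nonneg _)]
  refine (mul_le_of_le_one_right (mul_nonneg (Real.sqrt_nonneg _) (abs_nonneg _)) ?_).trans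
    (mul_le_of_le_one_right (Real.sqrt_nonneg _) (abs_coord_le hy _))
  unfold nodeB; split_ifs <;> norm_num

/-- the field is linear in the amplitudes -/
lemma dot_fvec (lam : Fin R₀ → ℝ) (y : Fin N → ℝ) (x : List (Fin (n + 1))) (Z : Fin N × Ix (k * R₀) n → ℝ) :
    dot (fvec R₀ k lam y x) Z = ∑ j, lam j * dot (bvec (k * R₀) k j y x) Z := by
  simp only [fvec, dot, sum_mul, mul_sum]
  rw [sum_comm]
  exact sum_congr rfl fun j _ => sum_congr rfl fun _ _ => by ring

lemma bvec_fvec (hk : 1 ≤ k) (lam : Fin R₀ → ℝ) (j : Fin R₀) (y y' : Fin N → ℝ) (x x' : List (Fin (n + 1))) :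
    dot (bvec (k * R₀) k j y x) (fvec R₀ k lam y' x') =
      lam j * dot (bvec (k * R₀) k j y x) (bvec (k * R₀) k j y' x') := by
  have h1 : dot (bvec (k * R₀) k j y x) (fvec R₀ k lam y' x') =
      ∑ i : Fin R₀, lam i * dot (bvec (k * R₀) k j y x) (bvec (k * R₀) k i y' x') := by
    simp only [fvec, dot, mul_sum]
    rw [sum_comm]
    exact sum_congr rfl fun i _ => sum_congr rfl fun _ _ => by ring
  rw [h1, sum_eq_single j]
  · intro i _ hi
    rw [dot_bvec (jk_le j) (jk_le i), if_neg, mul_zero, mul_zero]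
    exact fun h => hi (Fin.ext (Nat.eq_of_mul_eq_mul_right (by omega) h.2.2.1).symm)
  · simp

lemma fvec_self_le (hk : 1 ≤ k) (lam : Fin R₀ → ℝ) {y : Fin N → ℝ} (hy : dot y y = 1)
    (x : List (Fin (n + 1))) : dot (fvec R₀ k lam y x) (fvec R₀ k lam y x) ≤ N * ∑ j, lam j ^ 2 := by
  rw [dot_fvec, mul_sum]
  refine sum_le_sum fun j _ => ?_
  rw [bvec_fvec hk, ← mul_assoc, ← sq, mul_comm (N : ℝ)]
  exact mul_le_mul_of_nonneg_left ((le_abs_self _).trans (abs_dot_bvec_le (jk_le j) hy hy x x)) (sq_nonneg _)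

lemma abs_fvec_le (lam : Fin R₀ → ℝ) {y : Fin N → ℝ} (hy : dot y y = 1) (x : List (Fin (n + 1)))
    (ik : Fin N × Ix (k * R₀) n) : |fvec R₀ k lam y x ik| ≤ √(N : ℝ) * ∑ j, |lam j| := by
  refine (abs_sum_le_sum_abs _ _).trans ((sum_le_sum fun j _ => ?_).trans_eq (mul_sum _ _ _).symm)
  rw [abs_mul, mul_comm]
  exact mul_le_mul_of_nonneg_right (abs_bvec_le _ _ _ hy x ik) (abs_nonneg _)

/-- moving the point moves the field uniformly in the labels -/
lemma fvec_move (lam : Fin R₀ → ℝ) {y y' : Fin N → ℝ} {η : ℝ} (h : ∀ i, |y i - y' i| ≤ η)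
    (x : List (Fin (n + 1))) (Z : Fin N × Ix (k * R₀) n → ℝ) :
    |dot (fvec R₀ k lam y x) Z - dot (fvec R₀ k lam y' x) Z| ≤ √(N : ℝ) * η * (∑ j, |lam j|) * l1 Z := by
  have e : dot (fvec R₀ k lam y x) Z - dot (fvec R₀ k lam y' x) Z =
      dot (fvec R₀ k lam (fun i => y i - y' i) x) Z := by
    simp only [dot, fvec, bvec, ← sum_sub_distrib, ← sub_mul]
    exact sum_congr rfl fun ik _ => congrArg (· * Z ik) (sum_congr rfl fun j _ => by ring)
  rw [e]
  refine abs_dot_le (fun ik => (abs_sum_le_sum_abs _ _).trans ((sum_le_sum fun j _ => ?_).trans_eq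
    (mul_sum _ _ _).symm)) Z
  have hη : 0 ≤ η := (abs_nonneg _).trans (h ik.1)
  rw [abs_mul, mul_comm |lam j|, bvec, abs_mul, abs_mul, abs_of_nonneg (Real.sqrt_nonneg _)]
  refine mul_le_mul_of_nonneg_right ((mul_le_of_le_one_right (mul_nonneg (Real.sqrt_nonneg _) (abs_nonneg _)) ?_).trans
    (mul_le_mul_of_nonneg_left (h ik.1) (Real.sqrt_nonneg _))) (abs_nonneg _)
  unfold nodeB; split_ifs <;> norm_num

/-- two paths splitting at level `l`: the overlap above the start of the block, up to a collision of labels -/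
lemma dot_bvec_split (hJ : J * k ≤ R) {y y' : Fin N → ℝ} (hy : dot y y = 1) (hy' : dot y' y' = 1)
    {x x' : List (Fin (n + 1))} (hx : x.length = R) (hx' : x'.length = R) {l : ℕ} (_hl : l < R)
    (h : x.take l = x'.take l) :
    |dot (bvec R k J y x) (bvec R k J y' x') - (if J * k ≤ l then (N : ℝ) else 0) * dot y y'| ≤
      N * if x.getD l 0 = x'.getD l 0 then 1 else 0 := by
  rw [dot_bvec hJ hJ]
  by_cases hJl : J * k ≤ l
  · rw [if_pos ⟨hx, hx', rfl, Vale.Agent.P168.MP.take_of_le h hJl⟩, if_pos hJl, mul_one, sub_self, abs_zero]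
    exact mul_nonneg (Nat.cast_nonneg _) (by split_ifs <;> norm_num)
  · rw [if_neg hJl, zero_mul, sub_zero, abs_mul, abs_mul, Nat.abs_cast]
    refine mul_le_mul (mul_le_of_le_one_right (Nat.cast_nonneg _) (dot_unit_le hy hy')) ?_ (abs_nonneg _)
      (Nat.cast_nonneg _)
    split_ifs with hc hd hd
    · norm_num
    · refine absurd ?_ hd
      have e := congrArg (fun z => z.getD l 0) hc.2.2.2
      simpa [List.getD_eq_getElem?_getD, List.getElem?_take_of_lt (show l < J * k by omega)] using e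
    · norm_num
    · norm_num

end Vale.Agent.P157.Sph
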