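import Vale.Agent.P157.Sph.EnvEndTree
import Vale.Agent.P157.Sph.EnvField
import Vale.Agent.P157.Sph.CS
import Vale.Agent.P157.Full.EndZero
import Vale.Agent.P157.Par.UpperEnds
import Vale.Agent.P168.MP.Upper.Setup

/-! Without patterns the value of the field on the sphere is at most the Gaussian site functional, for every number
of labels. -/

open MeasureTheory ProbabilityTheory Real Finset Filter
open scoped Topology
open Vale.Agent.P150 (gauss dot l1)
open Vale.Agent.P168.MP (lin logZ0)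
open Vale.Agent.P157.Lim (dirLaw)
open Vale.Agent.P157.Par (Ix key)

namespace Vale.Agent.P157.Sph

variable {N n R₀ k : ℕ}

/-- the amplitude at a level -/
noncomputable def amp (k : ℕ) (lam : Fin R₀ → ℝ) (i : ℕ) : ℝ :=
  ∑ j : Fin R₀, if (j : ℕ) * k = i then lam j else 0

/-- the precision at a level -/
noncomputable def prec (d0 : ℝ) (k : ℕ) (lam : Fin R₀ → ℝ) (i : ℕ) : ℝ :=
  d0 + ∑ j : Fin R₀, if (j : ℕ) * k ≤ i then (j : ℝ) / R₀ * lam j ^ 2 else 0

lemma amp_sq (hk : 1 ≤ k) {lam : Fin R₀ → ℝ} (hl : ∀ j, 0 ≤ lam j) (i : ℕ) :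
    amp k lam i ^ 2 = ∑ j : Fin R₀, if (j : ℕ) * k = i then lam j ^ 2 else 0 := by
  rw [amp, ← Full.sqrt_single hk hl, sq_sqrt]
  exact sum_nonneg fun j _ => by split_ifs <;> positivity

lemma lamPath_step (lam : Fin R₀ → ℝ) (q : ℕ) :
    Full.lamPath lam (q + 1) - Full.lamPath lam q = ∑ j : Fin R₀, if (j : ℕ) = q + 1 then lam j ^ 2 else 0 := by
  rw [Full.lamPath, Full.lamPath, ← sum_sub_distrib]
  refine sum_congr rfl fun j _ => ?_
  split_ifs <;> first | (exfalso; omega) | ring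

lemma lamPath_last (hR₀ : 1 ≤ R₀) (lam : Fin R₀ → ℝ) {q : ℕ} (hq : R₀ - 1 ≤ q) :
    Full.lamPath lam q = ∑ j, lam j ^ 2 :=
  sum_congr rfl fun j _ => if_pos (by omega)

lemma prec_pos {d0 : ℝ} (hd : 0 < d0) (lam : Fin R₀ → ℝ) (i : ℕ) : 0 < prec d0 k lam i :=
  add_pos_of_pos_of_nonneg hd (sum_nonneg fun j _ => by split_ifs <;> positivity)

lemma prec_step (hk : 1 ≤ k) {d0 : ℝ} {lam : Fin R₀ → ℝ} (hl : ∀ j, 0 ≤ lam j) {i : ℕ} (hi : i < k * R₀) :
    prec d0 k lam (i + 1) = prec d0 k lam i + lin (k * R₀) (i + 1) * amp k lam (i + 1) ^ 2 := by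
  rw [amp_sq hk hl, prec, prec, add_assoc, mul_sum, ← sum_add_distrib]
  congr 1
  refine sum_congr rfl fun j _ => ?_
  rw [lin, if_pos (show i + 1 ≤ k * R₀ by omega)]
  split_ifs with a b c c
  any_goals (exfalso; omega)
  all_goals first
    | ring1
    | (rw [← c]; push_cast
       have : (k : ℝ) ≠ 0 := by positivity
       field_simp; ring)

/-- the precision on a block is the one of its level -/
lemma prec_block (hk : 1 ≤ k) (d0 : ℝ) (lam : Fin R₀ → ℝ) : ∀ q, q < R₀ → ∀ i, q * k ≤ i →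
    (q + 1 < R₀ → i < (q + 1) * k) → prec d0 k lam i = dd R₀ d0 (Full.lamPath lam) q := by
  have key : ∀ q, q < R₀ →
      dd R₀ d0 (Full.lamPath lam) q = d0 + ∑ j : Fin R₀, if (j : ℕ) ≤ q then (j : ℝ) / R₀ * lam j ^ 2 else 0 := by
    intro q
    induction q with
    | zero =>
      intro _
      rw [dd_zero, sum_eq_zero fun j _ => ?_, add_zero]
      split_ifs with h
      · simp [Nat.le_zero.1 h]
      · rfl
    | succ q ih =>
      intro hq
      rw [dd_succ, ih (by omega), lamPath_step, add_assoc, mul_sum, ← sum_add_distrib]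
      congr 1
      refine sum_congr rfl fun j _ => ?_
      by_cases h1 : (j : ℕ) ≤ q
      · rw [if_pos h1, if_pos (show (j : ℕ) ≤ q + 1 by omega), if_neg (show (j : ℕ) ≠ q + 1 by omega)]; ring
      · by_cases h2 : (j : ℕ) = q + 1
        · rw [if_neg h1, if_pos h2, if_pos h2.le, h2]; push_cast; ring
        · rw [if_neg h1, if_neg h2, if_neg (show ¬(j : ℕ) ≤ q + 1 by omega)]; ring
  intro q hq i h1 h2
  rw [key q hq, prec]
  congr 1
  refine sum_congr rfl fun j _ => if_congr ⟨fun h => ?_, fun h => ?_⟩ rfl rfl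
  · by_contra hc
    have := Nat.mul_le_mul_right k (show q + 1 ≤ (j : ℕ) by omega)
    have := h2 (by omega)
    omega
  · exact (Nat.mul_le_mul_right k h).trans h1

/-- the accumulated constant is the logarithmic part of the site functional -/
lemma sum_log_prec (hR₀ : 1 ≤ R₀) (hk : 1 ≤ k) {d0 : ℝ} {lam : Fin R₀ → ℝ} (hl : ∀ j, 0 ≤ lam j) :
    ∑ i ∈ range (k * R₀), log (prec d0 k lam (i + 1) / prec d0 k lam i) / lin (k * R₀) (i + 1) =
      ∑ q ∈ range (R₀ - 1), (R₀ / (q + 1 : ℝ)) *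
        log (dd R₀ d0 (Full.lamPath lam) (q + 1) / dd R₀ d0 (Full.lamPath lam) q) := by
  have hpos : ∀ q, q + 1 < R₀ → 1 ≤ (q + 1) * k := fun q _ => Nat.one_le_iff_ne_zero.2 (by positivity)
  rw [← sum_subset (s₁ := (range (R₀ - 1)).image fun q => (q + 1) * k - 1)]
  · rw [sum_image fun a ha b hb h => ?_]
    · refine sum_congr rfl fun q hq => ?_
      have hq' := mem_range.1 hq
      have h1 := hpos q (by omega)
      have h2 : (q + 1) * k ≤ k * R₀ := by rw [mul_comm k]; exact Nat.mul_le_mul_right k (by omega)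
      have h3 : (q + 1) * k < (q + 1 + 1) * k := by rw [add_mul (q + 1), one_mul]; omega
      have h4 : (q + 1) * k = q * k + k := by rw [add_mul, one_mul]
      rw [Nat.sub_add_cancel h1, prec_block hk d0 lam (q + 1) (by omega) _ le_rfl (fun _ => h3),
        prec_block hk d0 lam q (by omega) _ (by omega) (fun _ => by omega), lin, if_pos h2]
      push_cast
      have : (k : ℝ) ≠ 0 := by positivity
      field_simp
    · have h1 := hpos a (by have := mem_range.1 ha; omega)
      have h2 := hpos b (by have := mem_range.1 hb; omega)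
      have : (a + 1) * k = (b + 1) * k := by omega
      have := Nat.eq_of_mul_eq_mul_right (by omega) this
      omega
  · intro i hi
    obtain ⟨q, hq, rfl⟩ := mem_image.1 hi
    have hq' := mem_range.1 hq
    have h1 := hpos q (by omega)
    have h2 : (q + 1) * k ≤ k * R₀ := by rw [mul_comm k]; exact Nat.mul_le_mul_right k (by omega)
    exact mem_range.2 (by omega)
  · intro i hi hne
    have hz : amp k lam (i + 1) = 0 := by
      refine sum_eq_zero fun j _ => if_neg fun h => hne (mem_image.2 ⟨(j : ℕ) - 1, ?_, ?_⟩)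
      · have : (j : ℕ) ≠ 0 := fun h0 => by simp [h0] at h
        exact mem_range.2 (by omega)
      · have : (j : ℕ) ≠ 0 := fun h0 => by simp [h0] at h
        rw [Nat.sub_add_cancel (show 1 ≤ (j : ℕ) by omega)]
        omega
    rw [prec_step hk hl (mem_range.1 hi), hz]
    simp only [ne_eq, OfNat.ofNat_ne_zero, not_false_iff, zero_pow, mul_zero, add_zero]
    rcases eq_or_ne (prec d0 k lam i) 0 with h | h
    · simp [h]
    · rw [div_self h, log_one, zero_div]

/-- the field at a point is the inner product with the accumulated variables -/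
lemma dot_fvec_xs (lam : Fin R₀ → ℝ) (y : Fin N → ℝ) {p : List (Fin (n + 1))} (hp : p.length = k * R₀)
    (Zv : Fin N × Ix (k * R₀) n → ℝ) :
    dot (fvec R₀ k lam y p) Zv = √(N : ℝ) * dot y (xs (k * R₀) (amp k lam) Zv p) := by
  have e : ∀ j : Fin R₀, dot (bvec (k * R₀) k j y p) Zv =
      √(N : ℝ) * dot y (zeta (k * R₀) Zv (p.take ((j : ℕ) * k))) := fun j => by
    simp only [dot, Fintype.sum_prod_type, mul_sum, zeta]
    refine sum_congr rfl fun i _ => ?_
    rw [sum_eq_single (key (p.take ((j : ℕ) * k)))]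
    · simp [bvec, nodeB, hp, mul_assoc]
    · intro κ _ hκ
      simp [bvec, nodeB, hκ]
    · simp
  have ex : ∀ i, xs (k * R₀) (amp k lam) Zv p i =
      ∑ j : Fin R₀, lam j * zeta (k * R₀) Zv (p.take ((j : ℕ) * k)) i := fun i => by
    simp only [xs, amp, hp, sum_mul, ite_mul, zero_mul]
    rw [sum_comm]
    refine sum_congr rfl fun j _ => ?_
    rw [Finset.sum_ite_eq, if_pos (mem_range.2 (show (j : ℕ) * k < k * R₀ + 1 by
      have := jk_le (k := k) j; omega))]
  rw [dot_fvec, sum_congr rfl fun j _ => congrArg (lam j * ·) (e j)]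
  simp only [dot, ex, mul_sum]
  rw [sum_comm]
  exact sum_congr rfl fun i _ => sum_congr rfl fun j _ => by ring

/-- **the end of the envelope without patterns** -/
theorem zero_end {R₀ : ℕ} (hR₀ : 1 ≤ R₀) {d0 : ℝ} (hd : 0 < d0) (Λ : ℝ) {ε : ℝ} (hε : 0 < ε) :
    ∀ᶠ N : ℕ in atTop, ∀ (k n : ℕ), 1 ≤ k → ∀ lam : Fin R₀ → ℝ, (∀ i, 0 ≤ lam i ∧ lam i ≤ Λ) →
      ∫ Z, Vale.Agent.P168.MP.logZ0 (k * R₀) (lin (k * R₀))
          (fun x : List (Fin (n + 1)) => ∫ y, exp (dot (fvec R₀ k lam y x) Z) ∂dirLaw (Fin N))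
        ∂gauss (Fin N × Par.Ix (k * R₀) n) ≤
        N * (psiG R₀ d0 (Full.lamPath lam) + Full.lamPath lam R₀ / 2 + ε) := by
  set B := d0 + R₀ * Λ ^ 2
  have hB : 0 < B := add_pos_of_pos_of_nonneg hd (by positivity)
  set η := min (1 / 2) (ε / (4 * B + 1))
  have hη : 0 < η := lt_min (by norm_num) (by positivity)
  have hηB : η * (4 * B + 1) ≤ ε := (le_div_iff₀ (by positivity)).1 (min_le_right _ _)
  filter_upwards [eventually_gt_atTop 0,
    (tendsto_natCast_atTop_atTop (R := ℝ)).eventually_ge_atTop (2 * Lim.K₂ / η ^ 2),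
    (tendsto_natCast_atTop_atTop (R := ℝ)).eventually_ge_atTop (2 * log 2 / ε)] with N hN hK hlog2
  rw [div_le_iff₀' (by positivity)] at hK
  rw [div_le_iff₀' hε] at hlog2
  intro k n hk lam hlam
  have hl : ∀ j, 0 ≤ lam j := fun j => (hlam j).1
  have hN0 : (0 : ℝ) < N := by exact_mod_cast hN
  set R := k * R₀ with hR_def
  have hR : 1 ≤ R := Nat.one_le_iff_ne_zero.2 (by rw [hR_def]; positivity)
  set h := Full.lamPath lam
  have hlast : ∀ q, R₀ - 1 ≤ q → h q = ∑ j, lam j ^ 2 := fun q hq => lamPath_last hR₀ lam hq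
  set b := dd R₀ d0 h (R₀ - 1)
  have hbR : prec d0 k lam R = b :=
    prec_block hk d0 lam (R₀ - 1) (by omega) R (by rw [hR_def, mul_comm k]; exact Nat.mul_le_mul_right k (by omega))
      fun h' => absurd h' (by omega)
  have hb : 0 < b := hbR ▸ prec_pos hd lam R
  have hbB : b ≤ B := by
    rw [← hbR, prec]
    refine add_le_add le_rfl ((sum_le_sum (g := fun _ : Fin R₀ => Λ ^ 2) fun j _ => ?_).trans_eq (by simp))
    split_ifs
    · refine (mul_le_of_le_one_left (sq_nonneg _) ?_).trans (pow_le_pow_left₀ (hl j) (hlam j).2 2)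
      exact div_le_one_of_le₀ (by exact_mod_cast j.2.le) (Nat.cast_nonneg _)
    · positivity
  set A := log 2 + N * ((b - 1) + η * (4 * b + 1)) / 2 - N * log b / 2
  set w : (Fin N × Ix R n → ℝ) → List (Fin (n + 1)) → ℝ := fun Z x =>
    ∫ y, exp (dot (fvec R₀ k lam y x) Z) ∂dirLaw (Fin N)
  have : Nonempty (Fin N) := ⟨⟨0, hN⟩⟩
  set Cl := √(N : ℝ) * ∑ j, |lam j|
  have hae : ∀ (Z : Fin N × Ix R n → ℝ) (x : List (Fin (n + 1))), ∀ᵐ y ∂dirLaw (Fin N), |dot (fvec R₀ k lam y x) Z| ≤ Cl * l1 Z := fun Z x => by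
    filter_upwards [Lim.dirLaw_unit (ι := Fin N)] with y hy
    exact Vale.Agent.P150.abs_dot_le (abs_fvec_le lam hy x) Z
  have hm : ∀ x, Measurable fun q : (Fin N × Ix R n → ℝ) × (Fin N → ℝ) => exp (dot (fvec R₀ k lam q.2 x) q.1) := by
    intro x; unfold fvec bvec dot; fun_prop
  have hint : ∀ Z x, Integrable (fun y => exp (dot (fvec R₀ k lam y x) Z)) (dirLaw (Fin N)) := fun Z x =>
    Integrable.of_bound ((hm x).comp measurable_prodMk_left).aestronglyMeasurable (exp (Cl * l1 Z))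
      ((hae Z x).mono fun y hy => by rw [norm_eq_abs, abs_exp]; exact exp_le_exp.2 (abs_le.1 hy).2)
  have hbd : ∀ Z x, exp (-(Cl * l1 Z)) ≤ w Z x ∧ w Z x ≤ exp (Cl * l1 Z) := fun Z x => by
    constructor
    · refine le_trans (le_of_eq (by simp)) (integral_mono_ae (integrable_const (exp (-(Cl * l1 Z)))) (hint Z x)
        ((hae Z x).mono fun y hy => exp_le_exp.2 (abs_le.1 hy).1))
    · refine (integral_mono_ae (hint Z x) (integrable_const (exp (Cl * l1 Z)))
        ((hae Z x).mono fun y hy => exp_le_exp.2 (abs_le.1 hy).2)).trans (le_of_eq (by simp))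
  have hw : ∀ Z x, 0 < w Z x := fun Z x => (exp_pos _).trans_le (hbd Z x).1
  have hwm : ∀ x, Measurable fun Z => w Z x := fun x => (hm x).stronglyMeasurable.integral_prod_right'.measurable
  have hi : Integrable (fun Z => logZ0 R (lin R) (w Z)) (gauss (Fin N × Ix R n)) := by
    refine (Par.integrable_l1.const_mul Cl).mono'
      ((Vale.Agent.P168.MP.Upper.measurable_Z hwm R []).log).aestronglyMeasurable
      (Eventually.of_forall fun Z => ?_)
    rw [norm_eq_abs]
    refine Par.abs_logZ0_le (Vale.Agent.P168.MP.ok_lin hR (hw Z)) fun x => abs_le.2 ⟨?_, ?_⟩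
    · exact (le_log_iff_exp_le (hw Z x)).2 (hbd Z x).1
    · exact (log_le_iff_le_exp (hw Z x)).2 (hbd Z x).2
  have hmain := nested_gauss_le (A := A) (s := amp k lam) (D := prec d0 k lam) hR (fun i _ => prec_pos hd lam i)
    (fun i hi => prec_step hk hl hi) hw (fun Z x hx => by
      rw [hbR]
      simp only [w, dot_fvec_xs lam _ hx]
      exact radial_le hN hη (min_le_left _ _) hK hb _) hi
  refine hmain.trans ?_
  have h0 : amp k lam 0 ^ 2 = h 0 := by
    rw [amp_sq hk hl]
    refine sum_congr rfl fun j _ => if_congr ⟨fun e => ?_, fun e => ?_⟩ rfl rfl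
    · exact le_of_eq ((Nat.mul_eq_zero.1 e).resolve_right (by omega))
    · simp [Nat.le_zero.1 e]
  have hD0 : prec d0 k lam 0 = d0 := by
    rw [prec_block hk d0 lam 0 (by omega) 0 (by simp) (fun _ => by omega), dd_zero]
  have hS := sum_log_prec (d0 := d0) hR₀ hk hl
  rw [← hR_def] at hS
  have hac : acon N R A (prec d0 k lam) 0 = A + N / 2 * ∑ q ∈ range (R₀ - 1), (R₀ / (q + 1 : ℝ)) *
      log (dd R₀ d0 h (q + 1) / dd R₀ d0 h q) := by
    rw [acon, ← range_eq_Ico, ← hS, mul_sum]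
    congr 1
    exact sum_congr rfl fun i _ => by ring
  rw [hac, h0, hD0]
  have herr : η * (4 * b + 1) ≤ ε :=
    le_trans (mul_le_mul_of_nonneg_left (by linarith) hη.le) hηB
  have herr2 := mul_le_mul_of_nonneg_left herr hN0.le
  simp only [psiG, A, hlast R₀ (by omega), hlast (R₀ - 1) le_rfl]
  ring_nf at herr2 hlog2 ⊢
  linarith

end Vale.Agent.P157.Sph
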