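import Vale.Agent.P157.Sph.EnvField
import Vale.Agent.P157.Sph.Marg
import Vale.Agent.P157.Full.EnvLam
import Vale.Agent.P157.Lim.Sphere

/-! Atoms against the sphere at the two ends of the envelope: with the patterns alone and with the field alone. -/

open MeasureTheory ProbabilityTheory Real Finset Filter
open Vale.Agent.P150 (gauss dot l1 l1_nonneg abs_dot_le)
open Vale.Agent.P168.MP (lin logZ0 ok_lin)
open Vale.Agent.P157.Lim (dirLaw)
open Vale.Agent.P157.Par (pats Ix)

namespace Vale.Agent.P157.Sph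

set_option linter.unusedSectionVars false

/-- the patterns: a fine mesh loses little -/
theorem mesh_pressure {f f1 f2 f3 : ℝ → ℝ} {B D : ℝ} (hS : Par.Sm f f1 f2 f3 B D) (hB : ∀ x, f x ≤ B)
    (N M : ℕ) [NeZero N] {ε : ℝ} (hε : 0 < ε) :
    ∃ η > 0, ∀ (A : Type) [Fintype A] [Nonempty A] (wt : A → ℝ) (a : A → Fin N → ℝ), Mesh N η wt a →
      N * pressure (sphereUniform N) f M ≤
        (∫ g, Real.log (∑ s, wt s * Real.exp (∑ i, f (dot (a s) (g i)))) ∂Par.pats N M) + ε := by
  have hb : ∀ x, |f x| ≤ B := fun x => abs_le.2 ⟨hS.lb x, hB x⟩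
  have hf : Continuous f := continuous_iff_continuousAt.2 fun x => (hS.d0 x).continuousAt
  have hD : 0 ≤ D := (abs_nonneg _).trans (hS.b1 0)
  have hLi : Integrable (fun g : Fin M → Fin N → ℝ => ∑ i, l1 (g i)) (pats N M) :=
    integrable_finsetSum _ fun i _ => integrable_comp_eval (i := i) Par.integrable_l1
  set L := ∫ g : Fin M → Fin N → ℝ, ∑ i, l1 (g i) ∂pats N M
  have hL : 0 ≤ L := integral_nonneg fun g => sum_nonneg fun i _ => l1_nonneg _
  refine ⟨min 1 (ε / (D * L + 1)), lt_min one_pos (by positivity), fun A _ _ wt a hM => ?_⟩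
  set η := min 1 (ε / (D * L + 1))
  set G := fun g : Fin M → Fin N → ℝ => Real.log (∑ s, wt s * Real.exp (∑ i, f (dot (a s) (g i))))
  have hpt : ∀ g, |G g - Lim.logZ f (dirLaw (Fin N)) g| ≤ D * η * ∑ i, l1 (g i) := fun g => by
    refine mesh_log hM (min_le_left _ _) (H := fun z => Real.exp (∑ i, f (dot z (g i))))
      (continuous_exp.comp (continuous_finsetSum _ fun i _ => hf.comp (by unfold dot; fun_prop)))
      (fun z => exp_pos _) fun z z' _ _ h => ?_
    rw [log_exp, log_exp, ← sum_sub_distrib, mul_sum]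
    refine (abs_sum_le_sum_abs _ _).trans (sum_le_sum fun i _ => ?_)
    refine (Full.Fld.abs_f_sub_le hS _ _).trans ?_
    rw [mul_assoc]
    refine mul_le_mul_of_nonneg_left ?_ hD
    rw [show dot z (g i) - dot z' (g i) = dot (fun k => z k - z' k) (g i) by
      simp only [dot, ← sum_sub_distrib, sub_mul]]
    exact abs_dot_le h _
  have hc : Continuous G := (continuous_finsetSum _ fun s _ => continuous_const.mul (continuous_exp.comp
    (continuous_finsetSum _ fun i _ => hf.comp (by unfold dot; fun_prop)))).log fun g =>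
      (sum_pos (fun s _ => mul_pos (hM.pos s) (exp_pos _)) univ_nonempty).ne'
  have iZ : Integrable (Lim.logZ f (dirLaw (Fin N))) (pats N M) := Lim.integrable_logZ hf hb
  have iG : Integrable G (pats N M) := (iZ.abs.add (hLi.const_mul (D * η))).mono' hc.aestronglyMeasurable
    (Eventually.of_forall fun g => by
      have := abs_sub_le (G g) (Lim.logZ f (dirLaw (Fin N)) g) 0
      simp only [sub_zero] at this
      rw [norm_eq_abs, Pi.add_apply]
      linarith [hpt g])
  have key : D * η * L ≤ ε := by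
    have h1 : η * (D * L + 1) ≤ ε := (le_div_iff₀ (by positivity)).1 (min_le_right _ _)
    have h2 : 0 ≤ η := le_min zero_le_one (by positivity)
    linarith
  rw [Lim.pressure_eq_freeM (NeZero.pos N) hf, mul_div_cancel₀ _ (Nat.cast_ne_zero.2 (NeZero.ne N)), Lim.freeM]
  have := integral_mono iZ (iG.add (hLi.const_mul (D * η))) fun g => by
    have := (abs_le.1 (hpt g)).1
    simp only [Pi.add_apply]
    linarith
  rw [integral_add' iG (hLi.const_mul _), integral_const_mul] at this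
  exact this.trans (by linarith)

variable {N n R₀ k : ℕ}

lemma continuous_fvec_exp (lam : Fin R₀ → ℝ) (x : List (Fin (n + 1))) :
    Continuous (Function.uncurry fun (Z : Fin N × Ix (k * R₀) n → ℝ) (y : Fin N → ℝ) =>
      Real.exp (dot (fvec R₀ k lam y x) Z)) := by
  unfold dot fvec bvec Function.uncurry; fun_prop

lemma continuous_fvec_exp_right (lam : Fin R₀ → ℝ) (x : List (Fin (n + 1))) (Z : Fin N × Ix (k * R₀) n → ℝ) :
    Continuous fun y : Fin N → ℝ => Real.exp (dot (fvec R₀ k lam y x) Z) := by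
  unfold dot fvec bvec; fun_prop

lemma continuous_fvec_exp_left (lam : Fin R₀ → ℝ) (x : List (Fin (n + 1))) (y : Fin N → ℝ) :
    Continuous fun Z : Fin N × Ix (k * R₀) n → ℝ => Real.exp (dot (fvec R₀ k lam y x) Z) := by
  unfold dot fvec bvec; fun_prop

/-- one path of labels: the mesh against the sphere -/
lemma mesh_field_log {A : Type} [Fintype A] [Nonempty A] [NeZero N] {wt : A → ℝ} {a : A → Fin N → ℝ} {η Q : ℝ}
    (hM : Mesh N η wt a) (hη : η ≤ 1) (lam : Fin R₀ → ℝ) (hQ : √(N : ℝ) * η * (∑ j, |lam j|) ≤ Q)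
    (x : List (Fin (n + 1))) (Z : Fin N × Ix (k * R₀) n → ℝ) :
    |Real.log (∑ s, wt s * Real.exp (dot (fvec R₀ k lam (a s) x) Z)) -
      Real.log (∫ y, Real.exp (dot (fvec R₀ k lam y x) Z) ∂dirLaw (Fin N))| ≤ Q * l1 Z :=
  mesh_log hM hη (continuous_fvec_exp_right lam x Z) (fun _ => exp_pos _) fun y y' _ _ h => by
    rw [log_exp, log_exp]
    exact (fvec_move lam h x Z).trans (mul_le_mul_of_nonneg_right hQ (l1_nonneg _))

lemma abs_dot_fvec_le (lam : Fin R₀ → ℝ) {y : Fin N → ℝ} (hy : dot y y = 1) (x : List (Fin (n + 1)))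
    (Z : Fin N × Ix (k * R₀) n → ℝ) :
    |dot (fvec R₀ k lam y x) Z| ≤ √(N : ℝ) * (∑ j, |lam j|) * l1 Z :=
  abs_dot_le (abs_fvec_le lam hy x) Z

/-- the field alone: a fine mesh gains little, uniformly on bounded amplitudes -/
theorem mesh_zero (R₀ k N n : ℕ) [NeZero N] (hR : 1 ≤ k * R₀) (Λ : ℝ) {ε : ℝ} (hε : 0 < ε) :
    ∃ η > 0, ∀ (A : Type) [Fintype A] [Nonempty A] (wt : A → ℝ) (a : A → Fin N → ℝ), Mesh N η wt a →
      ∀ lam : Fin R₀ → ℝ, (∀ i, 0 ≤ lam i ∧ lam i ≤ Λ) →
        ∫ Z, logZ0 (k * R₀) (lin (k * R₀))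
            (fun x : List (Fin (n + 1)) => ∑ s, wt s * Real.exp (dot (fvec R₀ k lam (a s) x) Z))
            ∂gauss (Fin N × Par.Ix (k * R₀) n) ≤
          (∫ Z, logZ0 (k * R₀) (lin (k * R₀))
              (fun x : List (Fin (n + 1)) => ∫ y, Real.exp (dot (fvec R₀ k lam y x) Z) ∂dirLaw (Fin N))
              ∂gauss (Fin N × Par.Ix (k * R₀) n)) + ε := by
  set E := Full.meanL1 N (k * R₀) n
  have hE : 0 ≤ E := integral_nonneg fun Z => l1_nonneg _
  set Q := √(N : ℝ) * (R₀ * |Λ|)
  have hQ : 0 ≤ Q := by positivity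
  refine ⟨min 1 (ε / (Q * E + 1)), lt_min one_pos (by positivity), fun A _ _ wt a hM lam hlam => ?_⟩
  set η := min 1 (ε / (Q * E + 1))
  have hη0 : 0 ≤ η := le_min zero_le_one (by positivity)
  have hΛ : ∑ j, |lam j| ≤ R₀ * |Λ| := (sum_le_card_nsmul _ _ |Λ| fun j _ => by
    rw [abs_of_nonneg (hlam j).1]; exact (hlam j).2.trans (le_abs_self _)).trans_eq (by simp)
  set P : (Fin N × Ix (k * R₀) n → ℝ) → List (Fin (n + 1)) → ℝ :=
    fun Z x => ∑ s, wt s * Real.exp (dot (fvec R₀ k lam (a s) x) Z)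
  set P0 : (Fin N × Ix (k * R₀) n → ℝ) → List (Fin (n + 1)) → ℝ :=
    fun Z x => ∫ y, Real.exp (dot (fvec R₀ k lam y x) Z) ∂dirLaw (Fin N)
  have hP : ∀ Z x, 0 < P Z x := fun Z x => sum_pos (fun s _ => mul_pos (hM.pos s) (exp_pos _)) univ_nonempty
  have hP0 : ∀ Z x, 0 < P0 Z x := fun Z x =>
    integral_exp_pos (integrable_dirLaw (continuous_fvec_exp_right lam x Z))
  have hpt : ∀ Z, |logZ0 (k * R₀) (lin (k * R₀)) (P Z) - logZ0 (k * R₀) (lin (k * R₀)) (P0 Z)| ≤
      η * Q * l1 Z := fun Z => by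
    refine Full.Fld.abs_logZ0_sub_le (ok_lin hR (hP0 Z)) (hP Z) fun x _ => ?_
    refine mesh_field_log hM (min_le_left _ _) lam ?_ x Z
    rw [mul_comm η, show Q * η = √(N : ℝ) * η * (R₀ * |Λ|) by simp only [Q]; ring]
    exact mul_le_mul_of_nonneg_left hΛ (by positivity)
  have iP : Integrable (fun Z => logZ0 (k * R₀) (lin (k * R₀)) (P Z)) (gauss (Fin N × Ix (k * R₀) n)) := by
    refine (Par.integrable_l1.const_mul (√(N : ℝ) * ∑ j, |lam j|)).mono'
      (Par.continuous_logZ0 (fun x => continuous_finsetSum _ fun s _ => continuous_const.mul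
        (continuous_fvec_exp_left lam x (a s))) hP _).aestronglyMeasurable
      (Eventually.of_forall fun Z => ?_)
    rw [norm_eq_abs]
    refine Par.abs_logZ0_le (ok_lin hR (hP Z)) fun x => ?_
    have hs := mesh_sum hM
    have b : ∀ s, exp (-(√(N : ℝ) * (∑ j, |lam j|) * l1 Z)) ≤ exp (dot (fvec R₀ k lam (a s) x) Z) ∧
        exp (dot (fvec R₀ k lam (a s) x) Z) ≤ exp (√(N : ℝ) * (∑ j, |lam j|) * l1 Z) := fun s =>
      ⟨exp_le_exp.2 (abs_le.1 (abs_dot_fvec_le lam (hM.unit s) x Z)).1,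
        exp_le_exp.2 (abs_le.1 (abs_dot_fvec_le lam (hM.unit s) x Z)).2⟩
    have lo : exp (-(√(N : ℝ) * (∑ j, |lam j|) * l1 Z)) ≤ P Z x := by
      refine le_trans (le_of_eq ?_) (sum_le_sum fun s _ => mul_le_mul_of_nonneg_left (b s).1 (hM.pos s).le)
      rw [← sum_mul, hs, one_mul]
    have hi : P Z x ≤ exp (√(N : ℝ) * (∑ j, |lam j|) * l1 Z) := by
      refine le_of_le_of_eq (sum_le_sum fun s _ => mul_le_mul_of_nonneg_left (b s).2 (hM.pos s).le) ?_
      rw [← sum_mul, hs, one_mul]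
    exact abs_le.2 ⟨(le_log_iff_exp_le (hP Z x)).2 lo, (log_le_iff_le_exp (hP Z x)).2 hi⟩
  have hc0 : Continuous fun Z => logZ0 (k * R₀) (lin (k * R₀)) (P0 Z) := by
    refine Par.continuous_logZ0 (fun x => ?_) hP0 _
    have hK : ∀ᵐ y ∂dirLaw (Fin N), y ∈ Metric.closedBall (0 : Fin N → ℝ) 1 := by
      filter_upwards [Lim.dirLaw_unit] with y hy
      rw [mem_closedBall_zero_iff, pi_norm_le_iff_of_nonneg zero_le_one]
      exact fun i => (Real.norm_eq_abs _).trans_le (mem_cube hy i)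
    have := continuous_parametric_integral_of_continuous (μ := dirLaw (Fin N))
      (continuous_fvec_exp (N := N) (k := k) lam x) (isCompact_closedBall (0 : Fin N → ℝ) 1)
    rw [Measure.restrict_eq_self_of_ae_mem hK] at this
    exact this
  have iR : Integrable (fun Z => η * Q * l1 Z) (gauss (Fin N × Ix (k * R₀) n)) := Par.integrable_l1.const_mul _
  have iP0 : Integrable (fun Z => logZ0 (k * R₀) (lin (k * R₀)) (P0 Z)) (gauss (Fin N × Ix (k * R₀) n)) :=
    (iP.abs.add iR).mono' hc0.aestronglyMeasurable (Eventually.of_forall fun Z => by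
      have := abs_sub_le (logZ0 (k * R₀) (lin (k * R₀)) (P0 Z)) (logZ0 (k * R₀) (lin (k * R₀)) (P Z)) 0
      simp only [sub_zero] at this
      rw [abs_sub_comm (logZ0 (k * R₀) (lin (k * R₀)) (P0 Z))] at this
      rw [norm_eq_abs, Pi.add_apply]
      linarith [hpt Z])
  refine (integral_mono iP (iP0.add iR) fun Z => ?_).trans ?_
  · have := (abs_le.1 (hpt Z)).2
    simp only [Pi.add_apply]
    linarith
  · rw [integral_add' iP0 iR, integral_const_mul]
    refine add_le_add le_rfl ?_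
    have h1 : η * (Q * E + 1) ≤ ε := (le_div_iff₀ (by positivity)).1 (min_le_right _ _)
    show η * Q * E ≤ ε
    linarith

end Vale.Agent.P157.Sph
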