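import Vale.Agent.P157.Sph.Iface
import Vale.Agent.P157.Sph.EnvColl

/-! The system of the upper bound on the sphere: atoms, bits and shared labels, with patterns and the field.
Its weights, the reduction to the labels, and its identification with the systems of the interfaces. -/

open MeasureTheory ProbabilityTheory Finset
open Vale.Agent.P150 (gauss dot l1)
open Vale.Agent.P168.MP (lin ET logZ0 avg Batch gain1 gainCap ok_lin)
open Vale.Agent.P157.Par (Ix cv)
open Vale.Agent.P157.Lim (xv sgn)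

namespace Vale.Agent.P157.Sph

variable {A : Type} [Fintype A] [Nonempty A] {N K S n : ℕ} {ι : Type} [Fintype ι] [DecidableEq ι] {β : ι → Batch} [NeZero K]

/-- the label of a mark -/
def labA (o : MkA A (Fin (n + 1)) K S β) : Fin (n + 1) := o.1.2.2

/-- the weight read at the last mark -/
noncomputable def refW (c : ℝ) (r : Fin K → Fin N → Bool) (wt : A → ℝ) (a : A → Fin N → ℝ)
    (o : MkA A (Fin (n + 1)) K S β) : ℝ :=
  Fintype.card A * wt o.1.1 * bitW c r o.1.2.1 (a o.1.1)

omit [NeZero K] in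
private lemma bitW_pos (c : ℝ) (r : Fin K → Fin N → Bool) (b : Fin K → Bool) (z : Fin N → ℝ) : 0 < bitW c r b z := by
  refine prod_pos fun k _ => ?_
  have h := abs_lt.1 (Real.abs_tanh_lt_one (c * √(N : ℝ) * dot (xv N (r k)) z))
  rcases b k <;> simp only [sgn, Bool.false_eq_true, if_false, if_true] <;> linarith

omit [NeZero K] in
/-- the bits integrate to one -/
private lemma avg_bitW (c : ℝ) (r : Fin K → Fin N → Bool) (z : Fin N → ℝ) : avg (fun b => bitW c r b z) = 1 := by
  simp only [bitW]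
  rw [Vale.Agent.P168.MP.Upper.avg_pi fun k (b : Bool) =>
    1 + sgn b * Real.tanh (c * √(N : ℝ) * dot (xv N (r k)) z)]
  refine prod_eq_one fun k _ => ?_
  simp [avg, sgn]
  ring

variable {c : ℝ} {r : Fin K → Fin N → Bool} {wt : A → ℝ} {a : A → Fin N → ℝ} {h u : ι → ℝ} {R : ℕ}

omit [Fintype ι] [DecidableEq ι] [NeZero K] in
lemma refW_pos (hwt : ∀ s, 0 < wt s) (o : MkA A (Fin (n + 1)) K S β) : 0 < refW c r wt a o :=
  mul_pos (mul_pos (Nat.cast_pos.2 Fintype.card_pos) (hwt _)) (bitW_pos _ _ _ _)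

/-- averaging over the atom and the bits -/
lemma avg_refW (φ : A → Fin (n + 1) → ℝ) :
    avg (fun o : MkA A (Fin (n + 1)) K S β => refW c r wt a o * φ o.1.1 o.1.2.2) =
      avg fun x => ∑ s, wt s * φ s x := by
  rw [Vale.Agent.P168.MP.avg_prod_eq]
  simp only [refW, Vale.Agent.P168.MP.avg_const]
  rw [Vale.Agent.P168.MP.avg_prod_eq]
  have e : ∀ (s : A), avg (fun o : (Fin K → Bool) × Fin (n + 1) =>
      Fintype.card A * wt s * bitW c r o.1 (a s) * φ s o.2) = Fintype.card A * (wt s * avg (φ s)) := fun s => by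
    rw [Vale.Agent.P168.MP.Upper.avg_mul (fun b => Fintype.card A * wt s * bitW c r b (a s)) (φ s),
      Vale.Agent.P168.MP.Upper.avg_mul_left, avg_bitW]
    ring
  simp only [e, Vale.Agent.P168.MP.Upper.avg_mul_left]
  simp only [avg, ← sum_div, mul_div_assoc', mul_sum]
  rw [sum_comm]
  simp only [← mul_sum]
  rw [div_right_comm, mul_div_cancel_left₀ _ (Nat.cast_ne_zero.2 Fintype.card_ne_zero)]

lemma avg_labA (φ : Fin (n + 1) → ℝ) :
    avg (fun o : MkA A (Fin (n + 1)) K S β => φ (labA o)) = avg φ := by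
  simp only [labA]
  rw [Vale.Agent.P168.MP.avg_prod_eq]
  simp only [Vale.Agent.P168.MP.avg_const]
  rw [Vale.Agent.P168.MP.avg_prod_eq]
  simp only [Vale.Agent.P168.MP.avg_prod_eq (f := fun o : (Fin K → Bool) × Fin (n + 1) => φ o.2),
    Vale.Agent.P168.MP.avg_const]

omit [Fintype A] [Fintype ι] [DecidableEq ι] [NeZero K] in
lemma vecA_unit (ha : ∀ s, dot (a s) (a s) = 1) (p : List (MkA A (Fin (n + 1)) K S β)) :
    dot (vecA R a p) (vecA R a p) = 1 := ha _

omit [DecidableEq ι] in
lemma sysA_posL {G : (Fin N → ℝ) → List (Fin (n + 1)) → ℝ} (hwt : ∀ s, 0 < wt s) (hG : ∀ z x, 0 < G z x)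
    (p : List (MkA A (Fin (n + 1)) K S β)) : 0 < sysA R G c r wt a h u p :=
  mul_pos (mul_pos (mul_pos (mul_pos (Nat.cast_pos.2 Fintype.card_pos) (hwt _)) (hG _ _)) (bitW_pos _ _ _ _))
    (Real.exp_pos _)

omit [DecidableEq ι] in
/-- the weight is the reference weight times the factor of the point and the gain -/
lemma sysA_refW (G : (Fin N → ℝ) → List (Fin (n + 1)) → ℝ) {p : List (MkA A (Fin (n + 1)) K S β)}
    (hp : p.length = R) (hR : 1 ≤ R) (d : MkA A (Fin (n + 1)) K S β) :
    sysA R G c r wt a h u p = refW c r wt a (p.getD (R - 1) d) * G (vecA R a p) (p.map labA) *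
      Real.exp (∑ i : ι × Fin S, gain1 R h u (p.map (Full.plain fun o : A × ((Fin K → Bool) × Fin (n + 1)) => o.2.1)) i) := by
  have hl : R - 1 < p.length := by omega
  have e1 : ((p.map Prod.fst).map Prod.fst).getD (R - 1) (Classical.arbitrary A) = (p.getD (R - 1) d).1.1 := by
    rw [List.getD_eq_getElem _ _ (by simp; omega), List.getD_eq_getElem _ _ hl]; simp
  have e2 : bat R ((p.map Prod.fst).map Prod.snd) = (p.getD (R - 1) d).1.2.1 := by
    rw [bat, List.getD_eq_getElem _ _ (by simp; omega), List.getD_eq_getElem _ _ hl]; simp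
  simp only [sysA, Full.pwX, atomW, refW, vecA, vat, e1, e2]
  rw [show (p.map Prod.fst).map (fun o => o.2.2) = p.map labA by simp [labA, List.map_map, Function.comp_def]]
  ring

omit [Fintype A] [Nonempty A] [DecidableEq ι] in
lemma abs_gain_le (hh : ∀ j, |h j| ≤ 1) (hu : ∀ j, |u j| ≤ 1) (p : List (MkA A (Fin (n + 1)) K S β)) :
    |∑ i : ι × Fin S, gain1 R h u (p.map (Full.plain fun o : A × ((Fin K → Bool) × Fin (n + 1)) => o.2.1)) i| ≤
      gainCap S β :=
  Vale.Agent.P168.MP.abs_gain_le_gainCap hh hu _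

/-- **without the perturbation only the labels are left** -/
lemma abs_logZ0_sysA (hR : 1 ≤ R) (hwt : ∀ s, 0 < wt s) (hh : ∀ j, |h j| ≤ 1) (hu : ∀ j, |u j| ≤ 1)
    {G : (Fin N → ℝ) → List (Fin (n + 1)) → ℝ} (hG : ∀ z x, 0 < G z x) :
    |logZ0 R (lin R) (sysA (S := S) (β := β) R G c r wt a h u) -
      logZ0 R (lin R) fun x : List (Fin (n + 1)) => ∑ s, wt s * G (a s) x| ≤ gainCap S β := by
  obtain ⟨d⟩ : Nonempty (MkA A (Fin (n + 1)) K S β) := inferInstance
  set w₁ : List (MkA A (Fin (n + 1)) K S β) → ℝ := fun p =>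
    atomW R G c r wt a (p.map Prod.fst) with hw₁
  have hp1 : ∀ p, 0 < w₁ p := fun p =>
    mul_pos (mul_pos (mul_pos (Nat.cast_pos.2 Fintype.card_pos) (hwt _)) (hG _ _)) (bitW_pos _ _ _ _)
  have h1 : |logZ0 R (lin R) (sysA (S := S) (β := β) R G c r wt a h u) - logZ0 R (lin R) w₁| ≤ gainCap S β := by
    refine Full.Fld.abs_logZ0_sub_le (ok_lin hR hp1) (sysA_posL hwt hG) fun p _ => ?_
    rw [show sysA (S := S) (β := β) R G c r wt a h u p = w₁ p *
        Real.exp (∑ i : ι × Fin S, gain1 R h u (p.map (Full.plain fun o : A × ((Fin K → Bool) × Fin (n + 1)) => o.2.1)) i)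
        from rfl, Real.log_mul (hp1 p).ne' (Real.exp_pos _).ne', Real.log_exp, add_sub_cancel_left]
    exact abs_gain_le hh hu p
  rw [logZ0_collapse (W := fun x : List (Fin (n + 1)) => ∑ s, wt s * G (a s) x) labA avg_labA (ok_lin hR hp1) hR
    fun pre hpre => ?_] at h1
  · exact h1
  have e : ∀ o, w₁ (pre ++ [o]) = refW c r wt a o * G (a o.1.1) (pre.map labA ++ [o.1.2.2]) := fun o => by
    have hlen : (pre ++ [o]).length = R := by simp; omega
    have hget : (pre ++ [o])[R - 1]? = some o := by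
      rw [List.getElem?_append_right (by omega), show R - 1 - pre.length = 0 by omega]; rfl
    simp only [w₁, atomW, refW, vat, bat, List.getD_eq_getElem?_getD, List.getElem?_map, hget,
      Option.map_some, Option.getD_some]
    simp only [List.map_append, List.map_map, List.map_cons, List.map_nil, Function.comp_def]
    rw [show (fun o : MkA A (Fin (n + 1)) K S β => o.1.2.2) = labA from rfl]
    ring
  simp only [e]
  exact avg_refW fun s x => G (a s) (pre.map labA ++ [x])

/-- collisions under the weight with patterns -/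
lemma CF_sysA [NeZero N] {R₀ k : ℕ} {lam : Fin R₀ → ℝ} (hR : 1 ≤ k * R₀) (hk : 1 ≤ k) (hwt : ∀ s, 0 < wt s)
    (ha : ∀ s, dot (a s) (a s) = 1) (hh : ∀ j, |h j| ≤ 1) (hu : ∀ j, |u j| ≤ 1)
    {f : ℝ → ℝ} {B : ℝ} (hb : ∀ x, |f x| ≤ B) {M : ℕ} (g : Fin M → Fin N → ℝ) {V : ℝ}
    (hV : ∑ j, lam j ^ 2 ≤ V) :
    ∫ Z, CF R₀ k lam (sysA (S := S) (β := β) (k * R₀) (hamS f g) c r wt a h u) (vecA (k * R₀) a) labA Z
        ∂gauss (Fin N × Ix (k * R₀) n) ≤
      collS N (k * R₀) V (M * B + gainCap S β) / √((n + 1 : ℕ) : ℝ) := by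
  classical
  obtain ⟨d⟩ : Nonempty (MkA A (Fin (n + 1)) K S β) := inferInstance
  set R := k * R₀
  set w₀ := sysA (S := S) (β := β) (Λ := Fin (n + 1)) R (hamS f g) c r wt a h u
  have hw : ∀ p, 0 < w₀ p := fun p => sysA_posL hwt (fun _ _ => Real.exp_pos _) p
  -- away from the length `R` the weight is replaced by the reference one
  set w' : List (MkA A (Fin (n + 1)) K S β) → ℝ := fun p =>
    if p.length = R then w₀ p else refW c r wt a (p.getD (R - 1) d)
  have hw' : ∀ p, 0 < w' p := fun p => by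
    simp only [w']; split_ifs; exacts [hw p, refW_pos hwt _]
  have hint : ∀ Z, CF R₀ k lam w₀ (vecA R a) labA Z = CF R₀ k lam w' (vecA R a) labA Z := fun Z => by
    unfold CF
    refine congrArg (· / _) (sum_congr rfl fun l hl => ?_)
    have hT : Vale.Agent.P168.MP.Valid R [(0, l), (0, 0)] := ⟨Nat.zero_lt_one, (mem_range.1 hl).le, rfl, rfl⟩
    refine Vale.Agent.P168.MP.ET_congr_weight hT (fun p hp => ?_)
    simp [wF, w', hp, R]
  rw [integral_congr_ae (Filter.Eventually.of_forall hint)]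
  have hone : ∀ x : Fin (n + 1), avg (fun y => if y = x then (1 : ℝ) else 0) = 1 / ((n + 1 : ℕ) : ℝ) := fun x => by
    simp [avg]
  refine CF_le hR hk d (h := refW c r wt a) (refW_pos hwt)
    (fun x => (avg_labA fun y => if y = x then (1 : ℝ) else 0).trans (hone x)) (fun x => ?_) hw' (fun p => ?_)
    (vecA_unit ha) hV
  · have e1 := avg_refW (S := S) (β := β) (c := c) (r := r) (wt := wt) (a := a)
      fun _ (y : Fin (n + 1)) => if y = x then (1 : ℝ) else 0
    have e2 := avg_refW (S := S) (β := β) (c := c) (r := r) (wt := wt) (a := a) fun _ (_ : Fin (n + 1)) => (1 : ℝ)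
    simp only [mul_one, Vale.Agent.P168.MP.avg_const] at e2
    rw [e2]
    refine e1.trans ?_
    simp only [← sum_mul]
    rw [Vale.Agent.P168.MP.Upper.avg_mul_left, hone, mul_comm]
  · have hr : 0 < refW c r wt a (p.getD (R - 1) d) := refW_pos hwt _
    simp only [w']
    split_ifs with hp
    · have key : w₀ p / refW c r wt a (p.getD (R - 1) d) = Real.exp ((∑ i, f (dot (vecA R a p) (g i))) +
          ∑ i : ι × Fin S, gain1 R h u (p.map (Full.plain fun o : A × ((Fin K → Bool) × Fin (n + 1)) => o.2.1)) i) := by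
        rw [show w₀ p = _ from sysA_refW _ hp hR d, hamS, mul_assoc, mul_div_cancel_left₀ _ hr.ne', Real.exp_add]
      rw [show k * R₀ = R from rfl, key]
      have hg := abs_le.1 (abs_gain_le (R := R) hh hu p)
      have hs := abs_le.1 ((abs_sum_le_sum_abs (fun i => f (dot (vecA R a p) (g i))) univ).trans
        ((sum_le_card_nsmul _ _ B fun i _ => hb _).trans_eq (by simp : _ = (M : ℝ) * B)))
      exact ⟨Real.exp_le_exp.2 (by linarith), Real.exp_le_exp.2 (by linarith)⟩
    · have hC : 0 ≤ (M : ℝ) * B + gainCap S β := add_nonneg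
        (mul_nonneg (Nat.cast_nonneg _) ((abs_nonneg _).trans (hb 0)))
        ((abs_nonneg _).trans (abs_gain_le (R := R) hh hu p))
      rw [show k * R₀ = R from rfl, div_self hr.ne']
      exact ⟨Real.exp_le_one_iff.2 (neg_nonpos.2 hC), Real.one_le_exp hC⟩

omit [DecidableEq ι] in
/-- the field enters the weight as a factor of the point and the labels -/
lemma wF_sysA {R₀ k : ℕ} (lam : Fin R₀ → ℝ) (G : (Fin N → ℝ) → List (Fin (n + 1)) → ℝ)
    (Z : Fin N × Ix (k * R₀) n → ℝ) :
    wF R₀ k lam (sysA (S := S) (β := β) (k * R₀) G c r wt a h u) (vecA (k * R₀) a) labA Z =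
      sysA (k * R₀) (fun z x => G z x * Real.exp (dot (fvec R₀ k lam z x) Z)) c r wt a h u := by
  funext p
  simp only [wF, sysA, Full.pwX, atomW, vecA]
  rw [show (p.map Prod.fst).map (fun o => o.2.2) = p.map labA by simp [labA, List.map_map, Function.comp_def]]
  ring

omit [DecidableEq ι] in
/-- the patterns are a factor at the vector reading -/
lemma sysA_mul_ham (f : ℝ → ℝ) {M : ℕ} (g : Fin M → Fin N → ℝ) (G : (Fin N → ℝ) → List (Fin (n + 1)) → ℝ) :
    sysA (S := S) (β := β) R (fun z x => hamS f g z x * G z x) c r wt a h u =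
      wV f (sysA (S := S) (β := β) R G c r wt a h u) (vecA R a) g := by
  funext p
  simp only [sysA, Full.pwX, atomW, hamS, wV, vecA]
  ring

end Vale.Agent.P157.Sph
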