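import Vale.Agent.P157.Sph.EnvStep
import Vale.Agent.P157.Sph.EnvSys

/-! The perturbed systems with atoms as a family of the envelope: what their interfaces give at a fixed dimension. -/

open MeasureTheory ProbabilityTheory Finset Filter
open Vale.Agent.P150 (gauss dot l1)
open Vale.Agent.P168.MP (lin logZ0 avg avg_le_avg avg_const Batch gain1 gainCap ok_lin)
open Vale.Agent.P157.Par (Ix cv pats Sm)

namespace Vale.Agent.P157.Sph

/-- the constant weight has itself as value -/
lemma logZ0_constW {Ω : Type} [Fintype Ω] [Nonempty Ω] {R : ℕ} (hR : 1 ≤ R) {x : ℝ} (hx : 0 < x) :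
    logZ0 R (lin R) (fun _ : List Ω => x) = Real.log x := by
  have h1 : ∀ p : List Ω, 0 < (fun _ : List Ω => (1 : ℝ)) p := fun _ => one_pos
  have h := Vale.Agent.P168.MP.logZ0_mul (R := R) (m := lin R) h1 (Y := fun _ => x) fun _ => hx
  obtain ⟨a, b⟩ := Vale.Agent.P168.MP.nest_mem (ok_lin hR h1) (Y := fun _ : List Ω => x) hx (b := x)
    (fun _ _ => ⟨le_rfl, le_rfl⟩) R [] (by simp)
  have h0 : |logZ0 R (lin R) (fun _ : List Ω => (1 : ℝ))| ≤ 0 :=
    Par.abs_logZ0_le (ok_lin hR h1) fun p => by simp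
  simp only [one_mul, le_antisymm b a, abs_nonpos_iff.1 h0, sub_zero] at h
  exact h

variable {A : Type} [Fintype A] [Nonempty A] {I : Type} [Fintype I] [Nonempty I] [MeasurableSpace I]
  [MeasurableSingletonClass I] {N K S n M R₀ k : ℕ} [NeZero N] [NeZero K] {ι : Type} [Fintype ι] [DecidableEq ι]
  {β : ι → Batch} {c : ℝ} {ρ : I → Fin K → Fin N → Bool} {U : I → ι → ℝ} {wt : A → ℝ} {a : A → Fin N → ℝ}
  {h : ι → ℝ} {f f1 f2 f3 : ℝ → ℝ} {B D : ℝ} {lam : Fin R₀ → ℝ}

/-- the weights without patterns and field -/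
noncomputable def sysB (R : ℕ) (c : ℝ) (ρ : I → Fin K → Fin N → Bool) (wt : A → ℝ) (a : A → Fin N → ℝ)
    (h : ι → ℝ) (U : I → ι → ℝ) (i : I) : List (MkA A (Fin (n + 1)) K S β) → ℝ :=
  sysA R (fun _ _ => 1) c (ρ i) wt a h (U i)

/-- their free energy with patterns and field -/
noncomputable def sysF (S : ℕ) (β : ι → Batch) (n R₀ k : ℕ) (f : ℝ → ℝ) (c : ℝ) (ρ : I → Fin K → Fin N → Bool)
    (wt : A → ℝ) (a : A → Fin N → ℝ) (h : ι → ℝ) (U : I → ι → ℝ) (M : ℕ) (lam : Fin R₀ → ℝ)
    (ω : I × YS N n (k * R₀) M) : ℝ :=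
  Fj R₀ k (fun i g => wV f (sysB (n := n) (S := S) (β := β) (k * R₀) c ρ wt a h U i) (vecA (k * R₀) a) g)
    (vecA (k * R₀) a) labA lam ω

omit [Nonempty I] [MeasurableSpace I] [MeasurableSingletonClass I] [DecidableEq ι] [NeZero N] in
lemma sys_based {R : ℕ} (hwt : ∀ s, 0 < wt s) (ha : ∀ s, dot (a s) (a s) = 1) (hh : ∀ j, |h j| ≤ 1)
    (hU : ∀ i j, |U i j| ≤ 1) :
    ∃ Cb, Based (sysB (n := n) (S := S) (β := β) R c ρ wt a h U) (vecA R a) Cb := by
  classical
  set T : I × A × (Fin K → Bool) → ℝ := fun x =>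
    Fintype.card A * wt x.2.1 * 1 * bitW c (ρ x.1) x.2.2 (a x.2.1)
  refine ⟨(∑ x, |Real.log (T x)|) + gainCap S β, fun i p => sysA_posL hwt (fun _ _ => one_pos) p, fun i p => ?_,
    vecA_unit ha⟩
  set x : I × A × (Fin K → Bool) :=
    (i, ((p.map Prod.fst).map Prod.fst).getD (R - 1) (Classical.arbitrary A), bat R ((p.map Prod.fst).map Prod.snd))
  have hT : 0 < T x := by
    have := sysA_posL (S := S) (β := β) (R := R) (c := c) (r := ρ i) (a := a) (h := h) (u := U i) hwt
      (G := fun _ (_ : List (Fin (n + 1))) => (1 : ℝ)) (fun _ _ => one_pos) p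
    exact (mul_pos_iff_of_pos_right (Real.exp_pos _)).1 this
  rw [show sysB R c ρ wt a h U i p = T x * Real.exp (∑ j : ι × Fin S, gain1 R h (U i)
    (p.map (Full.plain fun o : A × ((Fin K → Bool) × Fin (n + 1)) => o.2.1)) j) from rfl,
    Real.log_mul hT.ne' (Real.exp_pos _).ne', Real.log_exp]
  exact (abs_add_le _ _).trans (add_le_add (single_le_sum (f := fun x => |Real.log (T x)|)
    (fun x _ => abs_nonneg _) (mem_univ x)) (abs_gain_le hh (hU i) p))

omit [Nonempty I] [MeasurableSpace I] [MeasurableSingletonClass I] [DecidableEq ι] [NeZero N] [Fintype I] in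
lemma sys_weight (f : ℝ → ℝ) (R : ℕ) (i : I) (g : Fin M → Fin N → ℝ) :
    wV f (sysB (n := n) (S := S) (β := β) R c ρ wt a h U i) (vecA R a) g =
      sysA (S := S) (β := β) R (hamS f g) c (ρ i) wt a h (U i) :=
  (sysA_ham f R g c (ρ i) wt a h (U i)).symm

omit [Nonempty I] [MeasurableSpace I] [MeasurableSingletonClass I] [Fintype I] [NeZero N] in
/-- the systems of two indices have nearly the same value -/
lemma sys_close (hR : 1 ≤ k * R₀) (hwt : ∀ s, 0 < wt s) (hh : ∀ j, |h j| ≤ 1) (hU : ∀ i j, |U i j| ≤ 1)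
    (g : Fin M → Fin N → ℝ) (z : Fin N × Ix (k * R₀) n → ℝ) (i i' : I) :
    |FF R₀ k lam (wV f (sysB (n := n) (S := S) (β := β) (k * R₀) c ρ wt a h U i) (vecA (k * R₀) a) g)
        (vecA (k * R₀) a) labA z -
      FF R₀ k lam (wV f (sysB (n := n) (S := S) (β := β) (k * R₀) c ρ wt a h U i') (vecA (k * R₀) a) g)
        (vecA (k * R₀) a) labA z| ≤ 2 * gainCap S β := by
  have e := fun j : I => abs_le.1 (abs_logZ0_sysA (S := S) (β := β) (c := c) (r := ρ j) (a := a) (h := h) (u := U j)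
    hR hwt hh (hU j) (G := fun y x => hamS f g y x * Real.exp (dot (fvec R₀ k lam y x) z))
    fun _ _ => mul_pos (Real.exp_pos _) (Real.exp_pos _))
  simp only [FF, sys_weight, wF_sysA]
  have h1 := e i
  have h2 := e i'
  rw [abs_le]
  constructor <;> linarith

omit [NeZero N] in
/-- without patterns the value is the field alone, up to the perturbation -/
lemma sys_zero (hS : Sm f f1 f2 f3 B D) (hB : ∀ x, f x ≤ B) (hR : 1 ≤ k * R₀) (hwt : ∀ s, 0 < wt s)
    (ha : ∀ s, dot (a s) (a s) = 1) (hh : ∀ j, |h j| ≤ 1) (hU : ∀ i j, |U i j| ≤ 1) :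
    ∫ ω, sysF S β n R₀ k f c ρ wt a h U 0 lam ω ∂muS I N n (k * R₀) 0 ≤
      (∫ z, logZ0 (k * R₀) (lin (k * R₀))
        (fun x : List (Fin (n + 1)) => ∑ s, wt s * Real.exp (dot (fvec R₀ k lam (a s) x) z))
        ∂gauss (Fin N × Ix (k * R₀) n)) + gainCap S β := by
  obtain ⟨Cb, hb⟩ := sys_based (n := n) (S := S) (β := β) (R := k * R₀) (c := c) (ρ := ρ) hwt ha hh hU
  unfold sysF
  rw [hb.mean_zero hS hB hR]
  refine (avg_le_avg fun i => ?_).trans_eq (avg_const _)
  set L := fun z : Fin N × Ix (k * R₀) n → ℝ => logZ0 (k * R₀) (lin (k * R₀))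
    (fun x : List (Fin (n + 1)) => ∑ s, wt s * Real.exp (dot (fvec R₀ k lam (a s) x) z))
  set F := fun z => FF R₀ k lam (sysB (n := n) (S := S) (β := β) (k * R₀) c ρ wt a h U i) (vecA (k * R₀) a) labA z
  have hpt : ∀ z, |F z - L z| ≤ gainCap S β := fun z => by
    have e := abs_logZ0_sysA (S := S) (β := β) (c := c) (r := ρ i) (a := a) (h := h) (u := U i)
      hR hwt hh (hU i) (G := fun y (x : List (Fin (n + 1))) => 1 * Real.exp (dot (fvec R₀ k lam y x) z))
      fun _ _ => mul_pos one_pos (Real.exp_pos _)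
    simp only [F, L, FF, sysB, wF_sysA]
    simpa only [one_mul] using e
  have hc : Continuous L := Par.continuous_logZ0 (fun x => continuous_finsetSum _ fun s _ =>
    continuous_const.mul (Real.continuous_exp.comp (Par.continuous_dot_left _)))
    (fun z x => sum_pos (fun s _ => mul_pos (hwt s) (Real.exp_pos _)) univ_nonempty) _
  have iF : Integrable F (gauss (Fin N × Ix (k * R₀) n)) :=
    ((integrable_const Cb).add (Par.integrable_l1.const_mul (√(N : ℝ) * ∑ j, |lam j|))).mono'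
      (continuous_FF (hb.pos i)).aestronglyMeasurable
      (Eventually.of_forall fun z => abs_FF_le (hb.pos i) hb.unit hR (hb.bd i) z)
  have iL : Integrable L (gauss (Fin N × Ix (k * R₀) n)) :=
    (iF.abs.add (integrable_const (gainCap S β))).mono' hc.aestronglyMeasurable (Eventually.of_forall fun z => by
      have h1 := abs_le.1 (hpt z)
      rw [Real.norm_eq_abs, Pi.add_apply, abs_le]
      constructor <;> linarith [le_abs_self (F z), neg_abs_le (F z)])
  refine (integral_mono iF (iL.add (integrable_const (gainCap S β))) fun z => ?_).trans_eq ?_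
  · simp only [Pi.add_apply]; linarith [(abs_le.1 (hpt z)).2]
  · rw [integral_add' iL (integrable_const _)]; simp

omit [NeZero N] in
/-- the value is at least that of the atoms with the patterns, up to the perturbation -/
lemma sys_low (hS : Sm f f1 f2 f3 B D) (hB : ∀ x, f x ≤ B) (hR : 1 ≤ k * R₀) (hwt : ∀ s, 0 < wt s)
    (hsum : ∑ s, wt s = 1) (ha : ∀ s, dot (a s) (a s) = 1) (hh : ∀ j, |h j| ≤ 1) (hU : ∀ i j, |U i j| ≤ 1) :
    (∫ g, Real.log (∑ s, wt s * Real.exp (∑ i, f (dot (a s) (g i)))) ∂pats N M) - gainCap S β ≤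
        ∫ ω, sysF S β n R₀ k f c ρ wt a h U M lam ω ∂muS I N n (k * R₀) M ∧
      -((M : ℝ) * B) ≤ ∫ g, Real.log (∑ s, wt s * Real.exp (∑ i, f (dot (a s) (g i)))) ∂pats N M := by
  have hb : ∀ x, |f x| ≤ B := fun x => abs_le.2 ⟨hS.lb x, hB x⟩
  have hf : Continuous f := continuous_iff_continuousAt.2 fun x => (hS.d0 x).continuousAt
  set G := fun g : Fin M → Fin N → ℝ => Real.log (∑ s, wt s * Real.exp (∑ i, f (dot (a s) (g i))))
  have hp : ∀ g : Fin M → Fin N → ℝ, 0 < ∑ s, wt s * Real.exp (∑ i, f (dot (a s) (g i))) := fun g =>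
    sum_pos (fun s _ => mul_pos (hwt s) (Real.exp_pos _)) univ_nonempty
  have hG : ∀ g, |G g| ≤ (M : ℝ) * B := fun g => by
    refine abs_le.2 ⟨(Real.le_log_iff_exp_le (hp g)).2 ?_, (Real.log_le_iff_le_exp (hp g)).2 ?_⟩
    · refine le_trans (le_of_eq ?_) (sum_le_sum fun s _ => mul_le_mul_of_nonneg_left
        (Real.exp_le_exp.2 (abs_le.1 (abs_sum_f_le hb (a s) g)).1) (hwt s).le)
      rw [← sum_mul, hsum, one_mul]
    · refine (sum_le_sum fun s _ => mul_le_mul_of_nonneg_left
        (Real.exp_le_exp.2 (abs_le.1 (abs_sum_f_le hb (a s) g)).2) (hwt s).le).trans_eq ?_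
      rw [← sum_mul, hsum, one_mul]
  have iG : Integrable G (pats N M) := Integrable.of_bound
    ((continuous_finsetSum _ fun s _ => continuous_const.mul (Real.continuous_exp.comp
      (continuous_finsetSum _ fun i _ => hf.comp (by unfold dot; fun_prop)))).log fun g =>
        (hp g).ne').aestronglyMeasurable ((M : ℝ) * B)
    (Eventually.of_forall fun g => (Real.norm_eq_abs _).trans_le (hG g))
  refine ⟨?_, ?_⟩
  swap
  · refine le_trans (le_of_eq (by simp)) (integral_mono (integrable_const (-((M : ℝ) * B))) iG fun g =>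
      (abs_le.1 (hG g)).1)
  obtain ⟨Cb, hB'⟩ := sys_based (n := n) (S := S) (β := β) (R := k * R₀) (c := c) (ρ := ρ) hwt ha hh hU
  have hw := hB'.fam (M := M) hS hB
  unfold sysF
  rw [(mean_fin (I := I) (F := Fj R₀ k (fun i g => wV f (sysB (n := n) (S := S) (β := β) (k * R₀) c ρ wt a h U i)
      (vecA (k * R₀) a) g) (vecA (k * R₀) a) labA lam) fun i => hw.int_F hR i).2]
  refine (avg_const _).symm.trans_le (avg_le_avg fun i => ?_)
  have iy := hw.int_F (k := k) (lam := lam) (lab := labA) hR i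
  simp only [Fj]
  rw [integral_prod _ iy]
  refine le_trans (le_of_eq ?_) (integral_mono (iG.sub (integrable_const (gainCap S β))) iy.integral_prod_left
    fun g => le_trans ?_ (field_ge (hw.pos i g) hB'.unit hR (hw.bd i g)))
  · rw [integral_sub' iG (integrable_const _)]; simp
  have e := (abs_le.1 (abs_logZ0_sysA (n := n) (S := S) (β := β) (c := c) (r := ρ i) (a := a) (h := h) (u := U i)
    hR hwt hh (hU i) (G := hamS f g) fun _ _ => Real.exp_pos _)).1
  have e2 := logZ0_constW (Ω := Fin (n + 1)) hR (hp g)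
  simp only [sys_weight, Pi.sub_apply, G]
  simp only [hamS] at e
  rw [e2] at e
  linarith

end Vale.Agent.P157.Sph
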