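import Vale.Agent.P157.Sph.EnvFieldSys
import Vale.Agent.P157.Full.FieldTail

/-! Gaussian integration by parts in the field, at a fixed weight: the field energy of a block is the complement
of the tail of the overlaps up to collisions, and against that tail only the deviation of the overlaps is left. -/

open MeasureTheory ProbabilityTheory Finset Filter
open Vale.Agent.P150 (gauss dot l1 l1_nonneg)
open Vale.Agent.P168.MP (lin ET Ok ok_lin Valid Supp att)
open Vale.Agent.P157.Par (Ix cv adev devOf)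
open Vale.Agent.P157.Full (tailAvg)

namespace Vale.Agent.P157.Sph

variable {Ω : Type} [Fintype Ω] [Nonempty Ω] {N n R₀ k : ℕ} {lam : Fin R₀ → ℝ} {w₀ : List Ω → ℝ}
  {v : List Ω → Fin N → ℝ} {lab : Ω → Fin (n + 1)}

/-- the derivative of a coordinate energy -/
noncomputable def DFx (R₀ k : ℕ) (lam : Fin R₀ → ℝ) (w₀ : List Ω → ℝ) (v : List Ω → Fin N → ℝ)
    (lab : Ω → Fin (n + 1)) (Z : Fin N × Ix (k * R₀) n → ℝ) (j : Fin R₀) (x : Fin N × Ix (k * R₀) n) : ℝ :=
  ((att (k * R₀) (lin (k * R₀)) [(0, 0)]).map fun c => c.2 *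
    ET (k * R₀) (lin (k * R₀)) (wF R₀ k lam w₀ v lab Z) [c.1, (0, 0)] fun ps =>
      bvec (k * R₀) k j (v (ps.getD 0 [])) ((ps.getD 0 []).map lab) x *
        fvec R₀ k lam (v (ps.getD 1 [])) ((ps.getD 1 []).map lab) x).sum

/-- the self term of a block -/
noncomputable def QF (R₀ k : ℕ) (lam : Fin R₀ → ℝ) (w₀ : List Ω → ℝ) (v : List Ω → Fin N → ℝ)
    (lab : Ω → Fin (n + 1)) (Z : Fin N × Ix (k * R₀) n → ℝ) (j : Fin R₀) : ℝ :=
  N - (∑ l ∈ range (k * R₀), ET (k * R₀) (lin (k * R₀)) (wF R₀ k lam w₀ v lab Z) [(0, l), (0, 0)]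
    fun ps => dot (bvec (k * R₀) k j (v (ps.getD 0 [])) ((ps.getD 0 []).map lab))
      (bvec (k * R₀) k j (v (ps.getD 1 [])) ((ps.getD 1 []).map lab))) / (k * R₀ : ℕ)

/-- the derivative of the mean overlap at level `l` -/
noncomputable def DrF (R₀ k : ℕ) (lam : Fin R₀ → ℝ) (w₀ : List Ω → ℝ) (v : List Ω → Fin N → ℝ)
    (lab : Ω → Fin (n + 1)) (Z : Fin N × Ix (k * R₀) n → ℝ) (l : ℕ) (x : Fin N × Ix (k * R₀) n) : ℝ :=
  ((att (k * R₀) (lin (k * R₀)) [(0, l), (0, 0)]).map fun c => c.2 *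
    ET (k * R₀) (lin (k * R₀)) (wF R₀ k lam w₀ v lab Z) [c.1, (0, l), (0, 0)] fun ps =>
      (cv v (ps.dropLast.getD 0 []) (ps.dropLast.getD 1 []) - rF R₀ k lam w₀ v lab Z l) *
        fvec R₀ k lam (v (ps.getLastD [])) ((ps.getLastD []).map lab) x).sum

/-- the derivative of the tail -/
noncomputable def DTF (R₀ k : ℕ) (lam : Fin R₀ → ℝ) (w₀ : List Ω → ℝ) (v : List Ω → Fin N → ℝ)
    (lab : Ω → Fin (n + 1)) (Z : Fin N × Ix (k * R₀) n → ℝ) (J : ℕ) (x : Fin N × Ix (k * R₀) n) : ℝ :=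
  (∑ l ∈ Ico J (k * R₀), DrF R₀ k lam w₀ v lab Z l x) / (k * R₀ : ℕ)

variable (hw : ∀ p, 0 < w₀ p) (hv : ∀ p, dot (v p) (v p) = 1)

omit [Fintype Ω] [Nonempty Ω] in
lemma hasDerivAt_wF (Z : Fin N × Ix (k * R₀) n → ℝ) (x : Fin N × Ix (k * R₀) n) (t : ℝ) (p : List Ω) :
    HasDerivAt (fun s => wF R₀ k lam w₀ v lab (Function.update Z x s) p)
      (wF R₀ k lam w₀ v lab (Function.update Z x t) p * fvec R₀ k lam (v p) (p.map lab) x) t := by
  simp only [wF]
  have hd : HasDerivAt (fun s => dot (fvec R₀ k lam (v p) (p.map lab)) (Function.update Z x s))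
      (fvec R₀ k lam (v p) (p.map lab) x) t := by
    unfold dot
    refine (HasDerivAt.fun_sum fun i _ => HasDerivAt.const_mul (fvec R₀ k lam (v p) (p.map lab) i)
      ((hasDerivAt_pi.1 (hasDerivAt_update Z x t)) i)).congr_deriv ?_
    simp [Pi.single_apply]
  exact (hd.exp.const_mul _).congr_deriv (by ring)

include hw

lemma hasDerivAt_FxF (hR : 1 ≤ k * R₀) (Z : Fin N × Ix (k * R₀) n → ℝ) (j : Fin R₀)
    (x : Fin N × Ix (k * R₀) n) (t : ℝ) :
    HasDerivAt (fun s => FxF R₀ k lam w₀ v lab (Function.update Z x s) j x)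
      (DFx R₀ k lam w₀ v lab (Function.update Z x t) j x) t := by
  have hT : Valid (k * R₀) [(0, 0)] := ⟨rfl, rfl⟩
  refine (Vale.Agent.P168.MP.hasDerivAt_ET_const
    (w := fun s => wF R₀ k lam w₀ v lab (Function.update Z x s))
    (g := fun p : List Ω => fvec R₀ k lam (v p) (p.map lab) x)
    (ok_lin hR (wF_pos hw _)) (fun p => hasDerivAt_wF Z x t p) hT
    fun ps => bvec (k * R₀) k j (v (ps.getD 0 [])) ((ps.getD 0 []).map lab) x).congr_deriv ?_
  refine congrArg List.sum (List.map_congr_left fun c hc => congrArg (c.2 * ·) ?_)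
  refine Vale.Agent.P168.MP.ET_congr (Vale.Agent.P168.MP.att_valid hT hc) fun ps hs => ?_
  obtain ⟨P, Q, rfl⟩ : ∃ P Q, ps = [P, Q] := List.length_eq_two.1 hs.1
  rfl

include hv

lemma abs_DFx_le (Z : Fin N × Ix (k * R₀) n → ℝ) (j : Fin R₀) (x : Fin N × Ix (k * R₀) n) :
    |DFx R₀ k lam w₀ v lab Z j x| ≤ 3 * (N * ∑ i, |lam i|) := by
  have h3 := Par.att_abs_sum_le (R := k * R₀) [(0, 0)]
  simp only [List.length_singleton, Nat.cast_one, mul_one] at h3
  refine (Par.abs_list_sum _ _).trans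
    ((Par.list_sum_le (g := fun c => |c.2| * (N * ∑ i, |lam i|)) fun _ _ => ?_).trans ?_)
  · rw [abs_mul]
    refine mul_le_mul_of_nonneg_left (Vale.Agent.P168.MP.ET_bound (wF_pos hw Z) fun ps => ?_) (abs_nonneg _)
    rw [abs_mul]
    refine (mul_le_mul (abs_bvec_le _ _ _ (hv _) _ x) (abs_fvec_le lam (hv _) _ x) (abs_nonneg _)
      (Real.sqrt_nonneg _)).trans_eq ?_
    rw [← mul_assoc, Real.mul_self_sqrt (Nat.cast_nonneg N)]
  · rw [List.sum_map_mul_right]
    exact mul_le_mul_of_nonneg_right h3 (mul_nonneg (Nat.cast_nonneg _) (sum_nonneg fun i _ => abs_nonneg _))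

omit hw hv [Nonempty Ω] in
lemma HF_eq_sum (Z : Fin N × Ix (k * R₀) n → ℝ) (j : Fin R₀) :
    HF R₀ k lam w₀ v lab Z j = ∑ x, Z x * FxF R₀ k lam w₀ v lab Z j x := by
  simp only [HF, FxF, dot, ← Vale.Agent.P168.MP.ET_const_mul, ← Vale.Agent.P168.MP.ET_sum]
  congr 1; funext ps
  exact sum_congr rfl fun x _ => mul_comm _ _

lemma abs_QF_le (Z : Fin N × Ix (k * R₀) n → ℝ) (j : Fin R₀) : |QF R₀ k lam w₀ v lab Z j| ≤ 2 * N := by
  refine (abs_sub _ _).trans ?_
  rw [Nat.abs_cast, abs_div, Nat.abs_cast, two_mul]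
  refine add_le_add le_rfl (div_le_of_le_mul₀ (Nat.cast_nonneg _) (Nat.cast_nonneg _)
    ((abs_sum_le_sum_abs _ _).trans ((sum_le_card_nsmul _ _ (N : ℝ) fun l _ =>
      Vale.Agent.P168.MP.ET_bound (wF_pos hw Z) fun _ => abs_dot_bvec_le (jk_le j) (hv _) (hv _) _ _).trans
      (le_of_eq ?_))))
  rw [card_range, nsmul_eq_mul, mul_comm]

/-- the derivatives of the coordinate energies sum to the self term -/
lemma sum_DFx (hR : 1 ≤ k * R₀) (hk : 1 ≤ k) (Z : Fin N × Ix (k * R₀) n → ℝ) (j : Fin R₀) :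
    ∑ x, DFx R₀ k lam w₀ v lab Z j x = lam j * QF R₀ k lam w₀ v lab Z j := by
  set P : ℕ × ℕ → ℝ := fun c => ET (k * R₀) (lin (k * R₀)) (wF R₀ k lam w₀ v lab Z) [c, (0, 0)]
    fun ps => dot (bvec (k * R₀) k j (v (ps.getD 0 [])) ((ps.getD 0 []).map lab))
      (bvec (k * R₀) k j (v (ps.getD 1 [])) ((ps.getD 1 []).map lab)) with hP
  have hok := ok_lin hR (wF_pos hw (lam := lam) (v := v) (lab := lab) Z)
  have e1 : ∑ x, DFx R₀ k lam w₀ v lab Z j x =
      lam j * ((att (k * R₀) (lin (k * R₀)) [(0, 0)]).map fun c => c.2 * P c.1).sum := by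
    simp only [DFx, ← Vale.Agent.P168.MP.list_sum_map_finset_sum, ← List.sum_map_mul_left]
    refine congrArg List.sum (List.map_congr_left fun c _ => ?_)
    rw [← mul_sum, ← Vale.Agent.P168.MP.ET_sum, mul_left_comm]
    simp only [hP, ← Vale.Agent.P168.MP.ET_const_mul]
    congr 1; funext ps
    rw [← bvec_fvec hk]; rfl
  have htop : P (0, k * R₀) = N := by
    have hT : Valid (k * R₀) [(0, k * R₀), (0, 0)] := ⟨Nat.zero_lt_one, le_rfl, rfl, rfl⟩
    refine (Vale.Agent.P168.MP.ET_congr hT (G := fun _ => (N : ℝ)) fun ps hs => ?_).trans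
      (Vale.Agent.P168.MP.ET_const (wF_pos hw Z) _ _)
    have h01 := hs.2.2 0 1 (by simp) (by simp)
    simp only [show Vale.Agent.P168.MP.sp (k * R₀) [(0, k * R₀), (0, 0)] 0 1 = k * R₀ by
      simp [Vale.Agent.P168.MP.sp],
      List.take_of_length_le (hs.2.1 0 (by simp)).le, List.take_of_length_le (hs.2.1 1 (by simp)).le] at h01
    rw [← h01, dot_bvec (jk_le j) (jk_le j), hv, if_pos ⟨(List.length_map _).trans (hs.2.1 0 (by simp)), (List.length_map _).trans (hs.2.1 0 (by simp)), rfl, rfl⟩,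
      mul_one, mul_one]
  rw [e1, Par.att_single_sum hR hok.top hok.last P, htop, QF, sum_div]
  congr 1
  rw [add_comm, sub_eq_add_neg, ← sum_neg_distrib]
  refine congrArg _ (sum_congr rfl fun l hl => ?_)
  have e : Par.cf (lin (k * R₀)) l = -(1 / ((k * R₀ : ℕ) : ℝ)) := Par.coef_lt (mem_range.1 hl)
  rw [e]; ring

/-- integration by parts against a bounded test functional -/
theorem ibp_test (hR : 1 ≤ k * R₀) (hk : 1 ≤ k) (j : Fin R₀) {φ : (Fin N × Ix (k * R₀) n → ℝ) → ℝ}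
    {φ' : Fin N × Ix (k * R₀) n → (Fin N × Ix (k * R₀) n → ℝ) → ℝ} (hφ : Continuous φ)
    (hφ' : ∀ x, Continuous (φ' x)) {C C' : ℝ} (hb : ∀ Z, |φ Z| ≤ C) (hb' : ∀ x Z, |φ' x Z| ≤ C')
    (hd : ∀ x Z t, HasDerivAt (fun s => φ (Function.update Z x s)) (φ' x (Function.update Z x t)) t) :
    ∫ Z, HF R₀ k lam w₀ v lab Z j * φ Z ∂gauss (Fin N × Ix (k * R₀) n) =
      ∫ Z, (lam j * QF R₀ k lam w₀ v lab Z j * φ Z +
        ∑ x, FxF R₀ k lam w₀ v lab Z j x * φ' x Z) ∂gauss (Fin N × Ix (k * R₀) n) := by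
  set s := √(N : ℝ)
  set L := 3 * ((N : ℝ) * ∑ i, |lam i|)
  have hc1 : ∀ x, Continuous fun Z => FxF R₀ k lam w₀ v lab Z j x * φ Z := fun x =>
    (continuous_ET_F hw _ _).mul hφ
  have hcD : ∀ x, Continuous fun Z => DFx R₀ k lam w₀ v lab Z j x := fun x =>
    continuous_list_sum _ fun _ _ => continuous_const.mul (continuous_ET_F hw _ _)
  have hc2 : ∀ x, Continuous fun Z => DFx R₀ k lam w₀ v lab Z j x * φ Z +
      FxF R₀ k lam w₀ v lab Z j x * φ' x Z := fun x => ((hcD x).mul hφ).add ((continuous_ET_F hw _ _).mul (hφ' x))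
  set B := s * |C| + L * |C| + s * |C'|
  have hL : 0 ≤ L := mul_nonneg (by norm_num) (mul_nonneg (Nat.cast_nonneg _) (sum_nonneg fun i _ => abs_nonneg _))
  have hφb : ∀ Z, |φ Z| ≤ |C| := fun Z => (hb Z).trans (le_abs_self C)
  have b1 : ∀ x Z, |FxF R₀ k lam w₀ v lab Z j x * φ Z| ≤ B := fun x Z => by
    rw [abs_mul]
    refine (mul_le_mul (abs_FxF_le hw hv Z j x) (hφb Z) (abs_nonneg _) (Real.sqrt_nonneg _)).trans ?_
    exact (le_add_of_nonneg_right (mul_nonneg hL (abs_nonneg _))).trans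
      (le_add_of_nonneg_right (mul_nonneg (Real.sqrt_nonneg _) (abs_nonneg _)))
  have b2 : ∀ x Z, |DFx R₀ k lam w₀ v lab Z j x * φ Z + FxF R₀ k lam w₀ v lab Z j x * φ' x Z| ≤ B := fun x Z => by
    refine (abs_add_le _ _).trans ?_
    rw [abs_mul, abs_mul]
    refine add_le_add ((mul_le_mul (abs_DFx_le hw hv Z j x) (hφb Z) (abs_nonneg _) hL).trans
      (le_add_of_nonneg_left (mul_nonneg (Real.sqrt_nonneg _) (abs_nonneg _)))) ?_
    exact mul_le_mul (abs_FxF_le hw hv Z j x) ((hb' x Z).trans (le_abs_self C')) (abs_nonneg _) (Real.sqrt_nonneg _)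
  have hi : ∀ x, ∫ Z, Z x * (FxF R₀ k lam w₀ v lab Z j x * φ Z) ∂gauss (Fin N × Ix (k * R₀) n) =
      ∫ Z, (DFx R₀ k lam w₀ v lab Z j x * φ Z + FxF R₀ k lam w₀ v lab Z j x * φ' x Z)
        ∂gauss (Fin N × Ix (k * R₀) n) := fun x =>
    Vale.Agent.P150.gauss_ibp (C := B) (M := 0) x le_rfl (hc1 x) (hc2 x)
      (fun Z => by simpa using b1 x Z) (fun Z => by simpa using b2 x Z)
      fun Z t => (hasDerivAt_FxF hw hR Z j x t).mul (hd x Z t)
  have hint : ∀ x, Integrable (fun Z => Z x * (FxF R₀ k lam w₀ v lab Z j x * φ Z))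
      (gauss (Fin N × Ix (k * R₀) n)) := fun x =>
    Vale.Agent.P150.integrable_of_bound (C := B) (M := 1) ((continuous_apply x).mul (hc1 x)) fun Z => by
      rw [one_mul, abs_mul, mul_comm B]
      exact mul_le_mul ((Vale.Agent.P150.abs_le_l1 Z x).trans (by linarith [Real.add_one_le_exp (l1 Z)]))
        (b1 x Z) (abs_nonneg _) (Real.exp_pos _).le
  have hint2 : ∀ x, Integrable (fun Z => DFx R₀ k lam w₀ v lab Z j x * φ Z +
      FxF R₀ k lam w₀ v lab Z j x * φ' x Z) (gauss (Fin N × Ix (k * R₀) n)) := fun x =>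
    Integrable.of_bound (hc2 x).aestronglyMeasurable _ (Eventually.of_forall fun Z => b2 x Z)
  simp only [HF_eq_sum, sum_mul, mul_assoc]
  rw [integral_finsetSum _ fun x _ => hint x]
  simp only [hi]
  rw [← integral_finsetSum _ fun x _ => hint2 x]
  refine integral_congr_ae (Eventually.of_forall fun Z => ?_)
  simp only [sum_add_distrib, ← sum_mul, sum_DFx hw hv hR hk, mul_assoc]

/-- the self term is the complement of the tail of the overlaps, up to collisions -/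
lemma QF_near (Z : Fin N × Ix (k * R₀) n → ℝ) (j : Fin R₀) :
    |QF R₀ k lam w₀ v lab Z j - N * (1 - tailAvg (k * R₀) (j * k) (rF R₀ k lam w₀ v lab Z))| ≤
      N * CF R₀ k lam w₀ v lab Z := by
  set P : ℕ → ℝ := fun l => ET (k * R₀) (lin (k * R₀)) (wF R₀ k lam w₀ v lab Z) [(0, l), (0, 0)]
    fun ps => dot (bvec (k * R₀) k j (v (ps.getD 0 [])) ((ps.getD 0 []).map lab))
      (bvec (k * R₀) k j (v (ps.getD 1 [])) ((ps.getD 1 []).map lab)) with hP
  set r := rF R₀ k lam w₀ v lab Z with hr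
  have hIco : ∑ l ∈ Ico ((j : ℕ) * k) (k * R₀), r l = ∑ l ∈ range (k * R₀), if (j : ℕ) * k ≤ l then r l else 0 := by
    rw [← sum_filter]
    exact sum_congr (by ext; simp [and_comm]) fun _ _ => rfl
  have e : QF R₀ k lam w₀ v lab Z j - N * (1 - tailAvg (k * R₀) (j * k) r) =
      -((∑ l ∈ range (k * R₀), (P l - if (j : ℕ) * k ≤ l then (N : ℝ) * r l else 0)) / ((k * R₀ : ℕ) : ℝ)) := by
    simp only [sum_sub_distrib, ← mul_ite_zero, ← mul_sum, ← hIco, QF, tailAvg, hP]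
    ring
  rw [e, abs_neg, abs_div, Nat.abs_cast, CF, ← mul_div_assoc, mul_sum]
  refine div_le_div_of_nonneg_right ((abs_sum_le_sum_abs _ _).trans (sum_le_sum fun l hl => ?_)) (Nat.cast_nonneg _)
  have hlR := mem_range.1 hl
  have hT : Valid (k * R₀) [(0, l), (0, 0)] := ⟨Nat.zero_lt_one, hlR.le, rfl, rfl⟩
  have hite : (if (j : ℕ) * k ≤ l then (N : ℝ) * r l else 0) =
      ET (k * R₀) (lin (k * R₀)) (wF R₀ k lam w₀ v lab Z) [(0, l), (0, 0)] fun ps =>
        (if (j : ℕ) * k ≤ l then (N : ℝ) else 0) * cv v (ps.getD 0 []) (ps.getD 1 []) := by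
    rw [Vale.Agent.P168.MP.ET_const_mul, ite_mul, zero_mul]; rfl
  rw [hite, hP, ← Vale.Agent.P168.MP.ET_sub, ← Vale.Agent.P168.MP.ET_const_mul]
  refine (Vale.Agent.P168.MP.ET_abs_le (wF_pos hw Z) _ _).trans
    (Vale.Agent.P168.MP.ET_mono_on (wF_pos hw Z) hT fun ps hs => ?_)
  have e1 := hs.2.2 0 1 (by simp) (by simp)
  simp only [show Vale.Agent.P168.MP.sp (k * R₀) [(0, l), (0, 0)] 0 1 = l by
    simp [Vale.Agent.P168.MP.sp, hlR.le]] at e1
  have l0 := hs.2.1 0 (show 0 < ([(0, l), (0, 0)] : List (ℕ × ℕ)).length by simp)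
  have l1 := hs.2.1 1 (show 1 < ([(0, l), (0, 0)] : List (ℕ × ℕ)).length by simp)
  exact dot_bvec_split (jk_le j) (hv _) (hv _) ((List.length_map _).trans l0) ((List.length_map _).trans l1) hlR
    (by rw [← List.map_take, ← List.map_take, e1])

omit hv in
lemma hasDerivAt_rF (hR : 1 ≤ k * R₀) (Z : Fin N × Ix (k * R₀) n → ℝ) {l : ℕ} (hl : l ≤ k * R₀)
    (x : Fin N × Ix (k * R₀) n) (t : ℝ) :
    HasDerivAt (fun s => rF R₀ k lam w₀ v lab (Function.update Z x s) l)
      (DrF R₀ k lam w₀ v lab (Function.update Z x t) l x) t := by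
  have hT : Valid (k * R₀) [(0, l), (0, 0)] := ⟨Nat.zero_lt_one, hl, rfl, rfl⟩
  set r := rF R₀ k lam w₀ v lab (Function.update Z x t) l
  have h1 := Vale.Agent.P168.MP.hasDerivAt_ET_const
    (w := fun s => wF R₀ k lam w₀ v lab (Function.update Z x s))
    (g := fun p : List Ω => fvec R₀ k lam (v p) (p.map lab) x)
    (ok_lin hR (wF_pos hw _)) (fun p => hasDerivAt_wF Z x t p) hT
    fun ps => cv v (ps.getD 0 []) (ps.getD 1 []) - r
  have e : (fun s => ET (k * R₀) (lin (k * R₀)) (wF R₀ k lam w₀ v lab (Function.update Z x s))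
      [(0, l), (0, 0)] fun ps => cv v (ps.getD 0 []) (ps.getD 1 []) - r) =
      fun s => rF R₀ k lam w₀ v lab (Function.update Z x s) l - r := funext fun s => by
    rw [Vale.Agent.P168.MP.ET_sub, Vale.Agent.P168.MP.ET_const (wF_pos hw _)]; rfl
  rw [e] at h1
  exact (h1.add_const r).congr_of_eventuallyEq (Eventually.of_forall fun s => (sub_add_cancel _ _).symm)

lemma abs_DrF_le (Z : Fin N × Ix (k * R₀) n → ℝ) (l : ℕ) (x : Fin N × Ix (k * R₀) n) :
    |DrF R₀ k lam w₀ v lab Z l x| ≤ 6 * (2 * (√(N : ℝ) * ∑ i, |lam i|)) := by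
  have hs : 0 ≤ 2 * (√(N : ℝ) * ∑ i, |lam i|) :=
    mul_nonneg zero_le_two (mul_nonneg (Real.sqrt_nonneg _) (sum_nonneg fun i _ => abs_nonneg _))
  refine (Par.abs_list_sum _ _).trans
    ((Par.list_sum_le (g := fun c => |c.2| * (2 * (√(N : ℝ) * ∑ i, |lam i|))) fun c _ => ?_).trans ?_)
  · rw [abs_mul]
    refine mul_le_mul_of_nonneg_left (Vale.Agent.P168.MP.ET_bound (wF_pos hw Z) fun ps => ?_) (abs_nonneg _)
    rw [abs_mul]
    refine mul_le_mul ((abs_sub _ _).trans ?_) (abs_fvec_le lam (hv _) _ x) (abs_nonneg _) zero_le_two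
    have h1 := abs_rF_le (lam := lam) (lab := lab) hw hv Z l
    have h2 : |cv v (ps.dropLast.getD 0 []) (ps.dropLast.getD 1 [])| ≤ 1 := dot_unit_le (hv _) (hv _)
    linarith
  · rw [List.sum_map_mul_right]
    exact mul_le_mul_of_nonneg_right (Full.Fld.att_two_sum_le l) hs

/-- the field energies against the derivative of an overlap: only the deviation remains -/
lemma sum_Fx_DrF (hk : 1 ≤ k) (Z : Fin N × Ix (k * R₀) n → ℝ) (j : Fin R₀) {l : ℕ} (_hl : l ≤ k * R₀) :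
    |∑ x, FxF R₀ k lam w₀ v lab Z j x * DrF R₀ k lam w₀ v lab Z l x| ≤
      6 * (|lam j| * N) * devOf (k * R₀) (wF R₀ k lam w₀ v lab Z) (cv v) (rF R₀ k lam w₀ v lab Z) l := by
  have hwF := wF_pos hw (lam := lam) (v := v) (lab := lab) Z
  set dev := devOf (k * R₀) (wF R₀ k lam w₀ v lab Z) (cv v) (rF R₀ k lam w₀ v lab Z) l with hdev
  have hF : ∀ p : List Ω,
      |∑ x, FxF R₀ k lam w₀ v lab Z j x * fvec R₀ k lam (v p) (p.map lab) x| ≤ |lam j| * N := fun p => by
    simp only [FxF, ← Vale.Agent.P168.MP.ET_mul_const, ← Vale.Agent.P168.MP.ET_sum]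
    refine Vale.Agent.P168.MP.ET_bound hwF fun ps => ?_
    rw [← dot, bvec_fvec hk, abs_mul]
    exact mul_le_mul_of_nonneg_left (abs_dot_bvec_le (jk_le j) (hv _) (hv _) _ _) (abs_nonneg _)
  simp only [DrF, ← List.sum_map_mul_left, ← Vale.Agent.P168.MP.list_sum_map_finset_sum]
  refine (Par.abs_list_sum _ _).trans
    ((Par.list_sum_le (g := fun c => |c.2| * (|lam j| * N * dev)) fun c hc => ?_).trans ?_)
  · simp only [mul_left_comm _ c.2, ← mul_sum, ← Vale.Agent.P168.MP.ET_const_mul, ← Vale.Agent.P168.MP.ET_sum]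
    refine (Vale.Agent.P168.MP.ET_abs_le hwF _ _).trans ?_
    have hb : ET (k * R₀) (lin (k * R₀)) (wF R₀ k lam w₀ v lab Z) [c.1, (0, l), (0, 0)]
        (fun ps => |cv v (ps.dropLast.getD 0 []) (ps.dropLast.getD 1 []) - rF R₀ k lam w₀ v lab Z l|) = dev := by
      rw [show c.1 = (c.1.1, c.1.2) from rfl, Vale.Agent.P168.MP.ET_cons, hdev, devOf]
      simp only [List.dropLast_concat, Vale.Agent.P168.MP.ext_const hwF]
    rw [← hb, ← mul_assoc |c.2|, ← Vale.Agent.P168.MP.ET_const_mul]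
    refine Vale.Agent.P168.MP.ET_mono hwF fun ps => ?_
    set o := cv v (ps.dropLast.getD 0 []) (ps.dropLast.getD 1 []) - rF R₀ k lam w₀ v lab Z l
    have e : ∑ x, FxF R₀ k lam w₀ v lab Z j x *
          (o * fvec R₀ k lam (v (ps.getLastD [])) ((ps.getLastD []).map lab) x) =
        o * ∑ x, FxF R₀ k lam w₀ v lab Z j x * fvec R₀ k lam (v (ps.getLastD [])) ((ps.getLastD []).map lab) x := by
      rw [mul_sum]; exact sum_congr rfl fun x _ => by ring
    rw [e, abs_mul, abs_mul, mul_assoc |c.2|, mul_comm |o|]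
    exact mul_le_mul_of_nonneg_left (mul_le_mul_of_nonneg_right (hF _) (abs_nonneg _)) (abs_nonneg _)
  · rw [List.sum_map_mul_right]
    refine (mul_le_mul_of_nonneg_right (Full.Fld.att_two_sum_le l) ?_).trans (le_of_eq (by ring))
    exact mul_nonneg (by positivity) (Par.devOf_nn hwF l)

lemma sum_Fx_DTF (hk : 1 ≤ k) (Z : Fin N × Ix (k * R₀) n → ℝ) (j : Fin R₀) (J : ℕ) :
    |∑ x, FxF R₀ k lam w₀ v lab Z j x * DTF R₀ k lam w₀ v lab Z J x| ≤
      6 * (|lam j| * N) * adF R₀ k lam w₀ v lab Z := by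
  simp only [DTF, mul_div_assoc', mul_sum, ← sum_div]
  rw [sum_comm, abs_div, Nat.abs_cast]
  have h0 := fun l => Par.devOf_nn (R := k * R₀) (C := cv v) (q := rF R₀ k lam w₀ v lab Z)
    (wF_pos hw (lam := lam) (v := v) (lab := lab) Z) l
  unfold adF adev
  rw [mul_add, mul_div_assoc', mul_sum]
  refine le_trans ?_ (le_add_of_nonneg_right (mul_nonneg (by positivity) (h0 _)))
  refine div_le_div_of_nonneg_right ((abs_sum_le_sum_abs _ _).trans ((sum_le_sum fun l hl =>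
    sum_Fx_DrF hw hv hk Z j (mem_Ico.1 hl).2.le).trans ?_)) (Nat.cast_nonneg _)
  exact sum_le_sum_of_subset_of_nonneg (fun l hl => mem_range.2 (mem_Ico.1 hl).2) fun l _ _ =>
    mul_nonneg (by positivity) (h0 l)

omit hv in
lemma continuous_DTF (J : ℕ) (x : Fin N × Ix (k * R₀) n) :
    Continuous fun Z => DTF R₀ k lam w₀ v lab Z J x :=
  (continuous_finsetSum _ fun l _ => continuous_list_sum _ fun _ _ => continuous_const.mul
    (Par.continuous_ET (fun p => continuous_wF p) (fun Z p => wF_pos hw Z p) _ _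
      fun _ => (continuous_const.sub (continuous_rF hw l)).mul continuous_const)).div_const _

lemma abs_DTF_le (Z : Fin N × Ix (k * R₀) n → ℝ) (J : ℕ) (x : Fin N × Ix (k * R₀) n) :
    |DTF R₀ k lam w₀ v lab Z J x| ≤ 6 * (2 * (√(N : ℝ) * ∑ i, |lam i|)) := by
  rw [DTF, abs_div, Nat.abs_cast]
  refine div_le_of_le_mul₀ (Nat.cast_nonneg _) (by positivity) ((abs_sum_le_sum_abs _ _).trans
    ((sum_le_card_nsmul _ _ _ fun l _ => abs_DrF_le hw hv Z l x).trans ?_))
  rw [nsmul_eq_mul, Nat.card_Ico, mul_comm (6 * _)]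
  exact mul_le_mul_of_nonneg_right (Nat.cast_le.2 (Nat.sub_le _ _)) (by positivity)

/-- **integration by parts at a fixed weight** -/
theorem ibp_fixed (hR : 1 ≤ k * R₀) (hk : 1 ≤ k) (j : Fin R₀) :
    |(∫ Z, HF R₀ k lam w₀ v lab Z j ∂gauss (Fin N × Ix (k * R₀) n)) -
        lam j * N * ∫ Z, (1 - tailAvg (k * R₀) (j * k) (rF R₀ k lam w₀ v lab Z)) ∂gauss (Fin N × Ix (k * R₀) n)| ≤
      |lam j| * N * ∫ Z, CF R₀ k lam w₀ v lab Z ∂gauss (Fin N × Ix (k * R₀) n) ∧
    |(∫ Z, HF R₀ k lam w₀ v lab Z j * tailAvg (k * R₀) (j * k) (rF R₀ k lam w₀ v lab Z)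
          ∂gauss (Fin N × Ix (k * R₀) n)) -
        lam j * N * ∫ Z, (1 - tailAvg (k * R₀) (j * k) (rF R₀ k lam w₀ v lab Z)) *
          tailAvg (k * R₀) (j * k) (rF R₀ k lam w₀ v lab Z) ∂gauss (Fin N × Ix (k * R₀) n)| ≤
      |lam j| * N * ((∫ Z, CF R₀ k lam w₀ v lab Z ∂gauss (Fin N × Ix (k * R₀) n)) +
        6 * ∫ Z, adF R₀ k lam w₀ v lab Z ∂gauss (Fin N × Ix (k * R₀) n)) := by
  set J := (j : ℕ) * k
  set T := fun Z => tailAvg (k * R₀) J (rF R₀ k lam w₀ v lab Z)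
  set μ := gauss (Fin N × Ix (k * R₀) n)
  have hTc : Continuous T := (continuous_finsetSum _ fun l _ => continuous_rF hw l).div_const _
  have hTb : ∀ Z, |T Z| ≤ 1 := fun Z => Full.Fld.abs_tailAvg_le _ _ fun l => abs_rF_le hw hv Z l
  have hQc : Continuous fun Z => QF R₀ k lam w₀ v lab Z j :=
    continuous_const.sub ((continuous_finsetSum _ fun _ _ => continuous_ET_F hw _ _).div_const _)
  have bI : ∀ {F : (Fin N × Ix (k * R₀) n → ℝ) → ℝ} {C : ℝ}, Continuous F → (∀ Z, |F Z| ≤ C) → Integrable F μ :=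
    fun hc hb => Integrable.of_bound hc.aestronglyMeasurable _ (Eventually.of_forall hb)
  have iC : Integrable (fun Z => CF R₀ k lam w₀ v lab Z) μ := bI (continuous_CF hw) fun Z => by
    rw [abs_of_nonneg (CF_bounds hw Z).1]; exact (CF_bounds hw Z).2
  have iA : Integrable (fun Z => adF R₀ k lam w₀ v lab Z) μ := bI (continuous_adF hw) fun Z => by
    rw [abs_of_nonneg (adF_bounds hw hv Z).1]; exact (adF_bounds hw hv Z).2
  refine ⟨?_, ?_⟩
  · have h1 := ibp_test (lam := lam) (lab := lab) hw hv hR hk j (φ := fun _ => (1 : ℝ)) (φ' := fun _ _ => (0 : ℝ)) continuous_const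
      (fun _ => continuous_const) (C := 1) (C' := 0) (fun _ => by simp) (fun _ _ => by simp)
      fun x Z t => hasDerivAt_const t (1 : ℝ)
    simp only [mul_one, mul_zero, sum_const_zero, add_zero] at h1
    have iQ : Integrable (fun Z => lam j * QF R₀ k lam w₀ v lab Z j) μ :=
      (bI hQc fun Z => abs_QF_le hw hv Z j).const_mul _
    have iT : Integrable (fun Z => lam j * N * (1 - T Z)) μ :=
      (bI (F := fun Z => 1 - T Z) (continuous_const.sub hTc) (C := 2) fun Z => (abs_sub _ _).trans (by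
        rw [abs_one]; linarith [hTb Z])).const_mul _
    rw [h1, ← integral_const_mul, ← integral_sub iQ iT, ← integral_const_mul]
    refine abs_integral_le_integral_abs.trans (integral_mono (iQ.sub iT).abs (iC.const_mul _) fun Z => ?_)
    show |lam j * QF R₀ k lam w₀ v lab Z j - lam j * N * (1 - T Z)| ≤ _
    rw [mul_assoc, ← mul_sub, abs_mul, mul_assoc]
    exact mul_le_mul_of_nonneg_left (QF_near hw hv Z j) (abs_nonneg _)
  · have h1 := ibp_test (lam := lam) (lab := lab) hw hv hR hk j (φ := T) (φ' := fun x Z => DTF R₀ k lam w₀ v lab Z J x) hTc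
      (fun x => continuous_DTF hw J x) hTb (fun x Z => abs_DTF_le hw hv Z J x) fun x Z t =>
        (HasDerivAt.fun_sum fun _ hl => hasDerivAt_rF hw hR Z (mem_Ico.1 hl).2.le x t).div_const _
    have iQ : Integrable (fun Z => lam j * QF R₀ k lam w₀ v lab Z j * T Z +
        ∑ x, FxF R₀ k lam w₀ v lab Z j x * DTF R₀ k lam w₀ v lab Z J x) μ :=
      bI ((((continuous_const.mul hQc).mul hTc)).add (continuous_finsetSum _ fun x _ =>
        (continuous_ET_F hw _ _).mul (continuous_DTF hw J x)))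
        (C := |lam j| * (2 * N) + 6 * (|lam j| * N) * 4) fun Z => by
          refine (abs_add_le _ _).trans (add_le_add ?_ ((sum_Fx_DTF hw hv hk Z j J).trans
            (mul_le_mul_of_nonneg_left (adF_bounds hw hv Z).2 (by positivity))))
          rw [abs_mul, abs_mul]
          exact (mul_le_of_le_one_right (mul_nonneg (abs_nonneg _) (abs_nonneg _)) (hTb Z)).trans
            (mul_le_mul_of_nonneg_left (abs_QF_le hw hv Z j) (abs_nonneg _))
    have iT : Integrable (fun Z => lam j * N * ((1 - T Z) * T Z)) μ :=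
      (bI (F := fun Z => (1 - T Z) * T Z) ((continuous_const.sub hTc).mul hTc) (C := 2) fun Z => by
        rw [abs_mul]
        refine (mul_le_of_le_one_right (abs_nonneg _) (hTb Z)).trans ((abs_sub _ _).trans ?_)
        rw [abs_one]; linarith [hTb Z]).const_mul _
    rw [h1, ← integral_const_mul, ← integral_sub iQ iT, ← integral_const_mul 6, ← integral_add iC (iA.const_mul 6),
      ← integral_const_mul]
    refine abs_integral_le_integral_abs.trans
      (integral_mono (iQ.sub iT).abs ((iC.add (iA.const_mul 6)).const_mul _) fun Z => ?_)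
    show |lam j * QF R₀ k lam w₀ v lab Z j * T Z +
        (∑ x, FxF R₀ k lam w₀ v lab Z j x * DTF R₀ k lam w₀ v lab Z J x) - lam j * N * ((1 - T Z) * T Z)| ≤
      |lam j| * N * (CF R₀ k lam w₀ v lab Z + 6 * adF R₀ k lam w₀ v lab Z)
    rw [show lam j * QF R₀ k lam w₀ v lab Z j * T Z +
        (∑ x, FxF R₀ k lam w₀ v lab Z j x * DTF R₀ k lam w₀ v lab Z J x) - lam j * N * ((1 - T Z) * T Z) =
      lam j * (QF R₀ k lam w₀ v lab Z j - N * (1 - T Z)) * T Z +
        ∑ x, FxF R₀ k lam w₀ v lab Z j x * DTF R₀ k lam w₀ v lab Z J x by ring, mul_add]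
    refine (abs_add_le _ _).trans (add_le_add ?_ ((sum_Fx_DTF hw hv hk Z j J).trans_eq (by ring)))
    rw [abs_mul, abs_mul, mul_assoc |lam j| (N : ℝ)]
    exact (mul_le_of_le_one_right (mul_nonneg (abs_nonneg _) (abs_nonneg _)) (hTb Z)).trans
      (mul_le_mul_of_nonneg_left (QF_near hw hv Z j) (abs_nonneg _))

end Vale.Agent.P157.Sph
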