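import Vale.Agent.P157.Sph.EnvField
import Vale.Agent.P157.Full.FieldBase
import Vale.Agent.P157.Par.UpperSite

/-! The system of a weight with the field, at a fixed weight: the free energy, the field energy of a block,
their bounds, convexity and derivatives. -/

open MeasureTheory ProbabilityTheory Finset
open Vale.Agent.P150 (gauss dot l1 l1_nonneg abs_dot_le)
open Vale.Agent.P168.MP (lin ET logZ0 Ok ok_lin Valid att)
open Vale.Agent.P157.Par (Ix cv adev devOf)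

namespace Vale.Agent.P157.Sph

variable {Ω : Type} [Fintype Ω] [Nonempty Ω] {N n : ℕ}

/-- a weight with the field -/
noncomputable def wF (R₀ k : ℕ) (lam : Fin R₀ → ℝ) (w₀ : List Ω → ℝ) (v : List Ω → Fin N → ℝ)
    (lab : Ω → Fin (n + 1)) (Z : Fin N × Ix (k * R₀) n → ℝ) (p : List Ω) : ℝ :=
  w₀ p * Real.exp (dot (fvec R₀ k lam (v p) (p.map lab)) Z)

/-- its free energy -/
noncomputable def FF (R₀ k : ℕ) (lam : Fin R₀ → ℝ) (w₀ : List Ω → ℝ) (v : List Ω → Fin N → ℝ)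
    (lab : Ω → Fin (n + 1)) (Z : Fin N × Ix (k * R₀) n → ℝ) : ℝ :=
  logZ0 (k * R₀) (lin (k * R₀)) (wF R₀ k lam w₀ v lab Z)

/-- the field energy of block `j` -/
noncomputable def HF (R₀ k : ℕ) (lam : Fin R₀ → ℝ) (w₀ : List Ω → ℝ) (v : List Ω → Fin N → ℝ)
    (lab : Ω → Fin (n + 1)) (Z : Fin N × Ix (k * R₀) n → ℝ) (j : Fin R₀) : ℝ :=
  ET (k * R₀) (lin (k * R₀)) (wF R₀ k lam w₀ v lab Z) [(0, 0)]
    fun ps => dot (bvec (k * R₀) k j (v (ps.getD 0 [])) ((ps.getD 0 []).map lab)) Z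

/-- the mean overlaps -/
noncomputable def rF (R₀ k : ℕ) (lam : Fin R₀ → ℝ) (w₀ : List Ω → ℝ) (v : List Ω → Fin N → ℝ)
    (lab : Ω → Fin (n + 1)) (Z : Fin N × Ix (k * R₀) n → ℝ) : ℕ → ℝ :=
  qker (k * R₀) (wF R₀ k lam w₀ v lab Z) (cv v)

/-- their mean deviation -/
noncomputable def adF (R₀ k : ℕ) (lam : Fin R₀ → ℝ) (w₀ : List Ω → ℝ) (v : List Ω → Fin N → ℝ)
    (lab : Ω → Fin (n + 1)) (Z : Fin N × Ix (k * R₀) n → ℝ) : ℝ :=
  adev (k * R₀) (wF R₀ k lam w₀ v lab Z) (cv v) (rF R₀ k lam w₀ v lab Z)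

/-- collisions of the labels, averaged over the levels -/
noncomputable def CF (R₀ k : ℕ) (lam : Fin R₀ → ℝ) (w₀ : List Ω → ℝ) (v : List Ω → Fin N → ℝ)
    (lab : Ω → Fin (n + 1)) (Z : Fin N × Ix (k * R₀) n → ℝ) : ℝ :=
  (∑ l ∈ range (k * R₀), ET (k * R₀) (lin (k * R₀)) (wF R₀ k lam w₀ v lab Z) [(0, l), (0, 0)] fun ps =>
    if ((ps.getD 0 []).map lab).getD l 0 = ((ps.getD 1 []).map lab).getD l 0 then (1 : ℝ) else 0) / (k * R₀ : ℕ)

/-- the field energy of one coordinate -/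
noncomputable def FxF (R₀ k : ℕ) (lam : Fin R₀ → ℝ) (w₀ : List Ω → ℝ) (v : List Ω → Fin N → ℝ)
    (lab : Ω → Fin (n + 1)) (Z : Fin N × Ix (k * R₀) n → ℝ) (j : Fin R₀) (x : Fin N × Ix (k * R₀) n) : ℝ :=
  ET (k * R₀) (lin (k * R₀)) (wF R₀ k lam w₀ v lab Z) [(0, 0)]
    fun ps => bvec (k * R₀) k j (v (ps.getD 0 [])) ((ps.getD 0 []).map lab) x

variable {R₀ k : ℕ} {lam : Fin R₀ → ℝ} {w₀ : List Ω → ℝ} {v : List Ω → Fin N → ℝ} {lab : Ω → Fin (n + 1)}

section basic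
variable (hw : ∀ p, 0 < w₀ p) (hv : ∀ p, dot (v p) (v p) = 1)

omit [Fintype Ω] [Nonempty Ω] in
lemma continuous_wF (p : List Ω) : Continuous fun Z => wF R₀ k lam w₀ v lab Z p :=
  continuous_const.mul (Real.continuous_exp.comp (Par.continuous_dot_left _))

include hw

omit [Fintype Ω] [Nonempty Ω] in
lemma wF_pos (Z : Fin N × Ix (k * R₀) n → ℝ) (p : List Ω) : 0 < wF R₀ k lam w₀ v lab Z p :=
  mul_pos (hw p) (Real.exp_pos _)

lemma continuous_ET_F (T : List (ℕ × ℕ)) (F : List (List Ω) → ℝ) :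
    Continuous fun Z => ET (k * R₀) (lin (k * R₀)) (wF R₀ k lam w₀ v lab Z) T F :=
  Par.continuous_ET (F := fun _ => F) (fun p => continuous_wF p) (fun Z p => wF_pos hw Z p) _ T
    fun _ => continuous_const

lemma continuous_FF : Continuous (FF R₀ k lam w₀ v lab) :=
  Par.continuous_logZ0 (fun p => continuous_wF p) (fun Z p => wF_pos hw Z p) _

lemma continuous_HF (j : Fin R₀) : Continuous fun Z => HF R₀ k lam w₀ v lab Z j :=
  Par.continuous_ET (fun p => continuous_wF p) (fun Z p => wF_pos hw Z p) _ _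
    fun _ => Par.continuous_dot_left _

lemma continuous_rF (l : ℕ) : Continuous fun Z => rF R₀ k lam w₀ v lab Z l := continuous_ET_F hw _ _

lemma CF_bounds (Z : Fin N × Ix (k * R₀) n → ℝ) :
    0 ≤ CF R₀ k lam w₀ v lab Z ∧ CF R₀ k lam w₀ v lab Z ≤ 1 := by
  refine ⟨div_nonneg (sum_nonneg fun l _ => Vale.Agent.P168.MP.ET_nonneg (wF_pos hw Z) fun _ => by
    split_ifs <;> norm_num) (Nat.cast_nonneg _), div_le_of_le_mul₀ (Nat.cast_nonneg _) zero_le_one ?_⟩
  refine (sum_le_card_nsmul _ _ (1 : ℝ) fun l _ => (le_abs_self _).trans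
    (Vale.Agent.P168.MP.ET_bound (wF_pos hw Z) fun _ => by split_ifs <;> norm_num)).trans_eq ?_
  rw [card_range, nsmul_eq_mul, mul_one, one_mul]

lemma continuous_CF : Continuous (CF R₀ k lam w₀ v lab) :=
  (continuous_finsetSum _ fun _ _ => continuous_ET_F hw _ _).div_const _

lemma continuous_adF : Continuous (adF R₀ k lam w₀ v lab) := by
  have hd : ∀ l, Continuous fun Z => devOf (k * R₀) (wF R₀ k lam w₀ v lab Z) (cv v)
      (rF R₀ k lam w₀ v lab Z) l := fun l =>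
    Par.continuous_ET (fun p => continuous_wF p) (fun Z p => wF_pos hw Z p) _ _
      fun _ => (continuous_const.sub (continuous_rF hw l)).abs
  unfold adF adev
  exact ((continuous_finsetSum _ fun l _ => hd l).div_const _).add (hd _)

/-- convexity in each amplitude, and the derivative -/
theorem FF_convex (hR : 1 ≤ k * R₀) (Z : Fin N × Ix (k * R₀) n → ℝ) (j : Fin R₀) :
    ConvexOn ℝ Set.univ (fun t => FF R₀ k (Function.update lam j t) w₀ v lab Z) ∧
      HasDerivAt (fun t => FF R₀ k (Function.update lam j t) w₀ v lab Z)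
        (HF R₀ k lam w₀ v lab Z j) (lam j) := by
  set e : List Ω → ℝ := fun p => dot (bvec (k * R₀) k j (v p) (p.map lab)) Z
  have hw' : ∀ s t p, wF R₀ k (Function.update lam j t) w₀ v lab Z p =
      wF R₀ k (Function.update lam j s) w₀ v lab Z p * Real.exp ((t - s) * e p) := fun s t p => by
    simp only [wF, mul_assoc, ← Real.exp_add, dot_fvec]
    congr 2
    rw [← sub_eq_iff_eq_add', ← sum_sub_distrib, sum_eq_single j]
    · simp only [Function.update_self, e]; ring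
    · intro i _ hi; rw [Function.update_of_ne hi, Function.update_of_ne hi, sub_self]
    · simp
  refine ⟨Full.Fld.convexOn_of_tangent (H := fun s => HF R₀ k (Function.update lam j s) w₀ v lab Z j)
    fun s t => ?_, ?_⟩
  · have h1 := Full.Fld.logZ0_exp_tangent (ok_lin hR
      (wF_pos hw (lam := Function.update lam j s) (v := v) (lab := lab) Z)) fun p => (t - s) * e p
    rw [Vale.Agent.P168.MP.ET_const_mul, ← funext (hw' s t)] at h1
    exact h1
  · refine Vale.Agent.P168.MP.hasDerivAt_logZ0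
      (w := fun t => wF R₀ k (Function.update lam j t) w₀ v lab Z) (g := e)
      (ok_lin hR (wF_pos hw Z)) (fun p => ?_) |>.congr_deriv ?_
    · have e0 : (fun t => wF R₀ k (Function.update lam j t) w₀ v lab Z p) = fun t =>
          wF R₀ k (Function.update lam j (lam j)) w₀ v lab Z p * Real.exp ((t - lam j) * e p) :=
        funext fun t => hw' (lam j) t p
      rw [e0]
      exact ((((hasDerivAt_id (lam j)).sub_const (lam j)).mul_const (e p)).exp.const_mul _).congr_deriv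
        (by simp)
    · rw [Function.update_eq_self]; rfl

include hv

lemma abs_FxF_le (Z : Fin N × Ix (k * R₀) n → ℝ) (j : Fin R₀) (x : Fin N × Ix (k * R₀) n) :
    |FxF R₀ k lam w₀ v lab Z j x| ≤ √(N : ℝ) :=
  Vale.Agent.P168.MP.ET_bound (wF_pos hw Z) fun _ => abs_bvec_le _ _ _ (hv _) _ x

lemma abs_HF_le (Z : Fin N × Ix (k * R₀) n → ℝ) (j : Fin R₀) :
    |HF R₀ k lam w₀ v lab Z j| ≤ √(N : ℝ) * l1 Z :=
  Vale.Agent.P168.MP.ET_bound (wF_pos hw Z) fun _ => abs_dot_le (abs_bvec_le _ _ _ (hv _) _) Z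

lemma abs_rF_le (Z : Fin N × Ix (k * R₀) n → ℝ) (l : ℕ) : |rF R₀ k lam w₀ v lab Z l| ≤ 1 :=
  Vale.Agent.P168.MP.ET_bound (wF_pos hw Z) fun _ => dot_unit_le (hv _) (hv _)

lemma adF_bounds (Z : Fin N × Ix (k * R₀) n → ℝ) :
    0 ≤ adF R₀ k lam w₀ v lab Z ∧ adF R₀ k lam w₀ v lab Z ≤ 4 := by
  have hd : ∀ l, l ≤ k * R₀ → devOf (k * R₀) (wF R₀ k lam w₀ v lab Z) (cv v) (rF R₀ k lam w₀ v lab Z) l ≤ 1 + 1 :=
    fun l hl => Par.devOf_le (wF_pos hw Z) hl (fun p p' => dot_unit_le (hv p) (hv p')) (abs_rF_le hw hv Z l)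
  refine ⟨Par.adev_nn (wF_pos hw Z), ?_⟩
  have h2 : (∑ l ∈ range (k * R₀), devOf (k * R₀) (wF R₀ k lam w₀ v lab Z) (cv v) (rF R₀ k lam w₀ v lab Z) l) /
      ((k * R₀ : ℕ) : ℝ) ≤ 2 := by
    refine div_le_of_le_mul₀ (Nat.cast_nonneg _) zero_le_two ((sum_le_card_nsmul _ _ (2 : ℝ) fun l hl =>
      (hd l (mem_range.1 hl).le).trans_eq one_add_one_eq_two).trans_eq ?_)
    rw [card_range, nsmul_eq_mul, mul_comm]
  unfold adF adev
  linarith [hd _ le_rfl]

/-- the free energy moves with the amplitudes at most by the size of the field -/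
lemma abs_FF_lam_le (hR : 1 ≤ k * R₀) (lam' : Fin R₀ → ℝ) (Z : Fin N × Ix (k * R₀) n → ℝ) :
    |FF R₀ k lam w₀ v lab Z - FF R₀ k lam' w₀ v lab Z| ≤ √(N : ℝ) * (∑ j, |lam j - lam' j|) * l1 Z := by
  refine Full.Fld.abs_logZ0_sub_le (ok_lin hR (wF_pos hw (lam := lam') Z)) (wF_pos hw Z) fun p _ => ?_
  rw [wF, wF, Real.log_mul (hw p).ne' (Real.exp_pos _).ne', Real.log_mul (hw p).ne' (Real.exp_pos _).ne',
    Real.log_exp, Real.log_exp, add_sub_add_left_eq_sub]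
  have e : dot (fvec R₀ k lam (v p) (p.map lab)) Z - dot (fvec R₀ k lam' (v p) (p.map lab)) Z =
      dot (fvec R₀ k (fun j => lam j - lam' j) (v p) (p.map lab)) Z := by
    simp only [dot_fvec, ← sum_sub_distrib, sub_mul]
  rw [e]
  exact abs_dot_le (abs_fvec_le _ (hv p) _) Z

lemma abs_FF_le (hR : 1 ≤ k * R₀) {C : ℝ} (hC : ∀ p, |Real.log (w₀ p)| ≤ C) (Z : Fin N × Ix (k * R₀) n → ℝ) :
    |FF R₀ k lam w₀ v lab Z| ≤ C + √(N : ℝ) * (∑ j, |lam j|) * l1 Z := by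
  refine Par.abs_logZ0_le (ok_lin hR (wF_pos hw Z)) fun p => ?_
  rw [wF, Real.log_mul (hw p).ne' (Real.exp_pos _).ne', Real.log_exp]
  exact (abs_add_le _ _).trans (add_le_add (hC p) (abs_dot_le (abs_fvec_le _ (hv p) _) Z))

end basic

end Vale.Agent.P157.Sph
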