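import Vale.Agent.P157.Sph.Defs
import Vale.Agent.P157.Full.Reps
import Vale.Agent.P157.Par.Lip

/-! A profile constant on blocks of levels: the entropy on the sphere does not change. At twice the root precision
of a profile the site functional is coercive in the top of the path. -/

open Real Finset

namespace Vale.Agent.P157.Sph

variable {R m : ℕ} {q h : ℕ → ℝ}

lemma div_succ_cases (_hm : 1 ≤ m) (j : ℕ) :
    (j + 1) / m = j / m ∨ ((j + 1) / m = j / m + 1 ∧ j + 1 = m * (j / m + 1)) := by
  rw [Nat.succ_div]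
  split_ifs with hd
  · refine Or.inr ⟨rfl, ?_⟩
    have e : (j + 1) / m = j / m + 1 := by rw [Nat.succ_div, if_pos hd]
    rw [← e, Nat.mul_div_cancel' hd]
  · exact Or.inl rfl

/-- the susceptibility of the repeated profile -/
lemma DD_rep (hR : 1 ≤ R) (hm : 1 ≤ m) (q : ℕ → ℝ) :
    ∀ j, j ≤ m * R → DD (m * R) (Full.rep m q) j = DD R q (j / m)
  | 0, _ => by
    have h0 : (m : ℝ) ≠ 0 := by exact_mod_cast (show m ≠ 0 by omega)
    simp only [DD, Full.rep, Nat.zero_div, Nat.cast_zero, zero_div, zero_mul, sub_zero, ← range_eq_Ico]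
    rw [Full.sum_rep hm q R, Nat.cast_mul, mul_div_mul_left _ _ h0]
  | j + 1, hj => by
    have ih := DD_rep hR hm q j (by omega)
    have e := DD_step (q := Full.rep m q) (show j < m * R by omega)
    rw [ih] at e
    simp only [Full.rep] at e
    rcases div_succ_cases hm j with h1 | ⟨h1, h2⟩
    · rw [h1] at e ⊢
      rw [sub_self, mul_zero] at e
      linarith
    · have hi : j / m < R := Nat.lt_of_mul_lt_mul_left (a := m) (by nlinarith [Nat.mul_div_le j m])
      have e' := DD_step (q := q) hi
      have hc : ((j : ℝ) + 1) / ((m * R : ℕ) : ℝ) = (((j / m : ℕ) : ℝ) + 1) / R := by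
        have : ((j : ℝ) + 1) = m * (((j / m : ℕ) : ℝ) + 1) := by exact_mod_cast h2
        rw [this, Nat.cast_mul, mul_div_mul_left]
        exact_mod_cast (show m ≠ 0 by omega)
      rw [h1] at e ⊢
      rw [hc] at e
      linarith

theorem adm_rep (hR : 1 ≤ R) (hm : 1 ≤ m) (hq : Adm R q) : Adm (m * R) (Full.rep m q) := by
  have hl : (m * R - 1) / m = R - 1 := by
    refine Nat.div_eq_of_lt_le ?_ ?_
    · rw [Nat.sub_mul, one_mul, mul_comm R m]; omega
    · rw [show R - 1 + 1 = R by omega, mul_comm R m]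
      have : 0 < m * R := Nat.mul_pos (by omega) (by omega)
      omega
  have ht : m * R / m = R := Nat.mul_div_cancel_left R (by omega)
  refine ⟨⟨?_, fun l hl' => ?_, ?_⟩, ?_, ?_⟩
  · simpa [Full.rep] using hq.prof.zero
  · simp only [Full.rep]
    rcases div_succ_cases hm l with h1 | ⟨h1, h2⟩
    · rw [h1]
    · rw [h1]; exact hq.prof.mono _ (Nat.lt_of_mul_lt_mul_left (a := m) (by nlinarith [Nat.mul_div_le l m]))
  · simpa only [Full.rep, ht] using hq.prof.top
  · simpa only [Full.rep, hl] using hq.lt_one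
  · simpa only [Full.rep, ht] using hq.top

theorem entS_rep (hR : 1 ≤ R) (hm : 1 ≤ m) (_hq : Adm R q) : entS (m * R) (Full.rep m q) = entS R q := by
  set F' : ℕ → ℝ := fun j => ((m * R : ℕ) / (j + 1 : ℝ)) *
    log (DD (m * R) (Full.rep m q) j / DD (m * R) (Full.rep m q) (j + 1))
  set F : ℕ → ℝ := fun i => ((R : ℕ) / (i + 1 : ℝ)) * log (DD R q i / DD R q (i + 1))
  have hmR : 0 < m * R := Nat.mul_pos (by omega) (by omega)
  have hzero : ∀ j, j + 1 < m * R → (j + 1) / m = j / m → F' j = 0 := fun j hj h1 => by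
    simp only [F', DD_rep hR hm q j (by omega), DD_rep hR hm q (j + 1) (by omega), h1]
    rcases eq_or_ne (DD R q (j / m)) 0 with h | h <;> simp [h]
  have hsum : ∀ i, i < R → ∑ j ∈ range (m * i), F' j = ∑ p ∈ range i, F p := by
    intro i
    induction i with
    | zero => simp
    | succ i ih =>
      intro hi
      have hle : m * (i + 1) + 1 ≤ m * R :=
        le_trans (by nlinarith) (Nat.mul_le_mul_left m (show i + 2 ≤ R by omega))
      rw [Nat.mul_succ, sum_range_add, ih (by omega), sum_range_succ]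
      congr 1
      rw [Nat.mul_succ] at hle
      rw [sum_eq_single (m - 1)]
      · simp only [F', F, DD_rep hR hm q (m * i + (m - 1)) (by omega),
          DD_rep hR hm q (m * i + (m - 1) + 1) (by omega)]
        rw [Nat.mul_add_div (by omega), Nat.div_eq_of_lt (show m - 1 < m by omega), add_zero,
          show m * i + (m - 1) + 1 = m * (i + 1) by rw [Nat.mul_succ]; omega,
          Nat.mul_div_cancel_left _ (show 0 < m by omega)]
        congr 1
        have : ((m * i + (m - 1) : ℕ) : ℝ) + 1 = m * ((i : ℝ) + 1) := by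
          exact_mod_cast (show m * i + (m - 1) + 1 = m * (i + 1) by rw [Nat.mul_succ]; omega)
        rw [this, Nat.cast_mul, mul_div_mul_left]
        exact_mod_cast (show m ≠ 0 by omega)
      · intro r hr hne
        have hr' := mem_range.1 hr
        refine hzero _ (by omega) ?_
        rw [Nat.mul_add_div (by omega), Nat.div_eq_of_lt hr', add_assoc, Nat.mul_add_div (by omega),
          Nat.div_eq_of_lt (show r + 1 < m by omega)]
      · simp; omega
  have htail : ∑ j ∈ range (m * R - 1), F' j = ∑ p ∈ range (R - 1), F p := by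
    have e : m * R = m * (R - 1) + m := by rw [← Nat.mul_succ, Nat.succ_eq_add_one, show R - 1 + 1 = R by omega]
    rw [show m * R - 1 = m * (R - 1) + (m - 1) by omega, sum_range_add, hsum _ (by omega), add_eq_left]
    refine sum_eq_zero fun r hr => ?_
    have hr' := mem_range.1 hr
    refine hzero _ (by omega) ?_
    rw [Nat.mul_add_div (by omega), Nat.div_eq_of_lt (show r < m by omega), add_assoc, Nat.mul_add_div (by omega),
      Nat.div_eq_of_lt (show r + 1 < m by omega)]
  have hl : 1 - Full.rep m q (m * R - 1) = 1 - q (R - 1) := by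
    rw [← DD_top hmR, DD_rep hR hm q _ (by omega), ← DD_top hR]
    congr 1
    have e : m * R = m * (R - 1) + m := by rw [← Nat.mul_succ, Nat.succ_eq_add_one, show R - 1 + 1 = R by omega]
    rw [show m * R - 1 = m * (R - 1) + (m - 1) by omega, Nat.mul_add_div (by omega),
      Nat.div_eq_of_lt (show m - 1 < m by omega), add_zero]
  simp only [entS]
  rw [htail, hl, DD_rep hR hm q 0 (by omega), Nat.zero_div]
  simp [Full.rep, F]

/-- the growth of the precision -/
lemma dd_ge (hh : ∀ l, l + 1 < R → h l ≤ h (l + 1)) (d0 : ℝ) :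
    ∀ j, j < R → d0 + (h j - h 0) / R ≤ dd R d0 h j
  | 0, _ => by simp [dd_zero]
  | j + 1, hj => by
    have hR0 : (0 : ℝ) < R := by exact_mod_cast (show 0 < R by omega)
    have h1 := dd_ge hh d0 j (by omega)
    have h2 : (h (j + 1) - h j) / R ≤ ((j + 1 : ℝ) / R) * (h (j + 1) - h j) := by
      rw [div_mul_eq_mul_div]
      exact div_le_div_of_nonneg_right
        (le_mul_of_one_le_left (sub_nonneg.2 (hh j hj)) (le_add_of_nonneg_left (Nat.cast_nonneg j))) hR0.le
    rw [dd_succ]
    simp only [sub_div] at *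
    linarith

/-- at twice the root precision the site functional is coercive -/
theorem psiG_coercive (hR : 1 ≤ R) (hq : Adm R q) : ∃ C c : ℝ, 0 < c ∧ ∀ (h : ℕ → ℝ) (V : ℝ), Par.Prof R h V →
    psiG R (2 / DD R q 0) h + Full.dotH R h q / 2 ≤ C - c * h (R - 1) := by
  have hm : ∀ l, l + 1 < R → q l ≤ q (l + 1) := fun l hl => hq.prof.mono l (by omega)
  have h1 := hq.lt_one
  have hD := (DD_pos hR hm h1 (show 0 < R by omega)).2
  set D0 := DD R q 0
  set δ := 1 - q (R - 1)
  have hδ : 0 < δ := by simp only [δ]; linarith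
  have hR0 : (0 : ℝ) < R := by exact_mod_cast (show 0 < R by omega)
  set E := (∑ j ∈ range (R - 1), (R / (j + 1 : ℝ)) * log (DD R q j / DD R q (j + 1))) + log (1 - q (R - 1))
  refine ⟨(2 / D0 * q 0 + E - R * (log 2 - 1) + R * log 2) / 2, min (D0 / 4) (δ / (4 * R ^ 2)),
    lt_min (by positivity) (by positivity), fun h V hh => ?_⟩
  have hh' : ∀ l, l + 1 < R → h l ≤ h (l + 1) := fun l hl => hh.mono l (by omega)
  have hd : 0 < 2 / D0 := by positivity
  have hid := psiG_identity hR hm h1 hd hh'
  rw [one_div_div] at hid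
  have hψ := fun j (hj : j < R) => slack_le hR hm h1 hd hh' hj
  have ht := telescope_le hψ (R - 1) (by omega)
  have e0 : slack R (2 / D0) q h 0 = log 2 - 1 := by
    rw [slack, dd_zero, div_mul_cancel₀ _ hD.ne']; ring
  rw [e0] at ht
  set x := dd R (2 / D0) h (R - 1) * δ
  have hx : δ * ((h (R - 1) - h 0) / R) ≤ x := by
    rw [mul_comm δ]
    exact mul_le_mul_of_nonneg_right (le_trans (by linarith) (dd_ge hh' _ _ (by omega))) hδ.le
  have htop : slack R (2 / D0) q h (R - 1) ≤ log 2 - x / 2 := by
    have hp : 0 < x := mul_pos (dd_pos hd hh' _ (by omega)) hδ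
    have := log_le_sub_one_of_pos (half_pos hp)
    rw [log_div hp.ne' two_ne_zero] at this
    rw [slack, DD_top hR]
    show log x - x + 1 ≤ _
    linarith
  set w : ℝ := R / (max (R - 1) 1 : ℕ) - 1
  have hw0 : 0 ≤ w := by
    rw [sub_nonneg, le_div_iff₀ (by positivity), one_mul]
    exact_mod_cast (show max (R - 1) 1 ≤ R by omega)
  have hwR : w ≤ R := (sub_le_self _ zero_le_one).trans (div_le_self hR0.le (by simp))
  have hmono : 0 ≤ h (R - 1) - h 0 := by
    have key : ∀ j, j < R → h 0 ≤ h j := fun j => by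
      induction j with
      | zero => exact fun _ => le_rfl
      | succ j ih => exact fun hj => (ih (by omega)).trans (hh' j hj)
    linarith [key (R - 1) (by omega)]
  have hgap : δ / (2 * R ^ 2) * (h (R - 1) - h 0) ≤ w * (x / 2) := by
    rcases Nat.lt_or_ge R 2 with hR2 | hR2
    · obtain rfl : R = 1 := by omega
      simp [w]
    · have hw : 1 / (R : ℝ) ≤ w := by
        have : (2 : ℝ) ≤ R := by exact_mod_cast hR2
        simp only [w, Nat.max_eq_left (show 1 ≤ R - 1 by omega), Nat.cast_sub hR, Nat.cast_one]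
        rw [le_sub_iff_add_le, div_add_one hR0.ne', div_le_div_iff₀ hR0 (by linarith)]
        nlinarith
      refine le_trans (le_of_eq ?_) (mul_le_mul hw (show δ * ((h (R - 1) - h 0) / R) / 2 ≤ x / 2 by linarith)
        (by positivity) hw0)
      field_simp
  have hwl : w * log 2 ≤ R * log 2 := mul_le_mul_of_nonneg_right hwR (log_nonneg one_le_two)
  have hwt := mul_le_mul_of_nonneg_left htop hw0
  have c1 : min (D0 / 4) (δ / (4 * R ^ 2)) * h 0 ≤ D0 / 4 * h 0 :=
    mul_le_mul_of_nonneg_right (min_le_left _ _) hh.zero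
  have c2 : min (D0 / 4) (δ / (4 * R ^ 2)) * (h (R - 1) - h 0) ≤ δ / (4 * R ^ 2) * (h (R - 1) - h 0) :=
    mul_le_mul_of_nonneg_right (min_le_right _ _) hmono
  have e1 : Full.dotH R h q / 2 = (∑ l ∈ range R, h l * q l) / (2 * R) := by
    rw [Full.dotH, div_div, mul_comm]
  rw [e1]
  simp only [w, sub_mul, one_mul, mul_sub] at hgap hwl hwt
  simp only [E]
  have e2 : δ / (4 * (R : ℝ) ^ 2) = δ / (2 * R ^ 2) / 2 := by ring
  rw [e2] at c1 c2 ⊢
  linarith

end Vale.Agent.P157.Sph
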