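import Vale.Agent.P157.Sph.EnvFamily
import Vale.Agent.P157.Sph.EnvAbsClimb
import Vale.Agent.P157.Sph.EnvEndZero
import Vale.Agent.P157.Sph.EnvEnds
import Vale.Agent.P157.Sph.EnvRep
import Vale.Agent.P157.Sph.LowerInt
import Vale.Agent.P157.Full.Envelope
import Vale.Agent.P157.Par.Incr

/-! The upper bound on the sphere: the pressure is asymptotically at most the value of every profile. -/

open MeasureTheory ProbabilityTheory Real Finset Filter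
open scoped Topology
open Vale.Agent.P150 (gauss dot)
open Vale.Agent.P168.MP (lin logZ0 avg BIdx allBatch gu gainCap)
open Vale.Agent.P157.Par (Sm Prof Ix pats)
open Vale.Agent.P157.Full (affX affX_eq lamPath rep)

namespace Vale.Agent.P157.Sph

variable {f f1 f2 f3 : ℝ → ℝ} {B D : ℝ}

lemma collS_mono (N R : ℕ) (V : ℝ) {C C' : ℝ} (h : C ≤ C') : collS N R V C ≤ collS N R V C' :=
  mul_le_mul_of_nonneg_right (exp_le_exp.2 (by linarith)) (zero_le_one.trans (le_max_left _ _))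

lemma collS_pos (N R : ℕ) (V C : ℝ) : 0 < collS N R V C :=
  mul_pos (exp_pos _) (lt_max_of_lt_left one_pos)

/-- enough labels make collisions negligible -/
lemma exists_labels {x e : ℝ} (hx : 0 ≤ x) (he : 0 < e) : ∃ n : ℕ, x / √((n + 1 : ℕ) : ℝ) ≤ e := by
  refine ⟨⌈(x / e) ^ 2⌉₊, ?_⟩
  have h1 : x / e ≤ √((⌈(x / e) ^ 2⌉₊ + 1 : ℕ) : ℝ) :=
    (le_sqrt (by positivity) (Nat.cast_nonneg _)).2 ((Nat.le_ceil _).trans (by push_cast; linarith))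
  rw [div_le_iff₀ he] at h1
  rw [div_le_iff₀ (sqrt_pos.2 (Nat.cast_pos.2 (Nat.succ_pos _)))]
  linarith

/-- the barrier and the squares at small amplitudes -/
lemma affX_const_ge {R₀ : ℕ} {q : ℕ → ℝ} {η : ℝ} (hq : Prof R₀ q 1) (hη : 0 ≤ η) (l1 : ℝ) :
    -(R₀ * (l1 ^ 2 + η * |log l1|)) ≤ affX q η (fun _ : Fin R₀ => l1) := by
  have ha : ∀ i : Fin R₀, -(l1 ^ 2 + η * |log l1|) ≤ Full.aCoef R₀ q i * l1 ^ 2 + η * log l1 := fun i => by
    have : -1 ≤ Full.aCoef R₀ q i := by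
      have := (Full.tail_mem (J := (i:ℕ)) hq).1
      unfold Full.aCoef; linarith
    have := mul_le_mul_of_nonneg_right this (sq_nonneg l1)
    have := mul_le_mul_of_nonneg_left (neg_abs_le (log l1)) hη
    linarith
  refine le_trans ?_ (card_nsmul_le_sum _ _ _ fun i _ => ha i)
  rw [nsmul_eq_mul, card_univ, Fintype.card_fin, mul_neg]

section fixed
variable {A : Type} [Fintype A] [Nonempty A] {I : Type} [Fintype I] [Nonempty I] [MeasurableSpace I]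
  [MeasurableSingletonClass I] {N K S n M R₀ k : ℕ} [NeZero N] [NeZero K] {ι : Type} [Fintype ι] [DecidableEq ι]
  {β : ι → Vale.Agent.P168.MP.Batch} {c : ℝ} {ρ : I → Fin K → Fin N → Bool} {U : I → ι → ℝ} {wt : A → ℝ}
  {a : A → Fin N → ℝ} {h : ι → ℝ} {q : ℕ → ℝ} {η ε : ℝ}

/-- the start: the objective without patterns -/
lemma zero_GA (hS : Sm f f1 f2 f3 B D) (hB : ∀ x, f x ≤ B) (hR : 1 ≤ k * R₀)
    (hwt : ∀ s, 0 < wt s) (ha : ∀ s, dot (a s) (a s) = 1) (hh : ∀ j, |h j| ≤ 1) (hU : ∀ i j, |U i j| ≤ 1)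
    {d0 : ℝ} {l : Fin R₀ → ℝ} (hε : 0 ≤ ε) (hgN : gainCap S β / N ≤ ε)
    (hm : ∫ Z, logZ0 (k * R₀) (lin (k * R₀))
          (fun x : List (Fin (n + 1)) => ∑ s, wt s * exp (dot (fvec R₀ k l (a s) x) Z))
          ∂gauss (Fin N × Ix (k * R₀) n) ≤
      (∫ Z, logZ0 (k * R₀) (lin (k * R₀))
          (fun x : List (Fin (n + 1)) => ∫ y, exp (dot (fvec R₀ k l y x) Z) ∂Lim.dirLaw (Fin N))
          ∂gauss (Fin N × Ix (k * R₀) n)) + ε)
    (hz : ∫ Z, logZ0 (k * R₀) (lin (k * R₀))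
          (fun x : List (Fin (n + 1)) => ∫ y, exp (dot (fvec R₀ k l y x) Z) ∂Lim.dirLaw (Fin N))
          ∂gauss (Fin N × Ix (k * R₀) n) ≤ N * (psiG R₀ d0 (lamPath l) + lamPath l R₀ / 2 + ε)) :
    GA (muS I N n (k * R₀) 0) (sysF S β n R₀ k f c ρ wt a h U 0) N q η l ≤
      psiG R₀ d0 (lamPath l) + Full.dotH R₀ (lamPath l) q / 2 + η * ∑ i, log (l i) + 3 * ε := by
  have hN : (0:ℝ) < N := Nat.cast_pos.2 (NeZero.pos N)
  have h1 := sys_zero (n := n) (S := S) (β := β) (c := c) (ρ := ρ) (h := h) (U := U) (lam := l) hS hB hR hwt ha hh hU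
  have h4 := div_le_div_of_nonneg_right (h1.trans (add_le_add (hm.trans (add_le_add hz le_rfl)) le_rfl)) hN.le
  rw [add_div, add_div, mul_div_cancel_left₀ _ hN.ne'] at h4
  have h5 : ε / N ≤ ε := div_le_self hε (by exact_mod_cast NeZero.pos N)
  rw [GA, affX_eq]
  linarith

omit [NeZero N] in
/-- small amplitudes see the patterns alone -/
lemma low_GA (hS : Sm f f1 f2 f3 B D) (hB : ∀ x, f x ≤ B) (hR : 1 ≤ k * R₀) (hwt : ∀ s, 0 < wt s)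
    (hsum : ∑ s, wt s = 1) (ha : ∀ s, dot (a s) (a s) = 1) (hh : ∀ j, |h j| ≤ 1) (hU : ∀ i j, |U i j| ≤ 1)
    (hq : Prof R₀ q 1) (hη : 0 ≤ η) (hgN : gainCap S β / N ≤ ε) (l1 : ℝ)
    (hl1 : R₀ * (l1 ^ 2 + η * |log l1|) ≤ 2 * ε) :
    (∫ g, log (∑ s, wt s * exp (∑ i, f (dot (a s) (g i)))) ∂pats N M) / N - 3 * ε ≤
        GA (muS I N n (k * R₀) M) (sysF S β n R₀ k f c ρ wt a h U M) N q η (fun _ => l1) ∧
      -((M : ℝ) * B) ≤ ∫ g, log (∑ s, wt s * exp (∑ i, f (dot (a s) (g i)))) ∂pats N M := by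
  obtain ⟨h1, h2⟩ := sys_low (n := n) (S := S) (β := β) (c := c) (ρ := ρ) (h := h) (U := U)
    (lam := fun _ : Fin R₀ => l1) (M := M) hS hB hR hwt hsum ha hh hU
  refine ⟨?_, h2⟩
  have h3 := div_le_div_of_nonneg_right h1 (Nat.cast_nonneg (α := ℝ) N)
  rw [sub_div] at h3
  have := affX_const_ge hq hη l1
  rw [GA]
  linarith

/-- the bound at a fixed dimension -/
lemma upper_atS (hK : KerProf) (hS : Sm f f1 f2 f3 B D) (hB : ∀ x, f x ≤ B) (hR₀ : 1 ≤ R₀) (hk : 1 ≤ k)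
    (hwt : ∀ s, 0 < wt s) (hsum : ∑ s, wt s = 1) (ha : ∀ s, dot (a s) (a s) = 1) (hh : ∀ j, |h j| ≤ 1)
    (hU : ∀ i j, |U i j| ≤ 1) (hq : Adm R₀ q) {KL Cp Cs : ℝ} (hKL : 0 ≤ KL) (hL : Par.PhiLip f KL)
    (hCp : 0 ≤ Cp) (hCs : 0 ≤ Cs)
    (hP : ∀ (M : ℕ) {w₀ : List (MkA A (Fin (n + 1)) K S β) → ℝ}, (∀ p, 0 < w₀ p) →
      |(∫ g, logZ0 (k * R₀) (lin (k * R₀)) (wV f w₀ (vecA (k * R₀) a) g) ∂pats N (M + 1)) -
          (∫ g, logZ0 (k * R₀) (lin (k * R₀)) (wV f w₀ (vecA (k * R₀) a) g) ∂pats N M) -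
          ∫ g, Par.Phi (fun y => exp (f y)) (k * R₀) (lin (k * R₀)) (qV f (k * R₀) w₀ (vecA (k * R₀) a) g)
            ∂pats N M| ≤
        Cp * ∫ g, adV f (k * R₀) w₀ (vecA (k * R₀) a) g ∂pats N M)
    (hQ : ∀ (M : ℕ) {w₀ : List (MkA A (Fin (n + 1)) K S β) → ℝ}, (∀ p, 0 < w₀ p) →
      |(∫ g, Par.Phi (fun y => exp (f y)) (k * R₀) (lin (k * R₀)) (qV f (k * R₀) w₀ (vecA (k * R₀) a) g)
            ∂pats N (M + 1)) -
          ∫ g, Par.Phi (fun y => exp (f y)) (k * R₀) (lin (k * R₀)) (qV f (k * R₀) w₀ (vecA (k * R₀) a) g)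
            ∂pats N M| ≤
        Cs * KL * ∫ g, adV f (k * R₀) w₀ (vecA (k * R₀) a) g ∂pats N M)
    {t : ℝ} (had : ∀ (M : ℕ) (l : Fin R₀ → ℝ) (g : Fin M → Fin N → ℝ) z, avg (fun i => adF R₀ k l
      (wV f (sysB (n := n) (S := S) (β := β) (k * R₀) c ρ wt a h U i) (vecA (k * R₀) a) g)
      (vecA (k * R₀) a) labA z) ≤ t)
    {α l1 lo hi δ σ C c₁ eC P ε : ℝ} {M₀ : ℕ} (hM₀ : (M₀ : ℝ) ≤ α * N) (hη : 0 < η) (hη1 : η ≤ 1) (hc : 0 < c₁)
    (hco : ∀ (h : ℕ → ℝ) (V : ℝ), Prof R₀ h V →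
      psiG R₀ (2 / DD R₀ q 0) h + Full.dotH R₀ h q / 2 ≤ C - c₁ * h (R₀ - 1))
    (hε : 0 ≤ ε) (hε1 : ε ≤ 1) (hlo : 0 < lo) (hlo1 : lo ≤ l1) (hl1 : l1 ≤ hi)
    (hlog : η * (R₀ * log hi) ≤ ε) (he1 : R₀ * (l1 ^ 2 + η * |log l1|) ≤ 2 * ε) (hgN : gainCap S β / N ≤ ε)
    (hδ : 0 < δ) (hhi : √(2 * ((C + 3 + α * B) + (α * B + 3) + R₀ / (2 * c₁)) / c₁) + δ ≤ hi)
    (hx1 : lo + δ ≤ exp (-((C + 3 + α * B) + (α * B + 3) + R₀ / (2 * c₁)) / η))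
    (hx2 : 2 * δ ≤ exp (-((C + 3 + α * B) + (α * B + 3) + R₀ / (2 * c₁)) / η))
    (heC0 : 0 ≤ eC) (hσ : 0 < σ)
    (hCF : collS N (k * R₀) (R₀ * hi ^ 2) (α * N * B + gainCap S β) / √((n + 1 : ℕ) : ℝ) ≤ eC)
    (hnum : hi * eC + hi * (eC + 6 * t) + ((1 / 2 + 2 * η / lo ^ 2) * δ +
      3 * ((3 * (√(N : ℝ) * √(α * D ^ 2 + R₀ * hi ^ 2)) + 2 * gainCap S β) / N) / δ) ≤ lo * (σ * σ))
    (hP' : Par.Phi (fun y => exp (f y)) R₀ (lin R₀) q + D ^ 2 * (hi * eC / lo) +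
      KL * (2 / R₀ + R₀ * (σ * σ / σ + σ)) + (Cp + Cs * KL) * t ≤ P)
    (hm : ∀ l : Fin R₀ → ℝ, (∀ i, 0 ≤ l i ∧ l i ≤ hi) →
      ∫ Z, logZ0 (k * R₀) (lin (k * R₀))
          (fun x : List (Fin (n + 1)) => ∑ s, wt s * exp (dot (fvec R₀ k l (a s) x) Z))
          ∂gauss (Fin N × Ix (k * R₀) n) ≤
        (∫ Z, logZ0 (k * R₀) (lin (k * R₀))
          (fun x : List (Fin (n + 1)) => ∫ y, exp (dot (fvec R₀ k l y x) Z) ∂Lim.dirLaw (Fin N))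
          ∂gauss (Fin N × Ix (k * R₀) n)) + ε)
    (hz : ∀ d0 : ℝ, d0 = 2 / DD R₀ q 0 ∨ d0 = 1 / DD R₀ q 0 → ∀ l : Fin R₀ → ℝ, (∀ i, 0 ≤ l i ∧ l i ≤ hi) →
      ∫ Z, logZ0 (k * R₀) (lin (k * R₀))
          (fun x : List (Fin (n + 1)) => ∫ y, exp (dot (fvec R₀ k l y x) Z) ∂Lim.dirLaw (Fin N))
          ∂gauss (Fin N × Ix (k * R₀) n) ≤ N * (psiG R₀ d0 (lamPath l) + lamPath l R₀ / 2 + ε)) :
    (∫ g, log (∑ s, wt s * exp (∑ i, f (dot (a s) (g i)))) ∂pats N M₀) / N ≤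
      entS R₀ q + M₀ * (P / N) + 7 * ε := by
  have hb : ∀ x, |f x| ≤ B := fun x => abs_le.2 ⟨hS.lb x, hB x⟩
  have hB0 : 0 ≤ B := (abs_nonneg _).trans (hb 0)
  have hR : 1 ≤ k * R₀ := Nat.one_le_iff_ne_zero.2 (Nat.mul_ne_zero (by omega) (by omega))
  have hN : (0:ℝ) < N := Nat.cast_pos.2 (NeZero.pos N)
  obtain ⟨Cb, hbase⟩ := sys_based (n := n) (S := S) (β := β) (R := k * R₀) (c := c) (ρ := ρ) (U := U) (h := h)
    hwt ha hh hU
  set v : List (MkA A (Fin (n + 1)) K S β) → Fin N → ℝ := vecA (k * R₀) a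
  set b := sysB (n := n) (S := S) (β := β) (k * R₀) c ρ wt a h U
  have hzero := fun d0 hd (l : Fin R₀ → ℝ) (hl : l ∈ box lo hi) =>
    have hl' : ∀ i, 0 ≤ l i ∧ l i ≤ hi := fun i => ⟨hlo.le.trans (hl i).1, (hl i).2⟩
    zero_GA (I := I) (n := n) (c := c) (ρ := ρ) (U := U) (q := q) (η := η) (d0 := d0) (l := l)
      hS hB hR hwt ha hh hU hε hgN (hm l hl') (hz d0 hd l hl')
  have hlow := fun M => low_GA (I := I) (n := n) (M := M) (c := c) (ρ := ρ) (U := U)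
    hS hB hR hwt hsum ha hh hU hq.prof hη.le hgN l1 he1
  have hstep := fun (M : ℕ) (l : Fin R₀ → ℝ) => hbase.step (M := M) (N := N) (n := n) (lab := labA) (lam := l)
    hK hS hB hR₀ hk hKL hL hCp hCs (hP M) (hQ M) (had M l)
  have main := climb_bound (μ := fun M => muS I N n (k * R₀) M)
    (F := fun M => sysF S β n R₀ k f c ρ wt a h U M)
    (H := fun M => Hj R₀ k (fun i (g : Fin M → Fin N → ℝ) => wV f (b i) v g) v labA)
    (r := fun M => rj R₀ k (fun i (g : Fin M → Fin N → ℝ) => wV f (b i) v g) v labA)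
    (θ := (3 * (√(N : ℝ) * √(α * D ^ 2 + R₀ * hi ^ 2)) + 2 * gainCap S β) / N) (e := hi * eC)
    (e' := hi * (eC + 6 * t)) (J := entS R₀ q + 4 * ε) (L := α * B + 3) (C := C + 3) (c := c₁) (η := η) (δ := δ)
    (σ := σ) (w := σ * σ) (s := (Cp + Cs * KL) * t) (P := P) (lo := lo) (hi := hi) (q := q) (l1 := l1) (α := α)
    (M₀ := M₀) hS hN hR₀ hk hq.prof hq.top hKL hL hM₀ hB0 hc hη hη1 hlo ⟨hlo1, hl1⟩ hδ hhi hx1 hx2
    (mul_nonneg ((hlo.le.trans hlo1).trans hl1) heC0) hσ hnum hP' ?_ ?_ ?_ ?_ ?_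
    (fun M _ l _ => (hstep M l).1) (fun M _ l _ => (hstep M l).2) M₀ le_rfl (fun _ => l1)
    (fun _ => ⟨hlo1, hl1⟩)
  · have h1 := (hlow M₀).1
    linarith
  · intro M hM
    have hMN : ((M + 1 : ℕ) : ℝ) ≤ α * N := le_trans (by exact_mod_cast hM) hM₀
    refine (hbase.fam (M := M + 1) hS hB).envIn hR₀ hk
      (fun l i g z => hK hR (wF_pos (fun p => mul_pos (hbase.pos i p) (exp_pos _)) z) hbase.unit) hlo.le
      (NeZero.pos N) hMN (fun l i i' g z => sys_close hR hwt hh hU g z i i') (fun l hl i g => ?_)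
      (fun l _ g z => had (M + 1) l g z) le_rfl le_rfl le_rfl
    simp only [b, v, sys_weight]
    refine (CF_sysA hR hk hwt ha hh (hU i) hb g (V := R₀ * hi ^ 2) ((sum_le_card_nsmul _ _ (hi ^ 2) fun j _ =>
      pow_le_pow_left₀ (hlo.le.trans (hl j).1) (hl j).2 2).trans_eq (by simp))).trans ?_
    refine (div_le_div_of_nonneg_right (collS_mono _ _ _ ?_) (sqrt_nonneg _)).trans hCF
    exact add_le_add (mul_le_mul_of_nonneg_right hMN hB0) le_rfl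
  · intro l hl
    have h1 := hzero _ (Or.inl rfl) l hl
    have h2 := hco _ _ (Full.prof_lamPath l)
    rw [Full.lamPath_top l (show R₀ ≤ R₀ - 1 + 1 by omega)] at h2
    linarith
  · intro l hl
    have hmono : ∀ l, l + 1 < R₀ → q l ≤ q (l + 1) := fun l hl => hq.prof.mono l (by omega)
    have h1 := hzero _ (Or.inr rfl) l hl
    have h2 := psiG_tangent (h := lamPath l) hR₀ hmono hq.lt_one fun i hi => (Full.prof_lamPath l).mono i (by omega)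
    have h3 : Full.dotH R₀ (lamPath l) q / 2 = (∑ i ∈ range R₀, lamPath l i * q i) / (2 * R₀) := by
      rw [Full.dotH, div_div, mul_comm (R₀ : ℝ) 2]
    have h4 : η * ∑ i : Fin R₀, log (l i) ≤ ε := by
      refine le_trans (mul_le_mul_of_nonneg_left ((sum_le_card_nsmul _ _ (log hi) fun i _ =>
        log_le_log (hlo.trans_le (hl i).1) (hl i).2).trans_eq ?_) hη.le) hlog
      rw [nsmul_eq_mul, card_univ, Fintype.card_fin]
    linarith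
  · intro M _ l _
    exact hbase.mean_up hS hB hR
  · intro M hM
    obtain ⟨h1, h2⟩ := hlow M
    have hMN : (M:ℝ) ≤ α * N := le_trans (by exact_mod_cast hM) hM₀
    have h3 : -(α * B) ≤ (∫ g, log (∑ s, wt s * exp (∑ i, f (dot (a s) (g i)))) ∂pats N M) / N := by
      rw [le_div_iff₀ hN]
      linarith [mul_le_mul_of_nonneg_right hMN hB0]
    linarith

end fixed

/-- the numbers of the climb -/
lemma numS {KL r σ lo hi eC t τ ε Kp D Φ X Y : ℝ} (hσ : 0 < σ) (hlo : 0 < lo) (hhi : 0 < hi) (hKp : 0 ≤ Kp)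
    (hε : 0 < ε) (hKLσ : KL * r * σ ≤ ε) (hτ : lo * (σ * σ) = 5 * τ) (h1 : hi * eC ≤ τ)
    (h2 : hi * eC ≤ lo * ε / (D ^ 2 + 1)) (ht : t ≤ τ / (6 * hi)) (htK : t ≤ ε / (Kp + 1)) (hX : X ≤ τ) (hY : Y ≤ τ) :
    hi * eC + hi * (eC + 6 * t) + (X + Y) ≤ lo * (σ * σ) ∧
      Φ + D ^ 2 * (hi * eC / lo) + KL * (2 / r + r * (σ * σ / σ + σ)) + Kp * t ≤ Φ + (KL * (2 / r) + 4 * ε) := by
  have e0 : 6 * hi * t ≤ τ := by rw [le_div_iff₀ (by positivity)] at ht; linarith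
  have e1 : Kp * t ≤ ε := by
    refine (mul_le_mul_of_nonneg_left htK hKp).trans ?_
    rw [mul_div_assoc', div_le_iff₀ (by positivity)]
    nlinarith
  have e2 : D ^ 2 * (hi * eC / lo) ≤ ε := by
    refine (mul_le_mul_of_nonneg_left (div_le_div_of_nonneg_right h2 hlo.le) (sq_nonneg D)).trans ?_
    rw [mul_div_assoc, mul_div_cancel_left₀ _ hlo.ne', mul_div_assoc', div_le_iff₀ (by positivity)]
    nlinarith [sq_nonneg D]
  have e3 : KL * (2 / r + r * (σ * σ / σ + σ)) = KL * (2 / r) + 2 * (KL * r * σ) := by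
    field_simp; ring
  constructor <;> linarith

/-- the end of the climb -/
lemma finalS {α N M P p J b ε : ℝ} (hN : 1 ≤ N) (hM : M ≤ α * N) (hM' : α * N ≤ M + 1) (hb : |P| / N ≤ ε)
    (hε : 0 ≤ ε) (hp : N * p ≤ b + ε) (hJ : b / N ≤ J + M * (P / N) + 7 * ε) :
    p ≤ J + α * P + 9 * ε := by
  have hN0 : 0 < N := one_pos.trans_le hN
  have h1 : p ≤ (b + ε) / N := by rw [le_div_iff₀ hN0]; linarith
  rw [add_div] at h1
  have h5 : ε / N ≤ ε := div_le_self hε hN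
  have h6 : M * (P / N) ≤ α * P + |P| / N := by
    rw [mul_div_assoc', div_le_iff₀ hN0, add_mul, div_mul_cancel₀ _ hN0.ne']
    rcases le_total 0 P with hp | hp
    · rw [abs_of_nonneg hp]; nlinarith
    · rw [abs_of_nonpos hp]; nlinarith
  linarith

/-- for a fixed profile: the pressure is at most its value up to the accuracy of the block comparison -/
theorem upper_fineS (hA : ReadSmall) (hK : KerProf) (hP : PattV f) (hQ : StepV f) (hS : Sm f f1 f2 f3 B D)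
    (hB : ∀ x, f x ≤ B) {α : ℝ} (hα : 0 < α) {KL : ℝ} (hKL : 0 ≤ KL) (hL : Par.PhiLip f KL)
    {R₀ : ℕ} {q : ℕ → ℝ} (hR₀ : 1 ≤ R₀) (hq : Adm R₀ q) {ε₁ : ℝ} (hε₁ : 0 < ε₁) (hε₁' : ε₁ ≤ 1) :
    ∀ᶠ N : ℕ in atTop, pressure (sphereUniform N) f ⌊α * N⌋₊ ≤
      valS α f R₀ q + α * (KL * (2 / R₀) + 4 * ε₁) + 9 * ε₁ := by
  obtain ⟨Cp, hCp, hP⟩ := hP
  obtain ⟨Cs, hCs, hQ⟩ := hQ
  have hR0 : (1:ℝ) ≤ R₀ := by exact_mod_cast hR₀
  have hDD : 0 < DD R₀ q 0 :=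
    (DD_pos hR₀ (fun l hl => hq.prof.mono l (by omega)) hq.lt_one (show 0 < R₀ by omega)).2
  obtain ⟨C, c, hc, hco⟩ := psiG_coercive hR₀ hq
  -- the box, the barrier and the accuracies
  obtain ⟨l1, hl1, hl1', hl1sq⟩ : ∃ l1 : ℝ, 0 < l1 ∧ l1 ≤ 1 ∧ R₀ * l1 ^ 2 ≤ ε₁ := by
    refine ⟨ε₁ / R₀, by positivity, (div_le_one (by positivity)).2 (hε₁'.trans hR0), ?_⟩
    rw [show (R₀:ℝ) * (ε₁ / R₀) ^ 2 = ε₁ * (ε₁ / R₀) by field_simp]
    exact mul_le_of_le_one_right hε₁.le ((div_le_one (by positivity)).2 (hε₁'.trans hR0))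
  obtain ⟨hi, hhi1, hhi⟩ : ∃ hi : ℝ, 1 ≤ hi ∧
      √(2 * ((C + 3 + α * B) + (α * B + 3) + R₀ / (2 * c)) / c) + 1 ≤ hi :=
    ⟨_, le_add_of_nonneg_left (sqrt_nonneg _), le_rfl⟩
  have hhi0 : 0 < hi := zero_lt_one.trans_le hhi1
  have hlog0 := log_nonneg hhi1
  obtain ⟨η, hη, hη1, hηlog⟩ : ∃ η : ℝ, 0 < η ∧ η ≤ 1 ∧ η * (R₀ * (log hi + |log l1| + 1)) ≤ ε₁ := by
    refine ⟨min 1 (ε₁ / (R₀ * (log hi + |log l1| + 1))), lt_min one_pos (by positivity), min_le_left _ _, ?_⟩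
    rw [← le_div_iff₀ (by positivity)]
    exact min_le_right _ _
  obtain ⟨σ, hσ, hKLσ⟩ : ∃ σ : ℝ, 0 < σ ∧ KL * R₀ * σ ≤ ε₁ := by
    refine ⟨ε₁ / (KL * R₀ + 1), by positivity, ?_⟩
    rw [mul_div_assoc', div_le_iff₀ (by positivity)]
    nlinarith
  set xm := exp (-((C + 3 + α * B) + (α * B + 3) + R₀ / (2 * c)) / η) with hxm'
  have hxm : 0 < xm := exp_pos _
  set lo := min l1 (xm / 2)
  have hlo : 0 < lo := lt_min hl1 (by positivity)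
  obtain ⟨τ, hτ, hτw⟩ : ∃ τ : ℝ, 0 < τ ∧ lo * (σ * σ) = 5 * τ := ⟨lo * (σ * σ) / 5, by positivity, by ring⟩
  obtain ⟨δ, hδ, hδx, hδ1, hδC⟩ : ∃ δ : ℝ, 0 < δ ∧ δ ≤ xm / 2 ∧ δ ≤ 1 ∧ (1 / 2 + 2 * η / lo ^ 2) * δ ≤ τ := by
    refine ⟨min (xm / 2) (min 1 (τ / (1 / 2 + 2 * η / lo ^ 2))),
      lt_min (by positivity) (lt_min one_pos (by positivity)), min_le_left _ _,
      (min_le_right _ _).trans (min_le_left _ _), ?_⟩
    rw [← le_div_iff₀' (by positivity)]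
    exact (min_le_right _ _).trans (min_le_right _ _)
  obtain ⟨e₀, he₀, heτ, heD⟩ : ∃ e₀ : ℝ, 0 < e₀ ∧ e₀ ≤ τ ∧ e₀ ≤ lo * ε₁ / (D ^ 2 + 1) :=
    ⟨_, lt_min hτ (by positivity), min_le_left _ _, min_le_right _ _⟩
  set Kp := Cp + Cs * KL
  have hKp : 0 ≤ Kp := by positivity
  obtain ⟨t, ht, htτ, htK⟩ : ∃ t : ℝ, 0 < t ∧ t ≤ τ / (6 * hi) ∧ t ≤ ε₁ / (Kp + 1) :=
    ⟨_, lt_min (by positivity) (by positivity), min_le_left _ _, min_le_right _ _⟩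
  -- the depth and the perturbation
  obtain ⟨Rg, hRg⟩ := hA ht
  obtain ⟨k, hk, hkR⟩ : ∃ k : ℕ, 1 ≤ k ∧ Rg ≤ k * R₀ :=
    ⟨max Rg 1, le_max_right _ _, (le_max_left _ _).trans (Nat.le_mul_of_pos_right _ hR₀)⟩
  obtain ⟨S, G, K, hp, ub, cb, -, hG, hK0, hp0, hp1, hub, hub1, -, -, hread⟩ := hRg (k * R₀) hkR
  have : NeZero K := ⟨hK0.ne'⟩
  have : NeZero G := ⟨hG.ne'⟩
  have hR : 1 ≤ k * R₀ := Nat.one_le_iff_ne_zero.2 (Nat.mul_ne_zero (by omega) (by omega))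
  set gc := gainCap S (allBatch (k * R₀) 2)
  set P := Par.Phi (fun y => exp (f y)) R₀ (lin R₀) q + (KL * (2 / R₀) + 4 * ε₁)
  filter_upwards [Full.eventually_dim (gc := gc) (c := √(α * D ^ 2 + R₀ * hi ^ 2)) (δ := δ) (b := |P|) hτ hε₁ hε₁,
    zero_end hR₀ (show 0 < 2 / DD R₀ q 0 by positivity) hi hε₁,
    zero_end hR₀ (show 0 < 1 / DD R₀ q 0 by positivity) hi hε₁] with N ⟨hN1, hgN, hdevN, hPN⟩ hz2 hz1
  have : NeZero N := ⟨by omega⟩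
  -- labels and atoms
  set coll := collS N (k * R₀) (R₀ * hi ^ 2) (α * N * B + gc)
  obtain ⟨n, hn⟩ := exists_labels (x := hi * coll) (mul_nonneg hhi0.le (collS_pos ..).le) he₀
  obtain ⟨ρ₁, hρ₁, hmesh₁⟩ := mesh_pressure hS hB N ⌊α * N⌋₊ hε₁
  obtain ⟨ρ₂, hρ₂, hmesh₂⟩ := mesh_zero R₀ k N n hR hi hε₁
  obtain ⟨A, iA, iA', wt, a, hmesh⟩ := mesh_exists N (lt_min hρ₁ hρ₂)
  let : MeasurableSpace ((Fin K → Fin N → Bool) × (BIdx (k * R₀) 2 → Fin G)) := ⊤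
  have he : hi * (coll / √((n + 1 : ℕ) : ℝ)) ≤ e₀ := by rw [mul_div_assoc']; exact hn
  obtain ⟨hnum, hinc⟩ := numS (Φ := Par.Phi (fun y => exp (f y)) R₀ (lin R₀) q) hσ hlo hhi0 hKp hε₁ hKLσ hτw
    (he.trans heτ) (he.trans heD) htτ htK hδC hdevN
  have main := upper_atS (n := n) (k := k) (M₀ := ⌊α * N⌋₊) (I := (Fin K → Fin N → Bool) × (BIdx (k * R₀) 2 → Fin G))
    (β := allBatch (k * R₀) 2) (ρ := Prod.fst) (U := fun i => gu ub G i.2) (h := fun _ => hp) (c := cb)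
    (η := η) (q := q) (α := α) (hi := hi) (lo := lo) (l1 := l1) (δ := δ) (σ := σ) (t := t) (ε := ε₁) (P := P)
    hK hS hB hR₀ hk hmesh.pos (mesh_sum hmesh) hmesh.unit (fun _ => by rw [abs_of_pos hp0]; exact hp1)
    (fun i j => by
      obtain ⟨x, y⟩ := Vale.Agent.P168.MP.gu_mem hub i.2 j
      rw [abs_of_pos x]; exact y.trans hub1)
    hq hKL hL hCp hCs (fun M {w₀} hw => hP hR hw fun p => hmesh.unit _)
    (fun M {w₀} hw => (hQ hR hw fun p => hmesh.unit _).2.2 _ KL hKL fun q q' => hL (k * R₀) q q' hR)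
    (fun M l g z => le_of_eq_of_le (by rw [Vale.Agent.P168.MP.avg_prod_eq]; simp only [adF, rF, sys_weight, wF_sysA])
      (hread N A (Fin (n + 1)) wt a (fun y x => hamS f g y x * exp (dot (fvec R₀ k l y x) z)) hmesh.pos hmesh.unit
        fun _ _ => mul_pos (exp_pos _) (exp_pos _)))
    (Nat.floor_le (by positivity)) hη hη1 hc hco hε₁.le hε₁' hlo (min_le_left _ _) (hl1'.trans hhi1)
    (le_trans (mul_le_mul_of_nonneg_left (mul_le_mul_of_nonneg_left (by linarith [abs_nonneg (log l1)])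
      (by positivity)) hη.le) hηlog)
    (by
      have : η * (R₀ * |log l1|) ≤ ε₁ := le_trans (mul_le_mul_of_nonneg_left
        (mul_le_mul_of_nonneg_left (by linarith) (by positivity)) hη.le) hηlog
      linarith)
    hgN hδ (by linarith) (by rw [← hxm']; linarith [min_le_right l1 (xm / 2)]) (by rw [← hxm']; linarith)
    (div_nonneg (collS_pos ..).le (sqrt_nonneg _)) hσ le_rfl hnum hinc
    (hmesh₂ A wt a (hmesh.mono (min_le_right _ _)))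
    (fun d0 hd l hl => by rcases hd with rfl | rfl; exacts [hz2 k n hk l hl, hz1 k n hk l hl])
  refine (finalS (p := pressure (sphereUniform N) f ⌊α * N⌋₊) (Nat.one_le_cast.2 hN1)
    (Nat.floor_le (by positivity)) (Nat.lt_floor_add_one _).le hPN hε₁.le
    (hmesh₁ A wt a (hmesh.mono (min_le_left _ _))) main).trans (le_of_eq ?_)
  simp only [valS, P]
  ring

/-- **the upper bound** -/
theorem upper_sphere (hA : ReadSmall) (hK : KerProf)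
    (hP : ∀ {f f1 f2 f3 : ℝ → ℝ} {B D : ℝ}, Sm f f1 f2 f3 B D → (∀ x, f x ≤ B) → PattV f)
    (hQ : ∀ {f f1 f2 f3 : ℝ → ℝ} {B D : ℝ}, Sm f f1 f2 f3 B D → (∀ x, f x ≤ B) → StepV f) : UpperS := by
  intro f f1 f2 f3 B D hS hB α hα R q hR hq ε hε
  obtain ⟨KL, hKL, hL⟩ := Par.phiLip_of hS
  obtain ⟨r, hr⟩ := exists_nat_ge (4 * α * KL / ε)
  have hm : 1 ≤ r + 1 := by omega
  have hR0 : 1 ≤ (r + 1) * R := Nat.one_le_iff_ne_zero.2 (Nat.mul_ne_zero (by omega) (by omega))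
  set ε₁ := min 1 (ε / (2 * (4 * α + 9)))
  have hε₁ : 0 < ε₁ := lt_min one_pos (by positivity)
  filter_upwards [upper_fineS hA hK (hP hS hB) (hQ hS hB) hS hB hα hKL hL hR0 (adm_rep hR hm hq) hε₁
    (min_le_left _ _)] with N hN
  rw [valS, entS_rep hR hm hq, Full.Phi_rep (Par.adm_exp hS) hR hm hq.prof] at hN
  refine hN.trans ?_
  have h1 : α * (KL * (2 / (((r + 1) * R : ℕ) : ℝ))) ≤ ε / 2 := by
    rw [div_le_iff₀ hε] at hr
    have hRR : (r:ℝ) + 1 ≤ (((r + 1) * R : ℕ) : ℝ) := by exact_mod_cast Nat.le_mul_of_pos_right (r + 1) (by omega : 0 < R)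
    rw [mul_div_assoc', mul_div_assoc', div_le_iff₀ (by linarith [Nat.cast_nonneg (α := ℝ) r])]
    nlinarith
  have h2 : ε₁ * (4 * α + 9) ≤ ε / 2 := by
    have := mul_le_mul_of_nonneg_right (min_le_right 1 (ε / (2 * (4 * α + 9)))) (show 0 ≤ 4 * α + 9 by positivity)
    refine this.trans_eq ?_
    field_simp
  simp only [valS]
  linarith

end Vale.Agent.P157.Sph
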