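import Vale.Agent.P157.Sph.EnvFieldIbp
import Vale.Agent.P157.Sph.EnvAbs
import Vale.Agent.P157.Full.EnvBase
import Vale.Agent.P157.Full.Conc

/-! The joint space of strengths, patterns and field, and what the abstract envelope takes from a family of
weights on it. -/

open MeasureTheory ProbabilityTheory Finset Filter
open Vale.Agent.P150 (gauss dot l1 l1_nonneg)
open Vale.Agent.P168.MP (lin logZ0 avg ok_lin)
open Vale.Agent.P157.Par (Ix cv pats)
open Vale.Agent.P157.Full (tailAvg IntX intX_of_l1 intX_of_bound)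

namespace Vale.Agent.P157.Sph

/-! ### a finite index beside a probability space -/

section fin
variable {I Y : Type} [Fintype I] [Nonempty I] [MeasurableSpace I] [MeasurableSingletonClass I] [MeasurableSpace Y]
  {ν : Measure Y} [IsProbabilityMeasure ν]

/-- the uniform law of a finite set -/
noncomputable def uAvg (I : Type) [Fintype I] [MeasurableSpace I] : Measure I :=
  (Fintype.card I : ENNReal)⁻¹ • Measure.count

instance : IsProbabilityMeasure (uAvg I) :=
  ⟨by
    rw [uAvg, Measure.smul_apply, smul_eq_mul, Measure.count_univ, ENat.card_eq_coe_fintype_card]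
    simpa using ENNReal.inv_mul_cancel (Nat.cast_ne_zero.2 Fintype.card_ne_zero) (ENNReal.natCast_ne_top _)⟩

lemma mean_fin {F : I × Y → ℝ} (hF : ∀ i, Integrable (fun y => F (i, y)) ν) :
    Integrable F ((uAvg I).prod ν) ∧ ∫ x, F x ∂(uAvg I).prod ν = avg fun i => ∫ y, F (i, y) ∂ν := by
  classical
  have e : F = fun x : I × Y => ∑ i, (if x.1 = i then (1 : ℝ) else 0) * F (i, x.2) := funext fun x => by
    rw [Finset.sum_eq_single_of_mem x.1 (mem_univ _) fun b _ hb => by simp [Ne.symm hb]]
    simp
  have h1 : ∀ i : I, Integrable (fun j : I => if j = i then (1 : ℝ) else 0) (uAvg I) := fun i =>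
    Integrable.of_finite
  have h2 : ∀ i, Integrable (fun x : I × Y => (if x.1 = i then (1 : ℝ) else 0) * F (i, x.2)) ((uAvg I).prod ν) :=
    fun i => (h1 i).mul_prod (hF i)
  refine ⟨by rw [e]; exact integrable_finsetSum _ fun i _ => h2 i, ?_⟩
  conv_lhs => rw [e]
  rw [integral_finsetSum _ fun i _ => h2 i, avg, sum_div]
  refine sum_congr rfl fun i _ => ?_
  rw [integral_prod_mul (fun j : I => if j = i then (1 : ℝ) else 0) (fun y => F (i, y))]
  rw [integral_fintype Integrable.of_finite]
  simp [uAvg, Measure.real, mul_comm, div_eq_mul_inv]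

omit [Nonempty I] [MeasurableSpace I] [MeasurableSingletonClass I] in
/-- averaging an estimate over the index -/
lemma avg_near {N x : ℝ} (hN : 0 < N) {X Y c : I → ℝ} (h : ∀ i, |X i - x * N * Y i| ≤ N * c i) :
    |avg X / N - x * avg Y| ≤ avg c := by
  have h1 := Vale.Agent.P168.MP.avg_le_avg (f := fun i => X i - x * N * Y i) (g := fun i => N * c i)
    fun i => (abs_le.1 (h i)).2
  have h2 := Vale.Agent.P168.MP.avg_le_avg (f := fun i => -(N * c i)) (g := fun i => X i - x * N * Y i)
    fun i => (abs_le.1 (h i)).1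
  have e : avg X / N - x * avg Y = (avg X - x * N * avg Y) / N := by field_simp
  rw [e, abs_div, abs_of_pos hN, div_le_iff₀ hN, mul_comm (avg c), abs_le]
  simp only [avg, sum_sub_distrib, ← mul_sum, sub_div, mul_div_assoc, sum_neg_distrib, neg_div] at h1 h2 ⊢
  exact ⟨h2, h1⟩

omit [MeasurableSpace I] [MeasurableSingletonClass I] in
lemma avg_one_sub (Y : I → ℝ) : avg (fun i => 1 - Y i) = 1 - avg Y := by
  simp only [avg, sum_sub_distrib, sum_const, card_univ, nsmul_eq_mul, mul_one, sub_div]
  rw [div_self (Nat.cast_ne_zero.2 Fintype.card_ne_zero)]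

end fin

/-! ### the family -/

variable {I : Type} [Fintype I] [Nonempty I] [MeasurableSpace I] [MeasurableSingletonClass I]
  {Ω : Type} [Fintype Ω] [Nonempty Ω] {N n M R₀ k : ℕ}

/-- patterns and field -/
abbrev YS (N n R M : ℕ) : Type := (Fin M → Fin N → ℝ) × (Fin N × Ix R n → ℝ)

/-- strengths, patterns and field -/
noncomputable abbrev muS (I : Type) [Fintype I] [MeasurableSpace I] (N n R M : ℕ) : Measure (I × YS N n R M) :=
  (uAvg I).prod ((pats N M).prod (gauss (Fin N × Ix R n)))


/-- the free energy on the joint space -/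
noncomputable def Fj (R₀ k : ℕ) (w : I → (Fin M → Fin N → ℝ) → List Ω → ℝ) (v : List Ω → Fin N → ℝ)
    (lab : Ω → Fin (n + 1)) (lam : Fin R₀ → ℝ) (ω : I × YS N n (k * R₀) M) : ℝ :=
  FF R₀ k lam (w ω.1 ω.2.1) v lab ω.2.2

/-- the field energies -/
noncomputable def Hj (R₀ k : ℕ) (w : I → (Fin M → Fin N → ℝ) → List Ω → ℝ) (v : List Ω → Fin N → ℝ)
    (lab : Ω → Fin (n + 1)) (lam : Fin R₀ → ℝ) (ω : I × YS N n (k * R₀) M) (j : Fin R₀) : ℝ :=
  HF R₀ k lam (w ω.1 ω.2.1) v lab ω.2.2 j

/-- the mean overlaps -/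
noncomputable def rj (R₀ k : ℕ) (w : I → (Fin M → Fin N → ℝ) → List Ω → ℝ) (v : List Ω → Fin N → ℝ)
    (lab : Ω → Fin (n + 1)) (lam : Fin R₀ → ℝ) (ω : I × YS N n (k * R₀) M) : ℕ → ℝ :=
  rF R₀ k lam (w ω.1 ω.2.1) v lab ω.2.2

/-- what is asked of the weights -/
structure Fam (w : I → (Fin M → Fin N → ℝ) → List Ω → ℝ) (v : List Ω → Fin N → ℝ) (C D : ℝ) : Prop where
  pos : ∀ i g p, 0 < w i g p
  cont : ∀ i p, Continuous fun g => w i g p
  bd : ∀ i g p, |Real.log (w i g p)| ≤ C
  unit : ∀ p, dot (v p) (v p) = 1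
  lip : ∀ i g g' p, |Real.log (w i g p) - Real.log (w i g' p)| ≤
    √((M : ℝ) * D ^ 2) * √(∑ a, ∑ b, (g a b - g' a b) ^ 2)

variable {w : I → (Fin M → Fin N → ℝ) → List Ω → ℝ} {v : List Ω → Fin N → ℝ} {lab : Ω → Fin (n + 1)}
  {C D : ℝ} {lam : Fin R₀ → ℝ}

section joint
variable (hw : Fam w v C D)
include hw

omit [Fintype I] [Nonempty I] [MeasurableSpace I] [MeasurableSingletonClass I] [Fintype Ω] [Nonempty Ω] in
lemma Fam.cont_wF (i : I) (p : List Ω) :
    Continuous fun y : YS N n (k * R₀) M => wF R₀ k lam (w i y.1) v lab y.2 p :=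
  ((hw.cont i p).comp continuous_fst).mul
    (Real.continuous_exp.comp ((Par.continuous_dot_left _).comp continuous_snd))

omit [Fintype I] [Nonempty I] [MeasurableSpace I] [MeasurableSingletonClass I] in
lemma Fam.cont_ET (i : I) (T : List (ℕ × ℕ)) (G : List (List Ω) → ℝ) :
    Continuous fun y : YS N n (k * R₀) M =>
      Vale.Agent.P168.MP.ET (k * R₀) (lin (k * R₀)) (wF R₀ k lam (w i y.1) v lab y.2) T G :=
  Par.continuous_ET (F := fun _ => G) (fun p => hw.cont_wF i p) (fun y p => wF_pos (hw.pos i y.1) y.2 p) _ T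
    fun _ => continuous_const

omit [Fintype I] [Nonempty I] [MeasurableSpace I] [MeasurableSingletonClass I] in
lemma Fam.cont_rF (i : I) (l : ℕ) :
    Continuous fun y : YS N n (k * R₀) M => rF R₀ k lam (w i y.1) v lab y.2 l := hw.cont_ET i _ _

omit [Fintype I] [Nonempty I] [MeasurableSpace I] [MeasurableSingletonClass I] in
lemma Fam.cont_adF (i : I) :
    Continuous fun y : YS N n (k * R₀) M => adF R₀ k lam (w i y.1) v lab y.2 := by
  have hd : ∀ l, Continuous fun y : YS N n (k * R₀) M =>
      Par.devOf (k * R₀) (wF R₀ k lam (w i y.1) v lab y.2) (cv v) (rF R₀ k lam (w i y.1) v lab y.2) l := fun l =>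
    Par.continuous_ET (fun p => hw.cont_wF i p) (fun y p => wF_pos (hw.pos i y.1) y.2 p) _ _
      fun _ => (continuous_const.sub (hw.cont_rF i l)).abs
  unfold adF Par.adev
  exact ((continuous_finsetSum _ fun l _ => hd l).div_const _).add (hd _)

omit [Fintype I] [Nonempty I] [MeasurableSpace I] [MeasurableSingletonClass I] in
lemma Fam.int_F (hR : 1 ≤ k * R₀) (i : I) : Integrable (fun y : YS N n (k * R₀) M =>
    FF R₀ k lam (w i y.1) v lab y.2) ((pats N M).prod (gauss _)) :=
  intX_of_l1 (F := fun g z => FF R₀ k lam (w i g) v lab z) (Par.continuous_logZ0 (fun p => hw.cont_wF i p) (fun y p => wF_pos (hw.pos i y.1) y.2 p) _)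
    fun g z => abs_FF_le (hw.pos i g) hw.unit hR (hw.bd i g) z

omit [Fintype I] [Nonempty I] [MeasurableSpace I] [MeasurableSingletonClass I] in
lemma Fam.int_H (i : I) (j : Fin R₀) : Integrable (fun y : YS N n (k * R₀) M =>
    HF R₀ k lam (w i y.1) v lab y.2 j) ((pats N M).prod (gauss _)) :=
  intX_of_l1 (F := fun g z => HF R₀ k lam (w i g) v lab z j) (A := 0) (C := √(N : ℝ)) (Par.continuous_ET (fun p => hw.cont_wF i p)
    (fun y p => wF_pos (hw.pos i y.1) y.2 p) _ _ fun _ => (Par.continuous_dot_left _).comp continuous_snd)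
    fun g z => (abs_HF_le (hw.pos i g) hw.unit z j).trans_eq (zero_add _).symm

omit [Fintype I] [Nonempty I] [MeasurableSpace I] [MeasurableSingletonClass I] in
lemma Fam.int_r (i : I) (l : ℕ) : Integrable (fun y : YS N n (k * R₀) M =>
    rF R₀ k lam (w i y.1) v lab y.2 l) ((pats N M).prod (gauss _)) :=
  intX_of_bound (F := fun g z => rF R₀ k lam (w i g) v lab z l) (hw.cont_rF i l) fun g z => abs_rF_le (hw.pos i g) hw.unit z l

omit [Fintype I] [Nonempty I] [MeasurableSpace I] [MeasurableSingletonClass I] in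
lemma Fam.int_ad (i : I) : Integrable (fun y : YS N n (k * R₀) M =>
    adF R₀ k lam (w i y.1) v lab y.2) ((pats N M).prod (gauss _)) :=
  intX_of_bound (F := fun g z => adF R₀ k lam (w i g) v lab z) (hw.cont_adF i) (C := 4) fun g z => by
    rw [abs_of_nonneg (adF_bounds (hw.pos i g) hw.unit z).1]; exact (adF_bounds (hw.pos i g) hw.unit z).2

omit [Fintype I] [Nonempty I] [MeasurableSpace I] [MeasurableSingletonClass I] in
lemma Fam.int_CF (i : I) : Integrable (fun y : YS N n (k * R₀) M =>
    CF R₀ k lam (w i y.1) v lab y.2) ((pats N M).prod (gauss _)) :=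
  intX_of_bound (F := fun g z => CF R₀ k lam (w i g) v lab z) (C := 1) ((continuous_finsetSum _ fun _ _ => hw.cont_ET i _ _).div_const _) fun g z => by
    rw [abs_of_nonneg (CF_bounds (hw.pos i g) z).1]; exact (CF_bounds (hw.pos i g) z).2

omit [Nonempty I] [MeasurableSpace I] [MeasurableSingletonClass I] in
/-- the mean deviation over the joint space -/
lemma Fam.mean_ad {t : ℝ} (had : ∀ g z, avg (fun i => adF R₀ k lam (w i g) v lab z) ≤ t) :
    avg (fun i => ∫ y : YS N n (k * R₀) M, adF R₀ k lam (w i y.1) v lab y.2 ∂(pats N M).prod (gauss _)) ≤ t := by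
  simp only [avg] at had ⊢
  rw [← integral_finsetSum _ fun i _ => hw.int_ad i, ← integral_div]
  refine (integral_mono ((integrable_finsetSum _ fun i _ => hw.int_ad i).div_const _) (integrable_const t)
    fun y => had y.1 y.2).trans_eq ?_
  simp

/-- **the envelope inputs of the family** -/
theorem Fam.envIn (hR₀ : 1 ≤ R₀) (hk : 1 ≤ k)
    (hK : ∀ (l : Fin R₀ → ℝ) (i : I) (g : Fin M → Fin N → ℝ) (z : Fin N × Ix (k * R₀) n → ℝ),
      Par.Prof (k * R₀) (rF R₀ k l (w i g) v lab z) 1 ∧ rF R₀ k l (w i g) v lab z (k * R₀) = 1)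
    {lo hi gc eC t θ e e' : ℝ} (hlo : 0 ≤ lo) (hN : 0 < N) {α : ℝ} (hα : (M : ℝ) ≤ α * N)
    (hclose : ∀ (l : Fin R₀ → ℝ) i i' g z, |FF R₀ k l (w i g) v lab z - FF R₀ k l (w i' g) v lab z| ≤ gc)
    (hCF : ∀ l : Fin R₀ → ℝ, l ∈ box lo hi → ∀ i g,
      ∫ z, CF R₀ k l (w i g) v lab z ∂gauss (Fin N × Ix (k * R₀) n) ≤ eC)
    (had : ∀ l : Fin R₀ → ℝ, l ∈ box lo hi → ∀ g z, avg (fun i => adF R₀ k l (w i g) v lab z) ≤ t)
    (he : hi * eC ≤ e) (he' : hi * (eC + 6 * t) ≤ e')
    (hθ : (3 * (√(N : ℝ) * √(α * D ^ 2 + R₀ * hi ^ 2)) + gc) / N ≤ θ) :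
    EnvIn (muS I N n (k * R₀) M) R₀ k N θ e e' lo hi (Fj R₀ k w v lab) (Hj R₀ k w v lab) (rj R₀ k w v lab) := by
  have hR : 1 ≤ k * R₀ := Nat.one_le_iff_ne_zero.2 (Nat.mul_ne_zero (by omega) (by omega))
  have hN' : (0 : ℝ) < N := Nat.cast_pos.2 hN
  set ν := (pats N M).prod (gauss (Fin N × Ix (k * R₀) n))
  have mF := fun l : Fin R₀ → ℝ => mean_fin (I := I) (F := Fj R₀ k w v lab l) fun i => hw.int_F (lam := l) hR i
  have mH := fun (l : Fin R₀ → ℝ) j =>
    mean_fin (I := I) (F := fun ω => Hj R₀ k w v lab l ω j) fun i => hw.int_H (lam := l) i j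
  have mR := fun (l : Fin R₀ → ℝ) m =>
    mean_fin (I := I) (F := fun ω => rj R₀ k w v lab l ω m) fun i => hw.int_r (lam := l) i m
  have hl1 : Integrable (fun ω : I × YS N n (k * R₀) M => √(N : ℝ) * l1 ω.2.2) (muS I N n (k * R₀) M) :=
    (mean_fin (I := I) (F := fun ω : I × YS N n (k * R₀) M => √(N : ℝ) * l1 ω.2.2)
      fun _ => (Par.integrable_l1.const_mul _).comp_snd (pats N M)).1
  refine ⟨?_, fun l ω => hK l _ _ _, fun l _ => (mF l).1, fun l _ j => (mH l j).1, fun l _ m _ => (mR l m).1,
    fun l _ j ω => FF_convex (hw.pos _ _) hR _ j, fun l _ j => ?_, fun l hl => ?_, fun l hl j => ?_, fun l hl j => ?_⟩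
  · -- continuity in the amplitudes
    refine continuous_iff_continuousAt.2 fun l₀ => tendsto_iff_norm_sub_tendsto_zero.2
      (squeeze_zero (fun _ => norm_nonneg _) (fun l => ?_) (show Tendsto (fun l : Fin R₀ → ℝ =>
        (∑ j, |l j - l₀ j|) * ∫ ω, √(N : ℝ) * l1 ω.2.2 ∂muS I N n (k * R₀) M) (nhds l₀) (nhds 0) from ?_))
    · dsimp only
      rw [Real.norm_eq_abs, ← integral_sub (mF l).1 (mF l₀).1, ← integral_const_mul]
      refine abs_integral_le_integral_abs.trans (integral_mono ((mF l).1.sub (mF l₀).1).abs (hl1.const_mul _)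
        fun ω => (abs_FF_lam_le (hw.pos ω.1 ω.2.1) hw.unit hR l₀ ω.2.2).trans_eq (by ring))
    · have h : Continuous fun l : Fin R₀ → ℝ =>
          (∑ j, |l j - l₀ j|) * ∫ ω, √(N : ℝ) * l1 ω.2.2 ∂muS I N n (k * R₀) M := by fun_prop
      simpa using h.tendsto l₀
  · -- derivative of the mean
    have h := (hasDerivAt_integral_of_dominated_loc_of_deriv_le (μ := muS I N n (k * R₀) M)
      (F := fun s ω => Fj R₀ k w v lab (Function.update l j s) ω)
      (F' := fun s ω => Hj R₀ k w v lab (Function.update l j s) ω j)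
      (bound := fun ω => √(N : ℝ) * l1 ω.2.2) (Metric.ball_mem_nhds (l j) one_pos)
      (Eventually.of_forall fun s => (mF _).1.aestronglyMeasurable) (mF _).1 (mH _ j).1.aestronglyMeasurable
      (Eventually.of_forall fun ω s _ => abs_HF_le (hw.pos _ _) hw.unit _ j) hl1
      (Eventually.of_forall fun ω s _ => by
        have h := (FF_convex (lam := Function.update l j s) (v := v) (lab := lab) (hw.pos ω.1 ω.2.1) hR ω.2.2 j).2
        simpa [Fj, Hj, Function.update_idem] using h)).2
    simpa [Function.update_eq_self] using h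
  · -- deviation from the mean
    set F : I → YS N n (k * R₀) M → ℝ := fun i y => FF R₀ k l (w i y.1) v lab y.2
    set m : I → ℝ := fun i => ∫ y, F i y ∂ν
    have iF : ∀ i, Integrable (F i) ν := fun i => hw.int_F hR i
    have hm : ∀ i i', |m i - m i'| ≤ gc := fun i i' => by
      rw [← integral_sub (iF i) (iF i')]
      refine abs_integral_le_integral_abs.trans ((integral_mono ((iF i).sub (iF i')).abs (integrable_const gc)
        fun y => hclose l i i' y.1 y.2).trans_eq (by simp))
    have hmm : ∀ i, |m i - avg m| ≤ gc := fun i => by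
      have e : m i - avg m = avg fun i' => m i - m i' := by
        simp only [avg, sum_sub_distrib, sum_const, card_univ, nsmul_eq_mul, sub_div]
        rw [mul_div_cancel_left₀ _ (Nat.cast_ne_zero.2 Fintype.card_ne_zero)]
      rw [e, abs_le]
      exact ⟨(Vale.Agent.P168.MP.avg_const (-gc)).symm.trans_le
          (Vale.Agent.P168.MP.avg_le_avg fun i' => (abs_le.1 (hm i i')).1),
        (Vale.Agent.P168.MP.avg_le_avg fun i' => (abs_le.1 (hm i i')).2).trans_eq
          (Vale.Agent.P168.MP.avg_const gc)⟩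
    have hdev : ∀ i, ∫ y, |F i y - m i| ∂ν ≤ 3 * (√(N : ℝ) * √(α * D ^ 2 + R₀ * hi ^ 2)) := fun i => by
      have h1 := Full.gauss_dev_pats (N := N) (M := M) (ι := Fin N × Ix (k * R₀) n)
        (F := fun g z => FF R₀ k l (w i g) v lab z) (L := √(N : ℝ) * √(α * D ^ 2 + R₀ * hi ^ 2)) (by positivity)
        fun g g' z z' => by
          set A := ∑ a, ∑ b, (g a b - g' a b) ^ 2
          set B := ∑ x, (z x - z' x) ^ 2
          refine Full.Fld.abs_logZ0_sub_le (ok_lin hR (wF_pos (hw.pos i g') z')) (wF_pos (hw.pos i g) z) fun p _ => ?_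
          rw [wF, wF, Real.log_mul (hw.pos i g p).ne' (Real.exp_pos _).ne',
            Real.log_mul (hw.pos i g' p).ne' (Real.exp_pos _).ne', Real.log_exp, Real.log_exp]
          set c := fvec R₀ k l (v p) (p.map lab)
          have hd : dot c z - dot c z' = dot c (fun x => z x - z' x) := by simp [dot, mul_sub, sum_sub_distrib]
          have hc : dot c c ≤ (N : ℝ) * (R₀ * hi ^ 2) := (fvec_self_le hk l (hw.unit p) _).trans
            (mul_le_mul_of_nonneg_left ((sum_le_card_nsmul _ _ (hi ^ 2) fun j _ =>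
              pow_le_pow_left₀ (hlo.trans (hl j).1) (hl j).2 2).trans_eq (by simp)) hN'.le)
          have h2 : |dot c z - dot c z'| ≤ √((N : ℝ) * (R₀ * hi ^ 2)) * √B := by
            rw [hd]
            exact (Full.Fld.abs_dot_le_sqrt _ _).trans
              (mul_le_mul_of_nonneg_right (Real.sqrt_le_sqrt hc) (Real.sqrt_nonneg _))
          have h1 := hw.lip i g g' p
          have h3 := Real.sum_sqrt_mul_sqrt_le (univ : Finset (Fin 2))
            (f := ![(M : ℝ) * D ^ 2, (N : ℝ) * (R₀ * hi ^ 2)]) (g := ![A, B])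
            (fun x => by fin_cases x <;> simp <;> positivity)
            (fun x => by fin_cases x <;> simp [A, B] <;> positivity)
          simp only [Fin.sum_univ_two, Matrix.cons_val_zero, Matrix.cons_val_one] at h3
          have h4 : √((M : ℝ) * D ^ 2 + N * (R₀ * hi ^ 2)) ≤ √(N : ℝ) * √(α * D ^ 2 + R₀ * hi ^ 2) := by
            rw [← Real.sqrt_mul hN'.le]
            refine Real.sqrt_le_sqrt ?_
            rw [mul_add, ← mul_assoc (N : ℝ) α]
            exact add_le_add (mul_le_mul_of_nonneg_right (hα.trans_eq (mul_comm _ _)) (sq_nonneg D)) le_rfl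
          have h5 := mul_le_mul_of_nonneg_right h4 (Real.sqrt_nonneg (A + B))
          rw [abs_le] at h1 h2 ⊢
          constructor <;> linarith
      have i1 : Integrable (fun y => |F i y - m i|) ν := ((iF i).sub (integrable_const _)).abs
      rw [integral_prod _ i1]
      simpa only [m, F, ν, integral_prod _ (iF i)] using h1
    rw [mul_comm (N : ℝ) θ, ← div_le_iff₀ hN']
    refine le_trans (div_le_div_of_nonneg_right ?_ hN'.le) hθ
    have iA : ∀ i, Integrable (fun y => |Fj R₀ k w v lab l (i, y) - avg m|) ν := fun i =>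
      ((iF i).sub (integrable_const _)).abs
    rw [show (∫ x, Fj R₀ k w v lab l x ∂muS I N n (k * R₀) M) = avg m from (mF l).2]
    refine ((mean_fin (I := I) (F := fun ω => |Fj R₀ k w v lab l ω - avg m|) iA).2.trans_le
      (Vale.Agent.P168.MP.avg_le_avg fun i => ?_)).trans_eq (Vale.Agent.P168.MP.avg_const _)
    refine (integral_mono (iA i) (((iF i).sub (integrable_const (m i))).abs.add (integrable_const gc))
      fun y => (abs_sub_le _ (m i) _).trans (add_le_add le_rfl (hmm i))).trans ?_
    rw [integral_add' ((iF i).sub (integrable_const (m i))).abs (integrable_const gc)]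
    simpa using hdev i
  · -- first identity
    rw [tail_rmean fun m _ => (mR l m).1]
    have iT : ∀ i, Integrable (fun y : YS N n (k * R₀) M => tailAvg (k * R₀) (j * k) (rj R₀ k w v lab l (i, y))) ν :=
      fun i => (integrable_finsetSum _ fun m _ => hw.int_r i m).div_const _
    rw [(mH l j).2, (mean_fin (I := I) (F := fun ω => tailAvg (k * R₀) (j * k) (rj R₀ k w v lab l ω)) iT).2]
    have key : ∀ i, |(∫ y, Hj R₀ k w v lab l (i, y) j ∂ν) -
        l j * N * (1 - ∫ y, tailAvg (k * R₀) (j * k) (rj R₀ k w v lab l (i, y)) ∂ν)| ≤ N * e := fun i => by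
      have e1 : 1 - ∫ y, tailAvg (k * R₀) (j * k) (rj R₀ k w v lab l (i, y)) ∂ν =
          ∫ y, (1 - tailAvg (k * R₀) (j * k) (rj R₀ k w v lab l (i, y))) ∂ν := by
        rw [integral_sub (integrable_const _) (iT i)]; simp
      have i1 : Integrable (fun y => Hj R₀ k w v lab l (i, y) j -
          l j * N * (1 - tailAvg (k * R₀) (j * k) (rj R₀ k w v lab l (i, y)))) ν :=
        (hw.int_H i j).sub (((integrable_const _).sub (iT i)).const_mul _)
      have iH : Integrable (fun y => Hj R₀ k w v lab l (i, y) j) ν := hw.int_H i j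
      have iC : Integrable (fun y => l j * N * (1 - tailAvg (k * R₀) (j * k) (rj R₀ k w v lab l (i, y)))) ν :=
        ((integrable_const _).sub (iT i)).const_mul _
      rw [e1, ← integral_const_mul, ← integral_sub iH iC, integral_prod _ i1]
      refine abs_integral_le_integral_abs.trans ((integral_mono i1.integral_prod_left.abs
        (integrable_const ((N : ℝ) * e)) fun g => ?_).trans_eq (by simp))
      have hz := (ibp_fixed (lam := l) (lab := lab) (hw.pos i g) hw.unit hR hk j).1
      simp only [Hj, rj]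
      rw [integral_sub, integral_const_mul]
      · refine hz.trans ((mul_le_mul_of_nonneg_left (hCF l hl i g) (by positivity)).trans ?_)
        rw [mul_comm |l j|, mul_assoc]
        refine mul_le_mul_of_nonneg_left (le_trans ?_ he) hN'.le
        rw [abs_of_nonneg (hlo.trans (hl j).1)]
        exact mul_le_mul_of_nonneg_right (hl j).2 ((integral_nonneg fun z => (CF_bounds (hw.pos i g) z).1).trans
          (hCF l hl i g))
      · exact Vale.Agent.P150.integrable_of_bound (C := √(N : ℝ)) (M := 1) (continuous_HF (hw.pos i g) j) fun z => by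
          rw [one_mul]
          exact (abs_HF_le (hw.pos i g) hw.unit z j).trans (mul_le_mul_of_nonneg_left
            (by linarith [Real.add_one_le_exp (l1 z)]) (Real.sqrt_nonneg _))
      · refine Integrable.of_bound (Continuous.aestronglyMeasurable ?_) (|l j * N| * 2) (Eventually.of_forall fun z => ?_)
        · exact continuous_const.mul (continuous_const.sub
            ((continuous_finsetSum _ fun m _ => continuous_rF (hw.pos i g) m).div_const _))
        · rw [Real.norm_eq_abs, abs_mul]
          refine mul_le_mul_of_nonneg_left ((abs_sub _ _).trans ?_) (abs_nonneg _)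
          rw [abs_one]
          linarith [Full.Fld.abs_tailAvg_le (k * R₀) (j * k)
            fun m => abs_rF_le (lam := l) (lab := lab) (hw.pos i g) hw.unit z m]
    have h := avg_near (N := (N : ℝ)) hN' key
    simpa only [avg_one_sub, Vale.Agent.P168.MP.avg_const] using h
  · -- against the tail
    have hT1 : ∀ i y, |tailAvg (k * R₀) (j * k) (rj R₀ k w v lab l (i, y))| ≤ 1 := fun i y =>
      Full.Fld.abs_tailAvg_le _ _ fun m => abs_rF_le (hw.pos i y.1) hw.unit y.2 m
    have iT : ∀ i, Integrable (fun y : YS N n (k * R₀) M => tailAvg (k * R₀) (j * k) (rj R₀ k w v lab l (i, y))) ν :=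
      fun i => (integrable_finsetSum _ fun m _ => hw.int_r i m).div_const _
    have iHT : ∀ i, Integrable (fun y : YS N n (k * R₀) M =>
        Hj R₀ k w v lab l (i, y) j * tailAvg (k * R₀) (j * k) (rj R₀ k w v lab l (i, y))) ν := fun i =>
      (hw.int_H i j).mul_bdd (iT i).aestronglyMeasurable (Eventually.of_forall fun y => by
        rw [Real.norm_eq_abs]; exact hT1 i y)
    have iTT : ∀ i, Integrable (fun y : YS N n (k * R₀) M => (1 - tailAvg (k * R₀) (j * k) (rj R₀ k w v lab l (i, y))) *
        tailAvg (k * R₀) (j * k) (rj R₀ k w v lab l (i, y))) ν := fun i =>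
      ((integrable_const _).sub (iT i)).mul_bdd (iT i).aestronglyMeasurable (Eventually.of_forall fun y => by
        rw [Real.norm_eq_abs]; exact hT1 i y)
    rw [(mean_fin (I := I) (F := fun ω => Hj R₀ k w v lab l ω j *
        tailAvg (k * R₀) (j * k) (rj R₀ k w v lab l ω)) iHT).2,
      (mean_fin (I := I) (F := fun ω => (1 - tailAvg (k * R₀) (j * k) (rj R₀ k w v lab l ω)) *
        tailAvg (k * R₀) (j * k) (rj R₀ k w v lab l ω)) iTT).2]
    have key : ∀ i, |(∫ y, Hj R₀ k w v lab l (i, y) j * tailAvg (k * R₀) (j * k) (rj R₀ k w v lab l (i, y)) ∂ν) -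
        l j * N * ∫ y, (1 - tailAvg (k * R₀) (j * k) (rj R₀ k w v lab l (i, y))) *
          tailAvg (k * R₀) (j * k) (rj R₀ k w v lab l (i, y)) ∂ν| ≤
        N * (hi * (eC + 6 * ∫ y, adF R₀ k l (w i y.1) v lab y.2 ∂ν)) := fun i => by
      have i1 : Integrable (fun y => Hj R₀ k w v lab l (i, y) j * tailAvg (k * R₀) (j * k) (rj R₀ k w v lab l (i, y)) -
          l j * N * ((1 - tailAvg (k * R₀) (j * k) (rj R₀ k w v lab l (i, y))) *
            tailAvg (k * R₀) (j * k) (rj R₀ k w v lab l (i, y)))) ν := (iHT i).sub ((iTT i).const_mul _)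
      have iA := hw.int_ad (k := k) (lam := l) (lab := lab) i
      have iC : Integrable (fun y => l j * N * ((1 - tailAvg (k * R₀) (j * k) (rj R₀ k w v lab l (i, y))) *
          tailAvg (k * R₀) (j * k) (rj R₀ k w v lab l (i, y)))) ν := (iTT i).const_mul _
      rw [← integral_const_mul, ← integral_sub (iHT i) iC, integral_prod _ i1,
        integral_prod _ iA]
      refine abs_integral_le_integral_abs.trans ((integral_mono i1.integral_prod_left.abs
        ((((integrable_const eC).add (iA.integral_prod_left.const_mul 6)).const_mul hi).const_mul (N : ℝ))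
        fun g => ?_).trans_eq ?_)
      · have hz := (ibp_fixed (lam := l) (lab := lab) (hw.pos i g) hw.unit hR hk j).2
        have hTc : Continuous fun z => tailAvg (k * R₀) (j * k) (rF R₀ k l (w i g) v lab z) :=
          (continuous_finsetSum _ fun m _ => continuous_rF (hw.pos i g) m).div_const _
        have hTb : ∀ z, |tailAvg (k * R₀) (j * k) (rF R₀ k l (w i g) v lab z)| ≤ 1 := fun z => hT1 i (g, z)
        simp only [Hj, rj]
        rw [integral_sub, integral_const_mul]
        · refine hz.trans ?_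
          rw [mul_comm |l j|, mul_assoc]
          refine mul_le_mul_of_nonneg_left ?_ hN'.le
          rw [abs_of_nonneg (hlo.trans (hl j).1)]
          exact mul_le_mul (hl j).2 (add_le_add (hCF l hl i g) le_rfl)
            (add_nonneg (integral_nonneg fun z => (CF_bounds (hw.pos i g) z).1)
              (mul_nonneg (by norm_num) (integral_nonneg fun z => (adF_bounds (hw.pos i g) hw.unit z).1)))
            ((hlo.trans (hl j).1).trans (hl j).2)
        · exact Vale.Agent.P150.integrable_of_bound (C := √(N : ℝ)) (M := 1)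
            ((continuous_HF (hw.pos i g) j).mul hTc) fun z => by
              rw [one_mul, abs_mul]
              exact (mul_le_of_le_one_right (abs_nonneg _) (hTb z)).trans ((abs_HF_le (hw.pos i g) hw.unit z j).trans
                (mul_le_mul_of_nonneg_left (by linarith [Real.add_one_le_exp (l1 z)]) (Real.sqrt_nonneg _)))
        · refine Integrable.of_bound (continuous_const.mul ((continuous_const.sub hTc).mul hTc)).aestronglyMeasurable
            (|l j * N| * 2) (Eventually.of_forall fun z => ?_)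
          rw [Real.norm_eq_abs, abs_mul (l j * N)]
          refine mul_le_mul_of_nonneg_left ?_ (abs_nonneg _)
          rw [abs_mul]
          refine (mul_le_of_le_one_right (abs_nonneg _) (hTb z)).trans ((abs_sub _ _).trans ?_)
          rw [abs_one]; linarith [hTb z]
      · rw [integral_const_mul, integral_const_mul, integral_add' (integrable_const _)
          (iA.integral_prod_left.const_mul 6), integral_const_mul]
        simp
    refine (avg_near (N := (N : ℝ)) hN' key).trans (le_trans ?_ he')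
    rw [Vale.Agent.P168.MP.Upper.avg_mul_left]
    refine mul_le_mul_of_nonneg_left ?_ ((hlo.trans (hl j).1).trans (hl j).2)
    simp only [avg, sum_add_distrib, ← mul_sum, sum_const, card_univ, nsmul_eq_mul, add_div, mul_div_assoc]
    rw [← mul_div_assoc (Fintype.card I : ℝ) eC, mul_div_cancel_left₀ _ (Nat.cast_ne_zero.2 Fintype.card_ne_zero)]
    exact add_le_add le_rfl (mul_le_mul_of_nonneg_left (hw.mean_ad (had l hl)) (by norm_num))

end joint

end Vale.Agent.P157.Sph
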