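import Vale.Agent.P157.Sph.Iface
import Vale.Agent.P157.Sph.EnvMean
import Vale.Agent.P157.Par.Incr

/-! The patterns over a family of base weights with the field: one pattern more, no pattern, and the field switched
off. -/

open MeasureTheory ProbabilityTheory Finset Filter
open Vale.Agent.P150 (gauss dot l1 l1_nonneg abs_dot_le)
open Vale.Agent.P168.MP (lin logZ0 ext avg avg_le_avg ok_lin)
open Vale.Agent.P157.Par (Ix cv pats Sm)

namespace Vale.Agent.P157.Sph

variable {I : Type} [Fintype I] [Nonempty I] [MeasurableSpace I] [MeasurableSingletonClass I]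
  {Ω : Type} [Fintype Ω] [Nonempty Ω] {N n M R₀ k : ℕ} {f f1 f2 f3 : ℝ → ℝ} {B D Cb : ℝ}
  {b : I → List Ω → ℝ} {v : List Ω → Fin N → ℝ} {lab : Ω → Fin (n + 1)} {lam : Fin R₀ → ℝ}

/-- what is asked of the base weights -/
structure Based (b : I → List Ω → ℝ) (v : List Ω → Fin N → ℝ) (Cb : ℝ) : Prop where
  pos : ∀ i p, 0 < b i p
  bd : ∀ i p, |Real.log (b i p)| ≤ Cb
  unit : ∀ p, dot (v p) (v p) = 1

omit [Fintype Ω] [Nonempty Ω] in
lemma wF_wV (f : ℝ → ℝ) (w₀ : List Ω → ℝ) (g : Fin M → Fin N → ℝ) (Z : Fin N × Ix (k * R₀) n → ℝ) :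
    wF R₀ k lam (wV f w₀ v g) v lab Z = wV f (wF R₀ k lam w₀ v lab Z) v g := by
  funext p; simp only [wF, wV]; ring

omit [Fintype Ω] [Nonempty Ω] in
lemma log_wV {w₀ : List Ω → ℝ} {p : List Ω} (h : 0 < w₀ p) (g : Fin M → Fin N → ℝ) :
    Real.log (wV f w₀ v g p) = Real.log (w₀ p) + ∑ i, f (dot (v p) (g i)) := by
  rw [wV, Real.log_mul h.ne' (Real.exp_pos _).ne', Real.log_exp]

lemma abs_sum_f_le (hb : ∀ x, |f x| ≤ B) (v : Fin N → ℝ) (g : Fin M → Fin N → ℝ) :
    |∑ i, f (dot v (g i))| ≤ (M : ℝ) * B :=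
  (abs_sum_le_sum_abs _ _).trans ((sum_le_card_nsmul _ _ B fun i _ => hb _).trans_eq (by simp))

omit [Fintype I] [Nonempty I] [MeasurableSpace I] [MeasurableSingletonClass I] [Fintype Ω] [Nonempty Ω] in
/-- the patterns over a family of base weights form a family of the envelope -/
lemma Based.fam (hB' : Based b v Cb) (hS : Sm f f1 f2 f3 B D) (hB : ∀ x, f x ≤ B) :
    Fam (fun i (g : Fin M → Fin N → ℝ) => wV f (b i) v g) v (Cb + M * B) D := by
  have hb : ∀ x, |f x| ≤ B := fun x => abs_le.2 ⟨hS.lb x, hB x⟩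
  have hf : Continuous f := continuous_iff_continuousAt.2 fun x => (hS.d0 x).continuousAt
  have hD : 0 ≤ D := (abs_nonneg _).trans (hS.b1 0)
  refine ⟨fun i g p => mul_pos (hB'.pos i p) (Real.exp_pos _), fun i p => ?_, fun i g p => ?_, hB'.unit,
    fun i g g' p => ?_⟩
  · exact continuous_const.mul (Real.continuous_exp.comp
      (continuous_finsetSum _ fun j _ => hf.comp (by unfold dot; fun_prop)))
  · rw [log_wV (hB'.pos i p)]
    exact (abs_add_le _ _).trans (add_le_add (hB'.bd i p) (abs_sum_f_le hb _ g))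
  · rw [log_wV (hB'.pos i p), log_wV (hB'.pos i p), add_sub_add_left_eq_sub, ← sum_sub_distrib]
    have h1 : ∀ j, |f (dot (v p) (g j)) - f (dot (v p) (g' j))| ≤ D * √(∑ a, (g j a - g' j a) ^ 2) := fun j => by
      refine (Full.Fld.abs_f_sub_le hS _ _).trans (mul_le_mul_of_nonneg_left ?_ hD)
      rw [show dot (v p) (g j) - dot (v p) (g' j) = dot (v p) (fun a => g j a - g' j a) by
        simp [dot, mul_sub, sum_sub_distrib]]
      refine (Full.Fld.abs_dot_le_sqrt _ _).trans_eq ?_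
      rw [hB'.unit, Real.sqrt_one, one_mul]
    refine (abs_sum_le_sum_abs _ _).trans ((sum_le_sum fun j _ => h1 j).trans ?_)
    have h := Real.sum_sqrt_mul_sqrt_le (univ : Finset (Fin M))
      (f := fun _ => D ^ 2) (g := fun j => ∑ a, (g j a - g' j a) ^ 2) (fun _ => sq_nonneg _)
      (fun _ => sum_nonneg fun _ _ => sq_nonneg _)
    simpa [Real.sqrt_sq hD] using h

/-- without patterns only the field is left -/
lemma Based.mean_zero (hB' : Based b v Cb) (hS : Sm f f1 f2 f3 B D) (hB : ∀ x, f x ≤ B) (hR : 1 ≤ k * R₀) :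
    ∫ ω, Fj R₀ k (fun i (g : Fin 0 → Fin N → ℝ) => wV f (b i) v g) v lab lam ω ∂muS I N n (k * R₀) 0 =
      avg fun i => ∫ z, FF R₀ k lam (b i) v lab z ∂gauss (Fin N × Ix (k * R₀) n) := by
  have hw := hB'.fam (M := 0) hS hB
  rw [(mean_fin (I := I) (F := Fj R₀ k (fun i (g : Fin 0 → Fin N → ℝ) => wV f (b i) v g) v lab lam)
    fun i => hw.int_F hR i).2]
  refine congrArg avg (funext fun i => ?_)
  have e : ∀ g : Fin 0 → Fin N → ℝ, wV f (b i) v g = b i := fun g => funext fun p => by simp [wV]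
  simp only [Fj, e]
  rw [integral_fun_snd fun z => FF R₀ k lam (b i) v lab z]
  simp

/-- patterns add at most their number times the bound -/
lemma Based.mean_up (hB' : Based b v Cb) (hS : Sm f f1 f2 f3 B D) (hB : ∀ x, f x ≤ B) (hR : 1 ≤ k * R₀) :
    ∫ ω, Fj R₀ k (fun i (g : Fin M → Fin N → ℝ) => wV f (b i) v g) v lab lam ω ∂muS I N n (k * R₀) M ≤
      ∫ ω, Fj R₀ k (fun i (g : Fin 0 → Fin N → ℝ) => wV f (b i) v g) v lab lam ω ∂muS I N n (k * R₀) 0 +
        M * B := by
  have hb : ∀ x, |f x| ≤ B := fun x => abs_le.2 ⟨hS.lb x, hB x⟩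
  have hw := hB'.fam (M := M) hS hB
  rw [hB'.mean_zero hS hB hR,
    (mean_fin (I := I) (F := Fj R₀ k (fun i (g : Fin M → Fin N → ℝ) => wV f (b i) v g) v lab lam)
      fun i => hw.int_F hR i).2]
  refine (avg_le_avg (g := fun i => (∫ z, FF R₀ k lam (b i) v lab z ∂gauss (Fin N × Ix (k * R₀) n)) + M * B)
    fun i => ?_).trans_eq (by simp [avg, sum_add_distrib, add_div])
  have i0 : Integrable (fun z => FF R₀ k lam (b i) v lab z) (gauss (Fin N × Ix (k * R₀) n)) :=
    ((integrable_const Cb).add (Par.integrable_l1.const_mul (√(N : ℝ) * ∑ j, |lam j|))).mono'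
      (continuous_FF (hB'.pos i)).aestronglyMeasurable
      (Eventually.of_forall fun z => abs_FF_le (hB'.pos i) hB'.unit hR (hB'.bd i) z)
  refine (integral_mono (hw.int_F hR i)
    ((i0.comp_snd (pats N M)).add (integrable_const ((M : ℝ) * B))) fun y => ?_).trans_eq ?_
  · refine sub_le_iff_le_add'.1 ((le_abs_self _).trans (Full.Fld.abs_logZ0_sub_le
      (ok_lin hR (wF_pos (hB'.pos i) y.2)) (wF_pos (hw.pos i y.1) y.2) fun p _ => ?_))
    rw [wF_wV, log_wV (wF_pos (hB'.pos i) _ p), add_sub_cancel_left]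
    exact abs_sum_f_le hb _ y.1
  · rw [integral_add' (i0.comp_snd (pats N M)) (integrable_const _),
      integral_fun_snd fun z => FF R₀ k lam (b i) v lab z]
    simp

omit [Fintype I] [Nonempty I] [MeasurableSpace I] [MeasurableSingletonClass I] in
/-- the mean value with the field is at least the value without it -/
lemma field_ge {w₀ : List Ω → ℝ} (hw : ∀ p, 0 < w₀ p) (hv : ∀ p, dot (v p) (v p) = 1) (hR : 1 ≤ k * R₀) {C : ℝ}
    (hC : ∀ p, |Real.log (w₀ p)| ≤ C) :
    logZ0 (k * R₀) (lin (k * R₀)) w₀ ≤ ∫ z, FF R₀ k lam w₀ v lab z ∂gauss (Fin N × Ix (k * R₀) n) := by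
  set R := k * R₀
  set c : Fin N × Ix R n → ℝ := fun x => ext (lin R) w₀ R [] fun p => fvec R₀ k lam (v p) (p.map lab) x
  have hle : ∀ z, logZ0 R (lin R) w₀ + ∑ x, z x * c x ≤ FF R₀ k lam w₀ v lab z := fun z => by
    have h1 := Par.ext_le_log_nest (ok_lin hR hw) (fun p => dot (fvec R₀ k lam (v p) (p.map lab)) z) R [] (by simp)
    have h2 := Vale.Agent.P168.MP.logZ0_mul (R := R) (m := lin R) hw
      (Y := fun p => Real.exp (dot (fvec R₀ k lam (v p) (p.map lab)) z)) fun p => Real.exp_pos _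
    have h3 : ext (lin R) w₀ R [] (fun p => dot (fvec R₀ k lam (v p) (p.map lab)) z) = ∑ x, z x * c x := by
      simp only [dot, c, ← Vale.Agent.P168.MP.ext_const_mul]
      rw [← Vale.Agent.P168.MP.ext_sum]
      simp only [mul_comm]
    show _ ≤ logZ0 R (lin R) fun p => w₀ p * Real.exp (dot (fvec R₀ k lam (v p) (p.map lab)) z)
    linarith
  have hx : ∀ x : Fin N × Ix R n,
      Integrable (fun z : Fin N × Ix R n → ℝ => z x * c x) (gauss (Fin N × Ix R n)) :=
    fun x => (Par.integrable_l1.mono' (measurable_pi_apply x).aestronglyMeasurable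
      (Eventually.of_forall fun z => Vale.Agent.P150.abs_le_l1 z x)).mul_const _
  have hF : Integrable (fun z => FF R₀ k lam w₀ v lab z) (gauss (Fin N × Ix R n)) :=
    ((integrable_const C).add (Par.integrable_l1.const_mul (√(N : ℝ) * ∑ j, |lam j|))).mono'
      (continuous_FF hw).aestronglyMeasurable (Eventually.of_forall fun z => abs_FF_le hw hv hR hC z)
  have hs : Integrable (fun z : Fin N × Ix R n → ℝ => ∑ x, z x * c x) (gauss (Fin N × Ix R n)) :=
    integrable_finsetSum _ fun x _ => hx x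
  have h0 : ∀ x : Fin N × Ix R n, ∫ z, z x ∂gauss (Fin N × Ix R n) = 0 := fun x => by
    have hm := measurePreserving_eval (fun _ : Fin N × Ix R n => gaussianReal 0 1) x
    rw [gauss, ← integral_map (f := fun t : ℝ => t) hm.measurable.aemeasurable (by fun_prop), hm.map_eq]
    exact integral_id_gaussianReal
  have := integral_mono ((integrable_const (logZ0 R (lin R) w₀)).add hs) hF hle
  rw [integral_add' (integrable_const _) hs, integral_const, probReal_univ, one_smul,
    integral_finsetSum _ fun x _ => hx x] at this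
  simpa [integral_mul_const, h0] using this

/-- **one pattern more** -/
theorem Based.step (hK : KerProf) (hB' : Based b v Cb) (hS : Sm f f1 f2 f3 B D) (hB : ∀ x, f x ≤ B)
    (hR₀ : 1 ≤ R₀) (hk : 1 ≤ k) {Cp Cs KL : ℝ} (hKL : 0 ≤ KL) (hL : Par.PhiLip f KL) (hCp : 0 ≤ Cp) (hCs : 0 ≤ Cs)
    (hP : ∀ {w₀ : List Ω → ℝ}, (∀ p, 0 < w₀ p) →
      |(∫ g, logZ0 (k * R₀) (lin (k * R₀)) (wV f w₀ v g) ∂pats N (M + 1)) -
          (∫ g, logZ0 (k * R₀) (lin (k * R₀)) (wV f w₀ v g) ∂pats N M) -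
          ∫ g, Par.Phi (fun y => Real.exp (f y)) (k * R₀) (lin (k * R₀)) (qV f (k * R₀) w₀ v g) ∂pats N M| ≤
        Cp * ∫ g, adV f (k * R₀) w₀ v g ∂pats N M)
    (hQ : ∀ {w₀ : List Ω → ℝ}, (∀ p, 0 < w₀ p) →
      |(∫ g, Par.Phi (fun y => Real.exp (f y)) (k * R₀) (lin (k * R₀)) (qV f (k * R₀) w₀ v g) ∂pats N (M + 1)) -
          ∫ g, Par.Phi (fun y => Real.exp (f y)) (k * R₀) (lin (k * R₀)) (qV f (k * R₀) w₀ v g) ∂pats N M| ≤
        Cs * KL * ∫ g, adV f (k * R₀) w₀ v g ∂pats N M)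
    {t : ℝ} (had : ∀ (g : Fin M → Fin N → ℝ) z,
      avg (fun i => adF R₀ k lam (wV f (b i) v g) v lab z) ≤ t) :
    Integrable (fun ω => Par.Phi (fun y => Real.exp (f y)) (k * R₀) (lin (k * R₀))
        (rj R₀ k (fun i (g : Fin (M + 1) → Fin N → ℝ) => wV f (b i) v g) v lab lam ω))
      (muS I N n (k * R₀) (M + 1)) ∧
    ∫ ω, Fj R₀ k (fun i (g : Fin (M + 1) → Fin N → ℝ) => wV f (b i) v g) v lab lam ω
        ∂muS I N n (k * R₀) (M + 1) ≤
      ∫ ω, Fj R₀ k (fun i (g : Fin M → Fin N → ℝ) => wV f (b i) v g) v lab lam ω ∂muS I N n (k * R₀) M +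
        ∫ ω, Par.Phi (fun y => Real.exp (f y)) (k * R₀) (lin (k * R₀))
          (rj R₀ k (fun i (g : Fin (M + 1) → Fin N → ℝ) => wV f (b i) v g) v lab lam ω)
          ∂muS I N n (k * R₀) (M + 1) + (Cp + Cs * KL) * t := by
  have hR : 1 ≤ k * R₀ := Nat.one_le_iff_ne_zero.2 (Nat.mul_ne_zero (by omega) (by omega))
  set R := k * R₀
  set Φ : (ℕ → ℝ) → ℝ := Par.Phi (fun y => Real.exp (f y)) R (lin R)
  set ζ := gauss (Fin N × Ix R n)
  have h1 := hB'.fam (M := M + 1) hS hB
  have h0 := hB'.fam (M := M) hS hB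
  set w1 := fun i (g : Fin (M + 1) → Fin N → ℝ) => wV f (b i) v g
  set w0 := fun i (g : Fin M → Fin N → ℝ) => wV f (b i) v g
  have hq : ∀ i (y : YS N n R (M + 1)), Par.Prof R (rj R₀ k w1 v lab lam (i, y)) 1 := fun i y =>
    (hK hR (wF_pos (h1.pos i y.1) y.2) hB'.unit).1
  have hPc : ∀ i, Integrable (fun y : YS N n R (M + 1) => Φ (rj R₀ k w1 v lab lam (i, y))) ((pats N (M + 1)).prod ζ) :=
    fun i => by
      obtain ⟨hc, hb⟩ := Par.cont_functional (F := Φ) hR hKL (fun q q' a c => hL R q q' hR a c)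
        (q := fun y : YS N n R (M + 1) => rj R₀ k w1 v lab lam (i, y)) (hq i) fun l => h1.cont_rF i l
      exact Integrable.of_bound hc.aestronglyMeasurable _
        (Eventually.of_forall fun y => (Real.norm_eq_abs _).trans_le (hb y))
  refine ⟨(mean_fin (I := I) (F := fun ω => Φ (rj R₀ k w1 v lab lam ω)) hPc).1, ?_⟩
  rw [(mean_fin (I := I) (F := Fj R₀ k w1 v lab lam) fun i => h1.int_F hR i).2,
    (mean_fin (I := I) (F := Fj R₀ k w0 v lab lam) fun i => h0.int_F hR i).2,
    (mean_fin (I := I) (F := fun ω => Φ (rj R₀ k w1 v lab lam ω)) hPc).2]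
  have key : ∀ i, ∫ y, Fj R₀ k w1 v lab lam (i, y) ∂(pats N (M + 1)).prod ζ ≤
      ∫ y, Fj R₀ k w0 v lab lam (i, y) ∂(pats N M).prod ζ +
        ∫ y, Φ (rj R₀ k w1 v lab lam (i, y)) ∂(pats N (M + 1)).prod ζ +
        (Cp + Cs * KL) * ∫ y, adF R₀ k lam (w0 i y.1) v lab y.2 ∂(pats N M).prod ζ := fun i => by
    have a1 : Integrable (fun y => Fj R₀ k w1 v lab lam (i, y)) ((pats N (M + 1)).prod ζ) := h1.int_F hR i
    have a0 : Integrable (fun y => Fj R₀ k w0 v lab lam (i, y)) ((pats N M).prod ζ) := h0.int_F hR i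
    have ad : Integrable (fun y : YS N n R M => adF R₀ k lam (w0 i y.1) v lab y.2) ((pats N M).prod ζ) :=
      h0.int_ad i
    rw [integral_prod_symm _ a1, integral_prod_symm _ a0, integral_prod_symm _ (hPc i), integral_prod_symm _ ad,
      ← integral_const_mul, ← integral_add a0.integral_prod_right (hPc i).integral_prod_right, ← integral_add]
    · refine integral_mono a1.integral_prod_right ((a0.integral_prod_right.add (hPc i).integral_prod_right).add
        (ad.integral_prod_right.const_mul _)) fun z => ?_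
      have hw : ∀ p, 0 < wF R₀ k lam (b i) v lab z p := wF_pos (hB'.pos i) z
      have p1 := abs_le.1 (hP hw)
      have p2 := abs_le.1 (hQ hw)
      simp only [Fj, rj, w1, w0, FF, rF, adF, adV, qV, wF_wV, add_mul, Φ] at p1 p2 ⊢
      linarith
    · exact a0.integral_prod_right.add (hPc i).integral_prod_right
    · exact ad.integral_prod_right.const_mul _
  refine (avg_le_avg key).trans ?_
  simp only [avg, sum_add_distrib, add_div, ← mul_sum, mul_div_assoc]
  exact add_le_add le_rfl (mul_le_mul_of_nonneg_left (h0.mean_ad had) (add_nonneg hCp (mul_nonneg hCs hKL)))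

end Vale.Agent.P157.Sph
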