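import Vale.Agent.P157.Sph.Iface

/-! A small residue of the inverse relation gives an admissible profile near the given one: the profile of the
Gaussian site law, divided by its diagonal. -/

open Finset Real

namespace Vale.Agent.P157.Sph

variable {R : ℕ} {q h : ℕ → ℝ} {d0 V : ℝ}

namespace Fix

lemma dd_mono (hh : ∀ l, l + 1 < R → h l ≤ h (l + 1)) : ∀ j, j < R → d0 ≤ dd R d0 h j
  | 0, _ => dd_zero.ge
  | j + 1, hj => by
    rw [dd_succ]
    exact le_add_of_le_of_nonneg (dd_mono hh j (by omega))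
      (mul_nonneg (by positivity) (sub_nonneg.2 (hh j hj)))

/-- the site profile is nonnegative, monotone below the diagonal and bounded -/
lemma rG_facts (hR : 1 ≤ R) (hd : 1 ≤ d0) (hh : Par.Prof R h V) :
    (∀ l ≤ R, 0 ≤ rG R d0 h l ∧ rG R d0 h l ≤ V + 1) ∧
      (∀ l, l < R → rG R d0 h l ≤ rG R d0 h (l + 1)) ∧
        rG R d0 h (R - 1) < rG R d0 h R := by
  have hm : ∀ l, l + 1 < R → h l ≤ h (l + 1) := fun l hl => hh.mono l (by omega)
  have hdd : ∀ j < R, 1 ≤ dd R d0 h j := fun j hj => hd.trans (dd_mono hm j hj)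
  have ht : ∀ j < R - 1, 0 ≤ (h (j + 1) - h j) / (dd R d0 h j * dd R d0 h (j + 1)) ∧
      (h (j + 1) - h j) / (dd R d0 h j * dd R d0 h (j + 1)) ≤ h (j + 1) - h j := fun j hj => by
    have a := hdd j (by omega)
    have b := hdd (j + 1) (by omega)
    have c := sub_nonneg.2 (hm j (by omega))
    exact ⟨div_nonneg c (by positivity), div_le_self c (one_le_mul_of_one_le_of_one_le a b)⟩
  have h0 : 0 ≤ h 0 / d0 ^ 2 ∧ h 0 / d0 ^ 2 ≤ h 0 :=
    ⟨div_nonneg hh.zero (sq_nonneg _), div_le_self hh.zero (by nlinarith)⟩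
  have hsum : ∀ k ≤ R - 1, 0 ≤ ∑ j ∈ range k, (h (j + 1) - h j) / (dd R d0 h j * dd R d0 h (j + 1)) ∧
      ∑ j ∈ range k, (h (j + 1) - h j) / (dd R d0 h j * dd R d0 h (j + 1)) ≤ h k - h 0 := fun k hk =>
    ⟨sum_nonneg fun j hj => (ht j (lt_of_lt_of_le (mem_range.1 hj) hk)).1,
      (sum_le_sum fun j hj => (ht j (lt_of_lt_of_le (mem_range.1 hj) hk)).2).trans_eq (sum_range_sub h k)⟩
  have htop : 0 < 1 / dd R d0 h (R - 1) ∧ 1 / dd R d0 h (R - 1) ≤ 1 := by
    have := hdd (R - 1) (by omega)
    exact ⟨by positivity, (div_le_one (by linarith)).2 this⟩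
  refine ⟨fun l hl => ?_, fun l hl => ?_, ?_⟩
  · have hs := hsum (min l (R - 1)) (min_le_right _ _)
    have hu := (hh.upper (show min l (R - 1) ≤ R by omega)).2
    unfold rG
    split_ifs <;> constructor <;> linarith [h0.1, h0.2, hs.1, hs.2, hu, htop.1, htop.2]
  · rcases Nat.lt_or_ge (l + 1) R with hl1 | hl1
    · simp only [rG, if_pos hl, if_pos hl1, min_eq_left (show l ≤ R - 1 by omega),
        min_eq_left (show l + 1 ≤ R - 1 by omega), sum_range_succ]
      linarith [(ht l (by omega)).1]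
    · simp only [rG, if_pos hl, if_neg (not_lt.2 hl1), min_eq_right (show R - 1 ≤ l + 1 by omega),
        min_eq_right (show R - 1 ≤ l by omega)]
      linarith [htop.1]
  · simp only [rG, if_pos (show R - 1 < R by omega), lt_irrefl, if_false, min_self,
      min_eq_right (show R - 1 ≤ R by omega)]
    linarith [htop.1]

/-- a product with a profile vanishing on the diagonal is small in mean -/
lemma prodU_small (hR : 1 ≤ R) {A B : ℕ → ℝ} {W : ℝ} (hA : ∀ l ≤ R, |A l| ≤ W) (hB : B R = 0) :
    (∑ l ∈ range R, |prodU R A B l|) / R ≤ 6 * W * ((∑ l ∈ range R, |B l|) / R) ∧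
      |prodU R A B R| ≤ W * ((∑ l ∈ range R, |B l|) / R) := by
  have hR0 : (0 : ℝ) < R := by exact_mod_cast hR
  have hW : 0 ≤ W := (abs_nonneg _).trans (hA 0 (Nat.zero_le _))
  set e := (∑ l ∈ range R, |B l|) / R with he
  have hpart : ∀ s : Finset ℕ, s ⊆ range R → |∑ j ∈ s, B j| / R ≤ e := fun s hs =>
    div_le_div_of_nonneg_right ((abs_sum_le_sum_abs _ _).trans
      (sum_le_sum_of_subset_of_nonneg hs fun _ _ _ => abs_nonneg _)) hR0.le
  have hwt : ∀ s : Finset ℕ, s ⊆ range R → |∑ j ∈ s, A j * B j| / R ≤ W * e := fun s hs => by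
    rw [he, ← mul_div_assoc, mul_sum]
    refine div_le_div_of_nonneg_right ((abs_sum_le_sum_abs _ _).trans
      ((sum_le_sum fun j hj => ?_).trans
        (sum_le_sum_of_subset_of_nonneg hs fun j _ _ => mul_nonneg hW (abs_nonneg _)))) hR0.le
    rw [abs_mul]
    exact mul_le_mul_of_nonneg_right (hA j (mem_range.1 (hs hj)).le) (abs_nonneg _)
  constructor
  · have key : ∀ l ∈ range R, |prodU R A B l| ≤ 4 * W * |B l| + 2 * W * e := fun l hl => by
      have hl' := mem_range.1 hl
      have hsub : Ico (l + 1) R ⊆ range R := fun j hj => mem_range.2 (mem_Ico.1 hj).2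
      have e1 : prodU R A B l = A R * B l - (∑ j ∈ range l, A j * B j) / R -
          ((∑ j ∈ Ico (l + 1) R, A j) / R) * B l - A l * ((∑ j ∈ Ico (l + 1) R, B j) / R) -
          ((l + 2 : ℝ) / R) * (A l * B l) := by
        simp only [prodU, if_pos hl', hB]; ring
      have b1 : |A R * B l| ≤ W * |B l| := by
        rw [abs_mul]; exact mul_le_mul_of_nonneg_right (hA R le_rfl) (abs_nonneg _)
      have b2 : |(∑ j ∈ range l, A j * B j) / R| ≤ W * e := by
        rw [abs_div, Nat.abs_cast]; exact hwt _ (range_mono hl'.le)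
      have b3 : |((∑ j ∈ Ico (l + 1) R, A j) / R) * B l| ≤ W * |B l| := by
        rw [abs_mul, abs_div, Nat.abs_cast]
        refine mul_le_mul_of_nonneg_right ?_ (abs_nonneg _)
        rw [div_le_iff₀ hR0]
        refine (abs_sum_le_sum_abs _ _).trans ((sum_le_sum_of_subset_of_nonneg hsub
          fun _ _ _ => abs_nonneg _).trans ?_)
        refine (sum_le_sum (g := fun _ => W) fun j hj => hA j (mem_range.1 hj).le).trans_eq ?_
        rw [sum_const, card_range, nsmul_eq_mul, mul_comm]
      have b4 : |A l * ((∑ j ∈ Ico (l + 1) R, B j) / R)| ≤ W * e := by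
        rw [abs_mul, abs_div, Nat.abs_cast]
        exact mul_le_mul (hA l hl'.le) (hpart _ hsub) (by positivity) hW
      have b5 : |((l + 2 : ℝ) / R) * (A l * B l)| ≤ 2 * (W * |B l|) := by
        have hc : (l + 2 : ℝ) / R ≤ 2 := by
          rw [div_le_iff₀ hR0]
          exact_mod_cast (show l + 2 ≤ 2 * R by omega)
        rw [abs_mul, abs_of_nonneg (show 0 ≤ (l + 2 : ℝ) / R by positivity), abs_mul]
        exact mul_le_mul hc (mul_le_mul_of_nonneg_right (hA l hl'.le) (abs_nonneg _))
          (by positivity) zero_le_two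
      rw [e1, abs_le]
      constructor <;>
        linarith [abs_le.1 b1, abs_le.1 b2, abs_le.1 b3, abs_le.1 b4, abs_le.1 b5]
    refine (div_le_div_of_nonneg_right (sum_le_sum key) hR0.le).trans_eq ?_
    rw [sum_add_distrib, ← mul_sum, sum_const, card_range, nsmul_eq_mul, he]
    field_simp
    ring
  · simp only [prodU, lt_irrefl, if_false, hB, mul_zero, zero_sub, abs_neg, abs_div, Nat.abs_cast]
    exact hwt _ subset_rfl

end Fix

open Vale.Agent.P157.Sph.Fix in
/-- **C**: a small residue gives an admissible profile -/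
theorem profileFix : ProfileFix := by
  intro V hV
  refine ⟨7 * (V + 1) * (V + 1), by positivity, ?_⟩
  intro R hR q h hq hqR hh err
  have hR0 : (0 : ℝ) < R := by exact_mod_cast hR
  have hh0 : ∀ l < R, 0 ≤ h l := fun l hl => (hh.upper hl.le).1
  have hm : ∀ l, l + 1 < R → h l ≤ h (l + 1) := fun l hl => hh.mono l (by omega)
  have hq1 : ∀ l < R, q l ≤ 1 := fun l hl => (hq.upper hl.le).2
  have hroot := one_le_root hR hq1 hh0
  set d0 := root R q h
  set r := rG R d0 h
  obtain ⟨hb, hmono, hlast⟩ := rG_facts hR hroot hh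
  have hrR : 0 < r R := (hb (R - 1) (by omega)).1.trans_lt hlast
  set q' := fun l => if l < R then r l / r R else 1
  have hq' : ∀ l ≤ R, q' l = r l / r R := fun l hl => by
    simp only [q']; split_ifs with hlR
    · rfl
    · rw [show l = R by omega, div_self hrR.ne']
  have hlt : q' (R - 1) < 1 := by
    rw [hq' _ (by omega), div_lt_one hrR]; exact hlast
  have hprof : Par.Prof R q' 1 := by
    refine ⟨?_, fun l hl => ?_, by simp [q']⟩
    · rw [hq' 0 (Nat.zero_le _)]; exact div_nonneg (hb 0 (Nat.zero_le _)).1 hrR.le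
    · rw [hq' l hl.le, hq' (l + 1) hl]; exact div_le_div_of_nonneg_right (hmono l hl) hrR.le
  set E := fun j => if j < R then prodU R (precP R q h) q j else 0
  have hE : (∑ l ∈ range R, |E l|) / R = err :=
    congrArg (· / (R : ℝ)) (sum_congr rfl fun l hl => by simp [E, mem_range.1 hl])
  have hsolve : ∀ l ≤ R, q l - r l = prodU R r E l := fun l hl => solve hR hq1 hh0 hm hqR hl
  obtain ⟨hmean, htop⟩ := prodU_small (B := E) hR (A := r) (W := V + 1)
    (fun l hl => abs_le.2 ⟨by linarith [(hb l hl).1], (hb l hl).2⟩) (by simp [E])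
  rw [hE] at hmean htop
  rw [← hsolve R le_rfl, hqR] at htop
  have herr : 0 ≤ err := by positivity
  have hd : (∑ l ∈ range R, |q l - q' l|) / R ≤ 7 * (V + 1) * err := by
    have hpt : ∀ l ∈ range R, |q l - q' l| ≤ |prodU R r E l| + |1 - r R| := fun l hl => by
      have hl' := mem_range.1 hl
      have hle : r l / r R ≤ 1 := (hq' l hl'.le).symm.trans_le (hprof.upper hl'.le).2
      have hnn : 0 ≤ r l / r R := div_nonneg (hb l hl'.le).1 hrR.le
      rw [show q l - q' l = (q l - r l) - r l / r R * (1 - r R) by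
        rw [hq' l hl'.le]; field_simp; ring, ← hsolve l hl'.le]
      refine (abs_sub _ _).trans (add_le_add le_rfl ?_)
      rw [abs_mul, abs_of_nonneg hnn]
      exact mul_le_of_le_one_left (abs_nonneg _) hle
    refine (div_le_div_of_nonneg_right (sum_le_sum hpt) hR0.le).trans ?_
    rw [sum_add_distrib, add_div, sum_const, card_range, nsmul_eq_mul, mul_div_cancel_left₀ _ hR0.ne']
    linarith
  have hC : 7 * (V + 1) * err ≤ 7 * (V + 1) * (V + 1) * err := by
    refine mul_le_mul_of_nonneg_right ?_ herr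
    nlinarith
  refine ⟨q', ⟨hprof, hlt, by simp [q']⟩, ?_, ?_⟩
  · rw [Par.dist1, hqR, show q' R = 1 by simp [q'], sub_self, abs_zero, add_zero]
    exact hd.trans hC
  -- the slacks of the new profile are all equal
  have hlam : ∀ j < R, DD R q' j = 1 / (dd R d0 h j * r R) := fun j hj => by
    have e : DD R q' j = lam R r j / r R := by
      simp only [DD, lam]
      rw [sum_congr rfl fun l hl => hq' l (mem_Ico.1 hl).2.le, hq' j hj.le, ← sum_div]
      field_simp
    rw [e, show lam R r j = 1 / dd R d0 h j from lam_rG hR (by linarith) hm hj, div_div]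
  have hdd : ∀ j < R, 0 < dd R d0 h j := dd_pos (by linarith) hm
  have hsl : ∀ j < R, slack R d0 q' h j = log (1 / r R) - 1 / r R + 1 := fun j hj => by
    have := hdd j hj
    have e : dd R d0 h j * DD R q' j = 1 / r R := by rw [hlam j hj]; field_simp
    rw [slack, e]
  have hid := psiG_identity (q := q') (h := h) hR (fun l hl => hprof.mono l (by omega)) hlt
    (show 0 < d0 by linarith) hm
  have hz : ∑ j ∈ range (R - 1), (R / (j + 1 : ℝ)) * (slack R d0 q' h (j + 1) - slack R d0 q' h j) = 0 :=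
    sum_eq_zero fun j hj => by
      have := mem_range.1 hj
      rw [hsl (j + 1) (by omega), hsl j (by omega), sub_self, mul_zero]
  have hsle : slack R d0 q' h (R - 1) ≤ 0 :=
    slack_le hR (fun l hl => hprof.mono l (by omega)) hlt (by linarith) hm (by omega)
  have h0 : h 0 * (1 / d0 - DD R q' 0) + d0 * q' 0 = q' 0 / DD R q' 0 := by
    have hd0 : 0 < d0 := by linarith
    rw [hlam 0 (by omega), hq' 0 (Nat.zero_le _), dd_zero,
      show r 0 = h 0 / d0 ^ 2 by simp [r, rG, show 0 < R by omega]]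
    field_simp
    ring
  have hent : entS R q' ≤ psiG R d0 h + (∑ l ∈ range R, h l * q' l) / (2 * R) := by
    rw [hz, h0] at hid
    simp only [entS]
    linarith
  refine hent.trans ?_
  have hlin : (∑ l ∈ range R, h l * q' l) / (2 * R) ≤
      (∑ l ∈ range R, h l * q l) / (2 * R) + V / 2 * ((∑ l ∈ range R, |q l - q' l|) / R) := by
    have e : ∑ l ∈ range R, h l * q' l ≤ ∑ l ∈ range R, h l * q l + V * ∑ l ∈ range R, |q l - q' l| := by
      rw [mul_sum, ← sum_add_distrib]
      refine sum_le_sum fun l hl => ?_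
      obtain ⟨u0, u1⟩ := hh.upper (mem_range.1 hl).le
      nlinarith [mul_le_mul_of_nonneg_right u1 (abs_nonneg (q l - q' l)),
        mul_le_mul_of_nonneg_left (neg_abs_le (q l - q' l)) u0]
    refine (div_le_div_of_nonneg_right e (by positivity)).trans_eq ?_
    field_simp
  nlinarith [mul_le_mul_of_nonneg_left hd (show (0:ℝ) ≤ V / 2 by linarith),
    mul_nonneg (mul_nonneg hV hV) herr, mul_nonneg hV herr]

end Vale.Agent.P157.Sph
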