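import Vale.Agent.P157.Sph.Defs
import Vale.Agent.P157.Full.PertX
import Vale.Agent.P157.Par.Shift

/-! The statements that the modules of the sphere formula exchange. -/

open MeasureTheory ProbabilityTheory Real Finset Filter
open scoped Topology
open Vale.Agent.P150 (gauss dot)
open Vale.Agent.P168.MP (lin ET logZ0 Batch BIdx allBatch gu avg)
open Vale.Agent.P157.Par (Sm Prof adev devOf cv pats dist1 Gm)

namespace Vale.Agent.P157.Sph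

/-- A: smooth bits make the real overlaps pure, uniformly in the hamiltonian -/
def ReadSmall : Prop := ∀ {ε : ℝ}, 0 < ε → ∃ R₀ : ℕ, ∀ R, R₀ ≤ R → ∃ (S G K : ℕ) (h ub c : ℝ),
    0 < S ∧ 0 < G ∧ 0 < K ∧ 0 < h ∧ h ≤ 1 ∧ 0 < ub ∧ ub ≤ 1 ∧ 0 < c ∧ c ≤ 1 ∧
    ∀ [NeZero K] (N : ℕ) [NeZero N] (A Λ : Type) [Fintype A] [Nonempty A] [Fintype Λ] [Nonempty Λ]
      (wt : A → ℝ) (a : A → Fin N → ℝ) (W : (Fin N → ℝ) → List Λ → ℝ),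
      (∀ s, 0 < wt s) → (∀ s, dot (a s) (a s) = 1) → (∀ z x, 0 < W z x) →
      avg (fun r : Fin K → Fin N → Bool => avg fun g : BIdx R 2 → Fin G =>
        adev R (sysA (S := S) (β := allBatch R 2) R W c r wt a (fun _ => h) (gu ub G g)) (cv (vecA R a))
          (qker R (sysA (S := S) (β := allBatch R 2) R W c r wt a (fun _ => h) (gu ub G g)) (cv (vecA R a)))) ≤ ε

/-- A: mean overlaps of a unit reading form a profile -/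
def KerProf : Prop := ∀ {Ω : Type} [Fintype Ω] [Nonempty Ω] {R N : ℕ}, 1 ≤ R →
  ∀ {w : List Ω → ℝ}, (∀ p, 0 < w p) → ∀ {v : List Ω → Fin N → ℝ}, (∀ p, cv v p p = 1) →
    Prof R (qker R w (cv v)) 1 ∧ qker R w (cv v) R = 1

section potential

variable (f f1 f2 : ℝ → ℝ)

/-- B1: concentration of the overlap of the derivatives -/
def QConcV : Prop := ∃ C : ℝ, 0 ≤ C ∧
  ∀ {Ω : Type} [Fintype Ω] [Nonempty Ω] {R N M : ℕ}, 1 ≤ R → 2 ≤ M →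
    ∀ {w₀ : List Ω → ℝ}, (∀ p, 0 < w₀ p) → ∀ {v : List Ω → Fin N → ℝ}, (∀ p, cv v p p = 1) →
    ∀ {t : ℝ}, 0 < t → ∀ {l : ℕ}, l ≤ R →
      ∫ g, devOf R (wV f w₀ v g) (qKV f1 v g) (Gm f f1 R (qV f R w₀ v g)) l ∂pats N M ≤
        t + C / t * ((∫ g, (devOf R (wV f w₀ v g) (cv v) (qV f R w₀ v g) l + adV f R w₀ v g) ∂pats N M) + 1 / M)

/-- B1: one pattern more in the value -/
def PattV : Prop := ∃ C : ℝ, 0 ≤ C ∧
  ∀ {Ω : Type} [Fintype Ω] [Nonempty Ω] {R N M : ℕ}, 1 ≤ R →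
    ∀ {w₀ : List Ω → ℝ}, (∀ p, 0 < w₀ p) → ∀ {v : List Ω → Fin N → ℝ}, (∀ p, cv v p p = 1) →
      |(∫ g, logZ0 R (lin R) (wV f w₀ v g) ∂pats N (M + 1)) - (∫ g, logZ0 R (lin R) (wV f w₀ v g) ∂pats N M) -
          ∫ g, Par.Phi (fun y => exp (f y)) R (lin R) (qV f R w₀ v g) ∂pats N M| ≤
        C * ∫ g, adV f R w₀ v g ∂pats N M

/-- B1: one pattern more in the overlaps and in their deviation -/
def StepV : Prop := ∃ C : ℝ, 0 ≤ C ∧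
  ∀ {Ω : Type} [Fintype Ω] [Nonempty Ω] {R N M : ℕ}, 1 ≤ R →
    ∀ {w₀ : List Ω → ℝ}, (∀ p, 0 < w₀ p) → ∀ {v : List Ω → Fin N → ℝ}, (∀ p, cv v p p = 1) →
      ((∫ g, adV f R w₀ v g ∂pats N (M + 1)) ≤ C * ∫ g, adV f R w₀ v g ∂pats N M) ∧
      ((∫ g, adV f R w₀ v g ∂pats N M) ≤ C * ∫ g, adV f R w₀ v g ∂pats N (M + 1)) ∧
      ∀ (F : (ℕ → ℝ) → ℝ) (L : ℝ), 0 ≤ L →
        (∀ q q', Prof R q 1 → Prof R q' 1 → |F q - F q'| ≤ L * dist1 R q q') →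
        |(∫ g, F (qV f R w₀ v g) ∂pats N (M + 1)) - ∫ g, F (qV f R w₀ v g) ∂pats N M| ≤
          C * L * ∫ g, adV f R w₀ v g ∂pats N M

/-- B2: a fine mesh changes nothing -/
def MeshV : Prop := ∀ (N K R S M : ℕ) [NeZero N] [NeZero K] {ι : Type} [Fintype ι] [DecidableEq ι] (β : ι → Batch)
    (c : ℝ) (r : Fin K → Fin N → Bool) (h u : ι → ℝ), 1 ≤ R → ∀ ε > 0, ∃ η > 0,
    ∀ (A : Type) [Fintype A] [Nonempty A] (wt : A → ℝ) (a : A → Fin N → ℝ), Mesh N η wt a →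
      ∫ g, |logZ0 R (lin R) (sysA (S := S) (β := β) (Λ := Unit) R (hamS f g) c r wt a h u) -
          logZ0 R (lin R) (sys0 (S := S) (β := β) (Λ := Unit) R (hamS f g) c r h u)| ∂pats N M ≤ ε

/-- B2: Stein's identity on the sphere, pattern by pattern -/
def SteinV : Prop := ∀ (N K R S M : ℕ) [NeZero N] [NeZero K] {ι : Type} [Fintype ι] [DecidableEq ι] (β : ι → Batch)
    (c : ℝ) (r : Fin K → Fin N → Bool) (h u : ι → ℝ), 0 ≤ c → 1 ≤ R → ∀ ε > 0, ∃ η > 0,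
    ∀ (A : Type) [Fintype A] [Nonempty A] (wt : A → ℝ) (a : A → Fin N → ℝ), Mesh N η wt a → ∀ l, l < R →
      let w₀ := sysA (S := S) (β := β) (Λ := Unit) R (fun _ _ => 1) c r wt a h u
      ∫ g, |qV f R w₀ (vecA R a) g l - steinR f1 R (wV f w₀ (vecA R a) g) (vecA R a) g l| ∂pats N M ≤
        (1 + 4 * K * c * √(N : ℝ)) / N + ε

/-- B3: the inverse relation between the overlaps and their field path -/
def EResV : Prop := ∀ {α : ℝ}, 0 ≤ α → ∀ {t : ℝ}, 0 < t → ∃ C : ℝ, 0 ≤ C ∧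
  ∀ {Ω : Type} [Fintype Ω] [Nonempty Ω] {R N M : ℕ} [NeZero N], 1 ≤ R → 2 ≤ M → |(M : ℝ) / N - α| ≤ 1 →
    ∀ {w₀ : List Ω → ℝ}, (∀ p, 0 < w₀ p) → ∀ {v : List Ω → Fin N → ℝ}, (∀ p, cv v p p = 1) →
      ∫ g, eRes α f f1 R (qV f R w₀ v g) ∂pats N M ≤
        t + C * ((∫ g, (∑ l ∈ range R, |qV f R w₀ v g l - steinR f1 R (wV f w₀ v g) v g l|) / R ∂pats N M) +
          (∫ g, adV f R w₀ v g ∂pats N M) + |(M : ℝ) / N - α| + 1 / M)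

/-- B3: concentration of the radial term -/
def RadV : Prop := ∀ {α : ℝ}, 0 ≤ α → ∀ {t : ℝ}, 0 < t → ∃ C : ℝ, 0 ≤ C ∧
  ∀ {Ω : Type} [Fintype Ω] [Nonempty Ω] {R N M : ℕ} [NeZero N], 1 ≤ R → 2 ≤ M → |(M : ℝ) / N - α| ≤ 1 →
    ∀ {w₀ : List Ω → ℝ}, (∀ p, 0 < w₀ p) → ∀ {v : List Ω → Fin N → ℝ}, (∀ p, cv v p p = 1) →
      ∫ g, ET R (lin R) (wV f w₀ v g) [(0, 0)] (fun ps => |radU f1 f2 v g (ps.getD 0 []) +
          hqTop R (hOf α f f1 R (qV f R w₀ v g)) (qV f R w₀ v g)|) ∂pats N M ≤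
        t + C * ((∫ g, adV f R w₀ v g ∂pats N M) + |(M : ℝ) / N - α| + 1 / M)

/-- D2: one dimension more -/
def DimV : Prop := ∀ {α : ℝ}, 0 < α → ∀ {L : ℝ}, 1 ≤ L → ∀ {ε : ℝ}, 0 < ε → ∃ C : ℝ, 0 ≤ C ∧
  ∀ {ι : Type} [Fintype ι] [DecidableEq ι] (β : ι → Batch) (R S K : ℕ) [NeZero K] (c : ℝ) (h u : ι → ℝ),
    1 ≤ R → 0 ≤ c → c ≤ 1 → (∀ j, |h j| ≤ 1) → (∀ j, |u j| ≤ 1) → ∃ N₀ : ℕ, ∀ (N : ℕ) [NeZero N], N₀ ≤ N →
    ∀ M : ℕ, |(M : ℝ) - α * (N + 1)| ≤ 1 → ∃ η > 0,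
    ∀ (A : Type) [Fintype A] [Nonempty A] (wt : A → ℝ) (a : A → Fin N → ℝ), Mesh N η wt a →
      let w₀ := fun r => sysA (S := S) (β := β) (Λ := Unit) R (fun _ _ => 1) c r wt a h u
      let q := fun r (g : Fin M → Fin N → ℝ) => qV f R (w₀ r) (vecA R a) g
      avg (fun r : Fin K → Fin N → Bool => ∫ g,
          Par.Phi (fun y => exp (eL (1 + hqTop R (hOf α f f1 R (q r g)) (q r g)) L y)) R (lin R)
            (hOf α f f1 R (q r g)) ∂pats N M) -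
        ε - C * avg (fun r : Fin K → Fin N → Bool => ∫ g, adV f R (w₀ r) (vecA R a) g ∂pats N M) ≤
      pertS f R S β c K h u (N + 1) M - pertS f R S β c K h u N M

end potential

/-- D1: the truncated site is almost the Gaussian one -/
def SiteTrunc : Prop := ∀ {V : ℝ}, 0 ≤ V → ∃ C : ℝ, 0 ≤ C ∧ ∀ {L : ℝ}, 1 ≤ L → ∀ {R : ℕ}, 1 ≤ R →
  ∀ {h : ℕ → ℝ}, Prof R h V → ∀ {d0 : ℝ}, 1 ≤ d0 → d0 ≤ 1 + V →
    let b := dd R d0 h (R - 1) + h R - h (R - 1)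
    psiG R d0 h - (b - 1 - h R) / 2 - C / L ^ 2 ≤ Par.Phi (fun y => exp (eL b L y)) R (lin R) h

/-- D1: the truncated site is a smooth potential, uniformly in its curvature -/
def SiteSm : Prop := ∀ {L : ℝ}, 1 ≤ L → ∀ V : ℝ, ∃ B D : ℝ, ∀ b : ℝ, |b| ≤ V →
  (∃ f1 f2 f3, Sm (eL b L) f1 f2 f3 B D) ∧ ∀ b' y, |b'| ≤ V → |eL b L y - eL b' L y| ≤ L ^ 2 * |b - b'|

/-- C: a small residue gives an admissible profile -/
def ProfileFix : Prop := ∀ {V : ℝ}, 0 ≤ V → ∃ C : ℝ, 0 ≤ C ∧ ∀ {R : ℕ}, 1 ≤ R →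
  ∀ {q h : ℕ → ℝ}, Prof R q 1 → q R = 1 → Prof R h V →
    let err := (∑ l ∈ range R, |prodU R (precP R q h) q l|) / R
    ∃ q', Adm R q' ∧ dist1 R q q' ≤ C * err ∧
      entS R q' ≤ psiG R (root R q h) h + (∑ l ∈ range R, h l * q l) / (2 * R) + C * err

/-- E: the lower bound -/
def LowerS : Prop := ∀ {f f1 f2 f3 : ℝ → ℝ} {B D : ℝ}, Sm f f1 f2 f3 B D → (∀ x, f x ≤ B) → ∀ {α : ℝ}, 0 < α →
  ∀ s : ℝ, (∀ (R : ℕ) (q : ℕ → ℝ), 1 ≤ R → Adm R q → s ≤ valS α f R q) →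
  ∀ ε > 0, ∀ᶠ N : ℕ in atTop, s - ε ≤ pressure (sphereUniform N) f ⌊α * N⌋₊

/-- F and G: the upper bound -/
def UpperS : Prop := ∀ {f f1 f2 f3 : ℝ → ℝ} {B D : ℝ}, Sm f f1 f2 f3 B D → (∀ x, f x ≤ B) → ∀ {α : ℝ}, 0 < α →
  ∀ (R : ℕ) (q : ℕ → ℝ), 1 ≤ R → Adm R q →
  ∀ ε > 0, ∀ᶠ N : ℕ in atTop, pressure (sphereUniform N) f ⌊α * N⌋₊ ≤ valS α f R q + ε

/-- H: the formula -/
def SphereFormula : Prop := ∀ {f : ℝ → ℝ} {B : ℝ}, Measurable f → (∀ x, |f x| ≤ B) → ∀ {α : ℝ}, 0 < α →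
  (sphereValues (fun y => exp (f y)) α).Nonempty ∧ BddBelow (sphereValues (fun y => exp (f y)) α) ∧
  Tendsto (fun N : ℕ => pressure (sphereUniform N) f ⌊α * N⌋₊) atTop
    (𝓝 (sInf (sphereValues (fun y => exp (f y)) α)))

end Vale.Agent.P157.Sph
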