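import Vale.Agent.P157.Sph.LowerPt

/-! The lower bound on the sphere from its modules: telescope in the dimension. -/

open MeasureTheory ProbabilityTheory Real Finset Filter
open scoped Topology
open Vale.Agent.P150 (gauss dot)
open Vale.Agent.P168.MP (lin ET logZ0 Batch BIdx allBatch gu gainCap avg avg_const avg_le_avg)
open Vale.Agent.P157.Lim (dirLaw)
open Vale.Agent.P157.Par (Sm Prof cv pats dist1)

namespace Vale.Agent.P157.Sph

set_option linter.unusedSectionVars false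

variable {f f1 f2 f3 : ℝ → ℝ} {B D α : ℝ} {N K R S : ℕ}

section avg
variable {T : Type} [Fintype T] [Nonempty T]

lemma avg_add (F G : T → ℝ) : avg (fun t => F t + G t) = avg F + avg G := by
  simp only [avg, sum_add_distrib, add_div]

lemma avg_sub (F G : T → ℝ) : avg (fun t => F t - G t) = avg F - avg G := by
  simp only [avg, sum_sub_distrib, sub_div]

lemma avg_mul (c : ℝ) (F : T → ℝ) : avg (fun t => c * F t) = c * avg F := by
  simp only [avg, ← mul_sum, mul_div_assoc]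

lemma avg_comm' {U : Type} [Fintype U] [Nonempty U] (F : T → U → ℝ) :
    avg (fun t => avg fun u => F t u) = avg fun u => avg fun t => F t u := by
  simp only [avg, ← sum_div]
  rw [sum_comm, div_right_comm]

end avg

section level
variable [NeZero N] [NeZero K] {ι : Type} [Fintype ι] [DecidableEq ι] {β : ι → Batch}
  {A : Type} [Fintype A] [Nonempty A]

/-- the system with atoms and no patterns -/
noncomputable abbrev base₀ (R S : ℕ) (β : ι → Batch) (c : ℝ) (r : Fin K → Fin N → Bool) (wt : A → ℝ)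
    (a : A → Fin N → ℝ) (h u : ι → ℝ) : List (MkA A Unit K S β) → ℝ :=
  sysA R (fun _ _ => 1) c r wt a h u

lemma integrable_logZ0_sysA (hR : 1 ≤ R) (hf : Continuous f) (hb : ∀ x, |f x| ≤ B) (c : ℝ)
    (r : Fin K → Fin N → Bool) {wt : A → ℝ} (hwt : ∀ s, 0 < wt s) (a : A → Fin N → ℝ) (h u : ι → ℝ) (M : ℕ) :
    Integrable (fun g : Fin M → Fin N → ℝ =>
      logZ0 R (lin R) (wV f (base₀ R S β c r wt a h u) (vecA R a) g)) (pats N M) := by
  set w₀ := base₀ R S β c r wt a h u
  have hw : ∀ p, 0 < w₀ p := sysA_pos (fun _ _ => one_pos) c r hwt a h u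
  have hm := Vale.Agent.P168.MP.ok_lin hR hw
  refine Integrable.of_bound (Par.continuous_logZ0 (continuous_wV hf w₀ _) (fun g => wV_pos hw _ g) R).aestronglyMeasurable
    (|logZ0 R (lin R) w₀| + M * B) (Eventually.of_forall fun g => ?_)
  have h1 := Vale.Agent.P168.MP.logZ0_mul (R := R) (m := lin R) hw
    (Y := fun p => exp (∑ i, f (dot (vecA R a p) (g i)))) fun p => exp_pos _
  have h2 := Par.abs_log_nest_le hm (Y := fun p => exp (∑ i, f (dot (vecA R a p) (g i)))) (b := M * B) fun p => by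
    have := abs_le.1 (abs_log_ham hb g (vecA R a p))
    exact ⟨exp_le_exp.2 this.1, exp_le_exp.2 this.2⟩
  rw [← h1] at h2
  rw [norm_eq_abs]
  show |logZ0 R (lin R) (fun p => w₀ p * exp (∑ i, f (dot (vecA R a p) (g i))))| ≤ _
  linarith [abs_sub_abs_le_abs_sub (logZ0 R (lin R) fun p => w₀ p * exp (∑ i, f (dot (vecA R a p) (g i))))
    (logZ0 R (lin R) w₀)]

/-- the pair of Stein residue and residue of the inverse relation -/
lemma eRes_le (hS : Sm f f1 f2 f3 B D) (hK : KerProf) (hR : 1 ≤ R) (hα : 0 ≤ α) {M : ℕ}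
    {Ω : Type} [Fintype Ω] [Nonempty Ω] {w₀ : List Ω → ℝ} (hw : ∀ p, 0 < w₀ p) {v : List Ω → Fin N → ℝ}
    (hv : ∀ p, cv v p p = 1) :
    Integrable (fun g : Fin M → Fin N → ℝ => eRes α f f1 R (qV f R w₀ v g)) (pats N M) := by
  have hq : ∀ g : Fin M → Fin N → ℝ, Prof R (qV f R w₀ v g) 1 ∧ qV f R w₀ v g R = 1 := fun g =>
    hK hR (wV_pos hw v g) hv
  set V := α * D ^ 2
  have hR' : (0:ℝ) < R := by exact_mod_cast hR
  refine Integrable.of_bound (continuous_eRes hS hR (fun g => (hq g).1)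
    (continuous_qV hS.sd.cont0 hw v)).aestronglyMeasurable (1 + 9 * V) (Eventually.of_forall fun g => ?_)
  rw [norm_eq_abs, eRes, abs_of_nonneg (div_nonneg (sum_nonneg fun _ _ => abs_nonneg _) hR'.le),
    div_le_iff₀ hR']
  refine (sum_le_sum (g := fun _ => 1 + 9 * V) fun l hl => ?_).trans_eq (by simp; ring)
  obtain ⟨hQ, hQR⟩ := hq g
  set q := qV f R w₀ v g
  set h := hOf α f f1 R q
  have hp : Prof R h V := hOf_prof hS hα hR hQ
  have hl' := mem_range.1 hl
  have hb : ∀ j < R, |precP R q h j| ≤ V := fun j hj => by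
    simp only [precP, if_pos hj, abs_neg, abs_of_nonneg (hp.upper hj.le).1]; exact (hp.upper hj.le).2
  have hq1 : ∀ j ≤ R, |q j| ≤ 1 := fun j hj => abs_le.2 ⟨by linarith [(hQ.upper hj).1], (hQ.upper hj).2⟩
  have hV : 0 ≤ V := (abs_nonneg _).trans (hb l hl')
  have hT : |precP R q h R| ≤ 1 + V := by
    simp only [precP, lt_irrefl, if_false]
    refine (abs_sub _ _).trans (add_le_add (by simp) ?_)
    rw [abs_div, abs_of_pos hR', div_le_iff₀ hR']
    refine (abs_sum_le_sum_abs _ _).trans ((sum_le_sum (g := fun _ => V) fun j hj => ?_).trans_eq (by simp [mul_comm]))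
    rw [abs_mul, abs_of_nonneg (hp.upper (mem_range.1 hj).le).1]
    exact (mul_le_of_le_one_right (hp.upper (mem_range.1 hj).le).1 (hq1 j (mem_range.1 hj).le)).trans
      (hp.upper (mem_range.1 hj).le).2
  have hs : ∀ (s : Finset ℕ) (F : ℕ → ℝ) (c : ℝ), s ⊆ range R → (∀ j ∈ s, |F j| ≤ c) → 0 ≤ c →
      |∑ j ∈ s, F j| ≤ R * c := fun s F c hsub hF hc => by
    refine (abs_sum_le_sum_abs _ _).trans ((sum_le_sum hF).trans ?_)
    rw [sum_const, nsmul_eq_mul]
    exact mul_le_mul_of_nonneg_right (by exact_mod_cast (card_le_card hsub).trans_eq (card_range R)) hc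
  have s1 := hs (range l) (fun j => precP R q h j * q j) V (range_mono hl'.le) (fun j hj => by
    have hjR : j < R := (mem_range.1 hj).trans hl'
    rw [abs_mul]; exact (mul_le_of_le_one_right (abs_nonneg _) (hq1 j hjR.le)).trans (hb j hjR)) hV
  have s2 := hs (Ico (l + 1) R) (precP R q h) V (fun j hj => mem_range.2 (mem_Ico.1 hj).2)
    (fun j hj => hb j (mem_Ico.1 hj).2) hV
  have s3 := hs (Ico (l + 1) R) q 1 (fun j hj => mem_range.2 (mem_Ico.1 hj).2)
    (fun j hj => hq1 j (mem_Ico.1 hj).2.le) zero_le_one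
  have q1 := hq1 l hl'.le
  have p1 := hb l hl'
  have hl2 : ((l:ℝ) + 2) / R ≤ 3 := by
    rw [div_le_iff₀ hR']
    have : (l:ℝ) + 1 ≤ R := by exact_mod_cast hl'
    linarith [show (1:ℝ) ≤ R by exact_mod_cast hR]
  simp only [prodU, if_pos hl']
  refine (abs_sub _ _).trans (le_trans (add_le_add ((abs_sub _ _).trans (add_le_add
    (b := (1 + V) + V) (d := 3 * V) ((abs_add_le _ _).trans (add_le_add ?_ ?_)) ?_))
    (b := (1 + V) + V + 3 * V) (d := 3 * V) ?_) (by linarith))
  · rw [abs_mul]; exact (mul_le_of_le_one_right (abs_nonneg _) q1).trans hT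
  · rw [abs_mul]; exact (mul_le_of_le_one_right (abs_nonneg _) (hq1 R le_rfl)).trans p1
  · rw [abs_div, abs_of_pos hR', div_le_iff₀ hR']
    refine (abs_add_le _ _).trans ((add_le_add ((abs_add_le _ _).trans (add_le_add s1 ?_)) ?_).trans_eq
      (by ring : (R:ℝ) * V + R * V + R * V = 3 * V * R))
    · rw [abs_mul]; exact (mul_le_of_le_one_right (abs_nonneg _) q1).trans s2
    · rw [abs_mul, mul_comm (R:ℝ)]
      exact (mul_le_mul p1 s3 (abs_nonneg _) hV).trans_eq (by ring)
  · rw [abs_mul, abs_mul, abs_of_nonneg (show (0:ℝ) ≤ ((l:ℝ) + 2) / R by positivity)]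
    exact mul_le_mul hl2 ((mul_le_of_le_one_right (abs_nonneg _) q1).trans p1)
      (mul_nonneg (abs_nonneg _) (abs_nonneg _)) (by norm_num)

end level

lemma int_affine' {X : Type*} [MeasurableSpace X] {μ : Measure X} [IsProbabilityMeasure μ] {F G : X → ℝ} {a b c s : ℝ}
    (hF : Integrable F μ) (hG : Integrable G μ) : Integrable (fun x => s - a * F x - b * G x - c) μ :=
  (((integrable_const s).sub (hF.const_mul a)).sub (hG.const_mul b)).sub (integrable_const c)

lemma int_affine {X : Type*} [MeasurableSpace X] {μ : Measure X} [IsProbabilityMeasure μ] {F G : X → ℝ} {a b c s : ℝ}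
    (hF : Integrable F μ) (hG : Integrable G μ) :
    ∫ x, (s - a * F x - b * G x - c) ∂μ = s - a * (∫ x, F x ∂μ) - b * (∫ x, G x ∂μ) - c := by
  have e : (fun x => s - a * F x - b * G x - c) = fun x => (s - c) + ((-a) * F x + (-b) * G x) := by funext x; ring
  have h : Integrable (fun x => -a * F x + -b * G x) μ := (hF.const_mul (-a)).add (hG.const_mul (-b))
  rw [e, integral_add (integrable_const _) h, integral_add (f := fun x => -a * F x) (g := fun x => -b * G x)
    (hF.const_mul _) (hG.const_mul _), integral_const_mul, integral_const_mul]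
  simp; ring

/-- the constants of one dimension step -/
structure Consts where
  /-- Lipschitz constant of the pattern functional -/
  KL : ℝ
  /-- constant of the profile repair -/
  C4 : ℝ
  /-- constant of the residue -/
  CE : ℝ
  /-- tolerance of the residue -/
  tE : ℝ
  /-- constant of one dimension -/
  CD : ℝ
  /-- constant of one pattern in the value -/
  CP : ℝ
  /-- constant of one pattern in the overlaps -/
  CS : ℝ

/-- **one dimension step at fixed strengths and mesh** -/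
theorem step_core [NeZero N] [NeZero K] {ι : Type} [Fintype ι] [DecidableEq ι] {β : ι → Batch}
    {A : Type} [Fintype A] [Nonempty A]
    (hS : Sm f f1 f2 f3 B D) (hB : ∀ x, f x ≤ B) (hK : KerProf) (hT : SiteSm) (hα : 0 < α) (hR : 1 ≤ R)
    {c L δ ρ C5 s : ℝ} {h u : ι → ℝ} {wt : A → ℝ} {a : A → Fin N → ℝ} (hL : 1 ≤ L) (k : Consts)
    (hKL : 0 ≤ k.KL) (hC4 : 0 ≤ k.C4) (hCE : 0 ≤ k.CE) (hCP : 0 ≤ k.CP) (hCS : 0 ≤ k.CS)
    (hh : ∀ j, |h j| ≤ 1) (hu : ∀ j, |u j| ≤ 1)
    (hwt : ∀ x, 0 < wt x) (ha : ∀ x, dot (a x) (a x) = 1)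
    {M₀ M' : ℕ} (hM₀ : M₀ = ⌊α * (N:ℝ)⌋₊) (hM' : M' = ⌊α * ((N:ℝ) + 1)⌋₊)
    (hpt : ∀ {q : ℕ → ℝ}, Prof R q 1 → q R = 1 →
      s - α * Par.Phi (fun y => exp (f y)) R (lin R) q - (α * k.KL + 1) * k.C4 * eRes α f f1 R q - C5 / L ^ 2 ≤
        Par.Phi (fun y => exp (eL (1 + hqTop R (hOf α f f1 R q) q) L y)) R (lin R) (hOf α f f1 R q))
    (hPL : Par.PhiLip f k.KL)
    (hE : ∀ M : ℕ, (M = M' ∨ M = M' + 1) → ∀ (r : Fin K → Fin N → Bool), ∫ g, eRes α f f1 R (qV f R (base₀ R S β c r wt a h u) (vecA R a) g) ∂pats N M ≤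
      k.tE + k.CE * ((∫ g, adV f R (base₀ R S β c r wt a h u) (vecA R a) g ∂pats N M) + ρ))
    (hD : ∀ M : ℕ, (M = M' ∨ M = M' + 1) →
      avg (fun r : Fin K → Fin N → Bool => ∫ g,
          Par.Phi (fun y => exp (eL (1 + hqTop R (hOf α f f1 R (qV f R (base₀ R S β c r wt a h u) (vecA R a) g))
            (qV f R (base₀ R S β c r wt a h u) (vecA R a) g)) L y)) R (lin R)
            (hOf α f f1 R (qV f R (base₀ R S β c r wt a h u) (vecA R a) g)) ∂pats N M) -
        δ - k.CD * avg (fun r : Fin K → Fin N → Bool =>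
          ∫ g, adV f R (base₀ R S β c r wt a h u) (vecA R a) g ∂pats N M) ≤
      pertS f R S β c K h u (N + 1) M - pertS f R S β c K h u N M)
    (hP : ∀ (M : ℕ) (r : Fin K → Fin N → Bool), |(∫ g, logZ0 R (lin R) (wV f (base₀ R S β c r wt a h u) (vecA R a) g) ∂pats N (M + 1)) -
        (∫ g, logZ0 R (lin R) (wV f (base₀ R S β c r wt a h u) (vecA R a) g) ∂pats N M) -
        ∫ g, Par.Phi (fun y => exp (f y)) R (lin R) (qV f R (base₀ R S β c r wt a h u) (vecA R a) g) ∂pats N M| ≤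
      k.CP * ∫ g, adV f R (base₀ R S β c r wt a h u) (vecA R a) g ∂pats N M)
    (hQ : ∀ (M : ℕ) (r : Fin K → Fin N → Bool), |(∫ g, Par.Phi (fun y => exp (f y)) R (lin R) (qV f R (base₀ R S β c r wt a h u) (vecA R a) g) ∂pats N (M + 1)) -
        ∫ g, Par.Phi (fun y => exp (f y)) R (lin R) (qV f R (base₀ R S β c r wt a h u) (vecA R a) g) ∂pats N M| ≤
      k.CS * k.KL * ∫ g, adV f R (base₀ R S β c r wt a h u) (vecA R a) g ∂pats N M)
    (hmesh : ∀ M : ℕ, M₀ ≤ M → M ≤ M' + 1 → ∀ (r : Fin K → Fin N → Bool), ∫ g,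
      |logZ0 R (lin R) (sysA (S := S) (β := β) (Λ := Unit) R (hamS f g) c r wt a h u) -
        logZ0 R (lin R) (sys0 (S := S) (β := β) (Λ := Unit) R (hamS f g) c r h u)| ∂pats N M ≤ δ / (α + 1)) :
    s - C5 / L ^ 2 - (α * k.KL + 1) * k.C4 * (k.tE + k.CE * ρ) - 3 * δ -
        ((α * k.KL + 1) * k.C4 * k.CE + |k.CD| + α * (k.CP + 2 * (k.CS * k.KL))) *
          ∑ i ∈ range (⌈α⌉₊ + 3), avg (fun r : Fin K → Fin N → Bool =>
            ∫ g, adV f R (base₀ R S β c r wt a h u) (vecA R a) g ∂pats N (M₀ + i)) ≤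
      pertSI f R S β c K h u (N + 1) (α * ((N:ℝ) + 1)) - pertSI f R S β c K h u N (α * N) := by
  have hf := hS.sd.cont0
  have hb := Sm.absB hS hB
  set w₀ := fun r : Fin K → Fin N → Bool => base₀ R S β c r wt a h u
  have hw : ∀ r p, 0 < w₀ r p := fun r => sysA_pos (fun _ _ => one_pos) c r hwt a h u
  have hv : ∀ p : List (MkA A Unit K S β), cv (vecA R a) p p = 1 := cv_vecA ha
  set X := fun M => avg fun r : Fin K → Fin N → Bool => ∫ g, adV f R (w₀ r) (vecA R a) g ∂pats N M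
  have hX : ∀ M, 0 ≤ X M := fun M => div_nonneg (sum_nonneg fun r _ =>
    integral_nonneg fun g => adV_nonneg (hw r) _ g) (Nat.cast_nonneg _)
  set T := ∑ i ∈ range (⌈α⌉₊ + 3), X (M₀ + i)
  have hT0 : 0 ≤ T := sum_nonneg fun i _ => hX _
  have hMM : M₀ ≤ M' := by rw [hM₀, hM']; exact Nat.floor_le_floor (by nlinarith)
  have hM'J : M' + 1 < M₀ + (⌈α⌉₊ + 3) := by
    have h1 : (M' : ℝ) ≤ α * ((N:ℝ) + 1) := hM' ▸ Nat.floor_le (by positivity)
    have h2 : α * (N:ℝ) < M₀ + 1 := hM₀ ▸ Nat.lt_floor_add_one _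
    have h3 := Nat.le_ceil α
    have : (M':ℝ) < ((M₀ + ⌈α⌉₊ + 2 : ℕ) : ℝ) := by push_cast; nlinarith
    have : M' < M₀ + ⌈α⌉₊ + 2 := by exact_mod_cast this
    omega
  have hXT : ∀ M, M₀ ≤ M → M ≤ M' + 1 → X M ≤ T := fun M h1 h2 => by
    obtain ⟨i, rfl⟩ := Nat.exists_eq_add_of_le h1
    exact single_le_sum (f := fun i => X (M₀ + i)) (fun i _ => hX _) (mem_range.2 (by omega))
  set P := fun M => avg fun r : Fin K → Fin N → Bool =>
    ∫ g, Par.Phi (fun y => exp (f y)) R (lin R) (qV f R (w₀ r) (vecA R a) g) ∂pats N M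
  have hPs : ∀ M, |P (M + 1) - P M| ≤ k.CS * k.KL * X M := fun M => by
    simp only [P, X, ← avg_sub, ← avg_mul]
    refine abs_le.2 ⟨?_, avg_le_avg fun r => (abs_le.1 (hQ M r)).2⟩
    rw [neg_eq_neg_one_mul, ← avg_mul]
    exact avg_le_avg fun r => by linarith [(abs_le.1 (hQ M r)).1]
  have hP0 : ∀ j, M₀ + j ≤ M' + 1 → |P (M₀ + j) - P M₀| ≤ k.CS * k.KL * ∑ i ∈ range j, X (M₀ + i) := by
    intro j
    induction j with
    | zero => simp
    | succ j ih =>
      intro hj
      have h1 := hPs (M₀ + j)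
      have h2 := ih (by omega)
      rw [sum_range_succ, mul_add, ← Nat.add_assoc]
      calc |P (M₀ + j + 1) - P M₀| ≤ |P (M₀ + j + 1) - P (M₀ + j)| + |P (M₀ + j) - P M₀| := abs_sub_le _ _ _
        _ ≤ _ := by linarith
  have hPT : ∀ M, M₀ ≤ M → M ≤ M' + 1 → |P M - P M₀| ≤ k.CS * k.KL * T := fun M h1 h2 => by
    obtain ⟨j, rfl⟩ := Nat.exists_eq_add_of_le h1
    exact (hP0 j h2).trans (mul_le_mul_of_nonneg_left
      (sum_le_sum_of_subset_of_nonneg (range_mono (by omega)) fun i _ _ => hX _) (mul_nonneg hCS hKL))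
  -- patterns at `N`
  have hpatt : ∀ M, M₀ ≤ M → M ≤ M' → P M₀ - 2 * (δ / (α + 1)) - (k.CP + k.CS * k.KL) * T ≤
      pertS f R S β c K h u N (M + 1) - pertS f R S β c K h u N M := by
    intro M h1 h2
    have key : ∀ r, (∫ g, Par.Phi (fun y => exp (f y)) R (lin R) (qV f R (w₀ r) (vecA R a) g) ∂pats N M) -
        2 * (δ / (α + 1)) - k.CP * ∫ g, adV f R (w₀ r) (vecA R a) g ∂pats N M ≤
        (∫ g, logZ0 R (lin R) (sys0 (S := S) (β := β) (Λ := Unit) R (hamS f g) c r h u) ∂pats N (M + 1)) -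
        ∫ g, logZ0 R (lin R) (sys0 (S := S) (β := β) (Λ := Unit) R (hamS f g) c r h u) ∂pats N M := by
      intro r
      have hd : ∀ M, M₀ ≤ M → M ≤ M' + 1 →
          |(∫ g, logZ0 R (lin R) (wV f (w₀ r) (vecA R a) g) ∂pats N M) -
            ∫ g, logZ0 R (lin R) (sys0 (S := S) (β := β) (Λ := Unit) R (hamS f g) c r h u) ∂pats N M| ≤
          δ / (α + 1) := fun M h1 h2 => by
        rw [← integral_sub (integrable_logZ0_sysA hR hf hb c r hwt a h u M)
          (integrable_logZ0_sys0 hR hf hb hh hu c r)]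
        refine abs_integral_le_integral_abs.trans (le_of_eq_of_le ?_ (hmesh M h1 h2 r))
        simp only [sysA_ham]
      obtain ⟨a1, -⟩ := abs_le.1 (hP M r)
      obtain ⟨b2, -⟩ := abs_le.1 (hd M h1 (by omega))
      obtain ⟨c1, c2⟩ := abs_le.1 (hd (M + 1) (by omega) (by omega))
      simp only [w₀] at *
      linarith
    have h3 := avg_le_avg key
    rw [avg_sub, avg_sub, avg_sub, avg_const, avg_mul] at h3
    have h4 := (abs_le.1 (hPT M h1 (by omega))).1
    have h5 := mul_le_mul_of_nonneg_left (hXT M h1 (by omega)) hCP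
    simp only [pertS]
    simp only [P, X] at h3 h4 h5 ⊢
    linarith
  have hx : 0 ≤ α * (N:ℝ) := by positivity
  have hint := Par.interp_lower (G := fun M => pertS f R S β c K h u N M) hx
    (x' := α * ((N:ℝ) + 1)) (by nlinarith) (fun M h1 h2 => hpatt M (hM₀ ▸ h1) (hM' ▸ h2))
  -- one dimension more at the two neighbouring numbers of patterns
  have hdim : ∀ M, (M = M' ∨ M = M' + 1) →
      s - α * P M₀ - C5 / L ^ 2 - (α * k.KL + 1) * k.C4 * (k.tE + k.CE * ρ) - δ -
        ((α * k.KL + 1) * k.C4 * k.CE + |k.CD| + α * (k.CS * k.KL)) * T ≤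
      pertS f R S β c K h u (N + 1) M - pertS f R S β c K h u N M := by
    intro M hM
    have hM1 : M₀ ≤ M := by omega
    have hM2 : M ≤ M' + 1 := by omega
    have key : ∀ r, s - α * (∫ g, Par.Phi (fun y => exp (f y)) R (lin R) (qV f R (w₀ r) (vecA R a) g) ∂pats N M) -
        (α * k.KL + 1) * k.C4 * (k.tE + k.CE * ((∫ g, adV f R (w₀ r) (vecA R a) g ∂pats N M) + ρ)) - C5 / L ^ 2 ≤
        ∫ g, Par.Phi (fun y => exp (eL (1 + hqTop R (hOf α f f1 R (qV f R (w₀ r) (vecA R a) g))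
          (qV f R (w₀ r) (vecA R a) g)) L y)) R (lin R) (hOf α f f1 R (qV f R (w₀ r) (vecA R a) g)) ∂pats N M := by
      intro r
      have hq : ∀ g : Fin M → Fin N → ℝ, Prof R (qV f R (w₀ r) (vecA R a) g) 1 ∧
          qV f R (w₀ r) (vecA R a) g R = 1 := fun g => hK hR (wV_pos (hw r) _ g) hv
      have hc := continuous_qV (M := M) (R := R) hf (hw r) (vecA R a)
      have i1 : Integrable (fun g : Fin M → Fin N → ℝ =>
          Par.Phi (fun y => exp (f y)) R (lin R) (qV f R (w₀ r) (vecA R a) g)) (pats N M) := by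
        obtain ⟨h1, h2⟩ := Par.cont_functional hR hKL (F := fun q => Par.Phi (fun y => exp (f y)) R (lin R) q)
          (fun q q' hq hq' => hPL R q q' hR hq hq') (fun g => (hq g).1) hc
        exact Integrable.of_bound h1.aestronglyMeasurable _ (Eventually.of_forall fun g =>
          (norm_eq_abs _).trans_le (h2 g))
      have i2 := eRes_le (M := M) hS hK hR hα.le (hw r) hv
      have hct := continuous_phiEL hS hα.le hT hL hR (fun g => (hq g).1) hc
      obtain ⟨Bd, hBd⟩ := phiEL_bdd hS hα.le hT hL hR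
      have i3 := Integrable.of_bound (μ := pats N M) hct.aestronglyMeasurable Bd
        (Eventually.of_forall fun g => (norm_eq_abs _).trans_le (hBd (hq g).1 (hq g).2))
      have h1 := integral_mono (μ := pats N M)
        (f := fun g => s - α * Par.Phi (fun y => exp (f y)) R (lin R) (qV f R (w₀ r) (vecA R a) g) -
          (α * k.KL + 1) * k.C4 * eRes α f f1 R (qV f R (w₀ r) (vecA R a) g) - C5 / L ^ 2)
        (int_affine' i1 i2) i3
        fun g => hpt (hq g).1 (hq g).2
      rw [int_affine i1 i2] at h1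
      have h2 := mul_le_mul_of_nonneg_left (hE M hM r) (show 0 ≤ (α * k.KL + 1) * k.C4 by positivity)
      simp only [w₀] at *
      linarith
    have h1 := avg_le_avg key
    simp only [avg_sub, avg_mul, avg_add, avg_const] at h1
    have h2 := hD M hM
    have h3 := mul_le_mul_of_nonneg_left (abs_le.1 (hPT M hM1 hM2)).2 hα.le
    have hc0 : 0 ≤ (α * k.KL + 1) * k.C4 * k.CE := by positivity
    have h4 := mul_le_mul_of_nonneg_left (hXT M hM1 hM2) hc0
    have h5 := (mul_le_mul_of_nonneg_right (le_abs_self k.CD) (hX M)).trans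
      (mul_le_mul_of_nonneg_left (hXT M hM1 hM2) (abs_nonneg k.CD))
    simp only [P, X, T, w₀] at h1 h2 h3 h4 h5 ⊢
    linarith
  have w0 : 0 ≤ α * ((N:ℝ) + 1) - M' := by rw [hM', sub_nonneg]; exact Nat.floor_le (by positivity)
  have w1 : α * ((N:ℝ) + 1) - M' ≤ 1 := by
    have := Nat.lt_floor_add_one (α * ((N:ℝ) + 1)); rw [hM']; linarith
  have d0 := mul_le_mul_of_nonneg_left (hdim M' (Or.inl rfl)) (sub_nonneg.2 w1)
  have d1 := mul_le_mul_of_nonneg_left (hdim (M' + 1) (Or.inr rfl)) w0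
  have hδ0 : 0 ≤ δ / (α + 1) := by
    exact (integral_nonneg fun g => abs_nonneg _).trans (hmesh M₀ le_rfl (by omega) (fun _ _ => true))
  have e : α * (δ / (α + 1)) ≤ δ := by
    have h0 : 0 ≤ δ := by rwa [le_div_iff₀ (by positivity), zero_mul] at hδ0
    rw [← mul_div_assoc, div_le_iff₀ (by positivity)]; nlinarith
  rw [hM', hM₀] at *
  simp only [pertSI]
  simp only [X, T, w₀] at *
  nlinarith [hint, d0, d1, e]

end Vale.Agent.P157.Sph
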