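import Vale.Agent.P157.Sph.Iface
import Vale.Agent.P157.Par.Close
import Vale.Agent.P157.Par.SiteInt

/-! Technical facts for the assembly of the lower bound on the sphere. -/

open MeasureTheory ProbabilityTheory Real Finset Filter
open scoped Topology
open Vale.Agent.P150 (gauss dot l1 l1_nonneg abs_dot_le integrable_of_bound)
open Vale.Agent.P168.MP (lin ET Z logZ0 Batch avg avg_const ok_lin gainCap abs_gain_le_gainCap)
open Vale.Agent.P157.Lim (dirLaw xv sgn dot_xv dirLaw_unit)
open Vale.Agent.P157.Par (Sm Prof adev devOf cv pats dist1 Gm Adm)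

namespace Vale.Agent.P157.Sph

set_option linter.unusedSectionVars false

variable {N K M R S : ℕ} {A Λ : Type} {f f1 f2 f3 : ℝ → ℝ} {B D : ℝ}

/-! ### bits -/

lemma one_add_tanh_pos (b : Bool) (y : ℝ) : 0 < 1 + sgn b * tanh y := by
  have h := abs_lt.1 (Real.abs_tanh_lt_one y)
  cases b <;> simp [sgn] <;> linarith [h.1, h.2]

lemma bitW_pos (c : ℝ) (r : Fin K → Fin N → Bool) (b : Fin K → Bool) (z : Fin N → ℝ) : 0 < bitW c r b z :=
  prod_pos fun _ _ => one_add_tanh_pos _ _

lemma continuous_bitW (c : ℝ) (r : Fin K → Fin N → Bool) (b : Fin K → Bool) : Continuous (bitW c r b) := by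
  unfold bitW
  have ht : Continuous tanh := by
    rw [show (tanh : ℝ → ℝ) = fun x => sinh x / cosh x from funext fun x => tanh_eq_sinh_div_cosh x]
    exact continuous_sinh.div continuous_cosh fun x => (cosh_pos x).ne'
  refine continuous_finsetProd _ fun k _ => continuous_const.add (continuous_const.mul ?_)
  exact ht.comp (continuous_const.mul (by unfold dot; fun_prop))

lemma bitW_le (c : ℝ) (r : Fin K → Fin N → Bool) (b : Fin K → Bool) (z : Fin N → ℝ) : bitW c r b z ≤ 2 ^ K := by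
  refine (prod_le_prod (fun k _ => (one_add_tanh_pos _ _).le) (g := fun _ => (2:ℝ)) fun k _ => ?_).trans_eq (by simp)
  have h := abs_lt.1 (Real.abs_tanh_lt_one (c * √(N : ℝ) * dot (xv N (r k)) z))
  cases b k <;> simp [sgn] <;> linarith [h.1, h.2]

lemma sum_bitW (c : ℝ) (r : Fin K → Fin N → Bool) (z : Fin N → ℝ) :
    ∑ b : Fin K → Bool, bitW c r b z = 2 ^ K := by
  have h := Fintype.prod_sum (κ := fun _ : Fin K => Bool)
    (fun k b => 1 + sgn b * tanh (c * √(N : ℝ) * dot (xv N (r k)) z))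
  simp only [bitW]
  rw [← h]
  rw [prod_congr rfl (g := fun _ => (2:ℝ)) fun k _ => by rw [Fintype.sum_bool]; simp only [sgn, if_true, Bool.false_eq_true, if_false]; ring]
  simp

/-! ### weights -/

lemma hamS_pos (g : Fin M → Fin N → ℝ) (z : Fin N → ℝ) (x : List Λ) : 0 < hamS f g z x := exp_pos _

lemma cv_vecA [Nonempty A] [NeZero K] {ι : Type} {β : ι → Batch} {a : A → Fin N → ℝ}
    (ha : ∀ s, dot (a s) (a s) = 1) (p : List (MkA A Λ K S β)) : cv (vecA R a) p p = 1 := ha _

variable [Fintype A] [Nonempty A] {ι : Type} [Fintype ι] [NeZero K] {β : ι → Batch}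

lemma sysA_pos {W : (Fin N → ℝ) → List Λ → ℝ} (hW : ∀ z x, 0 < W z x) (c : ℝ) (r : Fin K → Fin N → Bool)
    {wt : A → ℝ} (hwt : ∀ s, 0 < wt s) (a : A → Fin N → ℝ) (h u : ι → ℝ) (p : List (MkA A Λ K S β)) :
    0 < sysA (S := S) (β := β) R W c r wt a h u p :=
  mul_pos (mul_pos (mul_pos (mul_pos (by exact_mod_cast Fintype.card_pos) (hwt _)) (hW _ _))
    (bitW_pos _ _ _ _)) (exp_pos _)

lemma abs_log_ham (hb : ∀ x, |f x| ≤ B) (g : Fin M → Fin N → ℝ) (z : Fin N → ℝ) :
    |∑ i, f (dot z (g i))| ≤ M * B :=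
  (abs_sum_le_sum_abs _ _).trans ((sum_le_sum fun _ _ => hb _).trans_eq (by simp))

lemma integrable_baseI [NeZero N] (hf : Continuous f) (hb : ∀ x, |f x| ≤ B) (g : Fin M → Fin N → ℝ) (c : ℝ)
    (r : Fin K → Fin N → Bool) (b : Fin K → Bool) (x : List Λ) :
    Integrable (fun z => hamS f g z x * bitW c r b z) (dirLaw (Fin N)) := by
  refine Integrable.of_bound (Continuous.aestronglyMeasurable ?_) (exp (M * B) * 2 ^ K)
    (Eventually.of_forall fun z => ?_)
  · exact (Real.continuous_exp.comp (continuous_finsetSum _ fun i _ => hf.comp (by unfold dot; fun_prop))).mul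
      (continuous_bitW c r b)
  · rw [Real.norm_eq_abs, abs_mul, abs_of_pos (hamS_pos g z x), abs_of_pos (bitW_pos c r b z)]
    exact mul_le_mul (exp_le_exp.2 ((le_abs_self _).trans (abs_log_ham hb g z))) (bitW_le c r b z)
      (bitW_pos c r b z).le (exp_pos _).le

lemma baseW_pos [NeZero N] (hf : Continuous f) (hb : ∀ x, |f x| ≤ B) (g : Fin M → Fin N → ℝ) (c : ℝ)
    (r : Fin K → Fin N → Bool) (p : List ((Fin K → Bool) × Λ)) : 0 < baseW R (hamS f g) c r p := by
  have hne : Nonempty (Fin N) := ⟨⟨0, NeZero.pos N⟩⟩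
  refine (integral_pos_iff_support_of_nonneg (fun z => (mul_pos (hamS_pos g z _) (bitW_pos _ _ _ z)).le)
    (integrable_baseI hf hb g c r _ _)).2 ?_
  have : Function.support (fun z => hamS f g z (p.map Prod.snd) * bitW c r (bat R p) z) = Set.univ :=
    Set.eq_univ_of_forall fun z => (mul_pos (hamS_pos g z _) (bitW_pos _ _ _ z)).ne'
  rw [this]; simp

/-- a weight read from the top mark averages it -/
lemma Z_top {Ω : Type} [Fintype Ω] [Nonempty Ω] (hR : 1 ≤ R) {U : Ω → ℝ} (hU : ∀ o, 0 < U o) {d : Ω} :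
    ∀ (k : ℕ) (pre : List Ω), pre.length + (k + 1) = R →
      Z (lin R) (fun p => U (p.getD (R - 1) d)) (k + 1) pre = avg U := by
  have hok := ok_lin hR (w := fun p : List Ω => U (p.getD (R - 1) d)) fun p => hU _
  intro k
  induction k with
  | zero =>
    intro pre h
    have e : ∀ o : Ω, (pre ++ [o]).getD (R - 1) d = o := fun o => by
      rw [List.getD_append_right _ _ _ _ (by omega), show R - 1 - pre.length = 0 by omega]; rfl
    rw [Z, show pre.length + 1 = R by omega, hok.top]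
    simp only [Z, e, Real.rpow_one, one_div, inv_one]
  | succ k ih =>
    intro pre h
    have hm := hok.pos (pre.length + 1) (by omega) (by omega)
    rw [Z]
    simp only [fun o : Ω => ih (pre ++ [o]) (by simp; omega), avg_const, one_div]
    exact Real.rpow_rpow_inv (Vale.Agent.P168.MP.avg_pos hU).le hm.ne'

/-- the unperturbed value is the free energy of the sphere -/
lemma logZ0_base [NeZero N] (hR : 1 ≤ R) (hf : Continuous f) (hb : ∀ x, |f x| ≤ B) (g : Fin M → Fin N → ℝ) (c : ℝ)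
    (r : Fin K → Fin N → Bool) :
    logZ0 R (lin R) (baseW (Λ := Unit) R (hamS f g) c r) = Lim.logZ f (dirLaw (Fin N)) g := by
  set U : (Fin K → Bool) × Unit → ℝ := fun o => ∫ z, hamS f g z ([] : List Unit) * bitW c r o.1 z ∂dirLaw (Fin N)
  have hU : baseW (Λ := Unit) R (hamS f g) c r = fun p => U (p.getD (R - 1) (default, ())) := by
    funext p
    simp only [baseW, U, hamS, bat]
    rw [← List.getD_map (d := ((default : Fin K → Bool), ())) (f := Prod.fst)]
  have hpos : ∀ o, 0 < U o := fun o => by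
    have h := baseW_pos (R := 1) hf hb g c r [o]
    simpa [baseW, U, hamS, bat] using h
  obtain ⟨k, rfl⟩ := Nat.exists_eq_add_of_le' hR
  rw [hU, logZ0, Z_top (by omega) hpos k [] (by simp), Lim.logZ]
  congr 1
  simp only [avg, U, Fintype.sum_prod_type, univ_unique, sum_singleton, Fintype.card_prod, Fintype.card_unit,
    mul_one, Fintype.card_fun, Fintype.card_bool, Fintype.card_fin]
  rw [← integral_finsetSum _ fun b _ => integrable_baseI hf hb g c r b _]
  simp only [← mul_sum, sum_bitW, hamS, integral_mul_const, Lim.energy]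
  push_cast
  field_simp

lemma abs_logZ0_sys0 [NeZero N] [DecidableEq ι] (hR : 1 ≤ R) (hf : Continuous f) (hb : ∀ x, |f x| ≤ B)
    {h u : ι → ℝ} (hh : ∀ j, |h j| ≤ 1) (hu : ∀ j, |u j| ≤ 1) (g : Fin M → Fin N → ℝ) (c : ℝ)
    (r : Fin K → Fin N → Bool) :
    |logZ0 R (lin R) (sys0 (S := S) (β := β) (Λ := Unit) R (hamS f g) c r h u) -
      Lim.logZ f (dirLaw (Fin N)) g| ≤ gainCap S β := by
  have hw : ∀ p : List (Mk0 Unit K S β), 0 < baseW R (hamS f g) c r (p.map Prod.fst) := fun p =>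
    baseW_pos hf hb g c r _
  have hg : ∀ p : List (Mk0 Unit K S β), exp (-gainCap S β) ≤
      exp (∑ i : ι × Fin S, Vale.Agent.P168.MP.gain1 R h u (p.map (Full.plain fun o => o.1)) i) ∧
      exp (∑ i : ι × Fin S, Vale.Agent.P168.MP.gain1 R h u (p.map (Full.plain fun o => o.1)) i) ≤
        exp (gainCap S β) := fun p => by
    have := abs_le.1 (abs_gain_le_gainCap hh hu (R := R) (p.map (Full.plain fun o => o.1)))
    exact ⟨exp_le_exp.2 this.1, exp_le_exp.2 this.2⟩
  have h1 := Vale.Agent.P168.MP.logZ0_mul (R := R) (m := lin R) hw (Y := fun p : List (Mk0 Unit K S β) =>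
    exp (∑ i : ι × Fin S, Vale.Agent.P168.MP.gain1 R h u (p.map (Full.plain fun o => o.1)) i)) fun p => exp_pos _
  rw [Vale.Agent.P168.MP.logZ0_prod (w₀ := baseW (Λ := Unit) R (hamS f g) c r), logZ0_base hR hf hb] at h1
  unfold sys0 Full.pwX
  rw [h1]
  exact Par.abs_log_nest_le (ok_lin hR hw) hg

/-! ### continuity -/

variable {Ω : Type} [Fintype Ω] [Nonempty Ω]

lemma wV_pos {w₀ : List Ω → ℝ} (hw : ∀ p, 0 < w₀ p) (v : List Ω → Fin N → ℝ) (g : Fin M → Fin N → ℝ) (p : List Ω) :
    0 < wV f w₀ v g p := mul_pos (hw p) (exp_pos _)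

lemma continuous_wV (hf : Continuous f) (w₀ : List Ω → ℝ) (v : List Ω → Fin N → ℝ) (p : List Ω) :
    Continuous fun g : Fin M → Fin N → ℝ => wV f w₀ v g p := by
  unfold wV
  exact continuous_const.mul (Real.continuous_exp.comp (continuous_finsetSum _ fun i _ =>
    hf.comp (by unfold dot; fun_prop)))

lemma continuous_qV (hf : Continuous f) {w₀ : List Ω → ℝ} (hw : ∀ p, 0 < w₀ p) (v : List Ω → Fin N → ℝ) (l : ℕ) :
    Continuous fun g : Fin M → Fin N → ℝ => qV f R w₀ v g l :=
  Par.continuous_ET (continuous_wV hf w₀ v) (fun g => wV_pos hw v g) R _ fun _ => continuous_const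

lemma abs_cv_le {v : List Ω → Fin N → ℝ} (hv : ∀ p, cv v p p = 1) (p p' : List Ω) : |cv v p p'| ≤ 1 := by
  have h := Finset.sum_mul_sq_le_sq_mul_sq univ (v p) (v p')
  have e : ∀ p, ∑ i, v p i ^ 2 = 1 := fun p => by simpa [cv, dot, sq] using hv p
  rw [e, e, one_mul] at h
  exact (sq_le_one_iff_abs_le_one _).1 h

lemma adV_nonneg {w₀ : List Ω → ℝ} (hw : ∀ p, 0 < w₀ p) (v : List Ω → Fin N → ℝ) (g : Fin M → Fin N → ℝ) :
    0 ≤ adV f R w₀ v g := Par.adev_nn (wV_pos hw v g)

lemma integrable_adV (hf : Continuous f) (hR : 1 ≤ R) {w₀ : List Ω → ℝ} (hw : ∀ p, 0 < w₀ p)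
    {v : List Ω → Fin N → ℝ} (hv : ∀ p, cv v p p = 1) :
    Integrable (fun g : Fin M → Fin N → ℝ => adV f R w₀ v g) (pats N M) := by
  refine (Par.integrable_adev_of hR fun l hl => Integrable.of_bound (Continuous.aestronglyMeasurable ?_) 2
    (Eventually.of_forall fun g => ?_)).1
  · exact Par.continuous_ET (continuous_wV hf w₀ v) (fun g => wV_pos hw v g) R _ fun _ =>
      (continuous_const.sub (continuous_qV hf hw v l)).abs
  · rw [Real.norm_eq_abs, abs_of_nonneg (Par.devOf_nn (wV_pos hw v g) l)]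
    refine (Par.devOf_le (wV_pos hw v g) hl (abs_cv_le hv) (W := 1) ?_).trans (by norm_num)
    exact Vale.Agent.P168.MP.ET_bound (wV_pos hw v g) fun ps => abs_cv_le hv _ _

/-! ### two potentials -/

/-- the nested functional is Lipschitz in the potential, in the supremum norm -/
lemma phi_sup {e e1 e2 e3 : ℝ → ℝ} {B' D' : ℝ} (hS : Sm f f1 f2 f3 B D) (hS' : Sm e e1 e2 e3 B' D') {δ : ℝ}
    (hd : ∀ y, |f y - e y| ≤ δ) (hR : 1 ≤ R) {q : ℕ → ℝ} {V : ℝ} (hq : Prof R q V) :
    |Par.Phi (fun y => exp (f y)) R (lin R) q - Par.Phi (fun y => exp (e y)) R (lin R) q| ≤ δ := by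
  set P : (ℝ → ℝ) → (n : ℕ) → (Par.Ix R n → ℝ) → ℝ := fun e n g =>
    log (Z (lin R) (Par.nodeW (fun y => exp (e y)) R q g) R ([] : List (Fin (n + 1))))
  have hint : ∀ {e e1 e2 e3 : ℝ → ℝ} {B' D' : ℝ}, Sm e e1 e2 e3 B' D' → ∀ n,
      Integrable (P e n) (gauss (Par.Ix R n)) := by
    intro e e1 e2 e3 B' D' hS' n
    have hD : 0 ≤ D' := (abs_nonneg _).trans (hS'.b1 0)
    have hc : Continuous (P e n) :=
      Par.continuous_logZ0 (w := fun g p => Par.nodeW (fun y => exp (e y)) R q g p)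
        (fun p => Real.continuous_exp.comp (hS'.sd.cont0.comp (Par.continuous_dot_left _)))
        (fun g p => exp_pos _) R
    refine integrable_of_bound (C := |e 0| + D' * √V + 1) (M := 1) hc fun g => ?_
    have hV : 0 ≤ V := (hq.bd le_rfl).1.trans (hq.bd le_rfl).2
    refine (Par.abs_logZ0_le (ok_lin hR fun p => exp_pos _) (C := |e 0| + D' * (√V * l1 g)) fun p => ?_).trans ?_
    · simp only [log_exp]
      refine (hS'.sd.abs_le _).trans (add_le_add le_rfl (mul_le_mul_of_nonneg_left (abs_dot_le (fun k => ?_) g) hD))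
      refine Real.abs_le_sqrt ((le_of_eq (sq _)).trans ?_)
      exact (Finset.single_le_sum (f := fun k => Par.node R q p k * Par.node R q p k)
        (fun k _ => mul_self_nonneg _) (mem_univ k)).trans (Par.cv_node_le hq p)
    · have h1 := l1_nonneg g
      have h2 := add_one_le_exp (1 * l1 g)
      nlinarith [mul_nonneg hD (sqrt_nonneg V), abs_nonneg (e 0)]
  refine le_of_tendsto' (((Par.node_value (Par.adm_exp hS) (Par.ex_lin R) hq hR).sub
    (Par.node_value (Par.adm_exp hS') (Par.ex_lin R) hq hR)).abs) fun n => ?_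
  rw [← integral_sub (hint hS n) (hint hS' n)]
  rw [← Real.norm_eq_abs]
  refine (norm_integral_le_of_norm_le_const (μ := gauss (Par.Ix R n)) (C := δ) (Eventually.of_forall fun g => ?_)).trans_eq (by rw [probReal_univ, mul_one])
  have e0 : Par.nodeW (fun y => exp (f y)) R q g = fun p : List (Fin (n + 1)) =>
      Par.nodeW (fun y => exp (e y)) R q g p * exp (f (dot (Par.node R q p) g) - e (dot (Par.node R q p) g)) := by
    funext p; simp only [Par.nodeW]; rw [← exp_add]; ring_nf
  have h1 := Vale.Agent.P168.MP.logZ0_mul (R := R) (m := lin R) (w := Par.nodeW (fun y => exp (e y)) R q g)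
    (Y := fun p : List (Fin (n + 1)) => exp (f (dot (Par.node R q p) g) - e (dot (Par.node R q p) g)))
    (fun p => exp_pos _) fun p => exp_pos _
  simp only [P, logZ0] at h1 ⊢
  rw [e0, h1, Real.norm_eq_abs]
  exact Par.abs_log_nest_le (ok_lin hR fun p => exp_pos _) fun p => by
    have := abs_le.1 (hd (dot (Par.node R q p) g))
    exact ⟨exp_le_exp.2 this.1, exp_le_exp.2 this.2⟩

end Vale.Agent.P157.Sph
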