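import Vale.Agent.P157.Sph.Lower

/-! The lower bound on the sphere: choice of the constants and the telescope. -/

open MeasureTheory ProbabilityTheory Real Finset Filter
open scoped Topology
open Vale.Agent.P150 (gauss dot l1 l1_nonneg)
open Vale.Agent.P168.MP (lin ET logZ0 Batch BIdx allBatch gu gainCap avg avg_const avg_le_avg)
open Vale.Agent.P157.Lim (dirLaw)
open Vale.Agent.P157.Par (Sm Prof cv pats dist1)

namespace Vale.Agent.P157.Sph

set_option linter.unusedSectionVars false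

variable {f f1 f2 f3 : ℝ → ℝ} {B D : ℝ}

section stein
variable {Ω : Type} [Fintype Ω] [Nonempty Ω] {N M R : ℕ} {w₀ : List Ω → ℝ} {v : List Ω → Fin N → ℝ}

lemma integrable_stein (hS : Sm f f1 f2 f3 B D) (hw : ∀ p, 0 < w₀ p) (hv : ∀ p, cv v p p = 1) (l : ℕ) :
    Integrable (fun g : Fin M → Fin N → ℝ => qV f R w₀ v g l - steinR f1 R (wV f w₀ v g) v g l) (pats N M) := by
  have hD : 0 ≤ D := (abs_nonneg _).trans (hS.b1 0)
  have hl : Integrable (fun z : Fin N → ℝ => l1 z) (gauss (Fin N)) :=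
    Vale.Agent.P150.integrable_of_bound (C := 1) (M := 1) (by unfold l1; fun_prop) fun z => by
      rw [abs_of_nonneg (l1_nonneg z), one_mul, one_mul]; linarith [add_one_le_exp (l1 z)]
  have hsum : Integrable (fun g : Fin M → Fin N → ℝ => 1 + (∑ i, D * (2 * l1 (g i))) / N) (pats N M) :=
    (integrable_const 1).add ((integrable_finsetSum _ fun i _ => (((measurePreserving_eval
      (fun _ : Fin M => gauss (Fin N)) i).integrable_comp_of_integrable hl).const_mul 2).const_mul D).div_const _)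
  have hc : ∀ p i, Continuous fun g : Fin M → Fin N → ℝ => dot (v p) (g i) := fun p i => by unfold dot; fun_prop
  refine hsum.mono' (Continuous.aestronglyMeasurable ((continuous_qV hS.sd.cont0 hw v l).sub
    (Par.continuous_ET (continuous_wV hS.sd.cont0 w₀ v) (fun g => wV_pos hw v g) R _ fun ps =>
      (continuous_finsetSum _ fun i _ => (hS.sd.cont1.comp (hc _ i)).mul
        ((hc _ i).sub (continuous_const.mul (hc _ i)))) |>.div_const _))) (Eventually.of_forall fun g => ?_)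
  rw [norm_eq_abs]
  refine (abs_sub _ _).trans (add_le_add (Vale.Agent.P168.MP.ET_bound (wV_pos hw v g) fun ps => abs_cv_le hv _ _) ?_)
  refine Vale.Agent.P168.MP.ET_bound (wV_pos hw v g) fun ps => ?_
  rw [abs_div, Nat.abs_cast]
  refine div_le_div_of_nonneg_right ?_ (Nat.cast_nonneg _)
  refine (abs_sum_le_sum_abs _ _).trans (sum_le_sum fun i _ => ?_)
  have hvk : ∀ p k, |v p k| ≤ 1 := fun p k => by
    rw [← sq_le_one_iff_abs_le_one, sq]
    exact le_of_le_of_eq (single_le_sum (f := fun i => v p i * v p i) (fun i _ => mul_self_nonneg _) (mem_univ k)) (hv p)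
  have hd : ∀ p, |dot (v p) (g i)| ≤ l1 (g i) := fun p => by
    simpa using Vale.Agent.P150.abs_dot_le (A := 1) (hvk p) (g i)
  rw [abs_mul]
  refine mul_le_mul (hS.b1 _) ((abs_sub _ _).trans ?_) (abs_nonneg _) hD
  rw [abs_mul, two_mul]
  exact add_le_add (hd _) ((mul_le_of_le_one_left (abs_nonneg _) (abs_cv_le hv _ _)).trans (hd _))

end stein

lemma avg_integral_le {T : Type} [Fintype T] [Nonempty T] {X : Type*} [MeasurableSpace X] {μ : Measure X}
    [IsProbabilityMeasure μ] {F : T → X → ℝ} {e : ℝ} (hi : ∀ t, Integrable (F t) μ)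
    (h : ∀ x, avg (fun t => F t x) ≤ e) : avg (fun t => ∫ x, F t x ∂μ) ≤ e := by
  simp only [avg] at h ⊢
  rw [← integral_finsetSum _ fun t _ => hi t, ← integral_div]
  exact (integral_mono ((integrable_finsetSum _ fun t _ => hi t).div_const _) (integrable_const e) h).trans_eq (by simp)

/-- one mesh serving one dimension step at every strength -/
theorem step_mesh {N K R S : ℕ} [NeZero N] [NeZero K] {ι T : Type} [Fintype ι] [DecidableEq ι] [Fintype T]
    {β : ι → Batch} (_hS : Sm f f1 f2 f3 B D) (_hB : ∀ x, f x ≤ B) (hM : MeshV f) (hSt : SteinV f f1) (hR : 1 ≤ R)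
    {c δ' ρ η₁ : ℝ} (hc : 0 ≤ c) {h : ι → ℝ} {U : T → ι → ℝ} {M₀ M' : ℕ} (hδ : 0 < δ') (hρ : 0 < ρ)
    (hη₁ : 0 < η₁) :
    ∃ (A : Type) (_ : Fintype A) (_ : Nonempty A) (wt : A → ℝ) (x : A → Fin N → ℝ),
      Mesh N η₁ wt x ∧
      (∀ g, ∀ M, M₀ ≤ M → M ≤ M' + 1 → ∀ r : Fin K → Fin N → Bool,
        ∫ z, |logZ0 R (lin R) (sysA (S := S) (β := β) (Λ := Unit) R (hamS f z) c r wt x h (U g)) -
          logZ0 R (lin R) (sys0 (S := S) (β := β) (Λ := Unit) R (hamS f z) c r h (U g))| ∂pats N M ≤ δ') ∧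
      (∀ g, ∀ M, (M = M' ∨ M = M' + 1) → ∀ r : Fin K → Fin N → Bool, ∀ l, l < R →
        ∫ z, |qV f R (sysA (S := S) (β := β) (Λ := Unit) R (fun _ _ => 1) c r wt x h (U g)) (vecA R x) z l -
          steinR f1 R (wV f (sysA (S := S) (β := β) (Λ := Unit) R (fun _ _ => 1) c r wt x h (U g))
            (vecA R x) z) (vecA R x) z l| ∂pats N M ≤ (1 + 4 * K * c * √(N : ℝ)) / N + ρ / 4) := by
  have pred : ∀ {P : ∀ (A : Type) [Fintype A] [Nonempty A], (A → ℝ) → (A → Fin N → ℝ) → Prop},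
      (∃ η > 0, ∀ (A : Type) [Fintype A] [Nonempty A] (wt : A → ℝ) (x : A → Fin N → ℝ), Mesh N η wt x → P A wt x) →
      ∀ᶠ η in 𝓝[>] (0:ℝ), ∀ (A : Type) [Fintype A] [Nonempty A] (wt : A → ℝ) (x : A → Fin N → ℝ),
        Mesh N η wt x → P A wt x := fun {P} ⟨η₀, h0, h⟩ => by
    filter_upwards [Ioc_mem_nhdsGT h0] with η hη A _ _ wt x hx
    exact h A wt x (hx.mono hη.2)
  have e1 := Filter.eventually_all.2 fun g : T => (Finset.eventually_all (Icc M₀ (M' + 1))).2 fun M _ =>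
    Filter.eventually_all.2 fun r : Fin K → Fin N → Bool => pred (hM N K R S M β c r h (U g) hR δ' hδ)
  have e2 := Filter.eventually_all.2 fun g : T => (Finset.eventually_all ({M', M' + 1} : Finset ℕ)).2 fun M _ =>
    Filter.eventually_all.2 fun r : Fin K → Fin N → Bool =>
      pred (hSt N K R S M β c r h (U g) hc hR (ρ / 4) (by positivity))
  obtain ⟨η, ⟨⟨q1, q2⟩, hη1⟩, hη⟩ :=
    (((e1.and e2).and (Ioc_mem_nhdsGT hη₁)).and self_mem_nhdsWithin).exists
  obtain ⟨A, iA, iN, wt, x, hmesh⟩ := exists_mesh (N := N) (NeZero.pos N) (show 0 < η from hη)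
  exact ⟨A, iA, iN, wt, x, hmesh.mono hη1.2, fun g M a b r => q1 g M (Finset.mem_Icc.2 ⟨a, b⟩) r A wt x hmesh,
    fun g M hM r l hl => q2 g M (by simpa using hM) r A wt x hmesh l hl⟩

/-- **one dimension step, averaged over the strengths** -/
theorem step_avg (hS : Sm f f1 f2 f3 B D) (hB : ∀ x, f x ≤ B) (hK : KerProf) (hTs : SiteSm) {α : ℝ} (hα : 0 < α)
    {N K R S G : ℕ} [NeZero N] [NeZero K] [NeZero G] (hR : 1 ≤ R) {c hp ub L δ ρ C5 s ε' tE CE CD CP CS KL C4 : ℝ}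
    (hc0 : 0 < c) (hh : ∀ _j : BIdx R 2, |hp| ≤ 1) (hu : ∀ (g : BIdx R 2 → Fin G) j, |gu ub G g j| ≤ 1)
    (hL : 1 ≤ L) (hδ : 0 < δ) (hρ : 0 < ρ) (hKL : 0 ≤ KL) (hC4 : 0 ≤ C4) (hCE : 0 ≤ CE) (hCP : 0 ≤ CP) (hCS : 0 ≤ CS)
    (hPL : Par.PhiLip f KL)
    (hpt : ∀ {q : ℕ → ℝ}, Prof R q 1 → q R = 1 →
      s - α * Par.Phi (fun y => exp (f y)) R (lin R) q - (α * KL + 1) * C4 * eRes α f f1 R q - C5 / L ^ 2 ≤
        Par.Phi (fun y => exp (eL (1 + hqTop R (hOf α f f1 R q) q) L y)) R (lin R) (hOf α f f1 R q))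
    (hEr : ∀ {Ω : Type} [Fintype Ω] [Nonempty Ω] {R N M : ℕ} [NeZero N], 1 ≤ R → 2 ≤ M → |(M : ℝ) / N - α| ≤ 1 →
      ∀ {w₀ : List Ω → ℝ}, (∀ p, 0 < w₀ p) → ∀ {v : List Ω → Fin N → ℝ}, (∀ p, cv v p p = 1) →
        ∫ g, eRes α f f1 R (qV f R w₀ v g) ∂pats N M ≤
          tE + CE * ((∫ g, (∑ l ∈ range R, |qV f R w₀ v g l - steinR f1 R (wV f w₀ v g) v g l|) / R ∂pats N M) +
            (∫ g, adV f R w₀ v g ∂pats N M) + |(M : ℝ) / N - α| + 1 / M))
    (hN₀ : ∀ (g : BIdx R 2 → Fin G) (M : ℕ), |(M : ℝ) - α * (N + 1)| ≤ 1 → ∃ η > 0,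
      ∀ (A : Type) [Fintype A] [Nonempty A] (wt : A → ℝ) (a : A → Fin N → ℝ), Mesh N η wt a →
        let w₀ := fun r => sysA (S := S) (β := allBatch R 2) (Λ := Unit) R (fun _ _ => 1) c r wt a (fun _ => hp) (gu ub G g)
        let q := fun r (z : Fin M → Fin N → ℝ) => qV f R (w₀ r) (vecA R a) z
        avg (fun r : Fin K → Fin N → Bool => ∫ z,
            Par.Phi (fun y => exp (eL (1 + hqTop R (hOf α f f1 R (q r z)) (q r z)) L y)) R (lin R)
              (hOf α f f1 R (q r z)) ∂pats N M) -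
          δ - CD * avg (fun r : Fin K → Fin N → Bool => ∫ z, adV f R (w₀ r) (vecA R a) z ∂pats N M) ≤
        pertS f R S (allBatch R 2) c K (fun _ => hp) (gu ub G g) (N + 1) M -
          pertS f R S (allBatch R 2) c K (fun _ => hp) (gu ub G g) N M)
    (hPatt : ∀ {Ω : Type} [Fintype Ω] [Nonempty Ω] {R N M : ℕ}, 1 ≤ R →
      ∀ {w₀ : List Ω → ℝ}, (∀ p, 0 < w₀ p) → ∀ {v : List Ω → Fin N → ℝ}, (∀ p, cv v p p = 1) →
        |(∫ g, logZ0 R (lin R) (wV f w₀ v g) ∂pats N (M + 1)) - (∫ g, logZ0 R (lin R) (wV f w₀ v g) ∂pats N M) -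
            ∫ g, Par.Phi (fun y => exp (f y)) R (lin R) (qV f R w₀ v g) ∂pats N M| ≤
          CP * ∫ g, adV f R w₀ v g ∂pats N M)
    (hStep : ∀ {Ω : Type} [Fintype Ω] [Nonempty Ω] {R N M : ℕ}, 1 ≤ R →
      ∀ {w₀ : List Ω → ℝ}, (∀ p, 0 < w₀ p) → ∀ {v : List Ω → Fin N → ℝ}, (∀ p, cv v p p = 1) →
        ∀ (F : (ℕ → ℝ) → ℝ) (L : ℝ), 0 ≤ L →
          (∀ q q', Prof R q 1 → Prof R q' 1 → |F q - F q'| ≤ L * dist1 R q q') →
          |(∫ g, F (qV f R w₀ v g) ∂pats N (M + 1)) - ∫ g, F (qV f R w₀ v g) ∂pats N M| ≤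
            CS * L * ∫ g, adV f R w₀ v g ∂pats N M)
    (hM : MeshV f) (hSt : SteinV f f1)
    (hread : ∀ (A : Type) [Fintype A] [Nonempty A] (wt : A → ℝ) (a : A → Fin N → ℝ) (W : (Fin N → ℝ) → List Unit → ℝ),
      (∀ x, 0 < wt x) → (∀ x, dot (a x) (a x) = 1) → (∀ z x, 0 < W z x) →
      avg (fun r : Fin K → Fin N → Bool => avg fun g : BIdx R 2 → Fin G =>
        Par.adev R (sysA (S := S) (β := allBatch R 2) R W c r wt a (fun _ => hp) (gu ub G g)) (cv (vecA R a))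
          (qker R (sysA (S := S) (β := allBatch R 2) R W c r wt a (fun _ => hp) (gu ub G g)) (cv (vecA R a)))) ≤ ε')
    (h3 : 2 ≤ α * N - 1) (h4 : 1 / (α * N - 1) ≤ ρ / 4)
    (h5 : (1 + 4 * K * c * √(N:ℝ)) / N ≤ ρ / 4) (h6 : (α + 2) / N ≤ min 1 (ρ / 4)) :
    s - C5 / L ^ 2 - (α * KL + 1) * C4 * (tE + CE * ρ) - 3 * δ -
        ((α * KL + 1) * C4 * CE + |CD| + α * (CP + 2 * (CS * KL))) * ((⌈α⌉₊ + 3 : ℕ) * ε') ≤
      avg (fun g : BIdx R 2 → Fin G => pertSI f R S (allBatch R 2) c K (fun _ => hp) (gu ub G g) (N + 1) (α * ((N:ℝ) + 1))) -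
        avg (fun g : BIdx R 2 → Fin G => pertSI f R S (allBatch R 2) c K (fun _ => hp) (gu ub G g) N (α * N)) := by
  have hf := hS.sd.cont0
  have hb := Sm.absB hS hB
  set β := allBatch R 2
  set J := ⌈α⌉₊ + 3
  set Ct := (α * KL + 1) * C4 * CE + |CD| + α * (CP + 2 * (CS * KL))
  set c₀ := s - C5 / L ^ 2 - (α * KL + 1) * C4 * (tE + CE * ρ) - 3 * δ - δ with hc₀
  have hCt : 0 ≤ Ct := by positivity
  have h1 : 1 ≤ N := NeZero.pos N
  have hN' : (0:ℝ) < N := by exact_mod_cast h1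
  set M₀ := ⌊α * (N:ℝ)⌋₊ with hM₀
  set M' := ⌊α * ((N:ℝ) + 1)⌋₊ with hM'
  have hMb : ∀ M, (M = M' ∨ M = M' + 1) →
      2 ≤ M ∧ |(M:ℝ) - α * ((N:ℝ) + 1)| ≤ 1 ∧ 1 / (M:ℝ) ≤ ρ / 4 ∧ |(M:ℝ) / N - α| ≤ min 1 (ρ / 4) := by
    intro M hM
    have a1 : (M' : ℝ) ≤ α * ((N:ℝ) + 1) := Nat.floor_le (by positivity)
    have a2 : α * ((N:ℝ) + 1) < M' + 1 := Nat.lt_floor_add_one _
    have b : |(M:ℝ) - α * ((N:ℝ) + 1)| ≤ 1 := by
      rcases hM with rfl | rfl <;> rw [abs_le] <;> push_cast <;> constructor <;> linarith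
    obtain ⟨b1, b2⟩ := abs_le.1 b
    have hM2 : α * (N:ℝ) - 1 ≤ M := by nlinarith
    refine ⟨by exact_mod_cast (show (2:ℝ) ≤ M by linarith), b,
      (one_div_le_one_div_of_le (by linarith) hM2).trans h4, le_trans ?_ h6⟩
    rw [show (M:ℝ) / N - α = ((M:ℝ) - α * N) / N by field_simp, abs_div, Nat.abs_cast]
    refine div_le_div_of_nonneg_right ?_ hN'.le
    rw [abs_le]; constructor <;> nlinarith
  choose ηD hηD hQD using fun (g : BIdx R 2 → Fin G) (M : ℕ) (hM2 : M = M' ∨ M = M' + 1) =>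
    hN₀ g M (hMb M hM2).2.1
  set η₁ := univ.inf' univ_nonempty fun g => min (ηD g M' (Or.inl rfl)) (ηD g (M' + 1) (Or.inr rfl))
  have hη₁ : 0 < η₁ := (Finset.lt_inf'_iff _).2 fun g _ => lt_min (hηD g M' _) (hηD g (M' + 1) _)
  obtain ⟨A, iA, iN, wt, x, hmesh, q1, q2⟩ := step_mesh (N := N) hS hB hM hSt hR hc0.le
    (β := β) (K := K) (S := S) (c := c) (h := fun _ => hp) (U := fun g => gu ub G g) (M₀ := M₀) (M' := M')
    (δ' := δ / (α + 1)) (by positivity) (ρ := ρ) hρ hη₁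
  set w₀ := fun (g : BIdx R 2 → Fin G) (r : Fin K → Fin N → Bool) =>
    base₀ (A := A) R S β c r wt x (fun _ => hp) (gu ub G g)
  have hw : ∀ g r p, 0 < w₀ g r p := fun g r => sysA_pos (fun _ _ => one_pos) c r hmesh.pos x _ _
  have hv : ∀ p : List (MkA A Unit K S β), cv (vecA R x) p p = 1 := cv_vecA hmesh.unit
  have hcore : ∀ g : BIdx R 2 → Fin G,
      c₀ + δ - Ct * ∑ i ∈ range J, avg (fun r => ∫ z, adV f R (w₀ g r) (vecA R x) z ∂pats N (M₀ + i)) ≤
        pertSI f R S β c K (fun _ => hp) (gu ub G g) (N + 1) (α * ((N:ℝ) + 1)) -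
          pertSI f R S β c K (fun _ => hp) (gu ub G g) N (α * N) := by
    intro g
    have := step_core hS hB hK hTs hα hR (ρ := ρ) (δ := δ) (s := s) (C5 := C5) hL ⟨KL, C4, CE, tE, CD, CP, CS⟩
      hKL hC4 hCE hCP hCS hh (hu g) hmesh.pos hmesh.unit (M₀ := M₀) (M' := M') rfl rfl
      hpt
      hPL
      (fun M hM r => by
        obtain ⟨b1, -, b3, b4⟩ := hMb M hM
        refine (hEr hR b1 (b4.trans (min_le_left _ _)) (hw g r) hv).trans (add_le_add le_rfl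
          (mul_le_mul_of_nonneg_left ?_ hCE))
        have hst : ∫ z, (∑ l ∈ range R, |qV f R (w₀ g r) (vecA R x) z l -
            steinR f1 R (wV f (w₀ g r) (vecA R x) z) (vecA R x) z l|) / R ∂pats N M ≤
            (1 + 4 * K * c * √(N : ℝ)) / N + ρ / 4 := by
          have hR' : (0:ℝ) < R := by exact_mod_cast hR
          rw [integral_div, integral_finsetSum _ fun l _ => (integrable_stein hS (hw g r) hv l).abs,
            div_le_iff₀ hR']
          refine (sum_le_sum fun l hl => q2 g M hM r l (mem_range.1 hl)).trans_eq ?_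
          simp only [sum_const, card_range, nsmul_eq_mul]; ring
        have := b4.trans (min_le_right _ _)
        linarith)
      (fun M hM => by
        have hle : η₁ ≤ ηD g M hM := by
          rcases hM with rfl | rfl
          · exact (Finset.inf'_le _ (mem_univ g)).trans (min_le_left _ _)
          · exact (Finset.inf'_le _ (mem_univ g)).trans (min_le_right _ _)
        exact hQD g M hM A wt x (hmesh.mono hle))
      (fun M r => hPatt hR (hw g r) hv)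
      (fun M r => hStep (M := M) hR (hw g r) hv _ KL hKL fun q q' hq hq' => hPL R q q' hR hq hq')
      (fun M m1 m2 r => q1 g M m1 m2 r)
    simp only at *
    linarith
  have h7 := avg_le_avg hcore
  rw [avg_sub, avg_sub, avg_const, avg_mul] at h7
  have h8 : avg (fun g : BIdx R 2 → Fin G =>
      ∑ i ∈ range J, avg fun r => ∫ z, adV f R (w₀ g r) (vecA R x) z ∂pats N (M₀ + i)) ≤ J * ε' := by
    have e : avg (fun g : BIdx R 2 → Fin G =>
        ∑ i ∈ range J, avg fun r => ∫ z, adV f R (w₀ g r) (vecA R x) z ∂pats N (M₀ + i)) =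
        ∑ i ∈ range J, avg fun g : BIdx R 2 → Fin G =>
          avg fun r => ∫ z, adV f R (w₀ g r) (vecA R x) z ∂pats N (M₀ + i) := by
      simp only [avg]; rw [sum_comm, sum_div]
    rw [e]
    refine (sum_le_sum (g := fun _ => ε') fun i _ => ?_).trans_eq (by simp)
    rw [avg_comm']
    have hi := fun r g => integrable_adV (M := M₀ + i) (R := R) hf hR (hw g r) hv
    refine le_trans (avg_le_avg fun r => le_of_eq ?_)
      (avg_integral_le (μ := pats N (M₀ + i)) (F := fun r z => avg fun g => adV f R (w₀ g r) (vecA R x) z)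
        (fun r => ?_) fun z => ?_)
    · simp only [avg]; rw [integral_div, integral_finsetSum _ fun g _ => hi r g]
    · simp only [avg]; exact (integrable_finsetSum _ fun g _ => hi r g).div_const _
    · have h := hread A wt x (hamS f z) hmesh.pos hmesh.unit (hamS_pos z)
      simp only [sysA_ham] at h
      exact h
  have h9 := mul_le_mul_of_nonneg_left h8 hCt
  linarith

/-- **the lower bound, from the modules** -/
theorem lower_sphere (hA : ReadSmall) (hK : KerProf) (hT : SiteTrunc) (hTs : SiteSm) (hF : ProfileFix)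
    (hP : ∀ {f f1 f2 f3 : ℝ → ℝ} {B D : ℝ}, Sm f f1 f2 f3 B D → (∀ x, f x ≤ B) → PattV f)
    (hQ : ∀ {f f1 f2 f3 : ℝ → ℝ} {B D : ℝ}, Sm f f1 f2 f3 B D → (∀ x, f x ≤ B) → StepV f)
    (hE : ∀ {f f1 f2 f3 : ℝ → ℝ} {B D : ℝ}, Sm f f1 f2 f3 B D → (∀ x, f x ≤ B) → EResV f f1)
    (hD : ∀ {f f1 f2 f3 : ℝ → ℝ} {B D : ℝ}, Sm f f1 f2 f3 B D → (∀ x, f x ≤ B) → DimV f f1)
    (hM : ∀ {f f1 f2 f3 : ℝ → ℝ} {B D : ℝ}, Sm f f1 f2 f3 B D → (∀ x, f x ≤ B) → MeshV f)
    (hSt : ∀ {f f1 f2 f3 : ℝ → ℝ} {B D : ℝ}, Sm f f1 f2 f3 B D → (∀ x, f x ≤ B) → SteinV f f1) :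
    LowerS := by
  intro f f1 f2 f3 B D hS hB α hα s hs ε hε
  have hf := hS.sd.cont0
  have hb := Sm.absB hS hB
  have hB0 : 0 ≤ B := (abs_nonneg _).trans (hb 0)
  set δ := ε / 12
  have hδ : 0 < δ := by positivity
  obtain ⟨KL, hKL, hL'⟩ := Par.Phi_lip hS 1
  have hPL : Par.PhiLip f KL := fun R q q' hR hq hq' => (hL' R q q' hR hq hq').1
  obtain ⟨C4, hC4, hFx⟩ := hF (show 0 ≤ α * D ^ 2 by positivity)
  obtain ⟨C5, hC5, hTr⟩ := hT (show 0 ≤ α * D ^ 2 by positivity)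
  set L := max 1 (C5 / δ)
  have hL : 1 ≤ L := le_max_left _ _
  have hL5 : C5 / L ^ 2 ≤ δ := by
    have h1 : C5 ≤ δ * L := by rw [← div_le_iff₀' hδ]; exact le_max_right _ _
    have h2 : C5 ≤ δ * L ^ 2 := h1.trans (mul_le_mul_of_nonneg_left (by nlinarith) hδ.le)
    rw [div_le_iff₀ (by positivity)]; exact h2
  set Kc := (α * KL + 1) * C4
  have hKc : 0 ≤ Kc := by positivity
  set tE := δ / (Kc + 1)
  have htE : Kc * tE ≤ δ := by
    rw [← mul_div_assoc, div_le_iff₀ (by positivity)]; nlinarith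
  obtain ⟨CE, hCE, hEr⟩ := hE hS hB hα.le (show 0 < tE by positivity)
  obtain ⟨CD, -, hDim⟩ := hD hS hB hα hL hδ
  obtain ⟨CP, hCP, hPatt⟩ := hP hS hB
  obtain ⟨CS, hCS, hStep⟩ := hQ hS hB
  set Ct := Kc * CE + |CD| + α * (CP + 2 * (CS * KL))
  have hCt : 0 ≤ Ct := by positivity
  set J := ⌈α⌉₊ + 3
  set ε' := δ / (Ct * J + 1)
  have hε' : Ct * (J * ε') ≤ δ := by
    rw [← mul_assoc, ← mul_div_assoc, div_le_iff₀ (by positivity)]; nlinarith
  obtain ⟨R₀, hR₀⟩ := hA (show 0 < ε' by positivity)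
  set R := max R₀ 1
  have hR : 1 ≤ R := le_max_right _ _
  obtain ⟨S, G, K, hp, ub, c, -, hG, hK0, hp0, hp1, hub, hub1, hc0, hc1, hread⟩ := hR₀ R (le_max_left _ _)
  have : NeZero G := ⟨hG.ne'⟩
  have : NeZero K := ⟨hK0.ne'⟩
  set β := allBatch R 2
  have hh : ∀ _j : BIdx R 2, |hp| ≤ 1 := fun _ => by rw [abs_of_pos hp0]; exact hp1
  have hu : ∀ (g : BIdx R 2 → Fin G) j, |gu ub G g j| ≤ 1 := fun g j => by
    obtain ⟨a, b⟩ := Vale.Agent.P168.MP.gu_mem hub g j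
    rw [abs_of_pos a]; exact b.trans hub1
  choose N₀ hN₀ using fun g : BIdx R 2 → Fin G =>
    hDim β R S K c (fun _ => hp) (gu ub G g) hR hc0.le hc1 hh (hu g)
  set ρ := δ / (Kc * CE + 1)
  have hρ : 0 < ρ := by positivity
  have hρ' : Kc * (CE * ρ) ≤ δ := by
    rw [← mul_assoc, ← mul_div_assoc, div_le_iff₀ (by positivity)]; nlinarith
  have hev : ∀ᶠ N : ℕ in atTop, 1 ≤ N ∧ (∀ g, N₀ g ≤ N) ∧ 2 ≤ α * N - 1 ∧ 1 / (α * N - 1) ≤ ρ / 4 ∧
      (1 + 4 * K * c * √(N:ℝ)) / N ≤ ρ / 4 ∧ (α + 2) / N ≤ min 1 (ρ / 4) := by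
    have t0 : Tendsto (fun N : ℕ => α * (N:ℝ) - 1) atTop atTop :=
      tendsto_atTop_add_const_right _ _ (tendsto_natCast_atTop_atTop.const_mul_atTop hα)
    have t1 : ∀ a : ℝ, Tendsto (fun N : ℕ => a / (N:ℝ)) atTop (𝓝 0) := tendsto_const_div_atTop_nhds_zero_nat
    have t2 : Tendsto (fun N : ℕ => 1 / (N:ℝ) + 4 * K * c / √N) atTop (𝓝 0) := by
      simpa using (t1 1).add (tendsto_const_nhds.div_atTop (tendsto_sqrt_atTop.comp tendsto_natCast_atTop_atTop))
    have t3 : Tendsto (fun N : ℕ => 1 / (α * (N:ℝ) - 1)) atTop (𝓝 0) := tendsto_const_nhds.div_atTop t0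
    filter_upwards [eventually_ge_atTop 1, Filter.eventually_all.2 fun g => eventually_ge_atTop (N₀ g),
      t0.eventually_ge_atTop 2, t3.eventually_le_const (show 0 < ρ / 4 by positivity),
      t2.eventually_le_const (show 0 < ρ / 4 by positivity),
      (t1 (α + 2)).eventually_le_const (lt_min one_pos (show 0 < ρ / 4 by positivity))] with N h1 h2 h3 h4 h5 h6
    refine ⟨h1, h2, h3, h4, le_of_eq_of_le ?_ h5, h6⟩
    have hs : 0 < √(N:ℝ) := sqrt_pos.2 (by exact_mod_cast h1)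
    rw [show (4 * K * c / √(N:ℝ) : ℝ) = 4 * K * c * √(N:ℝ) / (√(N:ℝ) * √(N:ℝ)) by field_simp,
      mul_self_sqrt (Nat.cast_nonneg N)]
    ring
  obtain ⟨m₀, hm₀⟩ := eventually_atTop.1 hev
  set a : ℕ → ℝ := fun n => avg fun g : BIdx R 2 → Fin G =>
    pertSI f R S β c K (fun _ => hp) (gu ub G g) n (α * n) with ha
  set c₀ := s - C5 / L ^ 2 - Kc * (tE + CE * ρ) - 3 * δ - δ with hc₀
  have hstep : ∀ N, m₀ ≤ N → a N + c₀ ≤ a (N + 1) := by
    intro N hN
    obtain ⟨h1, h2, h3, h4, h5, h6⟩ := hm₀ N hN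
    have : NeZero N := ⟨by omega⟩
    have h7 := step_avg (hp := hp) (ub := ub) (ρ := ρ) (C5 := C5) (s := s) (tE := tE) (C4 := C4) hS hB hK hTs hα hR hc0
      hh hu hL hδ hρ hKL hC4 hCE hCP hCS hPL
      (fun {q} hq hqR => pointwise_lower hS hα.le hR hq hqR hKL hPL (fun {h} hh' => hFx hR hq hqR hh')
        (fun {h} hh' {d0} a1 a2 => hTr hL hR hh' a1 a2) fun q' ha' => hs R q' hR ha')
      hEr (fun g => hN₀ g N (h2 g)) hPatt (fun {Ω} _ _ {R N M} hR' {w₀} hw {v} hv => (hStep hR' hw hv).2.2)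
      (hM hS hB) (hSt hS hB) (fun A _ _ => hread N A Unit) h3 h4 h5 h6
    simp only [ha, hc₀, Kc, J, Ct] at *
    push_cast at *
    linarith
  have hlow : ∀ j : ℕ, a m₀ + j * c₀ ≤ a (m₀ + j) := by
    intro j
    induction j with
    | zero => simp
    | succ j ih =>
      have := hstep (m₀ + j) (Nat.le_add_right _ _)
      rw [show m₀ + (j + 1) = m₀ + j + 1 by omega]
      push_cast
      linarith
  set D₀ := |a m₀| + (m₀ : ℝ) * |c₀| + 4 * gainCap S β + B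
  obtain ⟨n₂, hn₂⟩ := exists_nat_ge (D₀ / δ)
  refine eventually_atTop.2 ⟨max (max m₀ n₂) 1, fun n hn => ?_⟩
  have hn0 : 1 ≤ n := le_of_max_le_right hn
  obtain ⟨j, rfl⟩ : ∃ j, n = m₀ + j := ⟨n - m₀, by have := le_of_max_le_left (le_of_max_le_left hn); omega⟩
  have : NeZero (m₀ + j) := ⟨by omega⟩
  set n := ((m₀ + j : ℕ) : ℝ) with hnn
  have hnpos : 0 < n := by rw [hnn]; exact_mod_cast hn0
  set M := ⌊α * n⌋₊
  have hup : a (m₀ + j) ≤ n * pressure (sphereUniform (m₀ + j)) f M + 3 * gainCap S β + B := by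
    refine (avg_le_avg fun g => ?_).trans_eq (avg_const _)
    rw [Lim.pressure_eq_freeM (by omega) hf, mul_div_cancel₀ _ hnpos.ne']
    have b0 := (abs_le.1 (abs_pertS_sub (N := m₀ + j) (K := K) (S := S) (β := β) (h := fun _ => hp)
      (u := gu ub G g) hR hf hb hh (hu g) c M))
    have b1 := (abs_le.1 (abs_pertS_sub (N := m₀ + j) (K := K) (S := S) (β := β) (h := fun _ => hp)
      (u := gu ub G g) hR hf hb hh (hu g) c (M + 1)))
    have b2 := freeM_succ_le (N := m₀ + j) hf hb M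
    have w0 : 0 ≤ α * n - M := sub_nonneg.2 (Nat.floor_le (by positivity))
    have w1 : α * n - M ≤ 1 := by linarith [Nat.lt_floor_add_one (α * n)]
    have hg : 0 ≤ gainCap S β := by linarith [b0.1, b0.2]
    have h' : (α * n - M) * (pertS f R S β c K (fun _ => hp) (gu ub G g) (m₀ + j) (M + 1) -
        pertS f R S β c K (fun _ => hp) (gu ub G g) (m₀ + j) M) ≤ B + 2 * gainCap S β :=
      (mul_le_mul_of_nonneg_left (by linarith [b0.1, b1.2]) w0).trans
        (mul_le_of_le_one_left (by positivity) w1)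
    simp only [pertSI]
    linarith [b0.2]
  have hn2 : (n₂ : ℝ) ≤ n := by rw [hnn]; exact_mod_cast le_of_max_le_right (le_of_max_le_left hn)
  have hDn : D₀ ≤ n * δ := by
    rw [div_le_iff₀ hδ] at hn₂
    exact hn₂.trans (mul_le_mul_of_nonneg_right hn2 hδ.le)
  have hl := hlow j
  rw [show (j : ℝ) * c₀ = n * c₀ - (m₀ : ℝ) * c₀ by rw [hnn]; push_cast; ring] at hl
  have := mul_le_mul_of_nonneg_left (le_abs_self c₀) (Nat.cast_nonneg (α := ℝ) m₀)
  have := neg_abs_le (a m₀)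
  have hg : 0 ≤ gainCap S β := by
    exact mul_nonneg (Nat.cast_nonneg _) (sum_nonneg fun _ _ => by positivity)
  have e1 : s - 7 * δ ≤ c₀ := by
    simp only [hc₀]; rw [mul_add]; linarith
  have := mul_le_mul_of_nonneg_left e1 hnpos.le
  refine le_of_mul_le_mul_left ?_ hnpos
  have he : ε = 12 * δ := by simp only [δ]; ring
  rw [he]
  have := mul_nonneg hnpos.le hδ.le
  simp only [D₀] at hDn
  linarith

end Vale.Agent.P157.Sph
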