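import Vale.Agent.P157.Sph.MainLower
import Vale.Agent.P157.Sph.EnvMain

/-! The formula on the sphere. -/

open MeasureTheory ProbabilityTheory Real Filter
open scoped Topology

namespace Vale.Agent.P157.Sph

/-- **the upper half of the formula on the sphere** -/
theorem upperS : UpperS :=
  upper_sphere readSmall kerProf (fun hS hB => pattV kerProf hS hB) (fun hS hB => stepV kerProf hS hB)

/-- **the formula on the sphere**, every bounded Borel potential and every density -/
theorem sphere_limit {f : ℝ → ℝ} {B : ℝ} (hf : Measurable f) (hB : ∀ x, |f x| ≤ B) {α : ℝ} (hα : 0 < α) :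
    (sphereValues (fun y => exp (f y)) α).Nonempty ∧ BddBelow (sphereValues (fun y => exp (f y)) α) ∧
    Tendsto (fun N : ℕ => pressure (sphereUniform N) f ⌊α * N⌋₊) atTop
      (𝓝 (sInf (sphereValues (fun y => exp (f y)) α))) :=
  sphere_formula lowerS upperS hf hB hα

end Vale.Agent.P157.Sph
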