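import Vale.Agent.P157.Sph.Defs
import Vale.Agent.P150.Ising

/-! The mean product of two smooth bits is, up to the factor `c ^ 2`, the overlap of the two points. -/

open Finset Real
open Vale.Agent.P150 (dot)
open Vale.Agent.P168 (sg)
open Vale.Agent.P168.MP (avg avg_const avg_le_avg)
open Vale.Agent.P157.Lim (xv sgn)

namespace Vale.Agent.P157.Sph

/-- a Rademacher sum -/
def rad {n : ℕ} (z : Fin n → ℝ) (σ : Fin n → Bool) : ℝ := ∑ i, sgn (σ i) * z i

lemma sgn_sg (b : Bool) : sgn b = sg b := by cases b <;> rfl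

lemma avg_cons {n : ℕ} (F : (Fin (n + 1) → Bool) → ℝ) :
    avg F = avg fun s : Fin n → Bool => (F (Fin.cons true s) + F (Fin.cons false s)) / 2 := by
  simp only [avg]
  rw [← (Fin.consEquiv fun _ : Fin (n + 1) => Bool).sum_comp, Fintype.sum_prod_type,
    Fintype.sum_bool, ← sum_div, sum_add_distrib]
  simp only [Fintype.card_fun, Fintype.card_bool, Fintype.card_fin, pow_succ, Fin.consEquiv,
    Equiv.coe_fn_mk]
  push_cast
  field_simp

lemma rad_cons {n : ℕ} (z : Fin (n + 1) → ℝ) (b : Bool) (s : Fin n → Bool) :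
    rad z (Fin.cons b s) = sgn b * z 0 + rad (Fin.tail z) s := by
  simp [rad, Fin.sum_univ_succ, Fin.tail]

lemma avg_rad_mul : ∀ {n : ℕ} (z z' : Fin n → ℝ), avg (fun σ => rad z σ * rad z' σ) = dot z z'
  | 0, _, _ => by simp [avg, rad, dot]
  | n + 1, z, z' => by
    rw [avg_cons]
    have e : (fun s : Fin n → Bool => (rad z (Fin.cons true s) * rad z' (Fin.cons true s) +
        rad z (Fin.cons false s) * rad z' (Fin.cons false s)) / 2) =
        fun s => z 0 * z' 0 + rad (Fin.tail z) s * rad (Fin.tail z') s := funext fun s => by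
      simp only [rad_cons, sgn, if_true]
      simp only [Bool.false_eq_true, if_false]
      ring
    rw [e]
    have ih := avg_rad_mul (Fin.tail z) (Fin.tail z')
    simp only [avg, sum_add_distrib, add_div] at ih ⊢
    rw [ih, dot, dot, Fin.sum_univ_succ]
    simp [Fin.tail]

lemma avg_rad_four : ∀ {n : ℕ} (z : Fin n → ℝ), avg (fun σ => rad z σ ^ 4) ≤ 3 * dot z z ^ 2
  | 0, z => by simp [avg, rad, dot]
  | n + 1, z => by
    rw [avg_cons]
    have e : (fun s : Fin n → Bool => (rad z (Fin.cons true s) ^ 4 + rad z (Fin.cons false s) ^ 4) / 2) =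
        fun s => z 0 ^ 4 + (6 * z 0 ^ 2 * (rad (Fin.tail z) s * rad (Fin.tail z) s) + rad (Fin.tail z) s ^ 4) :=
      funext fun s => by
        simp only [rad_cons, sgn, if_true]
        simp only [Bool.false_eq_true, if_false]
        ring
    rw [e]
    have ih := avg_rad_four (Fin.tail z)
    have h2 := avg_rad_mul (Fin.tail z) (Fin.tail z)
    have hd : dot z z = z 0 ^ 2 + dot (Fin.tail z) (Fin.tail z) := by
      rw [dot, dot, Fin.sum_univ_succ]; simp [Fin.tail, sq]
    have hs : avg (fun s : Fin n → Bool => z 0 ^ 4 + (6 * z 0 ^ 2 * (rad (Fin.tail z) s * rad (Fin.tail z) s) +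
        rad (Fin.tail z) s ^ 4)) = z 0 ^ 4 + (6 * z 0 ^ 2 * dot (Fin.tail z) (Fin.tail z) +
          avg fun s : Fin n → Bool => rad (Fin.tail z) s ^ 4) := by
      simp only [avg, sum_add_distrib, add_div, ← mul_sum, mul_div_assoc] at h2 ⊢
      rw [h2]
      simp
    rw [hs, hd]
    nlinarith [sq_nonneg (z 0 ^ 2)]

variable {N K : ℕ}

lemma proj_eq [NeZero N] (σ : Fin N → Bool) (z : Fin N → ℝ) :
    √(N : ℝ) * dot (xv N σ) z = rad z σ := by
  have h : √(N : ℝ) ≠ 0 := (sqrt_pos.2 (by exact_mod_cast Nat.pos_of_ne_zero (NeZero.ne N))).ne'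
  rw [dot, rad, mul_sum]
  exact sum_congr rfl fun i _ => by rw [xv]; field_simp

/-- the mean product of the two tilts -/
noncomputable def muB (c : ℝ) (z z' : Fin N → ℝ) : ℝ := avg fun σ => tanh (c * rad z σ) * tanh (c * rad z' σ)

/-- **bias** -/
theorem abs_bias {c : ℝ} (hc : 0 ≤ c) {z z' : Fin N → ℝ} (hz : dot z z = 1) (hz' : dot z' z' = 1) :
    |c ^ 2 * dot z z' - muB c z z'| ≤ 6 * c ^ 4 := by
  have hp : ∀ a b : ℝ, |a * b - tanh a * tanh b| ≤ a ^ 4 + b ^ 4 := fun a b => by
    have h1 := Vale.Agent.P150.Ising.abs_tanh_sub_le a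
    have h2 := Vale.Agent.P150.Ising.abs_tanh_sub_le b
    have h3 := Vale.Agent.P150.Ising.abs_tanh_le b
    rw [abs_sub_comm] at h1 h2
    rw [show a * b - tanh a * tanh b = (a - tanh a) * tanh b + a * (b - tanh b) by ring]
    refine (abs_add_le _ _).trans ?_
    rw [abs_mul, abs_mul]
    refine (add_le_add (mul_le_mul h1 h3 (abs_nonneg _) (by positivity))
      (mul_le_mul_of_nonneg_left h2 (abs_nonneg a))).trans ?_
    have ea : a ^ 4 = |a| ^ 4 := ((show Even 4 by decide).pow_abs a).symm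
    have eb : b ^ 4 = |b| ^ 4 := ((show Even 4 by decide).pow_abs b).symm
    rw [ea, eb]
    nlinarith [sq_nonneg (|a| - |b|), sq_nonneg (|a| ^ 2 - |b| ^ 2), abs_nonneg a, abs_nonneg b,
      mul_nonneg (abs_nonneg a) (abs_nonneg b)]
  have e : c ^ 2 * dot z z' - muB c z z' =
      avg fun σ => c * rad z σ * (c * rad z' σ) - tanh (c * rad z σ) * tanh (c * rad z' σ) := by
    rw [← avg_rad_mul, muB]
    simp only [avg, sum_sub_distrib, sub_div, mul_div_assoc', mul_sum]
    congr 1
    congr 1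
    exact sum_congr rfl fun σ _ => by ring
  rw [e, avg, abs_div, Nat.abs_cast]
  refine (div_le_div_of_nonneg_right ((abs_sum_le_sum_abs _ _).trans
    (sum_le_sum fun σ _ => hp (c * rad z σ) (c * rad z' σ))) (Nat.cast_nonneg _)).trans ?_
  have a1 := avg_rad_four z
  have a2 := avg_rad_four z'
  rw [hz] at a1
  rw [hz'] at a2
  simp only [avg] at a1 a2
  simp only [mul_pow, sum_add_distrib, add_div, ← mul_sum, mul_div_assoc]
  nlinarith [pow_nonneg hc 4]

/-- product weights: the square of a centred sum has mean at most the number of factors -/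
lemma avg_pi_sq {T : Type} [Fintype T] [Nonempty T] {p g : T → ℝ} (hpos : ∀ t, 0 ≤ p t) (hp : avg p = 1)
    (h0 : avg (fun t => p t * g t) = 0) (h2 : avg (fun t => p t * g t ^ 2) ≤ 1) : ∀ K : ℕ,
    avg (fun t : Fin K → T => ∏ k, p (t k)) = 1 ∧
      avg (fun t : Fin K → T => (∏ k, p (t k)) * ∑ k, g (t k)) = 0 ∧
      avg (fun t : Fin K → T => (∏ k, p (t k)) * (∑ k, g (t k)) ^ 2) ≤ K := by
  intro K
  induction K with
  | zero => simp [avg]
  | succ K ih =>
    obtain ⟨i1, i2, i3⟩ := ih
    have hs : ∀ F : (Fin (K + 1) → T) → ℝ, avg F = avg fun a : T => avg fun t : Fin K → T => F (Fin.cons a t) := by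
      intro F
      simp only [avg]
      rw [← (Fin.consEquiv fun _ : Fin (K + 1) => T).sum_comp, Fintype.sum_prod_type, ← sum_div, div_div]
      simp only [Fintype.card_fun, Fintype.card_fin, Fin.consEquiv, Equiv.coe_fn_mk]
      push_cast
      rw [pow_succ]
    refine ⟨?_, ?_, ?_⟩
    · rw [hs]
      simp only [Fin.prod_univ_succ, Fin.cons_zero, Fin.cons_succ]
      simp only [avg, ← mul_sum, mul_div_assoc] at i1 hp ⊢
      simp only [i1, mul_one, hp]
    · rw [hs]
      have e : ∀ a : T, avg (fun t : Fin K → T => (∏ k, p ((Fin.cons a t : Fin (K + 1) → T) k)) *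
          ∑ k, g ((Fin.cons a t : Fin (K + 1) → T) k)) = p a * g a := fun a => by
        simp only [Fin.prod_univ_succ, Fin.sum_univ_succ, Fin.cons_zero, Fin.cons_succ, mul_add]
        simp only [avg, sum_add_distrib, add_div, mul_assoc, ← mul_sum, mul_div_assoc, ← sum_mul] at i1 i2 ⊢
        rw [i2, mul_zero, add_zero, ← mul_comm_div, i1, one_mul]
      simp only [e, h0]
    · rw [hs]
      refine (avg_le_avg (g := fun a => p a * g a ^ 2 + p a * (K : ℝ)) ?_ (f := _)).trans ?_
      · intro a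
        simp only [Fin.prod_univ_succ, Fin.sum_univ_succ, Fin.cons_zero, Fin.cons_succ]
        have e : ∀ t : Fin K → T, p a * (∏ k, p (t k)) * (g a + ∑ k, g (t k)) ^ 2 =
            p a * g a ^ 2 * (∏ k, p (t k)) + 2 * p a * g a * ((∏ k, p (t k)) * ∑ k, g (t k)) +
              p a * ((∏ k, p (t k)) * (∑ k, g (t k)) ^ 2) := fun t => by ring
        simp only [e]
        simp only [avg, sum_add_distrib, add_div, ← mul_sum, mul_div_assoc] at i1 i2 i3 ⊢
        rw [i1, i2, mul_zero, add_zero, mul_one]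
        have hpa := hpos a
        linarith [mul_le_mul_of_nonneg_left i3 hpa]
      · simp only [avg, sum_add_distrib, add_div, ← sum_mul, mul_div_right_comm] at hp h2 ⊢
        rw [hp]
        push_cast
        linarith

end Vale.Agent.P157.Sph
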