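import Vale.Agent.P157.Sph.Defs
import Vale.Agent.P157.Par.QConc

/-! Profiles of mean overlaps of a vector reading, and integration of the last mark of two replicas. -/

open Finset Real
open Vale.Agent.P150 (dot)
open Vale.Agent.P168.MP hiding avg
open Vale.Agent.P168.MP (avg)
open Vale.Agent.P157.Par (Prof cv devOf)

namespace Vale.Agent.P157.Sph

variable {Ω : Type} [Fintype Ω] [Nonempty Ω] {R N : ℕ} {w : List Ω → ℝ}

/-- mean squared conditional mean of the reading below a node -/
noncomputable def midV (R : ℕ) (w : List Ω → ℝ) (v : List Ω → Fin N → ℝ) (l : ℕ) (pre : List Ω) : ℝ :=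
  ∑ i, ext (lin R) w (R - l) pre (fun p => v p i) ^ 2

lemma qker_eq (v : List Ω → Fin N → ℝ) {l : ℕ} (hl : l ≤ R) :
    qker R w (cv v) l = ext (lin R) (Z (lin R) w (R - l)) l [] (midV R w v l) := by
  rw [qker, Par.star2 hl]
  refine congrArg (ext (lin R) _ l []) (funext fun pre => ?_)
  simp only [midV, List.getD_cons_zero, List.getD_cons_succ, cv, dot, ext_sum, ext_const_mul, ext_mul_const, sq]

/-- the mean overlaps of a unit reading form a profile -/
theorem kerProf_of {v : List Ω → Fin N → ℝ} (hw : ∀ p, 0 < w p) (hv : ∀ p, cv v p p = 1) :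
    Prof R (qker R w (cv v)) 1 ∧ qker R w (cv v) R = 1 := by
  have hZ : ∀ k q, 0 < Z (lin R) w k q := fun k q => Z_pos hw k q
  have htop : qker R w (cv v) R = 1 := by
    rw [qker, Par.star2 le_rfl]
    simp only [Nat.sub_self, ext_zero, List.getD_cons_zero, List.getD_cons_succ, hv]
    exact ext_const (hZ 0) _ _ _
  refine ⟨⟨?_, fun l hl => ?_, htop.le⟩, htop⟩
  · rw [qker_eq v (Nat.zero_le R)]
    exact ext_nonneg (hZ _) fun pre => sum_nonneg fun i _ => sq_nonneg _
  · rw [qker_eq v hl.le, qker_eq v (show l + 1 ≤ R by omega), ext_tower l 1]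
    have e : (fun q : List Ω => Z (lin R) (Z (lin R) w (R - (l + 1))) 1 q) = Z (lin R) w (R - l) := by
      funext q; rw [Z_Z, show 1 + (R - (l + 1)) = R - l by omega]
    refine le_of_le_of_eq (ext_mono (hZ _) fun pre => ?_) (by rw [← e])
    show _ ≤ ext _ _ 1 pre fun q => midV R w v (l + 1) q
    simp only [midV, ext_sum]
    refine sum_le_sum fun i _ => ?_
    rw [Par.tower' (Nat.le_succ l) hl, show l + 1 - l = 1 by omega]
    exact ext_sq_le (hZ _) 1 pre _

/-- a deviation is at most twice the distance from any constant -/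
lemma devOf_le_two (hw : ∀ p, 0 < w p) (C : List Ω → List Ω → ℝ) (c₀ : ℝ) (l : ℕ) :
    devOf R w C (qker R w C) l ≤ 2 * devOf R w C (fun _ => c₀) l := by
  refine (Par.devOf_shift hw C _ (fun _ => c₀) l).trans ?_
  have h : |c₀ - qker R w C l| ≤ devOf R w C (fun _ => c₀) l := by
    rw [abs_sub_comm, show qker R w C l - c₀ =
      ET R (lin R) w [(0, l), (0, 0)] fun ps => C (ps.getD 0 []) (ps.getD 1 []) - c₀ by
        rw [ET_sub, ET_const hw]; rfl]
    exact ET_abs_le hw _ _
  linarith

omit [Nonempty Ω] in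
lemma avg_ext {ρ : Type} [Fintype ρ] (m : ℕ → ℝ) (u : List Ω → ℝ) (k : ℕ) (pre : List Ω)
    (F : ρ → List Ω → ℝ) :
    avg (fun r => ext m u k pre (F r)) = ext m u k pre fun q => avg fun r => F r q := by
  simp only [avg, div_eq_mul_inv, ext_mul_const, ext_sum]

/-- **the last mark of two replicas** may be averaged first when it alone carries the randomness `r` -/
theorem avg_ET_top {B X ρ : Type} [Fintype B] [Nonempty B] [Fintype X] [Nonempty X] [Fintype ρ] [Nonempty ρ]
    (hR : 1 ≤ R) {l : ℕ} (hl : l < R) (e : Ω ≃ B × X) {w : ρ → List Ω → ℝ}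
    {κ : List Ω → X → ℝ} (hκ : ∀ q x, 0 < κ q x) {φ : ρ → X → B → ℝ} (hφ : ∀ r x, avg (φ r x) = 1)
    (htop : ∀ r q o, q.length + 1 = R → w r (q ++ [o]) = κ q (e o).2 * φ r (e o).2 (e o).1)
    (C : ρ → List Ω → List Ω → ℝ) {t : ℝ}
    (hC : ∀ q q' x x', q.length + 1 = R → q'.length + 1 = R → avg (fun r => avg fun b => avg fun b' =>
      φ r x b * φ r x' b' * C r (q ++ [e.symm (b, x)]) (q' ++ [e.symm (b', x')])) ≤ t) :
    avg (fun r => ET R (lin R) (w r) [(0, l), (0, 0)] fun ps => C r (ps.getD 0 []) (ps.getD 1 [])) ≤ t := by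
  have hm : lin R R = 1 := (ok_lin (Ω := Ω) hR (w := fun _ => 1) fun _ => one_pos).top
  set U : List Ω → ℝ := fun q => avg (κ q) with hUdef
  have hU : ∀ q, 0 < U q := fun q => avg_pos (hκ q)
  obtain ⟨j, hj⟩ : ∃ j, R - l = j + 1 := ⟨R - l - 1, by omega⟩
  have hsum : ∀ r q, q.length + 1 = R → ∀ Φ : Ω → ℝ,
      ∑ o, w r (q ++ [o]) * Φ o = ∑ b, ∑ x, κ q x * φ r x b * Φ (e.symm (b, x)) := fun r q hq Φ => by
    rw [← e.symm.sum_comp, Fintype.sum_prod_type]
    exact sum_congr rfl fun b _ => sum_congr rfl fun x _ => by rw [htop r q _ hq, Equiv.apply_symm_apply]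
  have hden : ∀ r q, q.length + 1 = R → ∑ o, w r (q ++ [o]) = Fintype.card B * ∑ x, κ q x := fun r q hq => by
    have := hsum r q hq fun _ => 1
    simp only [mul_one] at this
    rw [this, sum_comm, mul_sum]
    refine sum_congr rfl fun x _ => ?_
    have hb := hφ r x
    rw [avg, div_eq_one_iff_eq (card_pos_real (Ω := B)).ne'] at hb
    rw [← mul_sum, hb, mul_comm]
  have hZ1 : ∀ r q, q.length + 1 = R → Z (lin R) (w r) 1 q = U q := fun r q hq => by
    simp only [Z, hq, hm, one_div_one, rpow_one, avg, hUdef]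
    rw [hden r q hq, show Fintype.card Ω = Fintype.card B * Fintype.card X by
      rw [Fintype.card_congr e, Fintype.card_prod]]
    push_cast
    rw [mul_div_mul_left _ _ (card_pos_real (Ω := B)).ne']
  have hZj : ∀ r pre, pre.length = l → Z (lin R) (w r) (R - l) pre = Z (lin R) U j pre := fun r pre hp => by
    rw [hj, ← Z_Z j 1]
    exact Z_congr fun suf hs => hZ1 r _ (by rw [List.length_append, hp, hs]; omega)
  have htr : ∀ r q, q.length + 1 = R → ∀ Φ : List Ω → ℝ, ext (lin R) (w r) 1 q Φ =
      (∑ b, ∑ x, κ q x * φ r x b * Φ (q ++ [e.symm (b, x)])) / (Fintype.card B * ∑ x, κ q x) := fun r q hq Φ => by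
    simp only [ext_succ, ext_zero, Vale.Agent.P168.MP.trans, Z, hq, hm, rpow_one, div_mul_eq_mul_div, ← sum_div]
    rw [hden r q hq, hsum r q hq fun o => Φ (q ++ [o])]
  have hex : ∀ r pre, pre.length = l → ∀ Φ : List Ω → ℝ, ext (lin R) (w r) (R - l) pre Φ =
      ext (lin R) U j pre fun q => ext (lin R) (w r) 1 q Φ := fun r pre hp Φ => by
    rw [hj, ext_tower j 1]
    exact ext_congr_weight fun suf hs => hZ1 r _ (by rw [List.length_append, hp, hs]; omega)
  have hUZ : ∀ q, 0 < Z (lin R) U j q := fun q => Z_pos hU j q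
  -- the expectation with the last marks inside
  have key : ∀ r, ET R (lin R) (w r) [(0, l), (0, 0)] (fun ps => C r (ps.getD 0 []) (ps.getD 1 [])) =
      ext (lin R) (Z (lin R) U j) l [] fun pre => ext (lin R) U j pre fun q => ext (lin R) U j pre fun q' =>
        ext (lin R) (w r) 1 q fun a => ext (lin R) (w r) 1 q' fun b => C r a b := fun r => by
    rw [Par.star2 hl.le, ext_congr_weight (w := Z (lin R) (w r) (R - l)) (w' := Z (lin R) U j)
      fun suf hs => hZj r _ (by simpa using hs)]
    refine ext_congr fun suf hs => ?_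
    have hp : ([] ++ suf : List Ω).length = l := by simpa using hs
    simp only [List.getD_cons_zero, List.getD_cons_succ, hex r _ hp]
    refine congrArg (ext (lin R) U j _) (funext fun q => ?_)
    simp only [ext_succ, ext_zero, ← ext_const_mul, ← ext_sum]
  simp only [key, avg_ext]
  have hb : ∀ pre : List Ω, pre.length = l → ext (lin R) U j pre (fun q => ext (lin R) U j pre fun q' =>
      avg fun r => ext (lin R) (w r) 1 q fun a => ext (lin R) (w r) 1 q' fun b => C r a b) ≤ t := by
    intro pre hp
    refine (ext_mono_on hU fun suf hs => (ext_mono_on hU (G := fun _ => t) fun suf' hs' => ?_).trans_eq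
      (ext_const hU _ _ _)).trans_eq (ext_const hU _ _ _)
    set q := pre ++ suf
    set q' := pre ++ suf'
    have hq : q.length + 1 = R := by simp only [q, List.length_append, hp, hs]; omega
    have hq' : q'.length + 1 = R := by simp only [q', List.length_append, hp, hs']; omega
    set P := fun q x => κ q x / ∑ x, κ q x with hP
    have hP1 : ∀ q, ∑ x, P q x = 1 := fun q => by
      simp only [hP, ← sum_div]; exact div_self (sum_pos (fun x _ => hκ q x) univ_nonempty).ne'
    have e2 : ∀ r, (ext (lin R) (w r) 1 q fun a => ext (lin R) (w r) 1 q' fun b => C r a b) =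
        ∑ x, ∑ x', P q x * P q' x' * avg fun b => avg fun b' =>
          φ r x b * φ r x' b' * C r (q ++ [e.symm (b, x)]) (q' ++ [e.symm (b', x')]) := fun r => by
      simp only [htr r q hq, htr r q' hq', hP, avg, mul_sum, sum_div, mul_div_assoc]
      rw [sum_comm]
      refine sum_congr rfl fun x _ => ?_
      conv_rhs => rw [sum_comm]
      refine sum_congr rfl fun b _ => ?_
      rw [sum_comm]
      refine sum_congr rfl fun x' _ => sum_congr rfl fun b' _ => ?_
      have n1 := (sum_pos (fun y _ => hκ q y) univ_nonempty).ne'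
      have n2 := (sum_pos (fun y _ => hκ q' y) univ_nonempty).ne'
      have n3 := (card_pos_real (Ω := B)).ne'
      simp only [← mul_sum]
      field_simp
    calc avg (fun r => ext (lin R) (w r) 1 q fun a => ext (lin R) (w r) 1 q' fun b => C r a b)
        = ∑ x, ∑ x', P q x * P q' x' * avg (fun r => avg fun b => avg fun b' =>
            φ r x b * φ r x' b' * C r (q ++ [e.symm (b, x)]) (q' ++ [e.symm (b', x')])) := by
          simp only [e2]
          simp only [avg, div_eq_mul_inv, mul_sum, sum_mul]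
          rw [sum_comm]
          refine sum_congr rfl fun x _ => ?_
          rw [sum_comm]
          exact sum_congr rfl fun x' _ => sum_congr rfl fun r _ => sum_congr rfl fun b _ =>
            sum_congr rfl fun b' _ => by ring
      _ ≤ ∑ x, ∑ x', P q x * P q' x' * t := sum_le_sum fun x _ => sum_le_sum fun x' _ =>
          mul_le_mul_of_nonneg_left (hC q q' x x' hq hq') (mul_nonneg
            (div_nonneg (hκ _ _).le (sum_nonneg fun y _ => (hκ _ y).le))
            (div_nonneg (hκ _ _).le (sum_nonneg fun y _ => (hκ _ y).le)))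
      _ = t := by simp only [← sum_mul, ← mul_sum, hP1, one_mul, mul_one]
  refine (ext_mono_on hUZ (G := fun _ => t) fun suf hs => hb _ (by simpa using hs)).trans_eq (ext_const hUZ _ _ _)

end Vale.Agent.P157.Sph
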