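import Vale.Agent.P157.Sph.Iface
import Vale.Agent.P157.Sph.ReadBits
import Vale.Agent.P157.Sph.ReadTop

/-! Smooth bits make the real overlaps pure: `ReadSmall`, and `KerProf`. -/

open Finset Real
open Vale.Agent.P150 (dot)
open Vale.Agent.P168 (sg)
open Vale.Agent.P168.MP (lin ET Batch BIdx allBatch gu avg gainCap avg_le_avg avg_const gain1)
open Vale.Agent.P157.Par (cv devOf adev ovK ov)
open Vale.Agent.P157.Lim (xv sgn)

namespace Vale.Agent.P157.Sph

set_option linter.unusedSectionVars false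

theorem kerProf : KerProf := by
  intro Ω _ _ R N _ w hw v hv
  exact kerProf_of hw hv

variable {N K : ℕ}

lemma one_add_sgn_tanh_pos (b : Bool) (x : ℝ) : 0 < 1 + sgn b * tanh x := by
  have := abs_lt.1 (Real.abs_tanh_lt_one x)
  cases b <;> simp [sgn] <;> linarith

private lemma bitW_pos (c : ℝ) (r : Fin K → Fin N → Bool) (b : Fin K → Bool) (z : Fin N → ℝ) : 0 < bitW c r b z :=
  prod_pos fun k _ => one_add_sgn_tanh_pos _ _

lemma avg_bitW (c : ℝ) (r : Fin K → Fin N → Bool) (z : Fin N → ℝ) : avg (fun b => bitW c r b z) = 1 := by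
  have h := (Fintype.prod_sum fun (k : Fin K) (b : Bool) =>
    1 + sgn b * tanh (c * √(N : ℝ) * dot (xv N (r k)) z)).symm
  have e : ∀ k : Fin K, ∑ b : Bool, (1 + sgn b * tanh (c * √(N : ℝ) * dot (xv N (r k)) z)) = 2 := fun k => by
    simp [sgn]; ring
  simp only [e, prod_const, card_univ, Fintype.card_fin] at h
  simp only [avg, bitW, h]
  simp

/-- the two bit readings of a direction and their weight -/
noncomputable def tW (c : ℝ) (z z' : Fin N → ℝ) (t : (Fin N → Bool) × Bool × Bool) : ℝ :=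
  (1 + sgn t.2.1 * tanh (c * rad z t.1)) * (1 + sgn t.2.2 * tanh (c * rad z' t.1))

/-- **fluctuation**: over directions and bits, the bit overlap stays within `1 / √K` of its mean -/
theorem bit_fluct [NeZero K] [NeZero N] (c : ℝ) (z z' : Fin N → ℝ) :
    avg (fun r : Fin K → Fin N → Bool => avg fun b : Fin K → Bool => avg fun b' : Fin K → Bool =>
      bitW c r b z * bitW c r b' z' * |ov b b' - muB c z z'|) ≤ 1 / √(K : ℝ) := by
  set μ := muB c z z' with hμ
  set g : (Fin N → Bool) × Bool × Bool → ℝ := fun t => sgn t.2.1 * sgn t.2.2 - μ with hg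
  set p := tW c z z' with hp
  have hK : (0 : ℝ) < K := by exact_mod_cast Nat.pos_of_ne_zero (NeZero.ne K)
  have hsum : ∀ F : (Fin N → Bool) × Bool × Bool → ℝ, avg F =
      avg fun σ : Fin N → Bool => (F (σ, true, true) + F (σ, true, false) + (F (σ, false, true) + F (σ, false, false))) / 4 := by
    intro F
    simp only [avg, ← sum_div, Fintype.sum_prod_type, Fintype.sum_bool, Fintype.card_prod, Fintype.card_bool]
    push_cast
    rw [div_div]
    ring
  have hμ' : μ = (∑ σ : Fin N → Bool, tanh (c * rad z σ) * tanh (c * rad z' σ)) /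
      Fintype.card (Fin N → Bool) := rfl
  have m1 : avg p = 1 := by
    rw [hsum]
    convert avg_const (Ω := Fin N → Bool) (1 : ℝ) using 2
    funext σ
    simp only [hp, tW, sgn, if_true, Bool.false_eq_true, if_false]
    ring
  have m2 : avg (fun t => p t * g t) = 0 := by
    rw [hsum]
    have e : ∀ σ, (p (σ, true, true) * g (σ, true, true) + p (σ, true, false) * g (σ, true, false) +
        (p (σ, false, true) * g (σ, false, true) + p (σ, false, false) * g (σ, false, false))) / 4 =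
        tanh (c * rad z σ) * tanh (c * rad z' σ) - μ := fun σ => by
      simp only [hp, hg, tW, sgn, if_true, Bool.false_eq_true, if_false]; ring
    have hc := avg_const (Ω := Fin N → Bool) μ
    simp only [avg, e, sum_sub_distrib, sub_div] at hc ⊢
    rw [hc, ← hμ', sub_self]
  have m3 : avg (fun t => p t * g t ^ 2) ≤ 1 := by
    rw [hsum]
    have e : ∀ σ, (p (σ, true, true) * g (σ, true, true) ^ 2 + p (σ, true, false) * g (σ, true, false) ^ 2 +
        (p (σ, false, true) * g (σ, false, true) ^ 2 + p (σ, false, false) * g (σ, false, false) ^ 2)) / 4 =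
        1 + μ ^ 2 - 2 * μ * (tanh (c * rad z σ) * tanh (c * rad z' σ)) := fun σ => by
      simp only [hp, hg, tW, sgn, if_true, Bool.false_eq_true, if_false]; ring
    have hc := avg_const (Ω := Fin N → Bool) (1 + μ ^ 2)
    simp only [avg, e, sum_sub_distrib, sub_div, ← mul_sum, mul_div_assoc] at hc ⊢
    rw [hc, ← hμ']
    nlinarith [sq_nonneg μ]
  obtain ⟨h1, -, h3⟩ := avg_pi_sq (p := p) (g := g)
    (fun t => (mul_pos (one_add_sgn_tanh_pos _ _) (one_add_sgn_tanh_pos _ _)).le) m1 m2 m3 K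
  set e : (Fin K → (Fin N → Bool) × Bool × Bool) ≃ (Fin K → Fin N → Bool) × (Fin K → Bool) × (Fin K → Bool) :=
    { toFun := fun t => (fun k => (t k).1, fun k => (t k).2.1, fun k => (t k).2.2)
      invFun := fun y k => (y.1 k, y.2.1 k, y.2.2 k)
      left_inv := fun t => rfl
      right_inv := fun y => rfl }
  have hconv : ∀ G : (Fin K → Fin N → Bool) → (Fin K → Bool) → (Fin K → Bool) → ℝ,
      avg (fun r => avg fun b => avg fun b' => G r b b') = avg fun t => G (e t).1 (e t).2.1 (e t).2.2 := fun G => by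
    simp only [avg, ← sum_div]
    rw [e.sum_comp fun x => G x.1 x.2.1 x.2.2, Fintype.sum_prod_type, Fintype.card_congr e, Fintype.card_prod,
      Fintype.card_prod]
    simp only [Fintype.sum_prod_type]
    push_cast
    rw [div_div, div_div]
    ring
  rw [hconv]
  have hW : ∀ t : Fin K → (Fin N → Bool) × Bool × Bool, bitW c (e t).1 (e t).2.1 z * bitW c (e t).1 (e t).2.2 z' = ∏ k, p (t k) := fun t => by
    simp only [bitW, hp, tW, ← prod_mul_distrib]
    refine prod_congr rfl fun k _ => ?_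
    simp only [mul_assoc c, proj_eq]
    rfl
  have hO : ∀ t : Fin K → (Fin N → Bool) × Bool × Bool, ov (e t).2.1 (e t).2.2 - μ = (∑ k, g (t k)) / K := fun t => by
    simp only [ov, avg, hg, sum_sub_distrib, sum_const, card_univ, Fintype.card_fin, nsmul_eq_mul, ← sgn_sg]
    rw [sub_div, mul_div_cancel_left₀ _ hK.ne']
    rfl
  set s := √(K : ℝ)
  have hs : 0 < s := sqrt_pos.2 hK
  have hs2 : s * s = K := mul_self_sqrt hK.le
  refine (avg_le_avg (g := fun t : Fin K → (Fin N → Bool) × Bool × Bool => (∏ k, p (t k)) * (1 / (2 * s)) +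
    (∏ k, p (t k)) * (∑ k, g (t k)) ^ 2 * (s / (2 * K ^ 2))) fun t => ?_).trans ?_
  · simp only [hW t, hO t, mul_assoc, ← mul_add]
    refine mul_le_mul_of_nonneg_left ?_
      (prod_nonneg fun k _ => (mul_pos (one_add_sgn_tanh_pos _ _) (one_add_sgn_tanh_pos _ _)).le)
    set S := ∑ k, g (t k)
    rw [abs_div, Nat.abs_cast, ← sq_abs S]
    have h : 1 / (2 * s) + |S| ^ 2 * (s / (2 * (K : ℝ) ^ 2)) - |S| / K = (s * |S| / K - 1) ^ 2 / (2 * s) := by
      field_simp
      ring
    have : 0 ≤ (s * |S| / K - 1) ^ 2 / (2 * s) := by positivity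
    linarith
  · simp only [avg, sum_add_distrib, add_div, ← sum_mul, mul_div_right_comm] at h1 h3 ⊢
    rw [h1, one_mul]
    refine (add_le_add le_rfl (mul_le_mul_of_nonneg_right h3 (by positivity))).trans_eq ?_
    field_simp
    rw [← hs2]
    ring

section sys
variable [NeZero N] [NeZero K] {R S : ℕ} {A Λ : Type} [Fintype A] [Nonempty A] [Fintype Λ] [Nonempty Λ]
  {ι : Type} [Fintype ι] [DecidableEq ι] {β : ι → Batch}

lemma getD_top {Ω : Type*} {R : ℕ} {q : List Ω} (hq : q.length + 1 = R) (o d : Ω) :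
    (q ++ [o]).getD (R - 1) d = o := by
  rw [List.getD_append_right _ _ _ _ (by omega), show R - 1 - q.length = 0 by omega]
  rfl

/-- the unperturbed weight -/
noncomputable def freeW (R : ℕ) (W : (Fin N → ℝ) → List Λ → ℝ) (c : ℝ) (r : Fin K → Fin N → Bool)
    (wt : A → ℝ) (a : A → Fin N → ℝ) (p : List (MkA A Λ K S β)) : ℝ := atomW R W c r wt a (p.map Prod.fst)

lemma freeW_pos {W : (Fin N → ℝ) → List Λ → ℝ} {wt : A → ℝ} (hwt : ∀ s, 0 < wt s) (hW : ∀ z x, 0 < W z x)
    (c : ℝ) (r : Fin K → Fin N → Bool) (a : A → Fin N → ℝ) (p : List (MkA A Λ K S β)) :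
    0 < freeW R W c r wt a p :=
  mul_pos (mul_pos (mul_pos (by exact_mod_cast Fintype.card_pos) (hwt _)) (hW _ _)) (bitW_pos _ _ _ _)

/-- without perturbation, the bit overlap is close to its mean over the directions -/
theorem free_fluct {W : (Fin N → ℝ) → List Λ → ℝ} {wt : A → ℝ} (hwt : ∀ s, 0 < wt s) (hW : ∀ z x, 0 < W z x)
    (hR : 1 ≤ R) (c : ℝ) (a : A → Fin N → ℝ) {l : ℕ} (hl : l < R) :
    avg (fun r : Fin K → Fin N → Bool => devOf R (freeW (S := S) (β := β) R W c r wt a)
      (fun p p' => ovK (Full.spinX (fun o : A × ((Fin K → Bool) × Λ) => o.2.1) R) p p' -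
        muB c (vecA R a p) (vecA R a p')) (fun _ => 0) l) ≤ 1 / √(K : ℝ) := by
  set cf := fun o : A × ((Fin K → Bool) × Λ) => o.2.1
  set Sites := (i : ι × Fin S) → Vale.Agent.P168.MP.Site K (β i.1).k
  set e : MkA A Λ K S β ≃ (Fin K → Bool) × (A × Λ) × Sites :=
    { toFun := fun o => (o.1.2.1, (o.1.1, o.1.2.2), o.2)
      invFun := fun y => ((y.2.1.1, (y.1, y.2.1.2)), y.2.2)
      left_inv := fun o => rfl
      right_inv := fun y => rfl }
  have hv : ∀ (q : List (MkA A Λ K S β)) o, q.length + 1 = R → vecA R a (q ++ [o]) = a o.1.1 := fun q o hq => by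
    simp only [vecA, vat, List.map_append, List.map_cons, List.map_nil]
    rw [getD_top (by simpa using hq)]
  have hb : ∀ (q : List (MkA A Λ K S β)) o, q.length + 1 = R → Full.spinX cf R (q ++ [o]) = o.1.2.1 := fun q o hq => by
    simp only [Full.spinX, Vale.Agent.P168.MP.spinAt, List.map_append, List.map_cons, List.map_nil]
    rw [getD_top (by simpa using hq)]
    rfl
  simp only [devOf, sub_zero]
  refine avg_ET_top hR hl e
    (κ := fun q x => Fintype.card A * wt x.1.1 * W (a x.1.1) ((q.map fun o => o.1.2.2) ++ [x.1.2]))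
    (fun q x => mul_pos (mul_pos (by exact_mod_cast Fintype.card_pos) (hwt _)) (hW _ _))
    (φ := fun r x b => bitW c r b (a x.1.1)) (fun r x => avg_bitW c r _) (fun r q o hq => ?_)
    (fun _ p p' => |ovK (Full.spinX cf R) p p' - muB c (vecA R a p) (vecA R a p')|)
    (fun q q' x x' hq hq' => ?_)
  · show atomW R W c r wt a _ = _
    simp only [atomW, vat, bat, List.map_append, List.map_map, List.map_cons, List.map_nil]
    simp only [getD_top (show (q.map (Prod.fst ∘ Prod.fst)).length + 1 = R by simpa using hq),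
      getD_top (show (q.map (Prod.fst ∘ Prod.snd ∘ Prod.fst)).length + 1 = R by simpa using hq)]
    rfl
  · simp only [ovK, hv _ _ hq, hv _ _ hq', hb _ _ hq, hb _ _ hq']
    exact bit_fluct c _ _

/-- the real overlaps at one level, against the bit overlaps -/
theorem dev_read {W : (Fin N → ℝ) → List Λ → ℝ} {wt : A → ℝ} (hwt : ∀ s, 0 < wt s) (hW : ∀ z x, 0 < W z x)
    (hR : 1 ≤ R) {c : ℝ} (hc : 0 < c) (r : Fin K → Fin N → Bool) {a : A → Fin N → ℝ}
    (ha : ∀ s, dot (a s) (a s) = 1) {h u : ι → ℝ} (hh : ∀ j, |h j| ≤ 1) (hu : ∀ j, |u j| ≤ 1) {l : ℕ} (hl : l ≤ R) :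
    let w := sysA (S := S) (β := β) R W c r wt a h u
    let sp := Full.spinX (S := S) (β := β) (fun o : A × ((Fin K → Bool) × Λ) => o.2.1) R
    devOf R w (cv (vecA R a)) (qker R w (cv (vecA R a))) l ≤ 12 * c ^ 2 +
      2 / c ^ 2 * (exp (4 * gainCap S β) * devOf R (freeW (S := S) (β := β) R W c r wt a)
        (fun p p' => ovK sp p p' - muB c (vecA R a p) (vecA R a p')) (fun _ => 0) l +
        devOf R w (ovK sp) (Par.qlev R w sp) l) := by
  intro w sp
  have hw : ∀ p, 0 < w p := fun p => mul_pos (freeW_pos hwt hW c r a p) (exp_pos _)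
  set D := fun p p' : List (MkA A Λ K S β) => ovK sp p p' - muB c (vecA R a p) (vecA R a p')
  set qb := Par.qlev R w sp l
  refine (devOf_le_two hw _ (qb / c ^ 2) l).trans ?_
  have hpt : ∀ p p', |cv (vecA R a) p p' - qb / c ^ 2| ≤
      6 * c ^ 2 + 1 / c ^ 2 * (|D p p'| + |ovK sp p p' - qb|) := fun p p' => by
    have hb := abs_bias (N := N) hc.le (z := vecA R a p) (z' := vecA R a p') (ha _) (ha _)
    have e : cv (vecA R a) p p' - qb / c ^ 2 =
        ((c ^ 2 * dot (vecA R a p) (vecA R a p') - muB c (vecA R a p) (vecA R a p')) - D p p' +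
          (ovK sp p p' - qb)) / c ^ 2 := by
      simp only [cv, D]; field_simp; ring
    rw [e, abs_div, abs_of_pos (pow_pos hc 2), div_le_iff₀ (pow_pos hc 2)]
    refine (abs_add_le _ _).trans ((add_le_add (abs_sub _ _) le_rfl).trans ?_)
    field_simp
    linarith
  have hD : devOf R w D (fun _ => 0) l ≤ exp (4 * gainCap S β) * devOf R (freeW (S := S) (β := β) R W c r wt a) D (fun _ => 0) l :=
    (Par.rep_tilt hR (freeW_pos hwt hW c r a)
      (Y := fun p => exp (∑ i : ι × Fin S, gain1 R h u (p.map (Full.plain fun o : A × ((Fin K → Bool) × Λ) => o.2.1)) i))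
      (fun p => ⟨exp_le_exp.2 (abs_le.1 (Vale.Agent.P168.MP.abs_gain_le_gainCap hh hu _)).1,
        exp_le_exp.2 (abs_le.1 (Vale.Agent.P168.MP.abs_gain_le_gainCap hh hu _)).2⟩) sp D (fun _ => 0) hl).1
  have h1 : devOf R w (cv (vecA R a)) (fun _ => qb / c ^ 2) l ≤
      6 * c ^ 2 + 1 / c ^ 2 * (devOf R w D (fun _ => 0) l + devOf R w (ovK sp) (Par.qlev R w sp) l) := by
    simp only [devOf, sub_zero]
    rw [← Vale.Agent.P168.MP.ET_add, ← Vale.Agent.P168.MP.ET_const_mul,
      ← Vale.Agent.P168.MP.ET_const (R := R) (m := lin R) hw [(0, l), (0, 0)] (6 * c ^ 2),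
      ← Vale.Agent.P168.MP.ET_add]
    exact Vale.Agent.P168.MP.ET_mono hw fun ps => hpt _ _
  have h2 := mul_le_mul_of_nonneg_left (add_le_add hD (le_refl (devOf R w (ovK sp) (Par.qlev R w sp) l)))
    (show (0:ℝ) ≤ 1 / c ^ 2 by positivity)
  rw [show (2:ℝ) / c ^ 2 = 2 * (1 / c ^ 2) by ring]
  linarith

lemma dev_top {W : (Fin N → ℝ) → List Λ → ℝ} {wt : A → ℝ} (hwt : ∀ s, 0 < wt s) (hW : ∀ z x, 0 < W z x)
    (c : ℝ) (r : Fin K → Fin N → Bool) {a : A → Fin N → ℝ} (ha : ∀ s, dot (a s) (a s) = 1)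
    (h u : ι → ℝ) : let w := sysA (S := S) (β := β) R W c r wt a h u
    devOf R w (cv (vecA R a)) (qker R w (cv (vecA R a))) R = 0 := by
  intro w
  have hw : ∀ p, 0 < w p := fun p => mul_pos (freeW_pos hwt hW c r a p) (exp_pos _)
  have hv : ∀ p : List (MkA A Λ K S β), cv (vecA R a) p p = 1 := fun p => ha _
  rw [devOf, Par.star2 le_rfl, (kerProf_of hw hv).2]
  simp only [Nat.sub_self, Vale.Agent.P168.MP.ext_zero, List.getD_cons_zero, List.getD_cons_succ, hv,
    sub_self, abs_zero]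
  exact Vale.Agent.P168.MP.ext_const (fun q => Vale.Agent.P168.MP.Z_pos hw _ q) _ _ _

end sys

/-- **smooth bits make the real overlaps pure** -/
theorem readSmall : ReadSmall := by
  intro ε hε
  set c := min 1 (√(ε / 48))
  have hc : 0 < c := lt_min one_pos (sqrt_pos.2 (by positivity))
  have hc1 : c ≤ 1 := min_le_left _ _
  have hc2 : 12 * c ^ 2 ≤ ε / 4 := by
    have := pow_le_pow_left₀ hc.le (show c ≤ √(ε / 48) from min_le_right _ _) 2
    rw [sq_sqrt (by positivity)] at this
    linarith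
  set δ := ε * c ^ 2 / 16 with hδ
  obtain ⟨R₀, hR₀⟩ := Full.grid_repX (show 0 < δ by positivity)
  refine ⟨max R₀ 1, fun R hR => ?_⟩
  obtain ⟨S, G, h, ub, hS, hG, h0, h1, hub, hub1, hgrid⟩ := hR₀ R (le_of_max_le_left hR)
  have hR1 : 1 ≤ R := le_of_max_le_right hR
  set E := exp (4 * gainCap S (allBatch R 2)) with hE
  obtain ⟨K, hK⟩ := exists_nat_gt (max 1 ((16 * E / (ε * c ^ 2)) ^ 2))
  have hK0 : 0 < K := by
    have : (0:ℝ) < K := lt_of_le_of_lt (le_trans zero_le_one (le_max_left _ _)) hK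
    exact_mod_cast this
  refine ⟨S, G, K, h, ub, c, hS, hG, hK0, h0, h1, hub, hub1, hc, hc1, ?_⟩
  intro _ N _ A Λ _ _ _ _ wt a W hwt ha hW
  have : NeZero G := ⟨hG.ne'⟩
  have hR0 : (0 : ℝ) < R := by exact_mod_cast hR1
  have hh : ∀ _j : BIdx R 2, |h| ≤ 1 := fun _ => by rw [abs_of_pos h0]; exact h1
  have hu : ∀ (g : BIdx R 2 → Fin G) j, |gu ub G g j| ≤ 1 := fun g j => by
    obtain ⟨p, q⟩ := Vale.Agent.P168.MP.gu_mem hub g j
    rw [abs_of_pos p]; exact q.trans hub1
  set w := fun (r : Fin K → Fin N → Bool) (g : BIdx R 2 → Fin G) =>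
    sysA (S := S) (β := allBatch R 2) R W c r wt a (fun _ => h) (gu ub G g)
  set sp := Full.spinX (S := S) (β := allBatch R 2) (fun o : A × ((Fin K → Bool) × Λ) => o.2.1) R
  set F := fun (r : Fin K → Fin N → Bool) (l : ℕ) => devOf R (freeW (S := S) (β := allBatch R 2) R W c r wt a)
    (fun p p' => ovK sp p p' - muB c (vecA R a p) (vecA R a p')) (fun _ => 0) l with hF
  have hpt : ∀ r g, adev R (w r g) (cv (vecA R a)) (qker R (w r g) (cv (vecA R a))) ≤
      12 * c ^ 2 + 2 / c ^ 2 * (E * ((∑ l ∈ range R, F r l) / R) +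
        adev R (w r g) (ovK sp) (Par.qlev R (w r g) sp)) := fun r g => by
    have hw : ∀ p, 0 < w r g p := fun p => mul_pos (freeW_pos hwt hW c r a p) (exp_pos _)
    rw [adev, dev_top hwt hW c r ha, add_zero]
    refine (div_le_div_of_nonneg_right (sum_le_sum fun l hl =>
      dev_read (h := fun _ => h) (u := gu ub G g) hwt hW hR1 hc r ha hh (hu g) (mem_range.1 hl).le) hR0.le).trans ?_
    have hn := Par.devOf_nonneg (R := R) hw (ovK sp) (Par.qlev R (w r g) sp) R
    simp only [sum_add_distrib, ← mul_sum, sum_const, card_range, nsmul_eq_mul, add_div, mul_div_assoc, adev]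
    rw [mul_div_cancel₀ _ hR0.ne']
    have := mul_nonneg (show (0:ℝ) ≤ 2 / c ^ 2 by positivity) hn
    linarith
  have hF' : avg (fun r => (∑ l ∈ range R, F r l) / R) ≤ 1 / √(K : ℝ) := by
    have e : avg (fun r => (∑ l ∈ range R, F r l) / R) = (∑ l ∈ range R, avg fun r => F r l) / R := by
      simp only [avg, ← sum_div]; rw [sum_comm]; ring
    rw [e, div_le_iff₀ hR0]
    refine (sum_le_sum fun l hl => free_fluct hwt hW hR1 c a (mem_range.1 hl)).trans_eq ?_
    simp [mul_comm]
  have hgr : ∀ r, avg (fun g => adev R (w r g) (ovK sp) (Par.qlev R (w r g) sp)) ≤ δ := fun r =>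
    hgrid K _ (fun o : A × ((Fin K → Bool) × Λ) => o.2.1) (atomW R W c r wt a) fun p =>
      mul_pos (mul_pos (mul_pos (by exact_mod_cast Fintype.card_pos) (hwt _)) (hW _ _)) (bitW_pos _ _ _ _)
  have hlin : ∀ {σ : Type} [Fintype σ] [Nonempty σ] (x y : ℝ) (U V : σ → ℝ),
      avg (fun i => x + y * (E * U i + V i)) = x + y * (E * avg U + avg V) := fun x y U V => by
    simp only [avg, sum_add_distrib, ← mul_sum, add_div, mul_div_assoc, sum_const, card_univ, nsmul_eq_mul]
    field_simp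
  refine (avg_le_avg fun r => (avg_le_avg fun g => hpt r g).trans_eq (hlin _ _ _ _)).trans ?_
  refine (avg_le_avg fun r => add_le_add le_rfl (mul_le_mul_of_nonneg_left
    (add_le_add (le_of_eq (congrArg (E * ·) (avg_const _))) (hgr r)) (by positivity))).trans ?_
  rw [hlin, avg_const]
  have hKs : 16 * E / (ε * c ^ 2) ≤ √(K : ℝ) := by
    rw [← sqrt_sq (show 0 ≤ 16 * E / (ε * c ^ 2) by positivity)]
    exact sqrt_le_sqrt ((le_max_right _ _).trans hK.le)
  have hK' : 0 < √(K : ℝ) := sqrt_pos.2 (by exact_mod_cast hK0)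
  have hfin : E * (1 / √(K : ℝ)) ≤ ε * c ^ 2 / 16 := by
    rw [div_le_iff₀ (by positivity)] at hKs
    rw [mul_one_div, div_le_iff₀ hK']
    linarith
  have := mul_le_mul_of_nonneg_left (add_le_add ((mul_le_mul_of_nonneg_left hF' (exp_pos _).le).trans hfin)
    (le_refl δ)) (show (0:ℝ) ≤ 2 / c ^ 2 by positivity)
  rw [hδ, show 2 / c ^ 2 * (ε * c ^ 2 / 16 + ε * c ^ 2 / 16) = ε / 4 by field_simp; ring, ← hE] at this
  rw [hδ]
  linarith

end Vale.Agent.P157.Sph
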