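import Vale.Agent.P157.Sph.Defs
import Vale.Agent.P157.Par.Close
import Vale.Agent.P157.Par.SiteMoments

/-! Tools for the residue of the inverse relation: tilts by one pattern, Gaussian integration by parts in one
pattern, and the algebra of the attachments of one and two replicas. -/

open MeasureTheory ProbabilityTheory Real Finset
open Vale.Agent.P150 (gauss dot)
open Vale.Agent.P168.MP (lin ET att sp Valid)
open Vale.Agent.P157.Par (Sm Prof adev devOf cv pats dist1 Gm fac pairSum lvlAvg coef)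

namespace Vale.Agent.P157.Sph.Res

set_option linter.unusedSectionVars false

variable {f f1 f2 f3 : ℝ → ℝ} {B D : ℝ}
variable {Ω : Type} [Fintype Ω] [Nonempty Ω] {R N : ℕ}

/-! ### Elementary bounds -/

lemma B_nonneg (hS : Sm f f1 f2 f3 B D) (hB : ∀ x, f x ≤ B) : 0 ≤ B := by
  linarith [hS.lb 0, hB 0]

lemma abs_dot_le_half {ι : Type} [Fintype ι] (x y : ι → ℝ) : |dot x y| ≤ (dot x x + dot y y) / 2 := by
  simp only [dot, ← sum_add_distrib, sum_div]
  refine (abs_sum_le_sum_abs _ _).trans (sum_le_sum fun i _ => ?_)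
  rw [abs_mul]
  nlinarith [sq_nonneg (|x i| - |y i|), sq_abs (x i), sq_abs (y i)]

lemma cv_abs_le {v : List Ω → Fin N → ℝ} (hv : ∀ p, cv v p p = 1) (p p' : List Ω) : |cv v p p'| ≤ 1 := by
  refine (abs_dot_le_half (v p) (v p')).trans ?_
  have h1 := hv p
  have h2 := hv p'
  simp only [cv] at h1 h2
  rw [h1, h2]; norm_num

lemma fac_mem (hS : Sm f f1 f2 f3 B D) (hB : ∀ x, f x ≤ B) {ι : Type} [Fintype ι] (a : List Ω → ι → ℝ)
    (y : ι → ℝ) (p : List Ω) : exp (-B) ≤ fac f a y p ∧ fac f a y p ≤ exp B :=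
  ⟨exp_le_exp.2 (hS.lb _), exp_le_exp.2 (hB _)⟩

lemma list_prod_le {α : Type} {y : α → ℝ} {K : ℝ} (h0 : ∀ a, 0 ≤ y a) (h : ∀ a, y a ≤ K) :
    ∀ L : List α, 0 ≤ (L.map y).prod ∧ (L.map y).prod ≤ K ^ L.length
  | [] => by simp
  | a :: L => by
    obtain ⟨i1, i2⟩ := list_prod_le h0 h L
    simp only [List.map_cons, List.prod_cons, List.length_cons, pow_succ']
    exact ⟨mul_nonneg (h0 a) i1, mul_le_mul (h a) i2 i1 ((h0 a).trans (h a))⟩

/-- cost of a tilt of at most three replicas -/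
noncomputable def kap (B : ℝ) : ℝ := exp (6 * B)

lemma kap_pos (B : ℝ) : 0 < kap B := exp_pos _

/-- a factor in `[e^-B, e^B]` costs a constant -/
lemma ET_tilt (hR : 1 ≤ R) {w Y : List Ω → ℝ} (hw : ∀ p, 0 < w p) (hB0 : 0 ≤ B)
    (hY : ∀ p, exp (-B) ≤ Y p ∧ Y p ≤ exp B) {T : List (ℕ × ℕ)} (hT : Valid R T) (hlen : T.length ≤ 3)
    {H : List (List Ω) → ℝ} (hH : ∀ ps, 0 ≤ H ps) :
    ET R (lin R) (fun p => w p * Y p) T H ≤ kap B * ET R (lin R) w T H := by
  refine (Par.ET_mul_le hR hw (exp_pos (-B)) (fun p => (hY p).1) hT hH).trans ?_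
  rw [← Vale.Agent.P168.MP.ET_const_mul]
  refine Vale.Agent.P168.MP.ET_mono_on hw hT fun ps hs => ?_
  rw [mul_comm]
  refine mul_le_mul_of_nonneg_right ?_ (hH _)
  refine (list_prod_le (y := fun p => Y p / exp (-B)) (K := exp (2 * B))
    (fun p => div_nonneg ((exp_pos _).le.trans (hY p).1) (exp_pos _).le) (fun p => ?_) ps).2.trans ?_
  · rw [div_le_iff₀ (exp_pos _), ← exp_add, show 2 * B + -B = B by ring]; exact (hY p).2
  · refine (pow_le_pow_right₀ (one_le_exp (by linarith)) (hs.1.trans_le hlen)).trans_eq ?_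
    rw [← exp_nat_mul]; simp only [kap]; ring_nf

/-- deviation of the overlaps from their means -/
noncomputable def phiV (R : ℕ) (w : List Ω → ℝ) (v : List Ω → Fin N → ℝ) : ℕ → ℝ :=
  devOf R w (cv v) (qker R w (cv v))

lemma phiV_nonneg {w : List Ω → ℝ} (hw : ∀ p, 0 < w p) (v : List Ω → Fin N → ℝ) (l : ℕ) :
    0 ≤ phiV R w v l := Par.devOf_nonneg hw _ _ _

lemma adev_phiV {w : List Ω → ℝ} (v : List Ω → Fin N → ℝ) :
    adev R w (cv v) (qker R w (cv v)) = lvlAvg R (phiV R w v) := rfl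

lemma lvlAvg_mono {φ ψ : ℕ → ℝ} {c : ℝ} (h : ∀ j ≤ R, φ j ≤ c * ψ j) : lvlAvg R φ ≤ c * lvlAvg R ψ := by
  rw [lvlAvg, lvlAvg, mul_add, ← mul_div_assoc, mul_sum]
  exact add_le_add (div_le_div_of_nonneg_right (sum_le_sum fun j hj => h j (mem_range.1 hj).le)
    (Nat.cast_nonneg _)) (h R le_rfl)

lemma lvlAvg_const_mul (c : ℝ) (φ : ℕ → ℝ) : lvlAvg R (fun j => c * φ j) = c * lvlAvg R φ := by
  rw [lvlAvg, lvlAvg, mul_add, ← mul_div_assoc, mul_sum]

/-- one pattern moves the mean overlaps and their deviations by a constant factor -/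
lemma qker_tilt (hR : 1 ≤ R) {w Y : List Ω → ℝ} (hw : ∀ p, 0 < w p) (hB0 : 0 ≤ B)
    (hY : ∀ p, exp (-B) ≤ Y p ∧ Y p ≤ exp B) (v : List Ω → Fin N → ℝ) :
    let w' := fun p => w p * Y p
    (∀ j ≤ R, |qker R w' (cv v) j - qker R w (cv v) j| ≤ kap B * phiV R w v j ∧
      phiV R w v j ≤ 2 * kap B * phiV R w' v j) ∧
    lvlAvg R (phiV R w v) ≤ 2 * kap B * lvlAvg R (phiV R w' v) := by
  intro w'
  have key : ∀ {w Y : List Ω → ℝ}, (∀ p, 0 < w p) → (∀ p, exp (-B) ≤ Y p ∧ Y p ≤ exp B) → ∀ {j : ℕ}, j ≤ R →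
      |qker R (fun p => w p * Y p) (cv v) j - qker R w (cv v) j| ≤ kap B * phiV R w v j ∧
      ∀ q, devOf R (fun p => w p * Y p) (cv v) q j ≤ kap B * devOf R w (cv v) q j := by
    intro w Y hw hY j hj
    have hwY : ∀ p, 0 < w p * Y p := fun p => mul_pos (hw p) ((exp_pos _).trans_le (hY p).1)
    refine ⟨?_, fun q => ET_tilt hR hw hB0 hY (Par.valid_pair hj) (by simp) fun _ => abs_nonneg _⟩
    have e : qker R (fun p => w p * Y p) (cv v) j - qker R w (cv v) j =
        ET R (lin R) (fun p => w p * Y p) [(0, j), (0, 0)] fun ps =>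
          cv v (ps.getD 0 []) (ps.getD 1 []) - qker R w (cv v) j := by
      rw [Vale.Agent.P168.MP.ET_sub, Vale.Agent.P168.MP.ET_const hwY]; rfl
    rw [e]
    exact (Vale.Agent.P168.MP.ET_abs_le hwY _ _).trans
      (ET_tilt hR hw hB0 hY (Par.valid_pair hj) (by simp) fun _ => abs_nonneg _)
  have hw' : ∀ p, 0 < w' p := fun p => mul_pos (hw p) ((exp_pos _).trans_le (hY p).1)
  have hY' : ∀ p, exp (-B) ≤ (Y p)⁻¹ ∧ (Y p)⁻¹ ≤ exp B := fun p => by
    have hp : 0 < Y p := (exp_pos _).trans_le (hY p).1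
    have h1 := inv_anti₀ (exp_pos _) (hY p).1
    have h2 := inv_anti₀ hp (hY p).2
    rw [← exp_neg, neg_neg] at h1
    rw [← exp_neg] at h2
    exact ⟨h2, h1⟩
  have e : (fun p => w' p * (Y p)⁻¹) = w := funext fun p => by
    show w p * Y p * (Y p)⁻¹ = w p
    rw [mul_assoc, mul_inv_cancel₀ ((exp_pos _).trans_le (hY p).1).ne', mul_one]
  have h : ∀ j ≤ R, |qker R w' (cv v) j - qker R w (cv v) j| ≤ kap B * phiV R w v j ∧
      phiV R w v j ≤ 2 * kap B * phiV R w' v j := fun j hj => by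
    refine ⟨(key hw hY hj).1, ?_⟩
    obtain ⟨h1, h2⟩ := key hw' hY' hj
    have h2' := h2 (qker R w' (cv v))
    rw [e] at h1 h2'
    refine (Par.devOf_shift hw _ _ (qker R w' (cv v)) j).trans ?_
    rw [abs_sub_comm] at h1
    simp only [phiV] at h1 ⊢
    linarith
  exact ⟨h, lvlAvg_mono fun j hj => (h j hj).2⟩

/-! ### Attachments -/

/-- a signed sum over the attachments -/
lemma att_bound (hR : 1 ≤ R) {φ : ℕ → ℝ} (hφ : ∀ l, 0 ≤ φ l) {T : List (ℕ × ℕ)} (hT : Valid R T)
    {x : (ℕ × ℕ) × ℝ → ℝ} {C : ℝ} (hC : 0 ≤ C)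
    (h : ∀ c ∈ att R (lin R) T, |x c| ≤ C * (pairSum R φ (c.1 :: T) + lvlAvg R φ)) :
    |((att R (lin R) T).map fun c => c.2 * x c).sum| ≤
      C * (8 * (T.length : ℝ) ^ 2 + 9 * T.length) * (pairSum R φ T + lvlAvg R φ) := by
  refine (Par.abs_list_sum _ _).trans ?_
  have h1 : ((att R (lin R) T).map fun c => |c.2 * x c|).sum ≤ ((att R (lin R) T).map fun c =>
      C * (|c.2| * pairSum R φ (c.1 :: T) + |c.2| * lvlAvg R φ)).sum := by
    refine List.sum_le_sum fun c hc => ?_
    rw [abs_mul]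
    exact (mul_le_mul_of_nonneg_left (h c hc) (abs_nonneg _)).trans_eq (by ring)
  refine h1.trans ?_
  rw [List.sum_map_mul_left, List.sum_map_add, List.sum_map_mul_right, mul_assoc]
  refine mul_le_mul_of_nonneg_left ?_ hC
  have hA := Par.lvlAvg_nonneg (R := R) hφ
  have hP := Par.pairSum_nonneg (R := R) hφ T
  have i1 := Par.att_pairSum_le hR hφ hT
  have i2 := mul_le_mul_of_nonneg_right (Par.att_abs_sum_le (R := R) T) hA
  have i3 : 0 ≤ 3 * (T.length : ℝ) * pairSum R φ T := mul_nonneg (by positivity) hP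
  linarith

lemma pair_att {l : ℕ} (hl : l ≤ R) {c : (ℕ × ℕ) × ℝ} (hc : c ∈ att R (lin R) [(0, l), (0, 0)]) :
    Valid R (c.1 :: [(0, l), (0, 0)]) ∧ sp R (c.1 :: [(0, l), (0, 0)]) 0 1 = l := by
  have hT : Valid R [(0, l), (0, 0)] := Par.valid_pair hl
  refine ⟨Vale.Agent.P168.MP.att_valid hT hc, ?_⟩
  simp [sp, hl]

/-- total variation at one and at two replicas -/
lemma att_sum_le {T : List (ℕ × ℕ)} {x : (ℕ × ℕ) × ℝ → ℝ} {C : ℝ} (hC : 0 ≤ C)
    (h : ∀ c ∈ att R (lin R) T, |x c| ≤ C) :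
    |((att R (lin R) T).map fun c => c.2 * x c).sum| ≤ 3 * T.length * C := by
  refine (Par.abs_list_sum _ _).trans ((List.sum_le_sum (g := fun c => |c.2| * C) fun c hc => ?_).trans ?_)
  · rw [abs_mul]; exact mul_le_mul_of_nonneg_left (h c hc) (abs_nonneg _)
  · rw [List.sum_map_mul_right]
    exact mul_le_mul_of_nonneg_right (Par.att_abs_sum_le T) hC

/-- Stein's right hand side at a profile and a correlation profile -/
noncomputable def s0 (R : ℕ) (G q : ℕ → ℝ) (l : ℕ) : ℝ :=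
  ((att R (lin R) [(0, l), (0, 0)]).map fun c => c.2 *
    (G (sp R (c.1 :: [(0, l), (0, 0)]) 0 2) *
      (q (sp R (c.1 :: [(0, l), (0, 0)]) 2 1) - q l * q (sp R (c.1 :: [(0, l), (0, 0)]) 0 2)))).sum

/-- the radial term at a profile and a correlation profile -/
noncomputable def s1 (R : ℕ) (G q : ℕ → ℝ) : ℝ :=
  ((att R (lin R) [(0, 0)]).map fun c => c.2 *
    (G (sp R (c.1 :: [(0, 0)]) 0 1) * q (sp R (c.1 :: [(0, 0)]) 0 1))).sum

lemma s0_const_mul (R : ℕ) (a : ℝ) (G q : ℕ → ℝ) (l : ℕ) :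
    s0 R (fun j => a * G j) q l = a * s0 R G q l := by
  simp only [s0, ← List.sum_map_mul_left]
  exact congrArg List.sum (List.map_congr_left fun c _ => by ring)

lemma s1_const_mul (R : ℕ) (a : ℝ) (G q : ℕ → ℝ) :
    s1 R (fun j => a * G j) q = a * s1 R G q := by
  simp only [s1, ← List.sum_map_mul_left]
  exact congrArg List.sum (List.map_congr_left fun c _ => by ring)

/-- **the residue is the defect in Stein's identity** -/
lemma prod_s0 {h q : ℕ → ℝ} {l : ℕ} (hl : l < R) (hqR : q R = 1) :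
    prodU R (precP R q h) q l = q l - s0 R h q l := by
  have hR : 1 ≤ R := by omega
  have hR0 : (R : ℝ) ≠ 0 := by positivity
  have e : s0 R h q l =
      (∑ j ∈ range (R + 1), coef R j * (h (min j R) * (q (min j l) - q l * q (min j R)))) +
      (∑ j ∈ Ico (l + 1) (R + 1), (lin R j - lin R (j + 1)) * (h (min j l) * (q (min j R) - q l * q (min j l)))) +
      -lin R (l + 1) * (h (min l R) * (q (min l l) - q l * q (min l R))) := by
    unfold s0
    conv_lhs => rw [att]
    simp only [List.map_append, List.map_map, List.map_cons, List.sum_append, List.sum_cons, Function.comp_def,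
      List.length_singleton]
    rw [Par.att_lin_sum hR (fun j => h (min j R) * (q (min j l) - q l * q (min j R)))
      (fun x => h (sp R (x :: [(0, l), (0, 0)]) 0 2) *
        (q (sp R (x :: [(0, l), (0, 0)]) 2 1) - q l * q (sp R (x :: [(0, l), (0, 0)]) 0 2)))
      fun j => by simp [sp, hl.le], Par.sum_range'_eq, show l + 1 + (R - l) = R + 1 by omega]
    simp [sp, hl.le]
    ring
  rw [e, sum_range_succ, Par.coef_top hR, sum_Ico_succ_top (show l + 1 ≤ R by omega)]
  have e1 : ∀ j ∈ range R, coef R j * (h (min j R) * (q (min j l) - q l * q (min j R))) =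
      -(1 / (R : ℝ)) * (h j * q (min j l)) + 1 / (R : ℝ) * q l * (h j * q j) := fun j hj => by
    have := mem_range.1 hj
    rw [Par.coef_lt this, min_eq_left this.le]; ring
  have e2 : ∀ j ∈ Ico (l + 1) R, (lin R j - lin R (j + 1)) *
      (h (min j l) * (q (min j R) - q l * q (min j l))) =
      -(1 / (R : ℝ)) * h l * q j + 1 / (R : ℝ) * (h l * q l * q l) := fun j hj => by
    obtain ⟨h1, h2⟩ := mem_Ico.1 hj
    rw [lin, lin, if_pos h2.le, if_pos (show j + 1 ≤ R from h2), min_eq_right (show l ≤ j by omega),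
      min_eq_left h2.le]
    push_cast; ring
  rw [sum_congr rfl e1, sum_congr rfl e2, sum_add_distrib, sum_add_distrib, ← mul_sum, ← mul_sum, ← mul_sum,
    sum_const, Nat.card_Ico, nsmul_eq_mul, lin, lin, lin, if_pos le_rfl, if_neg (show ¬ R + 1 ≤ R by omega),
    if_pos (show l + 1 ≤ R by omega)]
  simp only [min_eq_right hl.le, min_eq_left hl.le, min_self]
  rw [← sum_range_add_sum_Ico (fun j => h j * q (min j l)) hl.le, sum_eq_sum_Ico_succ_bot hl,
    sum_congr rfl (fun j hj => by rw [min_eq_left (mem_range.1 hj).le] :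
      ∀ j ∈ range l, h j * q (min j l) = h j * q j),
    sum_congr rfl (fun j hj => by rw [min_eq_right (show l ≤ j by have := (mem_Ico.1 hj).1; omega)] :
      ∀ j ∈ Ico (l + 1) R, h j * q (min j l) = h j * q l), ← sum_mul]
  have p1 : ∀ j ∈ range l, precP R q h j * q j = -(h j * q j) := fun j hj => by
    simp only [precP, if_pos ((mem_range.1 hj).trans hl)]; ring
  have p2 : ∀ j ∈ Ico (l + 1) R, precP R q h j = -h j := fun j hj => by
    simp only [precP, if_pos (mem_Ico.1 hj).2]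
  simp only [prodU, if_pos hl, sum_congr rfl p1, sum_congr rfl p2, sum_neg_distrib]
  simp only [precP, if_pos hl, lt_irrefl, if_false, hqR, min_self, Nat.cast_sub (show l + 1 ≤ R by omega)]
  push_cast
  field_simp
  ring

/-- the radial term of a profile -/
lemma s1_eq (hR : 1 ≤ R) (h q : ℕ → ℝ) : s1 R h q = hqTop R h q := by
  unfold s1
  rw [Par.att_lin_sum hR (fun j => h (min j R) * q (min j R))
    (fun x => h (sp R (x :: [(0, 0)]) 0 1) * q (sp R (x :: [(0, 0)]) 0 1)) fun j => by simp [sp],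
    sum_range_succ, Par.coef_top hR]
  have e1 : ∀ j ∈ range R, coef R j * (h (min j R) * q (min j R)) = -(1 / (R : ℝ)) * (h j * q j) := fun j hj => by
    rw [Par.coef_lt (mem_range.1 hj), min_eq_left (mem_range.1 hj).le]
  rw [sum_congr rfl e1, ← mul_sum, hqTop, min_self]
  ring

lemma pair_le {φ : ℕ → ℝ} (hφ : ∀ j, 0 ≤ φ j) {l : ℕ} (hl : l ≤ R) :
    pairSum R φ [(0, l), (0, 0)] + lvlAvg R φ ≤ 3 * (φ l + lvlAvg R φ) := by
  rw [Par.pairSum_two φ hl]
  have h : φ R ≤ lvlAvg R φ := le_add_of_nonneg_left (div_nonneg (sum_nonneg fun j _ => hφ j) (Nat.cast_nonneg _))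
  linarith [hφ l]

lemma one_le {φ : ℕ → ℝ} (hφ : ∀ j, 0 ≤ φ j) : pairSum R φ [(0, 0)] + lvlAvg R φ ≤ 2 * lvlAvg R φ := by
  rw [Par.pairSum_one]
  have h : φ R ≤ lvlAvg R φ := le_add_of_nonneg_left (div_nonneg (sum_nonneg fun j _ => hφ j) (Nat.cast_nonneg _))
  linarith

lemma s0_bound (hS : Sm f f1 f2 f3 B D) (hR : 1 ≤ R) {q : ℕ → ℝ} (hq : Prof R q 1) {l : ℕ} (hl : l ≤ R) :
    |s0 R (Gm f f1 R q) q l| ≤ 6 * D ^ 2 := by
  refine (att_sum_le (C := D ^ 2) (sq_nonneg _) fun c hc => ?_).trans_eq (by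
    simp only [List.length_cons, List.length_nil]; push_cast; ring)
  obtain ⟨g1, g2⟩ := (Par.gm_prof hS hR hq).upper (Vale.Agent.P168.MP.sp_le R (c.1 :: [(0, l), (0, 0)]) 0 2)
  obtain ⟨a1, a2⟩ := hq.upper (Vale.Agent.P168.MP.sp_le R (c.1 :: [(0, l), (0, 0)]) 0 2)
  obtain ⟨b1, b2⟩ := hq.upper (Vale.Agent.P168.MP.sp_le R (c.1 :: [(0, l), (0, 0)]) 2 1)
  obtain ⟨l1, l2⟩ := hq.upper hl
  rw [abs_mul, abs_of_nonneg g1]
  refine (mul_le_mul g2 ?_ (abs_nonneg _) (sq_nonneg _)).trans_eq (mul_one _)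
  exact abs_le.2 ⟨by nlinarith, by nlinarith⟩

lemma s1_bound (hS : Sm f f1 f2 f3 B D) (hR : 1 ≤ R) {q : ℕ → ℝ} (hq : Prof R q 1) :
    |s1 R (Gm f f1 R q) q| ≤ 3 * D ^ 2 := by
  refine (att_sum_le (C := D ^ 2) (sq_nonneg _) fun c hc => ?_).trans_eq (by simp)
  obtain ⟨g1, g2⟩ := (Par.gm_prof hS hR hq).upper (Vale.Agent.P168.MP.sp_le R (c.1 :: [(0, 0)]) 0 1)
  obtain ⟨a1, a2⟩ := hq.upper (Vale.Agent.P168.MP.sp_le R (c.1 :: [(0, 0)]) 0 1)
  rw [abs_mul, abs_of_nonneg g1, abs_of_nonneg a1]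
  exact (mul_le_mul g2 a2 a1 (sq_nonneg _)).trans_eq (mul_one _)

/-- both sums move with the profile -/
theorem s_lip (hS : Sm f f1 f2 f3 B D) : ∃ L : ℝ, 0 ≤ L ∧ ∀ {R : ℕ}, 1 ≤ R → ∀ {q q' : ℕ → ℝ},
    Prof R q 1 → Prof R q' 1 → ∀ {φ : ℕ → ℝ}, (∀ j, 0 ≤ φ j) → (∀ j ≤ R, |q j - q' j| ≤ φ j) →
      (∀ l ≤ R, |s0 R (Gm f f1 R q) q l - s0 R (Gm f f1 R q') q' l| ≤ L * (φ l + lvlAvg R φ)) ∧
      |s1 R (Gm f f1 R q) q - s1 R (Gm f f1 R q') q'| ≤ L * lvlAvg R φ := by
  obtain ⟨K, hK, hlip⟩ := Par.Phi_lip hS 1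
  refine ⟨150 * (2 * K + 3 * D ^ 2), by positivity, ?_⟩
  intro R hR q q' hq hq' φ hφ hd
  have hG : ∀ j ≤ R, |Gm f f1 R q j - Gm f f1 R q' j| ≤ K * (φ j + lvlAvg R φ) := fun j hj => by
    refine ((hlip R q q' hR hq hq').2 j hj).trans (mul_le_mul_of_nonneg_left ?_ hK)
    rw [lvlAvg, add_assoc]
    exact add_le_add (hd j hj) (add_le_add (div_le_div_of_nonneg_right
      (sum_le_sum fun i hi => hd i (mem_range.1 hi).le) (Nat.cast_nonneg _)) (hd R le_rfl))
  have hA := Par.lvlAvg_nonneg (R := R) hφ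
  refine ⟨fun l hl => ?_, ?_⟩
  · unfold s0
    rw [← Vale.Agent.P168.MP.list_sum_map_sub]
    simp only [← mul_sub]
    refine (att_bound hR hφ (Par.valid_pair hl) (C := 2 * K + 3 * D ^ 2) (by positivity) fun c hc => ?_).trans ?_
    · obtain ⟨hV, he⟩ := pair_att hl hc
      set U := c.1 :: [(0, l), (0, 0)]
      have hU : U.length = 3 := rfl
      set a := sp R U 0 2
      set b := sp R U 2 1
      have ha : a ≤ R := Vale.Agent.P168.MP.sp_le _ _ _ _
      have hb : b ≤ R := Vale.Agent.P168.MP.sp_le _ _ _ _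
      have pa : φ a ≤ pairSum R φ U := Par.le_pairSum hφ (by omega) (by omega)
      have pb : φ b ≤ pairSum R φ U := Par.le_pairSum hφ (by omega) (by omega)
      have pl : φ l ≤ pairSum R φ U := by rw [← he]; exact Par.le_pairSum hφ (by omega) (by omega)
      obtain ⟨g1, g2⟩ := (Par.gm_prof hS hR hq').upper ha
      obtain ⟨a1, a2⟩ := hq.upper ha
      obtain ⟨b1, b2⟩ := hq.upper hb
      obtain ⟨l1, l2⟩ := hq.upper hl
      obtain ⟨l1', l2'⟩ := hq'.upper hl
      rw [show Gm f f1 R q a * (q b - q l * q a) - Gm f f1 R q' a * (q' b - q' l * q' a) =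
        (Gm f f1 R q a - Gm f f1 R q' a) * (q b - q l * q a) +
          Gm f f1 R q' a * ((q b - q' b) - ((q l - q' l) * q a + q' l * (q a - q' a))) by ring]
      refine (abs_add_le _ _).trans ?_
      rw [abs_mul, abs_mul, abs_of_nonneg g1]
      have h1 := mul_le_mul (hG a ha) (show |q b - q l * q a| ≤ 2 from abs_le.2 ⟨by nlinarith, by nlinarith⟩)
        (abs_nonneg _) (mul_nonneg hK (add_nonneg (hφ a) hA))
      have h2 : |(q b - q' b) - ((q l - q' l) * q a + q' l * (q a - q' a))| ≤ φ b + (φ l + φ a) := by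
        refine (abs_sub _ _).trans (add_le_add (hd b hb) ((abs_add_le _ _).trans (add_le_add ?_ ?_)))
        · rw [abs_mul, abs_of_nonneg a1]
          exact (mul_le_mul (hd l hl) a2 a1 (hφ l)).trans_eq (mul_one _)
        · rw [abs_mul, abs_of_nonneg l1']
          exact (mul_le_mul l2' (hd a ha) (abs_nonneg _) zero_le_one).trans_eq (one_mul _)
      have h3 := mul_le_mul g2 h2 (abs_nonneg _) (sq_nonneg _)
      have h4 : φ b + (φ l + φ a) ≤ 3 * (pairSum R φ U + lvlAvg R φ) := by linarith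
      have h5 : φ a + lvlAvg R φ ≤ pairSum R φ U + lvlAvg R φ := by linarith
      nlinarith [mul_le_mul_of_nonneg_left h4 (sq_nonneg D), mul_le_mul_of_nonneg_left h5 hK]
    · simp only [List.length_cons, List.length_nil]
      have h := pair_le (R := R) hφ hl
      have h0 : 0 ≤ pairSum R φ [(0, l), (0, 0)] + lvlAvg R φ := add_nonneg (Par.pairSum_nonneg hφ _) hA
      have hC : 0 ≤ 2 * K + 3 * D ^ 2 := by positivity
      norm_num
      nlinarith [mul_le_mul_of_nonneg_left h hC]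
  · unfold s1
    rw [← Vale.Agent.P168.MP.list_sum_map_sub]
    simp only [← mul_sub]
    refine (att_bound hR hφ Vale.Agent.P168.MP.valid_single (C := 2 * K + 3 * D ^ 2) (by positivity)
      fun c hc => ?_).trans ?_
    · set U := c.1 :: [(0, 0)]
      have hU : U.length = 2 := rfl
      set a := sp R U 0 1
      have ha : a ≤ R := Vale.Agent.P168.MP.sp_le _ _ _ _
      have pa : φ a ≤ pairSum R φ U := Par.le_pairSum hφ (by omega) (by omega)
      obtain ⟨g1, g2⟩ := (Par.gm_prof hS hR hq').upper ha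
      obtain ⟨a1, a2⟩ := hq.upper ha
      rw [show Gm f f1 R q a * q a - Gm f f1 R q' a * q' a =
        (Gm f f1 R q a - Gm f f1 R q' a) * q a + Gm f f1 R q' a * (q a - q' a) by ring]
      refine (abs_add_le _ _).trans ?_
      rw [abs_mul, abs_mul, abs_of_nonneg g1, abs_of_nonneg a1]
      have h1 := mul_le_mul (hG a ha) a2 a1 (mul_nonneg hK (add_nonneg (hφ a) hA))
      have h3 := mul_le_mul g2 (hd a ha) (abs_nonneg _) (sq_nonneg _)
      have hUA : 0 ≤ pairSum R φ U + lvlAvg R φ := add_nonneg (Par.pairSum_nonneg hφ _) hA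
      nlinarith [mul_le_mul_of_nonneg_left (show φ a + lvlAvg R φ ≤ pairSum R φ U + lvlAvg R φ by linarith) hK,
        mul_le_mul_of_nonneg_left (show φ a ≤ pairSum R φ U + lvlAvg R φ by linarith) (sq_nonneg D),
        mul_nonneg hK hUA, mul_nonneg (sq_nonneg D) hUA]
    · simp only [List.length_cons, List.length_nil]
      have hC : 0 ≤ 2 * K + 3 * D ^ 2 := by positivity
      norm_num
      nlinarith [mul_le_mul_of_nonneg_left (one_le (R := R) hφ) hC, mul_nonneg hC hA]

/-! ### One pattern -/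

section onepat
variable {ι : Type} [Fintype ι]

/-- Gaussian integration by parts against the field of a replica -/
theorem ibp (hS : Sm f f1 f2 f3 B D) (hR : 1 ≤ R) {w : List Ω → ℝ} (hw : ∀ p, 0 < w p) (a : List Ω → ι → ℝ)
    {T : List (ℕ × ℕ)} {ks : List ℕ} (hT : Par.Good R T ks) {j : ℕ} (hj : j < T.length)
    (Φ : List (List Ω) → ℝ) :
    Integrable (fun g => ET R (lin R) (fun p => w p * fac f a g p) T fun ps => Φ ps *
        (∏ i ∈ range ks.length, Par.Dk f1 f2 f3 (ks.getD i 0) (dot (a (ps.getD i [])) g)) *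
        dot (a (ps.getD j [])) g) (gauss ι) ∧
    ∫ g, (ET R (lin R) (fun p => w p * fac f a g p) T fun ps => Φ ps *
        (∏ i ∈ range ks.length, Par.Dk f1 f2 f3 (ks.getD i 0) (dot (a (ps.getD i [])) g)) *
        dot (a (ps.getD j [])) g) ∂gauss ι =
      ((Par.chl R (lin R) T ks).map fun ch => ch.c * ∫ g, (ET R (lin R) (fun p => w p * fac f a g p) ch.T fun ps =>
        Φ (ps.take T.length) * cv a (ps.getD ch.i []) (ps.getD j []) *
        ∏ i ∈ range ch.ks.length, Par.Dk f1 f2 f3 (ch.ks.getD i 0) (dot (a (ps.getD i [])) g)) ∂gauss ι).sum := by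
  classical
  have hm := Par.ok_linW hR hw
  set Ψ : ι → List (List Ω) → ℝ := fun k ps => Φ ps * a (ps.getD j []) k
  set u : ι → List Ω → ℝ := fun k p => a (List.ofFn (Par.idx R p)) k
  have hz : Continuous (Par.zA R a) := by unfold Par.zA dot; fun_prop
  have hib : ∀ k, Integrable (fun g => g k * Par.val R (lin R) w f f1 f2 f3 T ks (Ψ k) (Par.zA R a g)) (gauss ι) ∧
      Integrable (fun g => Par.dirD R (lin R) w f f1 f2 f3 T ks (Ψ k) (u k) (Par.zA R a g)) (gauss ι) ∧
      ∫ g, g k * Par.val R (lin R) w f f1 f2 f3 T ks (Ψ k) (Par.zA R a g) ∂gauss ι =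
        ∫ g, Par.dirD R (lin R) w f f1 f2 f3 T ks (Ψ k) (u k) (Par.zA R a g) ∂gauss ι := fun k => by
    obtain ⟨hc, C, hC⟩ := Par.bd_val hm hS.sd hT.1 ks (Ψ k)
    obtain ⟨hc', C', hC'⟩ := Par.bd_dirD hm hS.sd hT (Ψ k) (u k)
    refine ⟨Vale.Agent.P150.integrable_of_bound (C := C) (M := 1) ((continuous_apply k).mul (hc.comp hz)) fun g => ?_,
      Integrable.of_bound (hc'.comp hz).aestronglyMeasurable C' (Filter.Eventually.of_forall fun g => hC' _), ?_⟩
    · rw [abs_mul, one_mul, mul_comm C]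
      exact mul_le_mul ((Vale.Agent.P150.abs_le_l1 g k).trans ((le_add_of_nonneg_right zero_le_one).trans
        (Real.add_one_le_exp _))) (hC _) (abs_nonneg _) (exp_pos _).le
    refine Vale.Agent.P150.gauss_ibp (C := max C C') (M := 0) k le_rfl (hc.comp hz) (hc'.comp hz)
      (fun g => by simpa using Or.inl (hC _)) (fun g => by simpa using Or.inr (hC' _)) fun z s => ?_
    refine Par.hasDerivAt_val hm hS.sd hT (Ψ k) (c := fun x => Par.zA R a (Function.update z k x))
      (c' := fun s => a (List.ofFn s) k) fun v => ?_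
    unfold Par.zA dot
    refine (HasDerivAt.fun_sum fun i _ => HasDerivAt.const_mul (a (List.ofFn v) i)
      ((hasDerivAt_pi.1 (hasDerivAt_update z k s)) i)).congr_deriv ?_
    simp [Pi.single_apply]
  have e1 : ∀ g, ET R (lin R) (fun p => w p * fac f a g p) T (fun ps => Φ ps *
      (∏ i ∈ range ks.length, Par.Dk f1 f2 f3 (ks.getD i 0) (dot (a (ps.getD i [])) g)) *
      dot (a (ps.getD j [])) g) =
        ∑ k, g k * Par.val R (lin R) w f f1 f2 f3 T ks (Ψ k) (Par.zA R a g) := fun g => by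
    simp only [Par.val_zA a g hT.1 hT.2.1, ← Vale.Agent.P168.MP.ET_const_mul, ← Vale.Agent.P168.MP.ET_sum]
    congr 1; funext ps
    conv_lhs => arg 2; rw [dot]
    rw [mul_sum]
    exact sum_congr rfl fun k _ => by simp only [Ψ]; ring
  have e2 : ∀ g, ∑ k, Par.dirD R (lin R) w f f1 f2 f3 T ks (Ψ k) (u k) (Par.zA R a g) =
      ((Par.chl R (lin R) T ks).map fun ch => ch.c * ET R (lin R) (fun p => w p * fac f a g p) ch.T fun ps =>
        Φ (ps.take T.length) * cv a (ps.getD ch.i []) (ps.getD j []) *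
        ∏ i ∈ range ch.ks.length, Par.Dk f1 f2 f3 (ch.ks.getD i 0) (dot (a (ps.getD i [])) g)).sum := fun g => by
    simp only [Par.dirD, ← Vale.Agent.P168.MP.list_sum_map_finset_sum, ← mul_sum]
    refine congrArg List.sum (List.map_congr_left fun ch hc => ?_)
    obtain ⟨hV, hl, hn, -, hi, -⟩ := Par.chl_mem hT hc
    simp only [Par.val_zA a g hV hl, ← Vale.Agent.P168.MP.ET_sum]
    congr 1
    refine Vale.Agent.P168.MP.ET_congr hV fun ps hs => ?_
    simp only [Ψ, u, Par.getD_take hj, Par.ofFn_idx (hs.2.1 _ hi), cv, dot, mul_sum, sum_mul]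
    exact sum_congr rfl fun k _ => by ring
  simp only [e1]
  refine ⟨integrable_finsetSum _ fun k _ => (hib k).1, ?_⟩
  rw [integral_finsetSum _ fun k _ => (hib k).1, sum_congr rfl fun k _ => (hib k).2.2,
    ← integral_finsetSum _ fun k _ => (hib k).2.1]
  simp only [e2]
  have hi : ∀ ch ∈ Par.chl R (lin R) T ks, Integrable (fun g => ET R (lin R) (fun p => w p * fac f a g p) ch.T fun ps =>
      Φ (ps.take T.length) * cv a (ps.getD ch.i []) (ps.getD j []) *
      ∏ i ∈ range ch.ks.length, Par.Dk f1 f2 f3 (ch.ks.getD i 0) (dot (a (ps.getD i [])) g)) (gauss ι) :=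
    fun ch hc => by
      obtain ⟨hV, hl, -⟩ := Par.chl_mem hT hc
      obtain ⟨hc1, C, hC⟩ := Par.bd_val hm hS.sd hV ch.ks
        (fun ps => Φ (ps.take T.length) * cv a (ps.getD ch.i []) (ps.getD j []))
      have h := Integrable.of_bound (μ := gauss ι) (hc1.comp hz).aestronglyMeasurable C
        (Filter.Eventually.of_forall fun g => hC _)
      simpa only [Function.comp_def, Par.val_zA a _ hV hl] using h
  rw [(Par.integrable_list_sum _ fun ch hc => (hi ch hc).const_mul _).2]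
  simp only [integral_const_mul]

/-- a replica expectation of bounded derivatives is integrable -/
lemma int_ET (hS : Sm f f1 f2 f3 B D) (hR : 1 ≤ R) {w : List Ω → ℝ} (hw : ∀ p, 0 < w p) (a : List Ω → ι → ℝ)
    {T : List (ℕ × ℕ)} (hT : Valid R T) {ks : List ℕ} (hl : ks.length = T.length) (Φ : List (List Ω) → ℝ) :
    Integrable (fun g => ET R (lin R) (fun p => w p * fac f a g p) T fun ps => Φ ps *
      ∏ i ∈ range ks.length, Par.Dk f1 f2 f3 (ks.getD i 0) (dot (a (ps.getD i [])) g)) (gauss ι) := by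
  have hz : Continuous (Par.zA R a) := by unfold Par.zA dot; fun_prop
  obtain ⟨hc, C, hC⟩ := Par.bd_val (Par.ok_linW hR hw) hS.sd hT ks Φ
  simpa only [Function.comp_def, Par.val_zA a _ hT hl] using
    Integrable.of_bound (μ := gauss ι) (hc.comp hz).aestronglyMeasurable C
      (Filter.Eventually.of_forall fun g => hC _)

end onepat

/-- a function of the first replica in a pair -/
lemma pair_fst {w : List Ω → ℝ} (hw : ∀ p, 0 < w p) {a : ℕ} (ha : a ≤ R) (Ψ : List Ω → ℝ) :
    ET R (lin R) w [(0, a), (0, 0)] (fun ps => Ψ (ps.getD 0 [])) = ET R (lin R) w [(0, 0)] fun ps => Ψ (ps.getD 0 []) := by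
  rw [← Vale.Agent.P168.MP.ET_dropLast hw (0, a) [(0, 0)] fun ps => Ψ (ps.getD 0 [])]
  refine Vale.Agent.P168.MP.ET_congr (Par.valid_pair ha) fun ps hs => ?_
  obtain ⟨p, p', rfl⟩ := List.length_eq_two.1 (show ps.length = 2 from hs.1)
  rfl

/-- **one pattern in Stein's right hand side** -/
theorem step_pair (hS : Sm f f1 f2 f3 B D) (hB : ∀ x, f x ≤ B) : ∃ C : ℝ, 0 ≤ C ∧
    ∀ {Ω : Type} [Fintype Ω] [Nonempty Ω] {R N : ℕ}, 1 ≤ R → ∀ {w : List Ω → ℝ}, (∀ p, 0 < w p) →
    ∀ {v : List Ω → Fin N → ℝ}, (∀ p, cv v p p = 1) → Prof R (qker R w (cv v)) 1 → ∀ {l : ℕ}, l ≤ R →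
      |(∫ y, ET R (lin R) (fun p => w p * fac f v y p) [(0, l), (0, 0)] (fun ps =>
          f1 (dot (v (ps.getD 0 [])) y) * (dot (v (ps.getD 1 [])) y -
            cv v (ps.getD 0 []) (ps.getD 1 []) * dot (v (ps.getD 0 [])) y)) ∂gauss (Fin N)) -
        s0 R (Gm f f1 R (qker R w (cv v))) (qker R w (cv v)) l| ≤
        C * (phiV R w v l + lvlAvg R (phiV R w v)) := by
  obtain ⟨KP, hKP, hP⟩ := Par.pair_close hS 1
  have hD := hS.D_nonneg
  have hkap := kap_pos B
  refine ⟨150 * (3 * (kap B * D ^ 2) + 2 * KP), by positivity, ?_⟩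
  intro Ω _ _ R N hR w hw v hv hq l hl
  set q := qker R w (cv v)
  set φ := phiV R w v
  have hφ : ∀ j, 0 ≤ φ j := phiV_nonneg hw v
  have hA := Par.lvlAvg_nonneg (R := R) hφ
  have hB0 := B_nonneg hS hB
  have hY : ∀ y p, exp (-B) ≤ fac f v y p ∧ fac f v y p ≤ exp B := fun y p => fac_mem hS hB v y p
  have hwy : ∀ (y : Fin N → ℝ) p, 0 < w p * fac f v y p := fun y p => mul_pos (hw p) (exp_pos _)
  have hT : Par.Good R [(0, l), (0, 0)] [1, 0] := ⟨Par.valid_pair hl, rfl, by simp⟩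
  obtain ⟨iA, eA⟩ := ibp hS hR hw v hT (j := 1) (by simp) (fun _ => 1)
  obtain ⟨iB, eB⟩ := ibp hS hR hw v hT (j := 0) (by simp) fun ps => cv v (ps.getD 0 []) (ps.getD 1 [])
  have hsplit : (∫ y, ET R (lin R) (fun p => w p * fac f v y p) [(0, l), (0, 0)] (fun ps =>
      f1 (dot (v (ps.getD 0 [])) y) * (dot (v (ps.getD 1 [])) y -
        cv v (ps.getD 0 []) (ps.getD 1 []) * dot (v (ps.getD 0 [])) y)) ∂gauss (Fin N)) =
      ((att R (lin R) [(0, l), (0, 0)]).map fun c => c.2 * ∫ y, (ET R (lin R) (fun p => w p * fac f v y p)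
        (c.1 :: [(0, l), (0, 0)]) fun ps =>
          (cv v (ps.getD 2 []) (ps.getD 1 []) - cv v (ps.getD 0 []) (ps.getD 1 []) * cv v (ps.getD 2 []) (ps.getD 0 [])) *
          (f1 (dot (v (ps.getD 0 [])) y) * f1 (dot (v (ps.getD 2 [])) y))) ∂gauss (Fin N)).sum := by
    refine Eq.trans (integral_congr_ae (Filter.Eventually.of_forall fun y => ?_))
      ((integral_sub iA iB).trans ?_)
    · simp only [← Vale.Agent.P168.MP.ET_sub]
      congr 1; funext ps
      simp [Par.Dk, prod_range_succ]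
      ring
    rw [eA, eB, ← Vale.Agent.P168.MP.list_sum_map_sub, Par.chl, List.map_append, List.sum_append,
      List.map_map, List.map_map]
    have e0 : (List.map ((fun ch : Par.Ch =>
        (ch.c * ∫ g, (ET R (lin R) (fun p => w p * fac f v g p) ch.T fun ps =>
          (1:ℝ) * cv v (ps.getD ch.i []) (ps.getD 1 []) *
          ∏ i ∈ range ch.ks.length, Par.Dk f1 f2 f3 (ch.ks.getD i 0) (dot (v (ps.getD i [])) g)) ∂gauss (Fin N)) -
        (ch.c * ∫ g, (ET R (lin R) (fun p => w p * fac f v g p) ch.T fun ps =>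
          cv v ((ps.take 2).getD 0 []) ((ps.take 2).getD 1 []) * cv v (ps.getD ch.i []) (ps.getD 0 []) *
          ∏ i ∈ range ch.ks.length, Par.Dk f1 f2 f3 (ch.ks.getD i 0) (dot (v (ps.getD i [])) g)) ∂gauss (Fin N))) ∘
        fun i => (⟨1, [(0, l), (0, 0)], List.set [1, 0] i (Par.nxt ([1, 0].getD i 0)), i⟩ : Par.Ch))
        (List.range [((0:ℕ), l), (0, 0)].length)).sum = 0 := by
      simp [List.range_succ, Par.nxt, Par.Dk, prod_range_succ, hv, Par.getD_take,
        Vale.Agent.P168.MP.ET_const (fun p => hwy _ p)]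
    rw [show [((0:ℕ), l), (0, 0)].length = 2 from rfl] at e0 ⊢
    rw [e0, zero_add]
    refine congrArg List.sum (List.map_congr_left fun c hc => ?_)
    have hV := Vale.Agent.P168.MP.att_valid hT.1 hc
    simp only [Function.comp_apply]
    rw [← mul_sub, ← integral_sub (int_ET hS hR hw v hV rfl _) (int_ET hS hR hw v hV rfl _)]
    congr 1
    refine integral_congr_ae (Filter.Eventually.of_forall fun y => ?_)
    simp only [← Vale.Agent.P168.MP.ET_sub]
    congr 1; funext ps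
    simp only [show ∀ i, i < 2 → (ps.take 2).getD i [] = ps.getD i [] from fun i h => Par.getD_take h ps,
      Nat.one_lt_two, Nat.two_pos]
    simp [Par.Dk, prod_range_succ]
    ring
  rw [hsplit, s0, ← Vale.Agent.P168.MP.list_sum_map_sub]
  simp only [← mul_sub]
  refine (att_bound hR hφ hT.1 (C := 3 * (kap B * D ^ 2) + 2 * KP) (by positivity) fun c hc => ?_).trans ?_
  · obtain ⟨hV, he⟩ := pair_att hl hc
    set U := c.1 :: [(0, l), (0, 0)]
    have hU : U.length = 3 := rfl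
    set a := sp R U 0 2
    set b := sp R U 2 1
    have ha : a ≤ R := Vale.Agent.P168.MP.sp_le _ _ _ _
    have hb : b ≤ R := Vale.Agent.P168.MP.sp_le _ _ _ _
    have pa : φ a ≤ pairSum R φ U := Par.le_pairSum hφ (by omega) (by omega)
    have pb : φ b ≤ pairSum R φ U := Par.le_pairSum hφ (by omega) (by omega)
    have pl : φ l ≤ pairSum R φ U := by rw [← he]; exact Par.le_pairSum hφ (by omega) (by omega)
    obtain ⟨a1, a2⟩ := hq.upper ha
    obtain ⟨b1, b2⟩ := hq.upper hb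
    obtain ⟨l1, l2⟩ := hq.upper hl
    set K := q b - q l * q a with hKdef
    have hK2 : |K| ≤ 2 := abs_le.2 ⟨by nlinarith, by nlinarith⟩
    have i1 := int_ET hS hR hw v hV (ks := [1, 0, 1]) rfl fun ps => cv v (ps.getD 2 []) (ps.getD 1 []) -
      cv v (ps.getD 0 []) (ps.getD 1 []) * cv v (ps.getD 2 []) (ps.getD 0 [])
    have i2 := int_ET hS hR hw v hV (ks := [1, 0, 1]) rfl fun _ => 1
    simp [-List.getD_eq_getElem?_getD, List.getD_cons_zero, List.getD_cons_succ, prod_range_succ, Par.Dk] at i1 i2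
    have h1 : |(∫ y, (ET R (lin R) (fun p => w p * fac f v y p) U fun ps =>
          (cv v (ps.getD 2 []) (ps.getD 1 []) - cv v (ps.getD 0 []) (ps.getD 1 []) * cv v (ps.getD 2 []) (ps.getD 0 [])) *
          (f1 (dot (v (ps.getD 0 [])) y) * f1 (dot (v (ps.getD 2 [])) y))) ∂gauss (Fin N)) -
        K * ∫ y, (ET R (lin R) (fun p => w p * fac f v y p) U fun ps =>
          f1 (dot (v (ps.getD 0 [])) y) * f1 (dot (v (ps.getD 2 [])) y)) ∂gauss (Fin N)| ≤
        kap B * D ^ 2 * (φ b + φ l + φ a) := by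
      rw [← integral_const_mul, ← integral_sub i1 (i2.const_mul K)]
      refine abs_integral_le_integral_abs.trans ((integral_mono_of_nonneg
        (Filter.Eventually.of_forall fun _ => abs_nonneg _) (integrable_const (kap B * D ^ 2 * (φ b + φ l + φ a)))
        (Filter.Eventually.of_forall fun y => ?_)).trans_eq (by simp))
      simp only [← Vale.Agent.P168.MP.ET_const_mul, ← Vale.Agent.P168.MP.ET_sub]
      refine (Vale.Agent.P168.MP.ET_abs_le (hwy y) _ _).trans ((Vale.Agent.P168.MP.ET_mono (hwy y)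
        (G := fun ps => (|cv v (ps.getD 2 []) (ps.getD 1 []) - q b| + |cv v (ps.getD 0 []) (ps.getD 1 []) - q l| +
          |cv v (ps.getD 0 []) (ps.getD 2 []) - q a|) * D ^ 2) fun ps => ?_).trans ?_)
      · rw [← sub_mul, abs_mul, abs_mul]
        refine mul_le_mul ?_ ((mul_le_mul (hS.b1 _) (hS.b1 _) (abs_nonneg _) hD).trans_eq (sq D).symm)
          (by positivity) (by positivity)
        have e : cv v (ps.getD 2 []) (ps.getD 0 []) = cv v (ps.getD 0 []) (ps.getD 2 []) := by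
          simp [cv, dot, mul_comm]
        rw [e, show cv v (ps.getD 2 []) (ps.getD 1 []) - cv v (ps.getD 0 []) (ps.getD 1 []) *
            cv v (ps.getD 0 []) (ps.getD 2 []) - K =
          (cv v (ps.getD 2 []) (ps.getD 1 []) - q b) - ((cv v (ps.getD 0 []) (ps.getD 1 []) - q l) *
            cv v (ps.getD 0 []) (ps.getD 2 []) + q l * (cv v (ps.getD 0 []) (ps.getD 2 []) - q a)) by
          rw [hKdef]; ring]
        refine (abs_sub _ _).trans ?_
        rw [add_assoc]
        refine add_le_add le_rfl ((abs_add_le _ _).trans (add_le_add ?_ ?_))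
        · rw [abs_mul]
          exact mul_le_of_le_one_right (abs_nonneg _) (cv_abs_le hv _ _)
        · rw [abs_mul, abs_of_nonneg l1]
          exact mul_le_of_le_one_left (abs_nonneg _) l2
      · refine (ET_tilt hR hw hB0 (hY y) hV hU.le fun ps => by positivity).trans (le_of_eq ?_)
        rw [Vale.Agent.P168.MP.ET_mul_const, Vale.Agent.P168.MP.ET_add, Vale.Agent.P168.MP.ET_add,
          Par.ET_two hw hV (i := 2) (j := 1) (by omega) (by omega) (fun p p' => |cv v p p' - q b|),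
          Par.ET_two hw hV (i := 0) (j := 1) (by omega) (by omega) (fun p p' => |cv v p p' - q l|),
          Par.ET_two hw hV (i := 0) (j := 2) (by omega) (by omega) (fun p p' => |cv v p p' - q a|), he]
        show kap B * ((φ b + φ l + φ a) * D ^ 2) = _
        ring
    have h2 : |(∫ y, (ET R (lin R) (fun p => w p * fac f v y p) U fun ps =>
          f1 (dot (v (ps.getD 0 [])) y) * f1 (dot (v (ps.getD 2 [])) y)) ∂gauss (Fin N)) - Gm f f1 R q a| ≤
        KP * (φ a + lvlAvg R φ) := by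
      have h := (hP hR hw (a := v) (fun p => (hv p).le) hq ha (Ψ := fun _ _ => 1) (C := 1) fun _ _ => by simp).1
      simp only [mul_one, one_mul, Vale.Agent.P168.MP.ET_const hw] at h
      refine le_trans (le_of_eq ?_) h
      congr 2
      exact integral_congr_ae (Filter.Eventually.of_forall fun y =>
        Par.ET_two (hwy y) hV (i := 0) (j := 2) (by omega) (by omega)
          fun p p' => f1 (dot (v p) y) * f1 (dot (v p') y))
    set X := ∫ y, (ET R (lin R) (fun p => w p * fac f v y p) U fun ps =>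
          (cv v (ps.getD 2 []) (ps.getD 1 []) - cv v (ps.getD 0 []) (ps.getD 1 []) * cv v (ps.getD 2 []) (ps.getD 0 [])) *
          (f1 (dot (v (ps.getD 0 [])) y) * f1 (dot (v (ps.getD 2 [])) y))) ∂gauss (Fin N)
    set Y := ∫ y, (ET R (lin R) (fun p => w p * fac f v y p) U fun ps =>
          f1 (dot (v (ps.getD 0 [])) y) * f1 (dot (v (ps.getD 2 [])) y)) ∂gauss (Fin N)
    rw [show X - Gm f f1 R q a * K = (X - K * Y) + K * (Y - Gm f f1 R q a) by ring]
    refine (abs_add_le _ _).trans ?_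
    rw [abs_mul K]
    have h3 := mul_le_mul hK2 h2 (abs_nonneg _) (by norm_num)
    have h4 := mul_le_mul_of_nonneg_left (show φ b + φ l + φ a ≤ 3 * (pairSum R φ U + lvlAvg R φ) by linarith)
      (show 0 ≤ kap B * D ^ 2 by positivity)
    have h5 := mul_le_mul_of_nonneg_left (show φ a + lvlAvg R φ ≤ pairSum R φ U + lvlAvg R φ by linarith) hKP
    linarith
  · simp only [List.length_cons, List.length_nil]
    have hC : 0 ≤ 3 * (kap B * D ^ 2) + 2 * KP := by positivity
    norm_num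
    nlinarith [mul_le_mul_of_nonneg_left (pair_le (R := R) hφ hl) hC]

/-- **one pattern in the radial term** -/
theorem step_one (hS : Sm f f1 f2 f3 B D) (hB : ∀ x, f x ≤ B) : ∃ C : ℝ, 0 ≤ C ∧
    ∀ {Ω : Type} [Fintype Ω] [Nonempty Ω] {R N : ℕ}, 1 ≤ R → ∀ {w : List Ω → ℝ}, (∀ p, 0 < w p) →
    ∀ {v : List Ω → Fin N → ℝ}, (∀ p, cv v p p = 1) → Prof R (qker R w (cv v)) 1 →
    ∀ {Ψ : List Ω → ℝ}, (∀ p, |Ψ p| ≤ 1) →
      |∫ y, ET R (lin R) (fun p => w p * fac f v y p) [(0, 0)] (fun ps => Ψ (ps.getD 0 []) *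
          (f2 (dot (v (ps.getD 0 [])) y) - dot (v (ps.getD 0 [])) y * f1 (dot (v (ps.getD 0 [])) y) +
            s1 R (Gm f f1 R (qker R w (cv v))) (qker R w (cv v)))) ∂gauss (Fin N)| ≤
        C * lvlAvg R (phiV R w v) := by
  obtain ⟨KP, hKP, hP⟩ := Par.pair_close hS 1
  have hD := hS.D_nonneg
  have hkap := kap_pos B
  refine ⟨34 * (kap B * D ^ 2 + KP) + 3 * D ^ 2 * (2 * KP), by positivity, ?_⟩
  intro Ω _ _ R N hR w hw v hv hq Ψ hΨ
  set q := qker R w (cv v)
  set φ := phiV R w v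
  have hφ : ∀ j, 0 ≤ φ j := phiV_nonneg hw v
  have hA := Par.lvlAvg_nonneg (R := R) hφ
  have hB0 := B_nonneg hS hB
  have hY : ∀ y p, exp (-B) ≤ fac f v y p ∧ fac f v y p ≤ exp B := fun y p => fac_mem hS hB v y p
  have hwy : ∀ (y : Fin N → ℝ) p, 0 < w p * fac f v y p := fun y p => mul_pos (hw p) (exp_pos _)
  set H := s1 R (Gm f f1 R q) q
  set P := ET R (lin R) w [(0, 0)] fun ps => Ψ (ps.getD 0 [])
  have hT : Par.Good R [(0, 0)] [1] := ⟨Vale.Agent.P168.MP.valid_single, rfl, by simp⟩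
  obtain ⟨iA, eA⟩ := ibp hS hR hw v hT (j := 0) (by simp) fun ps => Ψ (ps.getD 0 [])
  have i2 := int_ET hS hR hw v hT.1 (ks := [2]) rfl fun ps => Ψ (ps.getD 0 [])
  have i0 := int_ET hS hR hw v hT.1 (ks := [0]) rfl fun ps => Ψ (ps.getD 0 [])
  simp [-List.getD_eq_getElem?_getD, List.getD_cons_zero, List.getD_cons_succ, Par.Dk, prod_range_succ] at iA i2 i0 eA
  have hsplit : (∫ y, ET R (lin R) (fun p => w p * fac f v y p) [(0, 0)] (fun ps => Ψ (ps.getD 0 []) *
        (f2 (dot (v (ps.getD 0 [])) y) - dot (v (ps.getD 0 [])) y * f1 (dot (v (ps.getD 0 [])) y) + H)) ∂gauss (Fin N)) =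
      H * (∫ y, ET R (lin R) (fun p => w p * fac f v y p) [(0, 0)] (fun ps => Ψ (ps.getD 0 [])) ∂gauss (Fin N)) -
      ((att R (lin R) [(0, 0)]).map fun c => c.2 * ∫ y, (ET R (lin R) (fun p => w p * fac f v y p)
        (c.1 :: [(0, 0)]) fun ps => Ψ (ps.getD 0 []) * cv v (ps.getD 0 []) (ps.getD 1 []) *
          (f1 (dot (v (ps.getD 0 [])) y) * f1 (dot (v (ps.getD 1 [])) y))) ∂gauss (Fin N)).sum := by
    refine Eq.trans (integral_congr_ae (Filter.Eventually.of_forall fun y => ?_))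
      ((integral_add (i2.sub iA) (i0.const_mul H)).trans ?_)
    · simp only [Pi.sub_apply, ← Vale.Agent.P168.MP.ET_sub, ← Vale.Agent.P168.MP.ET_const_mul,
        ← Vale.Agent.P168.MP.ET_add]
      congr 1; funext ps
      ring
    simp only [Pi.sub_apply]
    rw [integral_sub i2 iA, integral_const_mul, eA, Par.chl, List.map_append, List.sum_append,
      List.map_map, List.map_map]
    have e1 : ((att R (lin R) [(0, 0)]).map fun c => c.2 * ∫ y, (ET R (lin R) (fun p => w p * fac f v y p)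
        (c.1 :: [(0, 0)]) fun ps => Ψ (ps.getD 0 []) * cv v (ps.getD 0 []) (ps.getD 1 []) *
          (f1 (dot (v (ps.getD 0 [])) y) * f1 (dot (v (ps.getD 1 [])) y))) ∂gauss (Fin N)).sum =
        ((att R (lin R) [(0, 0)]).map fun c => c.2 * ∫ y, (ET R (lin R) (fun p => w p * fac f v y p)
        (c.1 :: [(0, 0)]) fun ps => Ψ ((ps.take 1).getD 0 []) * cv v (ps.getD 1 []) (ps.getD 0 []) *
          ∏ i ∈ range [1, 1].length, Par.Dk f1 f2 f3 ([1, 1].getD i 0) (dot (v (ps.getD i [])) y)) ∂gauss (Fin N)).sum := by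
      simp [Par.Dk, prod_range_succ, Par.getD_take, cv, dot, mul_comm]
    rw [e1]
    simp [List.range_succ, Par.nxt, Par.Dk, prod_range_succ, Par.getD_take, hv, Function.comp_def]
    ring
  rw [hsplit]
  have hP0 : |(∫ y, ET R (lin R) (fun p => w p * fac f v y p) [(0, 0)] (fun ps => Ψ (ps.getD 0 [])) ∂gauss (Fin N)) - P| ≤
      2 * KP * lvlAvg R φ := by
    have h := (hP hR hw (a := v) (fun p => (hv p).le) hq (le_refl R) (Ψ := fun p _ => Ψ p) (C := 1) fun p _ => hΨ p).2
    rw [pair_fst hw (le_refl R) Ψ, integral_congr_ae (Filter.Eventually.of_forall fun y =>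
      pair_fst (hwy y) (le_refl R) Ψ)] at h
    refine h.trans ?_
    show KP * 1 * (φ R + lvlAvg R φ) ≤ _
    have : φ R ≤ lvlAvg R φ := le_add_of_nonneg_left (div_nonneg (sum_nonneg fun j _ => hφ j) (Nat.cast_nonneg _))
    nlinarith
  have hsum : |((att R (lin R) [(0, 0)]).map fun c => c.2 * ∫ y, (ET R (lin R) (fun p => w p * fac f v y p)
        (c.1 :: [(0, 0)]) fun ps => Ψ (ps.getD 0 []) * cv v (ps.getD 0 []) (ps.getD 1 []) *
          (f1 (dot (v (ps.getD 0 [])) y) * f1 (dot (v (ps.getD 1 [])) y))) ∂gauss (Fin N)).sum - H * P| ≤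
      34 * (kap B * D ^ 2 + KP) * lvlAvg R φ := by
    simp only [H, s1]
    rw [← List.sum_map_mul_right, ← Vale.Agent.P168.MP.list_sum_map_sub]
    simp only [mul_assoc (_ : ℝ) (Gm f f1 R q _ * q _) P, ← mul_sub]
    refine (att_bound hR hφ hT.1 (C := kap B * D ^ 2 + KP) (by positivity) fun c hc => ?_).trans ?_
    · have hV := Vale.Agent.P168.MP.att_valid hT.1 hc
      set U := c.1 :: [(0, 0)]
      have hU : U.length = 2 := rfl
      set a := sp R U 0 1
      have ha : a ≤ R := Vale.Agent.P168.MP.sp_le _ _ _ _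
      have pa : φ a ≤ pairSum R φ U := Par.le_pairSum hφ (by omega) (by omega)
      obtain ⟨a1, a2⟩ := hq.upper ha
      have j1 := int_ET hS hR hw v hV (ks := [1, 1]) rfl fun ps => Ψ (ps.getD 0 []) * cv v (ps.getD 0 []) (ps.getD 1 [])
      have j2 := int_ET hS hR hw v hV (ks := [1, 1]) rfl fun ps => Ψ (ps.getD 0 [])
      simp [-List.getD_eq_getElem?_getD, List.getD_cons_zero, List.getD_cons_succ, prod_range_succ, Par.Dk] at j1 j2
      have h1 : |(∫ y, (ET R (lin R) (fun p => w p * fac f v y p) U fun ps =>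
            Ψ (ps.getD 0 []) * cv v (ps.getD 0 []) (ps.getD 1 []) *
              (f1 (dot (v (ps.getD 0 [])) y) * f1 (dot (v (ps.getD 1 [])) y))) ∂gauss (Fin N)) -
          q a * ∫ y, (ET R (lin R) (fun p => w p * fac f v y p) U fun ps =>
            Ψ (ps.getD 0 []) * (f1 (dot (v (ps.getD 0 [])) y) * f1 (dot (v (ps.getD 1 [])) y))) ∂gauss (Fin N)| ≤
          kap B * D ^ 2 * φ a := by
        rw [← integral_const_mul, ← integral_sub j1 (j2.const_mul (q a))]
        refine abs_integral_le_integral_abs.trans ((integral_mono_of_nonneg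
          (Filter.Eventually.of_forall fun _ => abs_nonneg _) (integrable_const (kap B * D ^ 2 * φ a))
          (Filter.Eventually.of_forall fun y => ?_)).trans_eq (by simp))
        simp only [← Vale.Agent.P168.MP.ET_const_mul, ← Vale.Agent.P168.MP.ET_sub]
        refine (Vale.Agent.P168.MP.ET_abs_le (hwy y) _ _).trans ((Vale.Agent.P168.MP.ET_mono (hwy y)
          (G := fun ps => |cv v (ps.getD 0 []) (ps.getD 1 []) - q a| * D ^ 2) fun ps => ?_).trans ?_)
        · set z := f1 (dot (v (ps.getD 0 [])) y) * f1 (dot (v (ps.getD 1 [])) y)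
          rw [show Ψ (ps.getD 0 []) * cv v (ps.getD 0 []) (ps.getD 1 []) * z - q a * (Ψ (ps.getD 0 []) * z) =
            (cv v (ps.getD 0 []) (ps.getD 1 []) - q a) * (Ψ (ps.getD 0 []) * z) by ring, abs_mul, abs_mul, abs_mul]
          exact mul_le_mul_of_nonneg_left ((mul_le_of_le_one_left (by positivity) (hΨ _)).trans
            ((mul_le_mul (hS.b1 _) (hS.b1 _) (abs_nonneg _) hD).trans_eq (sq D).symm)) (abs_nonneg _)
        · refine (ET_tilt hR hw hB0 (hY y) hV (by omega) fun ps => by positivity).trans (le_of_eq ?_)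
          rw [Vale.Agent.P168.MP.ET_mul_const,
            Par.ET_two hw hV (i := 0) (j := 1) (by omega) (by omega) (fun p p' => |cv v p p' - q a|)]
          show kap B * (φ a * D ^ 2) = _
          ring
      have h2 : |(∫ y, (ET R (lin R) (fun p => w p * fac f v y p) U fun ps =>
            Ψ (ps.getD 0 []) * (f1 (dot (v (ps.getD 0 [])) y) * f1 (dot (v (ps.getD 1 [])) y))) ∂gauss (Fin N)) -
          Gm f f1 R q a * P| ≤ KP * (φ a + lvlAvg R φ) := by
        have h := (hP hR hw (a := v) (fun p => (hv p).le) hq ha (Ψ := fun p _ => Ψ p) (C := 1) fun p _ => hΨ p).1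
        rw [mul_one, pair_fst hw ha Ψ] at h
        refine le_trans (le_of_eq ?_) h
        congr 2
        exact integral_congr_ae (Filter.Eventually.of_forall fun y =>
          Par.ET_two (hwy y) hV (i := 0) (j := 1) (by omega) (by omega)
            fun p p' => Ψ p * (f1 (dot (v p) y) * f1 (dot (v p') y)))
      set X := ∫ y, (ET R (lin R) (fun p => w p * fac f v y p) U fun ps =>
            Ψ (ps.getD 0 []) * cv v (ps.getD 0 []) (ps.getD 1 []) *
              (f1 (dot (v (ps.getD 0 [])) y) * f1 (dot (v (ps.getD 1 [])) y))) ∂gauss (Fin N)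
      set Y := ∫ y, (ET R (lin R) (fun p => w p * fac f v y p) U fun ps =>
            Ψ (ps.getD 0 []) * (f1 (dot (v (ps.getD 0 [])) y) * f1 (dot (v (ps.getD 1 [])) y))) ∂gauss (Fin N)
      rw [show X - Gm f f1 R q a * q a * P = (X - q a * Y) + q a * (Y - Gm f f1 R q a * P) by ring]
      refine (abs_add_le _ _).trans ?_
      rw [abs_mul (q a), abs_of_nonneg a1]
      have h3 := (mul_le_of_le_one_left (abs_nonneg _) a2).trans h2
      have hk : 0 ≤ kap B * D ^ 2 := by positivity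
      nlinarith [mul_le_mul_of_nonneg_left (show φ a + lvlAvg R φ ≤ pairSum R φ U + lvlAvg R φ by linarith) hKP,
        mul_le_mul_of_nonneg_left (show φ a ≤ pairSum R φ U + lvlAvg R φ by linarith) hk]
    · simp only [List.length_cons, List.length_nil]
      have hC : 0 ≤ kap B * D ^ 2 + KP := by positivity
      norm_num
      nlinarith [mul_le_mul_of_nonneg_left (one_le (R := R) hφ) hC]
  set I := ∫ y, ET R (lin R) (fun p => w p * fac f v y p) [(0, 0)] (fun ps => Ψ (ps.getD 0 [])) ∂gauss (Fin N)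
  set S := ((att R (lin R) [(0, 0)]).map fun c => c.2 * ∫ y, (ET R (lin R) (fun p => w p * fac f v y p)
        (c.1 :: [(0, 0)]) fun ps => Ψ (ps.getD 0 []) * cv v (ps.getD 0 []) (ps.getD 1 []) *
          (f1 (dot (v (ps.getD 0 [])) y) * f1 (dot (v (ps.getD 1 [])) y))) ∂gauss (Fin N)).sum
  rw [show H * I - S = H * (I - P) - (S - H * P) by ring]
  refine (abs_sub _ _).trans ?_
  rw [abs_mul H]
  have := mul_le_mul (s1_bound hS hR hq) hP0 (abs_nonneg _) (by positivity)
  linarith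

end Vale.Agent.P157.Sph.Res
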