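import Vale.Agent.P157.Sph.Iface
import Vale.Agent.P157.Sph.ResBase

/-! B3: the residue of the inverse relation and the concentration of the radial term. Both are obtained by testing
against a bounded function that is stable when one pattern is removed. -/

open MeasureTheory ProbabilityTheory Real Finset
open Vale.Agent.P150 (gauss dot)
open Vale.Agent.P168.MP (lin ET Valid)
open Vale.Agent.P157.Par (Sm Prof adev devOf cv pats dist1 Gm fac lvlAvg gsq ins)

namespace Vale.Agent.P157.Sph.Res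

set_option linter.unusedSectionVars false

variable {f f1 f2 f3 : ℝ → ℝ} {B D : ℝ}
variable {Ω : Type} [Fintype Ω] [Nonempty Ω] {R N M : ℕ}

/-! ### Integrability in one and in all patterns -/

lemma int_y {H : (Fin N → ℝ) → ℝ} (hc : Continuous H) {C : ℝ} (hb : ∀ y, |H y| ≤ C * (1 + dot y y)) :
    Integrable H (gauss (Fin N)) := by
  have h : Integrable (fun y : Fin N → ℝ => dot y y) (gauss (Fin N)) := by
    unfold dot
    refine integrable_finsetSum _ fun i _ => ?_
    have h2 : Integrable (fun z : ℝ => z * z) (gaussianReal 0 1) := by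
      simpa [sq] using (memLp_id_gaussianReal (μ := 0) (v := 1) 2).integrable_sq
    exact (measurePreserving_eval (fun _ : Fin N => gaussianReal 0 1) i).integrable_comp_of_integrable h2
  exact (((integrable_const (1:ℝ)).add h).const_mul C).mono' hc.aestronglyMeasurable
    (Filter.Eventually.of_forall fun y => by simpa [Real.norm_eq_abs] using hb y)

lemma int_g {H : (Fin M → Fin N → ℝ) → ℝ} (hc : Continuous H) {C : ℝ} (hb : ∀ g, |H g| ≤ C * (1 + gsq g)) :
    Integrable H (pats N M) :=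
  (((integrable_const (1:ℝ)).add Par.integrable_gsq).const_mul C).mono' hc.aestronglyMeasurable
    (Filter.Eventually.of_forall fun g => by simpa [Real.norm_eq_abs] using hb g)

lemma gsq_nonneg (g : Fin M → Fin N → ℝ) : 0 ≤ gsq g :=
  sum_nonneg fun _ _ => sum_nonneg fun _ _ => sq_nonneg _

lemma dot_le_gsq (g : Fin M → Fin N → ℝ) (i : Fin M) : dot (g i) (g i) ≤ gsq g := by
  refine le_trans (le_of_eq ?_) (single_le_sum (f := fun a => ∑ k, g a k ^ 2)
    (fun a _ => sum_nonneg fun _ _ => sq_nonneg _) (mem_univ i))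
  simp [dot, sq]

lemma dot_self_nonneg (x : Fin N → ℝ) : 0 ≤ dot x x := sum_nonneg fun _ _ => mul_self_nonneg _

/-- leave one pattern out -/
lemma one_out (i : Fin (M + 1)) {F G : (Fin (M + 1) → Fin N → ℝ) → ℝ} (hF : Integrable F (pats N (M + 1)))
    (hG : Integrable G (pats N (M + 1)))
    (h : ∀ g', |∫ y, F (ins i y g') ∂gauss (Fin N)| ≤ ∫ y, G (ins i y g') ∂gauss (Fin N)) :
    |∫ g, F g ∂pats N (M + 1)| ≤ ∫ g, G g ∂pats N (M + 1) := by
  rw [Par.integral_pats_succ i hF, Par.integral_pats_succ i hG]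
  have hi : Integrable (fun g' => ∫ y, G (ins i y g') ∂gauss (Fin N)) (pats N M) :=
    (((Par.measurePreserving_ins i).integrable_comp_of_integrable hG)).integral_prod_right
  exact abs_integral_le_integral_abs.trans (integral_mono_of_nonneg
    (Filter.Eventually.of_forall fun _ => abs_nonneg _) hi (Filter.Eventually.of_forall h))

lemma wV_pos {w₀ : List Ω → ℝ} (hw : ∀ p, 0 < w₀ p) (v : List Ω → Fin N → ℝ) (g : Fin M → Fin N → ℝ)
    (p : List Ω) : 0 < wV f w₀ v g p := mul_pos (hw p) (exp_pos _)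

lemma wV_ins (w₀ : List Ω → ℝ) (v : List Ω → Fin N → ℝ) (i : Fin (M + 1)) (y : Fin N → ℝ)
    (g : Fin M → Fin N → ℝ) : wV f w₀ v (ins i y g) = fun p => wV f w₀ v g p * fac f v y p := by
  funext p
  rw [wV, wV, fac, mul_assoc, ← exp_add, Fin.sum_univ_succAbove _ i]
  simp [ins, add_comm]

lemma continuous_pat (x : Fin N → ℝ) (i : Fin M) : Continuous fun g : Fin M → Fin N → ℝ => dot x (g i) :=
  (Par.continuous_dot_left x).comp (continuous_apply i)

lemma continuous_wV (hS : Sm f f1 f2 f3 B D) (w₀ : List Ω → ℝ) (v : List Ω → Fin N → ℝ) (p : List Ω) :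
    Continuous fun g : Fin M → Fin N → ℝ => wV f w₀ v g p :=
  continuous_const.mul (continuous_exp.comp (continuous_finsetSum _ fun i _ => hS.cont.1.comp (continuous_pat _ i)))

lemma continuous_qV (hS : Sm f f1 f2 f3 B D) {w₀ : List Ω → ℝ} (hw : ∀ p, 0 < w₀ p) (v : List Ω → Fin N → ℝ)
    (l : ℕ) : Continuous fun g : Fin M → Fin N → ℝ => qV f R w₀ v g l :=
  Par.continuous_ET (fun p => continuous_wV hS w₀ v p) (fun g p => wV_pos hw v g p) R [(0, l), (0, 0)]
    (F := fun _ ps => cv v (ps.getD 0 []) (ps.getD 1 [])) fun _ => continuous_const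

lemma continuous_ins' (i : Fin (M + 1)) (g : Fin M → Fin N → ℝ) : Continuous fun y : Fin N → ℝ => ins i y g :=
  Continuous.finInsertNth (A := fun _ : Fin (M + 1) => Fin N → ℝ) i continuous_id continuous_const

/-- the deviation used by both estimates -/
noncomputable def dl (f : ℝ → ℝ) (R : ℕ) (w₀ : List Ω → ℝ) (v : List Ω → Fin N → ℝ) (l : ℕ)
    (g : Fin M → Fin N → ℝ) : ℝ := phiV R (wV f w₀ v g) v l + adV f R w₀ v g

lemma int_dev (hS : Sm f f1 f2 f3 B D) {w₀ : List Ω → ℝ} (hw : ∀ p, 0 < w₀ p) {v : List Ω → Fin N → ℝ}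
    (hv : ∀ p, cv v p p = 1) :
    (∀ l, Integrable (fun g : Fin M → Fin N → ℝ => phiV R (wV f w₀ v g) v l) (pats N M)) ∧
    Integrable (fun g : Fin M → Fin N → ℝ => adV f R w₀ v g) (pats N M) ∧
    ∫ g : Fin M → Fin N → ℝ, adV f R w₀ v g ∂pats N M =
      (∑ l ∈ range R, ∫ g : Fin M → Fin N → ℝ, phiV R (wV f w₀ v g) v l ∂pats N M) / R +
        ∫ g : Fin M → Fin N → ℝ, phiV R (wV f w₀ v g) v R ∂pats N M := by
  have h : ∀ l, Integrable (fun g : Fin M → Fin N → ℝ => phiV R (wV f w₀ v g) v l) (pats N M) := fun l => by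
    refine Integrable.of_bound (Par.continuous_ET (fun p => continuous_wV hS w₀ v p)
      (fun g p => wV_pos hw v g p) R _ fun ps => (continuous_const.sub (continuous_qV hS hw v l)).abs).aestronglyMeasurable
      2 (Filter.Eventually.of_forall fun g => ?_)
    rw [Real.norm_eq_abs]
    refine Vale.Agent.P168.MP.ET_bound (wV_pos hw v g) fun ps => ?_
    rw [abs_abs]
    refine (abs_sub _ _).trans ?_
    have h1 := cv_abs_le hv (ps.getD 0 []) (ps.getD 1 [])
    have h2 : |qker R (wV f w₀ v g) (cv v) l| ≤ 1 := Vale.Agent.P168.MP.ET_bound (wV_pos hw v g) fun ps => cv_abs_le hv _ _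
    linarith
  have hs : Integrable (fun g : Fin M → Fin N → ℝ => ∑ l ∈ range R, phiV R (wV f w₀ v g) v l) (pats N M) :=
    integrable_finsetSum _ fun l _ => h l
  refine ⟨h, (hs.div_const _).add (h R), ?_⟩
  show ∫ g : Fin M → Fin N → ℝ, ((∑ l ∈ range R, phiV R (wV f w₀ v g) v l) / R + phiV R (wV f w₀ v g) v R) ∂_ = _
  rw [integral_add (hs.div_const _) (h R), integral_div, integral_finsetSum _ fun l _ => h l]

/-- second moment of a field under a tilt -/
lemma mom (hS : Sm f f1 f2 f3 B D) (hB : ∀ x, f x ≤ B) (hR : 1 ≤ R) {w : List Ω → ℝ} (hw : ∀ p, 0 < w p)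
    {v : List Ω → Fin N → ℝ} (hv : ∀ p, cv v p p = 1) {T : List (ℕ × ℕ)} (hT : Valid R T) (hlen : T.length ≤ 3)
    (j : ℕ) :
    Integrable (fun y => ET R (lin R) (fun p => w p * fac f v y p) T fun ps => 1 + dot (v (ps.getD j [])) y ^ 2)
        (gauss (Fin N)) ∧
      ∫ y, (ET R (lin R) (fun p => w p * fac f v y p) T fun ps => 1 + dot (v (ps.getD j [])) y ^ 2) ∂gauss (Fin N) ≤
        2 * kap B := by
  have hwy : ∀ (y : Fin N → ℝ) p, 0 < w p * fac f v y p := fun y p => mul_pos (hw p) (exp_pos _)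
  obtain ⟨i1, e1⟩ := Par.integral_ET (R := R) (m := lin R) (w := w) T
    (F := fun y ps => 1 + dot (v (ps.getD j [])) y ^ 2) (μ := gauss (Fin N))
    fun ps => (integrable_const (1:ℝ)).add (Par.integral_dot_sq _).1
  have hpt : ∀ y, ET R (lin R) (fun p => w p * fac f v y p) T (fun ps => 1 + dot (v (ps.getD j [])) y ^ 2) ≤
      kap B * ET R (lin R) w T fun ps => 1 + dot (v (ps.getD j [])) y ^ 2 := fun y =>
    ET_tilt hR hw (B_nonneg hS hB) (fun p => fac_mem hS hB v y p) hT hlen fun ps => by positivity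
  have hc : Continuous fun y => ET R (lin R) (fun p => w p * fac f v y p) T fun ps =>
      1 + dot (v (ps.getD j [])) y ^ 2 :=
    Par.continuous_ET (fun p => (Par.continuous_fac hS.cont.1 v p).const_mul _) hwy R T
      fun ps => continuous_const.add ((Par.continuous_dot_left _).pow 2)
  have hi := (i1.const_mul (kap B)).mono' hc.aestronglyMeasurable (Filter.Eventually.of_forall fun y => by
    rw [Real.norm_eq_abs, abs_of_nonneg (Vale.Agent.P168.MP.ET_nonneg (hwy y) fun ps => by positivity)]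
    exact hpt y)
  refine ⟨hi, (integral_mono hi (i1.const_mul _) hpt).trans_eq ?_⟩
  rw [integral_const_mul, e1]
  have e : ∀ ps : List (List Ω), ∫ y, (1 + dot (v (ps.getD j [])) y ^ 2) ∂gauss (Fin N) = 2 := fun ps => by
    rw [integral_add (integrable_const _) (Par.integral_dot_sq _).1, (Par.integral_dot_sq _).2]
    have := hv (ps.getD j [])
    simp only [cv] at this
    simp [-List.getD_eq_getElem?_getD, this, one_add_one_eq_two]
  simp only [e, Vale.Agent.P168.MP.ET_const hw]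
  ring

/-- a field is linearly bounded -/
lemma abs_dot_le_one {v : List Ω → Fin N → ℝ} (hv : ∀ p, cv v p p = 1) (p : List Ω) (x : Fin N → ℝ) :
    |dot (v p) x| ≤ 1 + dot x x := by
  refine (abs_dot_le_half (v p) x).trans ?_
  have h := hv p
  simp only [cv] at h
  linarith [dot_self_nonneg x]

lemma continuous_s (hS : Sm f f1 f2 f3 B D) (hR : 1 ≤ R) {X : Type*} [TopologicalSpace X] {q : X → ℕ → ℝ}
    (hq : ∀ x, Prof R (q x) 1) (hc : ∀ l, Continuous fun x => q x l) :
    (∀ l ≤ R, Continuous fun x => s0 R (Gm f f1 R (q x)) (q x) l) ∧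
      Continuous fun x => s1 R (Gm f f1 R (q x)) (q x) := by
  obtain ⟨L, hL, h⟩ := s_lip hS
  have hR' : (0:ℝ) < R := by exact_mod_cast hR
  have key : ∀ {q q' : ℕ → ℝ}, lvlAvg R (fun j => |q j - q' j|) = dist1 R q q' := fun {_ _} => rfl
  constructor
  · intro l hl
    refine (Par.cont_functional hR (F := fun q => s0 R (Gm f f1 R q) q l) (K := L * ((R:ℝ) + 2)) (by positivity)
      (fun q q' hq hq' => ?_) hq hc).1
    refine ((h hR hq hq' (φ := fun j => |q j - q' j|) (fun j => abs_nonneg _) fun j _ => le_rfl).1 l hl).trans ?_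
    rw [key, mul_assoc]
    refine mul_le_mul_of_nonneg_left ?_ hL
    have hd := Par.dist1_nonneg R q q'
    have h1 : |q l - q' l| ≤ (R + 1 : ℝ) * dist1 R q q' := by
      rcases Nat.lt_or_eq_of_le hl with h | rfl
      · have h1 := single_le_sum (f := fun j => |q j - q' j|) (fun j _ => abs_nonneg _) (mem_range.2 h)
        have h2 : (∑ j ∈ range R, |q j - q' j|) ≤ (R:ℝ) * dist1 R q q' := by
          rw [← div_le_iff₀' hR']; exact le_add_of_nonneg_right (abs_nonneg _)
        linarith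
      · have : |q l - q' l| ≤ dist1 l q q' := le_add_of_nonneg_left (by positivity)
        nlinarith [mul_nonneg (Nat.cast_nonneg (α := ℝ) l) hd]
    linarith
  · refine (Par.cont_functional hR (F := fun q => s1 R (Gm f f1 R q) q) hL
      (fun q q' hq hq' => ?_) hq hc).1
    exact ((h hR hq hq' (φ := fun j => |q j - q' j|) (fun j => abs_nonneg _) fun j _ => le_rfl).2)

lemma int_dl_ins (hS : Sm f f1 f2 f3 B D) {w₀ : List Ω → ℝ} (hw : ∀ p, 0 < w₀ p) {v : List Ω → Fin N → ℝ}
    (hv : ∀ p, cv v p p = 1) (hR : 1 ≤ R) (i : Fin (M + 1)) (g' : Fin M → Fin N → ℝ) {l : ℕ} (hl : l ≤ R) :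
    Integrable (fun y => dl f R w₀ v l (ins i y g')) (gauss (Fin N)) := by
  have hwp : ∀ (g : Fin (M + 1) → Fin N → ℝ) p, 0 < wV f w₀ v g p := fun g p => wV_pos hw v g p
  have hq : ∀ (g : Fin (M + 1) → Fin N → ℝ) j, |qker R (wV f w₀ v g) (cv v) j| ≤ 1 := fun g j =>
    Vale.Agent.P168.MP.ET_bound (hwp g) fun ps => cv_abs_le hv _ _
  have h : ∀ j, Continuous fun g : Fin (M + 1) → Fin N → ℝ => phiV R (wV f w₀ v g) v j := fun j =>
    Par.continuous_ET (fun p => continuous_wV hS w₀ v p) hwp R _ fun ps =>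
      (continuous_const.sub (continuous_qV hS hw v j)).abs
  refine Integrable.of_bound (((h l).add (((continuous_finsetSum _ fun j _ => h j).div_const _).add (h R))).comp
    (continuous_ins' i g')).aestronglyMeasurable 6 (Filter.Eventually.of_forall fun y => ?_)
  have hR' : (0:ℝ) < R := by exact_mod_cast hR
  have hb : ∀ j ≤ R, phiV R (wV f w₀ v (ins i y g')) v j ≤ 2 := fun j hj => by
    refine (Par.devOf_le (hwp _) hj (fun p p' => cv_abs_le hv p p') (hq (ins i y g') j)).trans ?_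
    norm_num
  have h1 := sum_le_sum (s := range R) fun j hj => hb j (mem_range.1 hj).le
  rw [sum_const, card_range, nsmul_eq_mul] at h1
  have h2 : (∑ j ∈ range R, phiV R (wV f w₀ v (ins i y g')) v j) / R ≤ 2 := by
    rw [div_le_iff₀ hR']; linarith
  show ‖phiV R (wV f w₀ v (ins i y g')) v l + ((∑ j ∈ range R, phiV R (wV f w₀ v (ins i y g')) v j) / R +
    phiV R (wV f w₀ v (ins i y g')) v R)‖ ≤ 6
  have h0 := fun j => phiV_nonneg (R := R) (hwp (ins i y g')) v j
  rw [Real.norm_eq_abs, abs_of_nonneg (add_nonneg (h0 l)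
    (add_nonneg (div_nonneg (sum_nonneg fun j _ => h0 j) hR'.le) (h0 R)))]
  linarith [hb l hl, hb R le_rfl]

/-- the residue at level `l` -/
noncomputable def eF (α : ℝ) (f f1 : ℝ → ℝ) (R : ℕ) (q : ℕ → ℝ) (l : ℕ) : ℝ :=
  q l - α * s0 R (Gm f f1 R q) q l

/-- one pattern's term in Stein's right hand side -/
noncomputable def yT (f f1 : ℝ → ℝ) (R : ℕ) (w₀ : List Ω → ℝ) (v : List Ω → Fin N → ℝ) (l : ℕ) (i : Fin M)
    (g : Fin M → Fin N → ℝ) : ℝ :=
  ET R (lin R) (wV f w₀ v g) [(0, l), (0, 0)] fun ps => f1 (dot (v (ps.getD 0 [])) (g i)) *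
    (dot (v (ps.getD 1 [])) (g i) - cv v (ps.getD 0 []) (ps.getD 1 []) * dot (v (ps.getD 0 [])) (g i))

lemma eF_bound (hS : Sm f f1 f2 f3 B D) (hR : 1 ≤ R) {α : ℝ} (hα : 0 ≤ α) {q : ℕ → ℝ} (hq : Prof R q 1)
    {l : ℕ} (hl : l ≤ R) : |eF α f f1 R q l| ≤ 1 + α * (6 * D ^ 2) := by
  refine (abs_sub _ _).trans (add_le_add ?_ ?_)
  · obtain ⟨a, b⟩ := hq.upper hl
    rw [abs_of_nonneg a]; exact b
  · rw [abs_mul, abs_of_nonneg hα]
    exact mul_le_mul_of_nonneg_left (s0_bound hS hR hq hl) hα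

lemma yT_props (hS : Sm f f1 f2 f3 B D) {w₀ : List Ω → ℝ} (hw : ∀ p, 0 < w₀ p) {v : List Ω → Fin N → ℝ}
    (hv : ∀ p, cv v p p = 1) (l : ℕ) (i : Fin M) :
    Continuous (yT f f1 R w₀ v l i) ∧ ∀ g, |yT f f1 R w₀ v l i g| ≤ 2 * D * (1 + gsq g) := by
  refine ⟨Par.continuous_ET (fun p => continuous_wV hS w₀ v p) (fun g p => wV_pos hw v g p) R _ fun ps =>
    (hS.cont.2.1.comp (continuous_pat _ i)).mul
      ((continuous_pat _ i).sub (continuous_const.mul (continuous_pat _ i))), fun g => ?_⟩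
  refine Vale.Agent.P168.MP.ET_bound (wV_pos hw v g) fun ps => ?_
  rw [abs_mul]
  refine (mul_le_mul (hS.b1 _) ((abs_sub _ _).trans (add_le_add (abs_dot_le_one hv _ _)
    ((abs_mul _ _).trans_le ((mul_le_of_le_one_left (abs_nonneg _) (cv_abs_le hv _ _)).trans
      (abs_dot_le_one hv _ _))))) (abs_nonneg _) hS.D_nonneg).trans ?_
  nlinarith [dot_le_gsq g i, mul_le_mul_of_nonneg_left (dot_le_gsq g i) hS.D_nonneg]

/-- one pattern against the residue -/
theorem pat_pair (hK : KerProf) (hS : Sm f f1 f2 f3 B D) (hB : ∀ x, f x ≤ B) {α : ℝ} (hα : 0 ≤ α) :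
    ∃ K1 : ℝ, 0 ≤ K1 ∧
    ∀ {Ω : Type} [Fintype Ω] [Nonempty Ω] {R N M : ℕ}, 1 ≤ R → ∀ {w₀ : List Ω → ℝ}, (∀ p, 0 < w₀ p) →
    ∀ {v : List Ω → Fin N → ℝ}, (∀ p, cv v p p = 1) → ∀ {l : ℕ}, l ≤ R → ∀ i : Fin (M + 1),
      |∫ g, eF α f f1 R (qV f R w₀ v g) l *
        (yT f f1 R w₀ v l i g - s0 R (Gm f f1 R (qV f R w₀ v g)) (qV f R w₀ v g) l) ∂pats N (M + 1)| ≤
        K1 * ((∫ g : Fin (M + 1) → Fin N → ℝ, phiV R (wV f w₀ v g) v l ∂pats N (M + 1)) +
          ∫ g : Fin (M + 1) → Fin N → ℝ, adV f R w₀ v g ∂pats N (M + 1)) := by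
  obtain ⟨L, hL, hlip⟩ := s_lip hS
  obtain ⟨C1, hC1, hstep⟩ := step_pair hS hB
  have hD := hS.D_nonneg
  have hk := kap_pos B
  set Ke : ℝ := 1 + α * (6 * D ^ 2)
  set Le : ℝ := 1 + α * L
  set K1 : ℝ := 2 * kap B * (Ke * C1 + Le * kap B * (4 * D * kap B) + (Ke * L + 6 * D ^ 2 * Le) * kap B) with hK1
  have hKe : 0 ≤ Ke := by positivity
  have hLe : 0 ≤ Le := by positivity
  have hK10 : 0 ≤ K1 := by positivity
  refine ⟨K1, hK10, ?_⟩
  intro Ω _ _ R N M hR w₀ hw₀ v hv l hl i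
  have hwp : ∀ {k} (g : Fin k → Fin N → ℝ) p, 0 < wV f w₀ v g p := fun g p => wV_pos hw₀ v g p
  have hQ : ∀ {k} (g : Fin k → Fin N → ℝ), Prof R (qV f R w₀ v g) 1 ∧ qV f R w₀ v g R = 1 := fun g =>
    hK hR (hwp g) hv
  set Q : (Fin (M + 1) → Fin N → ℝ) → ℕ → ℝ := fun g => qV f R w₀ v g
  set E : (Fin (M + 1) → Fin N → ℝ) → ℕ → ℝ := fun g l => eF α f f1 R (Q g) l
  set Y : ℕ → Fin (M + 1) → (Fin (M + 1) → Fin N → ℝ) → ℝ := fun l i g => yT f f1 R w₀ v l i g
  have hqc : ∀ j, Continuous fun g => Q g j := fun j => continuous_qV hS hw₀ v j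
  have hsc : ∀ l ≤ R, Continuous fun g => s0 R (Gm f f1 R (Q g)) (Q g) l :=
    (continuous_s hS hR (fun g => (hQ g).1) hqc).1
  have hEc : ∀ l ≤ R, Continuous fun g => E g l := fun l hl => (hqc l).sub ((hsc l hl).const_mul α)
  have hYc : ∀ l i, Continuous (Y l i) := fun l i => (yT_props hS hw₀ hv l i).1
  have hYb : ∀ l i g, |Y l i g| ≤ 2 * D * (1 + gsq g) := fun l i g => (yT_props hS hw₀ hv l i).2 g
  have hSb : ∀ g {l}, l ≤ R → |s0 R (Gm f f1 R (Q g)) (Q g) l| ≤ 6 * D ^ 2 := fun g {l} hl =>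
    s0_bound hS hR (hQ g).1 hl
  have hEb : ∀ g {l}, l ≤ R → |E g l| ≤ Ke := fun g {l} hl => eF_bound hS hR hα (hQ g).1 hl
  obtain ⟨hiφ, hia, -⟩ := int_dev (M := M + 1) hS hw₀ hv (R := R)
  have hiF : Integrable (fun g => E g l * (Y l i g - s0 R (Gm f f1 R (Q g)) (Q g) l)) (pats N (M + 1)) := by
    refine int_g ((hEc l hl).mul ((hYc l i).sub (hsc l hl))) (C := Ke * (2 * D + 6 * D ^ 2)) fun g => ?_
    rw [abs_mul, mul_assoc]
    refine mul_le_mul (hEb g hl) ((abs_sub _ _).trans ?_) (abs_nonneg _) hKe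
    nlinarith [hYb l i g, hSb g hl, mul_nonneg (sq_nonneg D) (gsq_nonneg g)]
  refine (one_out (G := fun g => K1 * dl f R w₀ v l g) i hiF (((hiφ l).add hia).const_mul K1) fun g' => ?_).trans_eq ?_
  swap
  · rw [integral_const_mul]; exact congrArg (K1 * ·) (integral_add (hiφ l) hia)
  set w' := wV f w₀ v g'
  set q' := qker R w' (cv v)
  have hw' : ∀ p, 0 < w' p := hwp g'
  have hq' : Prof R q' 1 := (hQ g').1
  set S' := s0 R (Gm f f1 R q') q' l
  set E' := q' l - α * S'
  set φ' := phiV R w' v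
  have hφ' : ∀ j, 0 ≤ φ' j := phiV_nonneg hw' v
  set d' := φ' l + lvlAvg R φ'
  have hd' : 0 ≤ d' := add_nonneg (hφ' l) (Par.lvlAvg_nonneg hφ')
  have hwy : ∀ (y : Fin N → ℝ) p, 0 < w' p * fac f v y p := fun y p => mul_pos (hw' p) (exp_pos _)
  set Yy : (Fin N → ℝ) → ℝ := fun y => ET R (lin R) (fun p => w' p * fac f v y p) [(0, l), (0, 0)] fun ps =>
    f1 (dot (v (ps.getD 0 [])) y) *
      (dot (v (ps.getD 1 [])) y - cv v (ps.getD 0 []) (ps.getD 1 []) * dot (v (ps.getD 0 [])) y)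
  have eY : ∀ y, Y l i (ins i y g') = Yy y := fun y => by
    simp only [Y, yT, Yy, w', wV_ins]
    simp only [ins, Fin.insertNth_apply_same]
  obtain ⟨m0, m0'⟩ := mom hS hB hR hw' hv (Par.valid_pair hl) (show [(0, l), (0, 0)].length ≤ 3 by simp) 0
  obtain ⟨m1, m1'⟩ := mom hS hB hR hw' hv (Par.valid_pair hl) (show [(0, l), (0, 0)].length ≤ 3 by simp) 1
  have hYy : ∀ y, |Yy y| ≤ D * ((ET R (lin R) (fun p => w' p * fac f v y p) [(0, l), (0, 0)] fun ps =>
      1 + dot (v (ps.getD 0 [])) y ^ 2) + ET R (lin R) (fun p => w' p * fac f v y p) [(0, l), (0, 0)] fun ps =>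
      1 + dot (v (ps.getD 1 [])) y ^ 2) := fun y => by
    rw [← Vale.Agent.P168.MP.ET_add, ← Vale.Agent.P168.MP.ET_const_mul]
    refine (Vale.Agent.P168.MP.ET_abs_le (hwy y) _ _).trans (Vale.Agent.P168.MP.ET_mono (hwy y) fun ps => ?_)
    rw [abs_mul]
    refine mul_le_mul (hS.b1 _) ((abs_sub _ _).trans ?_) (abs_nonneg _) hD
    rw [abs_mul, add_comm]
    have h : ∀ x : ℝ, |x| ≤ 1 + x ^ 2 := fun x => by nlinarith [sq_nonneg (|x| - 1), sq_abs x, abs_nonneg x]
    exact add_le_add ((mul_le_of_le_one_left (abs_nonneg _) (cv_abs_le hv _ _)).trans (h _)) (h _)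
  have hYyc : Continuous Yy := by simpa only [eY] using (show Continuous fun y => Y l i (ins i y g') from
    (hYc l i).comp (continuous_ins' i g'))
  have hiYy : Integrable Yy (gauss (Fin N)) :=
    ((m0.add m1).const_mul D).mono' hYyc.aestronglyMeasurable (Filter.Eventually.of_forall hYy)
  have hcmp : ∀ y, |E (ins i y g') l - E'| ≤ Le * kap B * d' ∧
      |E' * S' - E (ins i y g') l * s0 R (Gm f f1 R (Q (ins i y g'))) (Q (ins i y g')) l| ≤
        (Ke * L + 6 * D ^ 2 * Le) * kap B * d' ∧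
      d' ≤ 2 * kap B * dl f R w₀ v l (ins i y g') := fun y => by
    obtain ⟨k1, k2⟩ := qker_tilt hR hw' (B_nonneg hS hB) (fun p => fac_mem hS hB v y p) v
    have eQ : Q (ins i y g') = qker R (fun p => w' p * fac f v y p) (cv v) := by
      simp only [Q, qV, w', wV_ins]
    have hq : Prof R (Q (ins i y g')) 1 := (hQ _).1
    have hd : ∀ j ≤ R, |Q (ins i y g') j - q' j| ≤ kap B * φ' j := fun j hj => by
      rw [eQ]; exact (k1 j hj).1
    have hs := (hlip hR hq hq' (φ := fun j => kap B * φ' j) (fun j => mul_nonneg hk.le (hφ' j)) hd).1 l hl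
    rw [lvlAvg_const_mul, ← mul_add] at hs
    have hql : |Q (ins i y g') l - q' l| ≤ kap B * d' := (hd l hl).trans
      (mul_le_mul_of_nonneg_left (le_add_of_nonneg_right (Par.lvlAvg_nonneg hφ')) hk.le)
    have hE : |E (ins i y g') l - E'| ≤ Le * kap B * d' := by
      rw [show E (ins i y g') l - E' = (Q (ins i y g') l - q' l) -
        α * (s0 R (Gm f f1 R (Q (ins i y g'))) (Q (ins i y g')) l - S') by simp only [E, eF, E']; ring]
      refine (abs_sub _ _).trans ?_
      rw [abs_mul, abs_of_nonneg hα]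
      have := mul_le_mul_of_nonneg_left hs hα
      simp only [Le, d'] at *
      linarith
    refine ⟨hE, ?_, ?_⟩
    · rw [show E' * S' - E (ins i y g') l * s0 R (Gm f f1 R (Q (ins i y g'))) (Q (ins i y g')) l =
        -(E (ins i y g') l * (s0 R (Gm f f1 R (Q (ins i y g'))) (Q (ins i y g')) l - S') +
          S' * (E (ins i y g') l - E')) by ring, abs_neg]
      refine (abs_add_le _ _).trans ?_
      rw [abs_mul, abs_mul]
      have h1 := mul_le_mul (hEb (ins i y g') hl) hs (abs_nonneg _) hKe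
      have h2 := mul_le_mul (s0_bound hS hR hq' hl) hE (abs_nonneg _) (by positivity)
      simp only [d'] at *
      linarith
    · have h1 := (k1 l hl).2
      simp only [d', φ', dl, adV, qV, adev_phiV, wV_ins, w'] at *
      rw [mul_add]
      exact add_le_add h1 k2
  set G := fun y => Le * kap B * d' * (D * ((ET R (lin R) (fun p => w' p * fac f v y p) [(0, l), (0, 0)] fun ps =>
      1 + dot (v (ps.getD 0 [])) y ^ 2) + ET R (lin R) (fun p => w' p * fac f v y p) [(0, l), (0, 0)] fun ps =>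
      1 + dot (v (ps.getD 1 [])) y ^ 2)) + (Ke * L + 6 * D ^ 2 * Le) * kap B * d'
  have hiG : Integrable G (gauss (Fin N)) := (((m0.add m1).const_mul D).const_mul _).add (integrable_const _)
  have hFc : Continuous fun y => E (ins i y g') l * (Y l i (ins i y g') - s0 R (Gm f f1 R (Q (ins i y g'))) (Q (ins i y g')) l) :=
    ((hEc l hl).mul ((hYc l i).sub (hsc l hl))).comp (continuous_ins' i g')
  have hrest : ∀ y, |E (ins i y g') l * (Y l i (ins i y g') - s0 R (Gm f f1 R (Q (ins i y g'))) (Q (ins i y g')) l) -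
      E' * (Yy y - S')| ≤ G y := fun y => by
    rw [eY, show E (ins i y g') l * (Yy y - s0 R (Gm f f1 R (Q (ins i y g'))) (Q (ins i y g')) l) - E' * (Yy y - S') =
      (E (ins i y g') l - E') * Yy y + (E' * S' - E (ins i y g') l * s0 R (Gm f f1 R (Q (ins i y g'))) (Q (ins i y g')) l) by ring]
    refine (abs_add_le _ _).trans (add_le_add ?_ (hcmp y).2.1)
    rw [abs_mul]
    exact mul_le_mul (hcmp y).1 (hYy y) (abs_nonneg _) (by positivity)
  have hiM : Integrable (fun y => E' * (Yy y - S')) (gauss (Fin N)) := (hiYy.sub (integrable_const S')).const_mul E'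
  have hiD := hiG.mono' (hFc.sub ((hYyc.sub continuous_const).const_mul E')).aestronglyMeasurable
    (Filter.Eventually.of_forall hrest)
  have hiFy : Integrable (fun y => E (ins i y g') l *
      (Y l i (ins i y g') - s0 R (Gm f f1 R (Q (ins i y g'))) (Q (ins i y g')) l)) (gauss (Fin N)) := by
    exact (hiD.add hiM).congr (Filter.Eventually.of_forall fun y => sub_add_cancel _ _)
  have hmain : |∫ y, E' * (Yy y - S') ∂gauss (Fin N)| ≤ Ke * (C1 * d') := by
    rw [integral_const_mul, integral_sub hiYy (integrable_const _), integral_const, probReal_univ, one_smul, abs_mul]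
    refine mul_le_mul ?_ (hstep hR hw' hv hq' hl) (abs_nonneg _) hKe
    refine (abs_sub _ _).trans (add_le_add ?_ ?_)
    · obtain ⟨a, b⟩ := hq'.upper hl
      rw [abs_of_nonneg a]; exact b
    · rw [abs_mul, abs_of_nonneg hα]
      exact mul_le_mul_of_nonneg_left (s0_bound hS hR hq' hl) hα
  have hdlint : Integrable (fun y => dl f R w₀ v l (ins i y g')) (gauss (Fin N)) :=
    int_dl_ins hS hw₀ hv hR i g' hl
  have hd'int : d' ≤ 2 * kap B * ∫ y, dl f R w₀ v l (ins i y g') ∂gauss (Fin N) := by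
    have := integral_mono (μ := gauss (Fin N)) (integrable_const d') (hdlint.const_mul (2 * kap B)) fun y => (hcmp y).2.2
    simpa [integral_const_mul] using this
  have hGint : ∫ y, G y ∂gauss (Fin N) ≤ Le * kap B * d' * (4 * D * kap B) + (Ke * L + 6 * D ^ 2 * Le) * kap B * d' := by
    simp only [G]
    have i01 : Integrable (fun y => (ET R (lin R) (fun p => w' p * fac f v y p) [(0, l), (0, 0)] fun ps =>
        1 + dot (v (ps.getD 0 [])) y ^ 2) + ET R (lin R) (fun p => w' p * fac f v y p) [(0, l), (0, 0)] fun ps =>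
        1 + dot (v (ps.getD 1 [])) y ^ 2) (gauss (Fin N)) := m0.add m1
    rw [integral_add ((i01.const_mul D).const_mul _) (integrable_const _), integral_const_mul,
      integral_const_mul, integral_add m0 m1, integral_const, probReal_univ, one_smul]
    refine add_le_add (mul_le_mul_of_nonneg_left ?_ (by positivity)) le_rfl
    nlinarith
  have htot : |∫ y, E (ins i y g') l * (Y l i (ins i y g') - s0 R (Gm f f1 R (Q (ins i y g'))) (Q (ins i y g')) l)
      ∂gauss (Fin N)| ≤ Ke * (C1 * d') + ∫ y, G y ∂gauss (Fin N) := by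
    have h2 : |∫ y, (E (ins i y g') l * (Y l i (ins i y g') - s0 R (Gm f f1 R (Q (ins i y g'))) (Q (ins i y g')) l) -
        E' * (Yy y - S')) ∂gauss (Fin N)| ≤ ∫ y, G y ∂gauss (Fin N) :=
      abs_integral_le_integral_abs.trans (integral_mono hiD.abs hiG hrest)
    rw [integral_sub hiFy hiM] at h2
    linarith [abs_sub_abs_le_abs_sub (∫ y, E (ins i y g') l *
      (Y l i (ins i y g') - s0 R (Gm f f1 R (Q (ins i y g'))) (Q (ins i y g')) l) ∂gauss (Fin N))
      (∫ y, E' * (Yy y - S') ∂gauss (Fin N))]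
  refine htot.trans ?_
  rw [integral_const_mul]
  have := mul_le_mul_of_nonneg_left hd'int
    (show 0 ≤ Ke * C1 + Le * kap B * (4 * D * kap B) + (Ke * L + 6 * D ^ 2 * Le) * kap B by positivity)
  rw [hK1]
  linarith

/-- a bounded test replacing the sign -/
noncomputable def soft (t x : ℝ) : ℝ := x / (t + |x|)

lemma soft_abs {t : ℝ} (ht : 0 < t) (x : ℝ) : |soft t x| ≤ 1 := by
  have h : 0 < t + |x| := by positivity
  rw [soft, abs_div, abs_of_pos h, div_le_one h]
  linarith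

lemma abs_le_soft {t : ℝ} (ht : 0 < t) (x : ℝ) : |x| ≤ t + x * soft t x := by
  have h : 0 < t + |x| := by positivity
  rw [soft, mul_div_assoc', ← sub_le_iff_le_add', le_div_iff₀ h]
  nlinarith [sq_abs x]

lemma soft_lip {t : ℝ} (ht : 0 < t) (x y : ℝ) : |soft t x - soft t y| ≤ 2 / t * |x - y| := by
  have hx : 0 < t + |x| := by positivity
  have hy : 0 < t + |y| := by positivity
  rw [soft, soft, div_sub_div _ _ hx.ne' hy.ne', abs_div, abs_of_pos (mul_pos hx hy), div_le_iff₀ (mul_pos hx hy)]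
  have h1 : |x * (t + |y|) - (t + |x|) * y| ≤ |x - y| * (t + 2 * |y|) := by
    rw [show x * (t + |y|) - (t + |x|) * y = t * (x - y) + ((x - y) * |y| + y * (|y| - |x|)) by ring]
    refine (abs_add_le _ _).trans ?_
    have a := abs_add_le ((x - y) * |y|) (y * (|y| - |x|))
    have b : |y * (|y| - |x|)| ≤ |y| * |x - y| := by
      rw [abs_mul, abs_sub_comm x y]
      exact mul_le_mul_of_nonneg_left (abs_abs_sub_abs_le_abs_sub y x) (abs_nonneg _)
    rw [abs_mul, abs_abs] at a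
    rw [abs_mul, abs_of_pos ht]
    linarith
  refine h1.trans ?_
  rw [mul_comm (2 / t), mul_assoc]
  refine mul_le_mul_of_nonneg_left ?_ (abs_nonneg _)
  rw [div_mul_eq_mul_div, le_div_iff₀ ht]
  nlinarith [abs_nonneg x, abs_nonneg y, mul_nonneg ht.le (abs_nonneg x), mul_nonneg (abs_nonneg x) (abs_nonneg y)]

lemma continuous_soft {t : ℝ} (ht : 0 < t) : Continuous (soft t) :=
  continuous_id.div (continuous_const.add continuous_abs) fun x => (by positivity : (0:ℝ) < t + |x|).ne'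

/-- the centred radial term of one pattern -/
noncomputable def zR (f f1 f2 : ℝ → ℝ) (R : ℕ) (w₀ : List Ω → ℝ) (v : List Ω → Fin N → ℝ)
    (g : Fin M → Fin N → ℝ) (i : Fin M) (p : List Ω) : ℝ :=
  f2 (dot (v p) (g i)) - dot (v p) (g i) * f1 (dot (v p) (g i)) +
    s1 R (Gm f f1 R (qV f R w₀ v g)) (qV f R w₀ v g)

/-- the centred radial term -/
noncomputable def sR (f f1 f2 : ℝ → ℝ) (R : ℕ) (w₀ : List Ω → ℝ) (v : List Ω → Fin N → ℝ)
    (g : Fin M → Fin N → ℝ) (p : List Ω) : ℝ := (∑ i, zR f f1 f2 R w₀ v g i p) / N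

lemma zR_props (hK : KerProf) (hS : Sm f f1 f2 f3 B D) (hR : 1 ≤ R) {w₀ : List Ω → ℝ} (hw : ∀ p, 0 < w₀ p)
    {v : List Ω → Fin N → ℝ} (hv : ∀ p, cv v p p = 1) (i : Fin M) (p : List Ω) :
    (Continuous fun g : Fin M → Fin N → ℝ => zR f f1 f2 R w₀ v g i p) ∧
      (∀ g, |zR f f1 f2 R w₀ v g i p| ≤ (2 * D + 3 * D ^ 2) * (1 + gsq g)) ∧
      Continuous fun g : Fin M → Fin N → ℝ => sR f f1 f2 R w₀ v g p := by
  have hs := (continuous_s hS hR (fun g : Fin M → Fin N → ℝ => (hK hR (wV_pos hw v g) hv).1)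
    fun j => continuous_qV hS hw v j).2
  have hc : ∀ j, Continuous fun g : Fin M → Fin N → ℝ => zR f f1 f2 R w₀ v g j p := fun j =>
    ((hS.cont.2.2.comp (continuous_pat _ j)).sub ((continuous_pat _ j).mul
      (hS.cont.2.1.comp (continuous_pat _ j)))).add hs
  refine ⟨hc i, fun g => ?_, (continuous_finsetSum _ fun j _ => hc j).div_const _⟩
  refine (abs_add_le _ _).trans ?_
  have h1 : |s1 R (Gm f f1 R (qV f R w₀ v g)) (qV f R w₀ v g)| ≤ 3 * D ^ 2 :=
    s1_bound hS hR (hK hR (wV_pos (f := f) hw v g) hv).1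
  have h2 : |f2 (dot (v p) (g i)) - dot (v p) (g i) * f1 (dot (v p) (g i))| ≤ D + (1 + gsq g) * D := by
    refine (abs_sub _ _).trans (add_le_add (hS.b2 _) ?_)
    rw [abs_mul]
    exact mul_le_mul ((abs_dot_le_one hv p (g i)).trans (add_le_add le_rfl (dot_le_gsq g i))) (hS.b1 _)
      (abs_nonneg _) (by linarith [gsq_nonneg g])
  nlinarith [gsq_nonneg g, mul_nonneg hS.D_nonneg (gsq_nonneg g), mul_nonneg (sq_nonneg D) (gsq_nonneg g)]

lemma int_ad_ins (hS : Sm f f1 f2 f3 B D) {w₀ : List Ω → ℝ} (hw : ∀ p, 0 < w₀ p) {v : List Ω → Fin N → ℝ}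
    (hv : ∀ p, cv v p p = 1) (hR : 1 ≤ R) (i : Fin (M + 1)) (g' : Fin M → Fin N → ℝ) :
    Integrable (fun y => adV f R w₀ v (ins i y g')) (gauss (Fin N)) := by
  have h := int_dl_ins (f := f) hS hw hv hR i g' (le_refl R)
  have hφc : Continuous fun y => phiV R (wV f w₀ v (ins i y g')) v R := (Par.continuous_ET
    (fun p => continuous_wV (M := M + 1) hS w₀ v p) (fun g p => wV_pos hw v g p) R [(0, R), (0, 0)] fun ps =>
    (continuous_const.sub (continuous_qV hS hw v R)).abs).comp (continuous_ins' i g')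
  have hib : Integrable (fun y => phiV R (wV f w₀ v (ins i y g')) v R) (gauss (Fin N)) :=
    h.mono' hφc.aestronglyMeasurable (Filter.Eventually.of_forall fun y => by
      rw [Real.norm_eq_abs, abs_of_nonneg (phiV_nonneg (wV_pos hw v _) v R)]
      exact le_add_of_nonneg_right (Par.adev_nn (wV_pos hw v _)))
  exact (h.sub hib).congr (Filter.Eventually.of_forall fun y => by simp [dl])

/-- the pointwise change of one pattern's radial term -/
lemma rad_pt (hS : Sm f f1 f2 f3 B D) {α : ℝ} (hα : 0 ≤ α) {t : ℝ} (ht : 0 < t) (hN : 0 < N)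
    (hMN : ((M + 1 : ℕ) : ℝ) / N ≤ α + 1) (g' : Fin M → Fin N → ℝ) (v : List Ω → Fin N → ℝ) (y : Fin N → ℝ)
    (p : List Ω) {H H' e : ℝ} (hH : |H| ≤ 3 * D ^ 2) (he : |H - H'| ≤ e) :
    let z : (Fin N → ℝ) → ℝ := fun x => f2 (dot (v p) x) - dot (v p) x * f1 (dot (v p) x)
    |(z y + H) * soft t ((z y + H + ∑ k, (z (g' k) + H)) / N) -
        soft t ((∑ k, (z (g' k) + H')) / N) * (z y + H')| ≤
      4 / t * ((D + 3 * D ^ 2) ^ 2 * (1 / N) + (D + 3 * D ^ 2) * ((α + 1) * e)) * (1 + dot (v p) y ^ 2) + e := by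
  intro z
  have hD := hS.D_nonneg
  have hN' : (0:ℝ) < N := by exact_mod_cast hN
  have he0 : 0 ≤ e := (abs_nonneg _).trans he
  set u := dot (v p) y
  set Z := z y
  set E1 := D + 3 * D ^ 2
  set S := (Z + H + ∑ k, (z (g' k) + H)) / N
  set S' := (∑ k, (z (g' k) + H')) / N
  have hZ : |Z + H| ≤ E1 * (1 + |u|) := by
    refine (abs_add_le _ _).trans ?_
    have h1 : |Z| ≤ D + |u| * D := by
      refine (abs_sub _ _).trans (add_le_add (hS.b2 _) ?_)
      rw [abs_mul]; exact mul_le_mul_of_nonneg_left (hS.b1 _) (abs_nonneg _)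
    simp only [E1]
    nlinarith [mul_nonneg (sq_nonneg D) (abs_nonneg u), mul_nonneg hD (abs_nonneg u)]
  have hSd : |S - S'| ≤ E1 * (1 + |u|) * (1 / N) + (α + 1) * e := by
    have e1 : S - S' = (Z + H) * (1 / N) + (M : ℝ) / N * (H - H') := by
      simp only [S, S', sum_add_distrib, sum_const, card_univ, Fintype.card_fin, nsmul_eq_mul]
      ring
    rw [e1]
    refine (abs_add_le _ _).trans (add_le_add ?_ ?_)
    · rw [abs_mul, abs_of_nonneg (show (0:ℝ) ≤ 1 / N by positivity)]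
      exact mul_le_mul_of_nonneg_right hZ (by positivity)
    · rw [abs_mul, abs_of_nonneg (show (0:ℝ) ≤ (M:ℝ) / N by positivity)]
      refine mul_le_mul (le_trans ?_ hMN) he (abs_nonneg _) (by linarith)
      gcongr; simp
  rw [show (Z + H) * soft t S - soft t S' * (Z + H') = (Z + H) * (soft t S - soft t S') + soft t S' * (H - H') by ring]
  refine (abs_add_le _ _).trans (add_le_add ?_ ?_)
  · rw [abs_mul]
    refine (mul_le_mul hZ ((soft_lip ht S S').trans (mul_le_mul_of_nonneg_left hSd (by positivity)))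
      (abs_nonneg _) (by positivity)).trans ?_
    have h1 : (1 + |u|) ^ 2 ≤ 2 * (1 + u ^ 2) := by nlinarith [sq_nonneg (|u| - 1), sq_abs u]
    have h2 : 1 + |u| ≤ 2 * (1 + u ^ 2) := by nlinarith [abs_nonneg u, sq_abs u, sq_nonneg (|u| - 1)]
    have i1 := mul_le_mul_of_nonneg_left h1 (show 0 ≤ 2 / t * (E1 ^ 2 * (1 / (N:ℝ))) by positivity)
    have i2 := mul_le_mul_of_nonneg_left h2 (show 0 ≤ 2 / t * (E1 * ((α + 1) * e)) by positivity)
    calc E1 * (1 + |u|) * (2 / t * (E1 * (1 + |u|) * (1 / N) + (α + 1) * e))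
        = 2 / t * (E1 ^ 2 * (1 / N)) * (1 + |u|) ^ 2 + 2 / t * (E1 * ((α + 1) * e)) * (1 + |u|) := by ring
      _ ≤ 2 / t * (E1 ^ 2 * (1 / N)) * (2 * (1 + u ^ 2)) + 2 / t * (E1 * ((α + 1) * e)) * (2 * (1 + u ^ 2)) :=
          add_le_add i1 i2
      _ = _ := by ring
  · rw [abs_mul]
    exact (mul_le_of_le_one_left (abs_nonneg _) (soft_abs ht _)).trans he

/-- one pattern against the radial term -/
theorem pat_rad (hK : KerProf) (hS : Sm f f1 f2 f3 B D) (hB : ∀ x, f x ≤ B) {α : ℝ} (hα : 0 ≤ α) {t : ℝ}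
    (ht : 0 < t) : ∃ K2 : ℝ, 0 ≤ K2 ∧
    ∀ {Ω : Type} [Fintype Ω] [Nonempty Ω] {R N M : ℕ}, 1 ≤ R → 0 < N → ((M + 1 : ℕ) : ℝ) / N ≤ α + 1 →
    ∀ {w₀ : List Ω → ℝ}, (∀ p, 0 < w₀ p) → ∀ {v : List Ω → Fin N → ℝ}, (∀ p, cv v p p = 1) → ∀ i : Fin (M + 1),
      |∫ g, ET R (lin R) (wV f w₀ v g) [(0, 0)] (fun ps =>
          zR f f1 f2 R w₀ v g i (ps.getD 0 []) * soft t (sR f f1 f2 R w₀ v g (ps.getD 0 []))) ∂pats N (M + 1)| ≤
        K2 * ((∫ g : Fin (M + 1) → Fin N → ℝ, adV f R w₀ v g ∂pats N (M + 1)) + 1 / N) := by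
  obtain ⟨L, hL, hlip⟩ := s_lip hS
  obtain ⟨C1, hC1, hstep⟩ := step_one hS hB
  have hD := hS.D_nonneg
  have hk := kap_pos B
  set E1 : ℝ := D + 3 * D ^ 2
  have hE1 : 0 ≤ E1 := by positivity
  set P1 : ℝ := C1 + L * kap B + 2 * kap B * (4 / t) * (E1 * ((α + 1) * (L * kap B))) with hP1
  set P2 : ℝ := 2 * kap B * (4 / t) * E1 ^ 2 with hP2
  have hP10 : 0 ≤ P1 := by positivity
  have hP20 : 0 ≤ P2 := by positivity
  refine ⟨2 * kap B * P1 + P2, by positivity, ?_⟩
  intro Ω _ _ R N M hR hN hMN w₀ hw₀ v hv i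
  have hN' : (0:ℝ) < N := by exact_mod_cast hN
  have hwp : ∀ {k} (g : Fin k → Fin N → ℝ) p, 0 < wV f w₀ v g p := fun g p => wV_pos hw₀ v g p
  set F : (Fin (M + 1) → Fin N → ℝ) → ℝ := fun g => ET R (lin R) (wV f w₀ v g) [(0, 0)] fun ps =>
    zR f f1 f2 R w₀ v g i (ps.getD 0 []) * soft t (sR f f1 f2 R w₀ v g (ps.getD 0 []))
  have hFc : Continuous F := Par.continuous_ET (fun p => continuous_wV hS w₀ v p) (fun g p => hwp g p) R _ fun ps =>
    (zR_props hK hS hR hw₀ hv i _).1.mul ((continuous_soft ht).comp (zR_props hK hS hR hw₀ hv i _).2.2)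
  have hiF : Integrable F (pats N (M + 1)) :=
    int_g hFc (C := 2 * D + 3 * D ^ 2) fun g => Vale.Agent.P168.MP.ET_bound (hwp g) fun ps => by
      rw [abs_mul]
      exact (mul_le_of_le_one_right (abs_nonneg _) (soft_abs ht _)).trans ((zR_props hK hS hR hw₀ hv i _).2.1 g)
  obtain ⟨hiφ, hia, -⟩ := int_dev (M := M + 1) hS hw₀ hv (R := R)
  set G : (Fin (M + 1) → Fin N → ℝ) → ℝ := fun g => 2 * kap B * P1 * adV f R w₀ v g + P2 * (1 / N)
  have hiG : Integrable G (pats N (M + 1)) := (hia.const_mul _).add (integrable_const _)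
  refine (one_out (G := G) i hiF hiG fun g' => ?_).trans ?_
  swap
  · simp only [G]
    rw [integral_add (hia.const_mul _) (integrable_const _), integral_const_mul, integral_const, probReal_univ,
      one_smul, mul_add]
    have h0 : 0 ≤ ∫ g : Fin (M + 1) → Fin N → ℝ, adV f R w₀ v g ∂pats N (M + 1) :=
      integral_nonneg fun g => Par.adev_nn (hwp g)
    have h1 : (0:ℝ) ≤ 1 / N := by positivity
    have h2 : 0 ≤ 2 * kap B * P1 := by positivity
    nlinarith [mul_nonneg h2 h1, mul_nonneg hP20 h0]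
  set w' := wV f w₀ v g'
  set q' := qker R w' (cv v)
  have hw' : ∀ p, 0 < w' p := hwp g'
  have hq' : Prof R q' 1 := (hK hR hw' hv).1
  set H' := s1 R (Gm f f1 R q') q'
  set φ' := phiV R w' v
  have hφ' : ∀ j, 0 ≤ φ' j := phiV_nonneg hw' v
  set A' := lvlAvg R φ'
  have hA' : 0 ≤ A' := Par.lvlAvg_nonneg hφ'
  set z : (Fin N → ℝ) → List Ω → ℝ := fun y p => f2 (dot (v p) y) - dot (v p) y * f1 (dot (v p) y)
  set S' : List Ω → ℝ := fun p => (∑ k, (z (g' k) p + H')) / N
  set Ψ : List Ω → ℝ := fun p => soft t (S' p)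
  have hwy : ∀ (y : Fin N → ℝ) p, 0 < w' p * fac f v y p := fun y p => mul_pos (hw' p) (exp_pos _)
  obtain ⟨m0, m0'⟩ := mom hS hB hR hw' hv Vale.Agent.P168.MP.valid_single (show [((0:ℕ), (0:ℕ))].length ≤ 3 by simp) 0
  have hm := hstep hR hw' hv hq' (Ψ := Ψ) fun p => soft_abs ht _
  set a1 : ℝ := 4 / t * (E1 ^ 2 * (1 / N) + E1 * ((α + 1) * (L * kap B * A')))
  have ha1 : 0 ≤ a1 := by positivity
  have hpt : ∀ y, |F (ins i y g') - ET R (lin R) (fun p => w' p * fac f v y p) [(0, 0)]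
      (fun ps => Ψ (ps.getD 0 []) * (z y (ps.getD 0 []) + H'))| ≤
      a1 * (ET R (lin R) (fun p => w' p * fac f v y p) [(0, 0)] fun ps => 1 + dot (v (ps.getD 0 [])) y ^ 2) +
        L * kap B * A' ∧ A' ≤ 2 * kap B * adV f R w₀ v (ins i y g') := fun y => by
    obtain ⟨k1, k2⟩ := qker_tilt hR hw' (B_nonneg hS hB) (fun p => fac_mem hS hB v y p) v
    have eQ : qV f R w₀ v (ins i y g') = qker R (fun p => w' p * fac f v y p) (cv v) := by
      simp only [qV, w', wV_ins]
    set H := s1 R (Gm f f1 R (qV f R w₀ v (ins i y g'))) (qV f R w₀ v (ins i y g')) with hH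
    have hq : Prof R (qV f R w₀ v (ins i y g')) 1 := (hK hR (hwp _) hv).1
    have hHd : |H - H'| ≤ L * kap B * A' := by
      have h := (hlip hR hq hq' (φ := fun j => kap B * φ' j) (fun j => mul_nonneg hk.le (hφ' j))
        fun j hj => by rw [eQ]; exact (k1 j hj).1).2
      rwa [lvlAvg_const_mul, ← mul_assoc] at h
    have hHb : |H| ≤ 3 * D ^ 2 := s1_bound hS hR hq
    refine ⟨?_, ?_⟩
    swap
    · simp only [A', φ', adV, qV, adev_phiV, wV_ins, w'] at *
      exact k2
    have eF : F (ins i y g') = ET R (lin R) (fun p => w' p * fac f v y p) [(0, 0)] fun ps =>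
        (z y (ps.getD 0 []) + H) * soft t ((z y (ps.getD 0 []) + H + ∑ k, (z (g' k) (ps.getD 0 []) + H)) / N) := by
      simp only [F, zR, sR, ← hH, Fin.sum_univ_succAbove _ i, w', wV_ins, z]
      simp only [ins, Fin.insertNth_apply_same, Fin.insertNth_apply_succAbove]
    rw [eF, ← Vale.Agent.P168.MP.ET_sub, ← Vale.Agent.P168.MP.ET_const_mul,
      ← Vale.Agent.P168.MP.ET_const (R := R) (m := lin R) (hwy y) [(0, 0)] (L * kap B * A'),
      ← Vale.Agent.P168.MP.ET_add]
    exact (Vale.Agent.P168.MP.ET_abs_le (hwy y) _ _).trans (Vale.Agent.P168.MP.ET_mono (hwy y) fun ps =>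
      rad_pt hS hα ht hN hMN g' v y (ps.getD 0 []) hHb hHd)
  set Mn : (Fin N → ℝ) → ℝ := fun y => ET R (lin R) (fun p => w' p * fac f v y p) [(0, 0)]
      fun ps => Ψ (ps.getD 0 []) * (z y (ps.getD 0 []) + H')
  have hyc : Continuous fun y => F (ins i y g') := hFc.comp (continuous_ins' i g')
  have hMc : Continuous Mn := Par.continuous_ET (fun p => (Par.continuous_fac hS.cont.1 v p).const_mul _) hwy R _
    fun ps => continuous_const.mul (((hS.cont.2.2.comp (Par.continuous_dot_left _)).sub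
      ((Par.continuous_dot_left _).mul (hS.cont.2.1.comp (Par.continuous_dot_left _)))).add continuous_const)
  have hiM : Integrable Mn (gauss (Fin N)) := by
    refine int_y hMc (C := 2 * D + 3 * D ^ 2) fun y => Vale.Agent.P168.MP.ET_bound (hwy y) fun ps => ?_
    rw [abs_mul]
    refine (mul_le_of_le_one_left (abs_nonneg _) (soft_abs ht _)).trans ((abs_add_le _ _).trans ?_)
    have h1 : |z y (ps.getD 0 [])| ≤ D + (1 + dot y y) * D := by
      refine (abs_sub _ _).trans (add_le_add (hS.b2 _) ?_)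
      rw [abs_mul]
      exact mul_le_mul (abs_dot_le_one hv _ y) (hS.b1 _) (abs_nonneg _) (by linarith [dot_self_nonneg y])
    have h2 := s1_bound hS hR hq'
    simp only [H']
    nlinarith [dot_self_nonneg y, mul_nonneg hD (dot_self_nonneg y), mul_nonneg (sq_nonneg D) (dot_self_nonneg y)]
  have hiB : Integrable (fun y => a1 * (ET R (lin R) (fun p => w' p * fac f v y p) [(0, 0)] fun ps =>
      1 + dot (v (ps.getD 0 [])) y ^ 2) + L * kap B * A') (gauss (Fin N)) :=
    (m0.const_mul _).add (integrable_const _)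
  have hiD := hiB.mono' (hyc.sub hMc).aestronglyMeasurable (Filter.Eventually.of_forall fun y => (hpt y).1)
  have hiFy : Integrable (fun y => F (ins i y g')) (gauss (Fin N)) :=
    (hiD.add hiM).congr (Filter.Eventually.of_forall fun y => sub_add_cancel _ _)
  have h2 : |∫ y, (F (ins i y g') - Mn y) ∂gauss (Fin N)| ≤ a1 * (2 * kap B) + L * kap B * A' := by
    refine abs_integral_le_integral_abs.trans ((integral_mono hiD.abs hiB fun y => (hpt y).1).trans ?_)
    rw [integral_add (m0.const_mul _) (integrable_const _), integral_const_mul, integral_const, probReal_univ, one_smul]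
    exact add_le_add (mul_le_mul_of_nonneg_left m0' ha1) le_rfl
  rw [integral_sub hiFy hiM] at h2
  have hm' : |∫ y, Mn y ∂gauss (Fin N)| ≤ C1 * A' := hm
  have hA : P1 * A' ≤ ∫ y, 2 * kap B * P1 * adV f R w₀ v (ins i y g') ∂gauss (Fin N) := by
    have hdl := int_ad_ins (f := f) hS hw₀ hv hR i g'
    have := integral_mono (μ := gauss (Fin N)) (integrable_const (P1 * A')) (hdl.const_mul (2 * kap B * P1))
      fun y => by
        have := mul_le_mul_of_nonneg_left (hpt y).2 hP10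
        linarith
    simpa using this
  have hdlG : ∫ y, G (ins i y g') ∂gauss (Fin N) =
      (∫ y, 2 * kap B * P1 * adV f R w₀ v (ins i y g') ∂gauss (Fin N)) + P2 * (1 / N) := by
    have hiA : Integrable (fun y => 2 * kap B * P1 * adV f R w₀ v (ins i y g')) (gauss (Fin N)) :=
      (int_ad_ins (f := f) hS hw₀ hv hR i g').const_mul _
    simp only [G]
    rw [integral_add hiA (integrable_const _), integral_const, probReal_univ, one_smul]
  rw [hdlG]
  have h3 := abs_sub_abs_le_abs_sub (∫ y, F (ins i y g') ∂gauss (Fin N)) (∫ y, Mn y ∂gauss (Fin N))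
  have e : a1 * (2 * kap B) + L * kap B * A' + C1 * A' = P1 * A' + P2 * (1 / N) := by
    simp only [a1, hP1, hP2]; ring
  linarith

end Vale.Agent.P157.Sph.Res

namespace Vale.Agent.P157.Sph

open Res

variable {f f1 f2 f3 : ℝ → ℝ} {B D : ℝ}

/-- **B3: the inverse relation between the overlaps and their field path** -/
theorem eResV (hK : KerProf) (hS : Sm f f1 f2 f3 B D) (hB : ∀ x, f x ≤ B) : EResV f f1 := by
  intro α hα t ht
  have hD := hS.D_nonneg
  have hk := kap_pos B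
  set Ke : ℝ := 1 + α * (6 * D ^ 2)
  obtain ⟨K1, hK10, hpat⟩ := pat_pair hK hS hB hα
  have hKe : 0 ≤ Ke := by positivity
  refine ⟨(Ke + 2 * (α + 1) * K1 + Ke * (6 * D ^ 2)) / (4 * t), by positivity, ?_⟩
  intro Ω _ _ R N M _ hR hM hMN w₀ hw₀ v hv
  obtain ⟨M', rfl⟩ : ∃ M', M = M' + 1 := ⟨M - 1, by omega⟩
  have hN : (0:ℝ) < N := by exact_mod_cast NeZero.pos N
  have hR' : (0:ℝ) < R := by exact_mod_cast hR
  have hwp : ∀ {k} (g : Fin k → Fin N → ℝ) p, 0 < wV f w₀ v g p := fun g p => wV_pos hw₀ v g p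
  have hQ : ∀ {k} (g : Fin k → Fin N → ℝ), Prof R (qV f R w₀ v g) 1 ∧ qV f R w₀ v g R = 1 := fun g =>
    hK hR (hwp g) hv
  set Q : (Fin (M' + 1) → Fin N → ℝ) → ℕ → ℝ := fun g => qV f R w₀ v g
  set E : (Fin (M' + 1) → Fin N → ℝ) → ℕ → ℝ := fun g l => eF α f f1 R (Q g) l
  set X : (Fin (M' + 1) → Fin N → ℝ) → ℕ → ℝ := fun g l => steinR f1 R (wV f w₀ v g) v g l
  set Y : ℕ → Fin (M' + 1) → (Fin (M' + 1) → Fin N → ℝ) → ℝ := fun l i g => yT f f1 R w₀ v l i g
  have hXY : ∀ g l, X g l = (∑ i, Y l i g) / N := fun g l => by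
    simp only [X, Y, yT, steinR, div_eq_mul_inv, Vale.Agent.P168.MP.ET_mul_const, Vale.Agent.P168.MP.ET_sum]
  have hqc : ∀ j, Continuous fun g => Q g j := fun j => continuous_qV hS hw₀ v j
  have hsc : ∀ l ≤ R, Continuous fun g => s0 R (Gm f f1 R (Q g)) (Q g) l :=
    (continuous_s hS hR (fun g => (hQ g).1) hqc).1
  have hEc : ∀ l ≤ R, Continuous fun g => E g l := fun l hl => (hqc l).sub ((hsc l hl).const_mul α)
  have hYc : ∀ l i, Continuous (Y l i) := fun l i => (yT_props hS hw₀ hv l i).1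
  have hYb : ∀ l i g, |Y l i g| ≤ 2 * D * (1 + gsq g) := fun l i g => (yT_props hS hw₀ hv l i).2 g
  have hQb : ∀ g {l}, l ≤ R → |Q g l| ≤ 1 := fun g {l} hl => by
    obtain ⟨a, b⟩ := (hQ g).1.upper hl
    rw [abs_of_nonneg a]; exact b
  have hSb : ∀ g {l}, l ≤ R → |s0 R (Gm f f1 R (Q g)) (Q g) l| ≤ 6 * D ^ 2 := fun g {l} hl =>
    s0_bound hS hR (hQ g).1 hl
  have hEb : ∀ g {l}, l ≤ R → |E g l| ≤ Ke := fun g {l} hl => eF_bound hS hR hα (hQ g).1 hl
  obtain ⟨hiφ, hia, haE⟩ := int_dev (M := M' + 1) hS hw₀ hv (R := R)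
  set dv : ℕ → ℝ := fun l => ∫ g : Fin (M' + 1) → Fin N → ℝ, phiV R (wV f w₀ v g) v l ∂pats N (M' + 1)
  set AD := ∫ g : Fin (M' + 1) → Fin N → ℝ, adV f R w₀ v g ∂pats N (M' + 1)
  set δ := ((M' + 1 : ℕ) : ℝ) / N - α
  have hXc : ∀ l, Continuous fun g => X g l := fun l => by
    simp only [hXY]; exact (continuous_finsetSum _ fun i _ => hYc l i).div_const _
  have hiY : ∀ l i, Integrable (Y l i) (pats N (M' + 1)) := fun l i => int_g (hYc l i) (hYb l i)
  have hiX : ∀ l, Integrable (fun g => X g l) (pats N (M' + 1)) := fun l => by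
    simp only [hXY]; exact (integrable_finsetSum _ fun i _ => hiY l i).div_const _
  have hiQX : ∀ l ≤ R, Integrable (fun g => |Q g l - X g l|) (pats N (M' + 1)) := fun l hl =>
    ((Integrable.of_bound (hqc l).aestronglyMeasurable 1
      (Filter.Eventually.of_forall fun g => hQb g hl)).sub (hiX l)).abs
  have hiE : ∀ l ≤ R, Integrable (fun g => |E g l|) (pats N (M' + 1)) := fun l hl =>
    Integrable.of_bound (hEc l hl).abs.aestronglyMeasurable Ke
      (Filter.Eventually.of_forall fun g => by rw [Real.norm_eq_abs, abs_abs]; exact hEb g hl)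
  -- one level
  have hlev : ∀ l < R, ∫ g, |E g l| ∂pats N (M' + 1) ≤ t + (Ke * (∫ g, |Q g l - X g l| ∂pats N (M' + 1)) +
      (α + 1) * (K1 * (dv l + AD)) + Ke * (6 * D ^ 2) * |δ|) / (4 * t) := by
    intro l hlt
    have hl := hlt.le
    have hiT : ∀ i, Integrable (fun g => E g l * (Y l i g - s0 R (Gm f f1 R (Q g)) (Q g) l)) (pats N (M' + 1)) :=
      fun i => ((hiY l i).sub (Integrable.of_bound (hsc l hl).aestronglyMeasurable (6 * D ^ 2)
        (Filter.Eventually.of_forall fun g => hSb g hl))).bdd_mul (hEc l hl).aestronglyMeasurable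
        (Filter.Eventually.of_forall fun g => hEb g hl)
    have hi1 : Integrable (fun g => (∑ i, E g l * (Y l i g - s0 R (Gm f f1 R (Q g)) (Q g) l)) / N) (pats N (M' + 1)) :=
      (integrable_finsetSum _ fun i _ => hiT i).div_const _
    have hpt : ∀ g, |E g l| ≤ t + (Ke * |Q g l - X g l| +
        (∑ i, E g l * (Y l i g - s0 R (Gm f f1 R (Q g)) (Q g) l)) / N + Ke * (6 * D ^ 2) * |δ|) / (4 * t) := fun g => by
      refine (Par.abs_le_sq ht).trans (add_le_add le_rfl (div_le_div_of_nonneg_right ?_ (by positivity)))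
      have e : E g l ^ 2 = E g l * (Q g l - X g l) +
          (∑ i, E g l * (Y l i g - s0 R (Gm f f1 R (Q g)) (Q g) l)) / N + δ * (E g l * s0 R (Gm f f1 R (Q g)) (Q g) l) := by
        rw [hXY, ← mul_sum, sum_sub_distrib, sum_const, card_univ, Fintype.card_fin, nsmul_eq_mul]
        simp only [E, eF, δ]
        field_simp
        ring
      rw [e]
      refine add_le_add (add_le_add ((le_abs_self _).trans ?_) le_rfl) ((le_abs_self _).trans ?_)
      · rw [abs_mul]; exact mul_le_mul_of_nonneg_right (hEb g hl) (abs_nonneg _)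
      · rw [abs_mul, abs_mul, mul_comm |δ|]
        exact mul_le_mul_of_nonneg_right (mul_le_mul (hEb g hl) (hSb g hl) (abs_nonneg _) hKe) (abs_nonneg _)
    have hi2 : Integrable (fun g => Ke * |Q g l - X g l| +
        (∑ i, E g l * (Y l i g - s0 R (Gm f f1 R (Q g)) (Q g) l)) / N) (pats N (M' + 1)) :=
      ((hiQX l hl).const_mul Ke).add hi1
    have hiP : Integrable (fun g => Ke * |Q g l - X g l| +
        (∑ i, E g l * (Y l i g - s0 R (Gm f f1 R (Q g)) (Q g) l)) / N + Ke * (6 * D ^ 2) * |δ|) (pats N (M' + 1)) :=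
      hi2.add (integrable_const _)
    refine (integral_mono (hiE l hl) ((integrable_const t).add (hiP.div_const (4 * t))) hpt).trans ?_
    simp only [Pi.add_apply]
    rw [integral_add (integrable_const t) (hiP.div_const _), integral_div,
      integral_add hi2 (integrable_const _),
      integral_add ((hiQX l hl).const_mul Ke) hi1, integral_const_mul, integral_div,
      integral_finsetSum _ fun i _ => hiT i]
    simp only [integral_const, probReal_univ, one_smul]
    refine add_le_add le_rfl (div_le_div_of_nonneg_right (add_le_add (add_le_add le_rfl ?_) le_rfl) (by positivity))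
    refine (div_le_div_of_nonneg_right (sum_le_sum fun i _ => (le_abs_self _).trans (hpat (N := N) hR hw₀ hv hl i)) hN.le).trans ?_
    rw [sum_const, card_univ, Fintype.card_fin, nsmul_eq_mul, mul_div_right_comm]
    refine mul_le_mul_of_nonneg_right ?_ (mul_nonneg hK10 (add_nonneg (integral_nonneg fun g => phiV_nonneg (hwp g) v l)
      (integral_nonneg fun g => Par.adev_nn (hwp g))))
    linarith [le_abs_self δ, hMN]
  -- the levels
  have eE : ∀ g, eRes α f f1 R (Q g) = (∑ l ∈ range R, |E g l|) / R := fun g => by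
    refine congrArg (· / (R:ℝ)) (sum_congr rfl fun l hl => congrArg _ ?_)
    rw [prod_s0 (mem_range.1 hl) (hQ g).2]
    simp only [E, eF]
    rw [← s0_const_mul]; rfl
  calc ∫ g, eRes α f f1 R (qV f R w₀ v g) ∂pats N (M' + 1)
      = (∑ l ∈ range R, ∫ g, |E g l| ∂pats N (M' + 1)) / R := by
        simp only [show ∀ g, eRes α f f1 R (qV f R w₀ v g) = (∑ l ∈ range R, |E g l|) / R from eE]
        rw [integral_div, integral_finsetSum _ fun l hl => hiE l (mem_range.1 hl).le]
    _ ≤ t + (Ke * ((∑ l ∈ range R, ∫ g, |Q g l - X g l| ∂pats N (M' + 1)) / R) +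
          (α + 1) * (K1 * (2 * AD)) + Ke * (6 * D ^ 2) * |δ|) / (4 * t) := by
        rw [div_le_iff₀ hR']
        refine (sum_le_sum fun l hl => hlev l (mem_range.1 hl)).trans ?_
        rw [sum_add_distrib, ← sum_div, sum_add_distrib, sum_add_distrib, ← mul_sum, ← mul_sum, ← mul_sum, sum_add_distrib]
        simp only [sum_const, card_range, nsmul_eq_mul]
        have hdvR : 0 ≤ dv R := integral_nonneg fun g => phiV_nonneg (hwp g) v R
        have hsum : ∑ l ∈ range R, dv l ≤ R * AD := by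
          have h : AD = (∑ l ∈ range R, dv l) / R + dv R := haE
          have h2 : (∑ l ∈ range R, dv l) / R ≤ AD := by linarith
          rw [div_le_iff₀ hR'] at h2; linarith
        set SI := ∑ l ∈ range R, ∫ g, |Q g l - X g l| ∂pats N (M' + 1)
        have e : (t + (Ke * (SI / R) + (α + 1) * (K1 * (2 * AD)) + Ke * (6 * D ^ 2) * |δ|) / (4 * t)) * R =
            R * t + (Ke * SI + (α + 1) * (K1 * (R * AD + R * AD)) + R * (Ke * (6 * D ^ 2) * |δ|)) / (4 * t) := by
          field_simp; ring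
        rw [e]
        gcongr
    _ ≤ _ := by
        have e : (∫ g, (∑ l ∈ range R, |qV f R w₀ v g l - steinR f1 R (wV f w₀ v g) v g l|) / R ∂pats N (M' + 1)) =
            (∑ l ∈ range R, ∫ g, |Q g l - X g l| ∂pats N (M' + 1)) / R := by
          rw [integral_div]
          exact congrArg (· / (R:ℝ)) (integral_finsetSum _ fun l hl => hiQX l (mem_range.1 hl).le)
        rw [e]
        set S := (∑ l ∈ range R, ∫ g, |Q g l - X g l| ∂pats N (M' + 1)) / R
        have hS0 : 0 ≤ S := div_nonneg (sum_nonneg fun l _ => integral_nonneg fun g => abs_nonneg _) hR'.le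
        have hA0 : 0 ≤ AD := integral_nonneg fun g => Par.adev_nn (hwp g)
        have hM0 : (0:ℝ) ≤ 1 / ((M' + 1 : ℕ) : ℝ) := by positivity
        have hd0 := abs_nonneg δ
        refine add_le_add le_rfl ?_
        rw [div_mul_eq_mul_div]
        refine div_le_div_of_nonneg_right ?_ (by positivity)
        have a1 : 0 ≤ Ke * (6 * D ^ 2) := by positivity
        have a2 : 0 ≤ 2 * (α + 1) * K1 := by positivity
        nlinarith [mul_nonneg hKe (add_nonneg (add_nonneg hA0 hd0) hM0), mul_nonneg a1 (add_nonneg (add_nonneg hA0 hS0) hM0),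
          mul_nonneg a2 (add_nonneg (add_nonneg hS0 hd0) hM0)]

/-- **B3: concentration of the radial term** -/
theorem radV (hK : KerProf) (hS : Sm f f1 f2 f3 B D) (hB : ∀ x, f x ≤ B) : RadV f f1 f2 := by
  intro α hα t ht
  obtain ⟨K2, hK2, hpat⟩ := pat_rad hK hS hB hα ht
  have hD := hS.D_nonneg
  refine ⟨(α + 1) ^ 2 * K2 + 3 * D ^ 2, by positivity, ?_⟩
  intro Ω _ _ R N M _ hR hM hMN w₀ hw₀ v hv
  obtain ⟨M', rfl⟩ : ∃ M', M = M' + 1 := ⟨M - 1, by omega⟩
  have hN : (0:ℝ) < N := by exact_mod_cast NeZero.pos N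
  have hMN' : ((M' + 1 : ℕ) : ℝ) / N ≤ α + 1 := by linarith [(abs_le.1 hMN).2]
  have hwp : ∀ (g : Fin (M' + 1) → Fin N → ℝ) p, 0 < wV f w₀ v g p := fun g p => wV_pos hw₀ v g p
  set δ := ((M' + 1 : ℕ) : ℝ) / N - α
  set T : Fin (M' + 1) → (Fin (M' + 1) → Fin N → ℝ) → ℝ := fun i g =>
    ET R (lin R) (wV f w₀ v g) [(0, 0)] fun ps =>
      zR f f1 f2 R w₀ v g i (ps.getD 0 []) * soft t (sR f f1 f2 R w₀ v g (ps.getD 0 []))
  have hTi : ∀ i, Integrable (T i) (pats N (M' + 1)) := fun i => by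
    refine int_g (Par.continuous_ET (fun p => continuous_wV hS w₀ v p) hwp R _ fun ps =>
      (zR_props hK hS hR hw₀ hv i _).1.mul ((continuous_soft ht).comp (zR_props hK hS hR hw₀ hv i _).2.2))
      (C := 2 * D + 3 * D ^ 2) fun g => Vale.Agent.P168.MP.ET_bound (hwp g) fun ps => ?_
    rw [abs_mul]
    exact (mul_le_of_le_one_right (abs_nonneg _) (soft_abs ht _)).trans ((zR_props hK hS hR hw₀ hv i _).2.1 g)
  set U : (Fin (M' + 1) → Fin N → ℝ) → ℝ := fun g => ET R (lin R) (wV f w₀ v g) [(0, 0)] fun ps =>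
    |radU f1 f2 v g (ps.getD 0 []) + hqTop R (hOf α f f1 R (qV f R w₀ v g)) (qV f R w₀ v g)|
  have hsum : Integrable (fun g => t + (∑ i, T i g) / N + 3 * D ^ 2 * |δ|) (pats N (M' + 1)) :=
    ((integrable_const t).add ((integrable_finsetSum _ fun i _ => hTi i).div_const _)).add (integrable_const _)
  have hpt : ∀ g, U g ≤ t + (∑ i, T i g) / N + 3 * D ^ 2 * |δ| := fun g => by
    have e : (∑ i, T i g) / N = ET R (lin R) (wV f w₀ v g) [(0, 0)] fun ps =>
        sR f f1 f2 R w₀ v g (ps.getD 0 []) * soft t (sR f f1 f2 R w₀ v g (ps.getD 0 [])) := by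
      simp only [T, ← Vale.Agent.P168.MP.ET_sum, div_eq_mul_inv, ← Vale.Agent.P168.MP.ET_mul_const]
      congr 1; funext ps
      simp only [sR, ← sum_mul, div_eq_mul_inv]
      ring
    rw [e]
    refine (Vale.Agent.P168.MP.ET_mono (hwp g) (G := fun ps => t + sR f f1 f2 R w₀ v g (ps.getD 0 []) *
      soft t (sR f f1 f2 R w₀ v g (ps.getD 0 [])) + 3 * D ^ 2 * |δ|) fun ps => ?_).trans_eq ?_
    swap
    · rw [Vale.Agent.P168.MP.ET_add, Vale.Agent.P168.MP.ET_add, Vale.Agent.P168.MP.ET_const (hwp g),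
        Vale.Agent.P168.MP.ET_const (hwp g)]
    set p := ps.getD 0 []
    set H0 := s1 R (Gm f f1 R (qV f R w₀ v g)) (qV f R w₀ v g)
    have e1 : radU f1 f2 v g p + hqTop R (hOf α f f1 R (qV f R w₀ v g)) (qV f R w₀ v g) =
        sR f f1 f2 R w₀ v g p + -δ * H0 := by
      rw [← s1_eq hR, show hOf α f f1 R (qV f R w₀ v g) = fun j => α * Gm f f1 R (qV f R w₀ v g) j from rfl,
        s1_const_mul]
      simp only [radU, sR, zR, H0, δ, sum_add_distrib, sum_const, card_univ, Fintype.card_fin, nsmul_eq_mul]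
      field_simp
      ring
    rw [e1]
    refine (abs_add_le _ _).trans (add_le_add (abs_le_soft ht _) ?_)
    rw [abs_mul, abs_neg, mul_comm]
    exact mul_le_mul_of_nonneg_right (s1_bound hS hR (hK hR (hwp g) hv).1) (abs_nonneg _)
  refine (integral_mono_of_nonneg (Filter.Eventually.of_forall fun g => Vale.Agent.P168.MP.ET_nonneg (hwp g)
    fun ps => abs_nonneg _) hsum (Filter.Eventually.of_forall hpt)).trans ?_
  have hs1 : Integrable (fun g => (∑ i, T i g) / (N:ℝ)) (pats N (M' + 1)) :=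
    (integrable_finsetSum _ fun i _ => hTi i).div_const _
  have hs2 : Integrable (fun g => t + (∑ i, T i g) / (N:ℝ)) (pats N (M' + 1)) := (integrable_const t).add hs1
  rw [integral_add hs2 (integrable_const _), integral_add (integrable_const t) hs1,
    integral_div, integral_finsetSum _ fun i _ => hTi i]
  simp only [integral_const, probReal_univ, one_smul]
  set AD := ∫ g : Fin (M' + 1) → Fin N → ℝ, adV f R w₀ v g ∂pats N (M' + 1)
  have hA0 : 0 ≤ AD := integral_nonneg fun g => Par.adev_nn (hwp g)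
  have h1 : (∑ i, ∫ g, T i g ∂pats N (M' + 1)) / N ≤ (α + 1) * (K2 * (AD + (α + 1) * (1 / ((M' + 1 : ℕ) : ℝ)))) := by
    refine (div_le_div_of_nonneg_right (sum_le_sum fun i _ => (le_abs_self _).trans
      (hpat hR (NeZero.pos N) hMN' hw₀ hv i)) hN.le).trans ?_
    rw [sum_const, card_univ, Fintype.card_fin, nsmul_eq_mul, mul_div_right_comm]
    refine mul_le_mul hMN' (mul_le_mul_of_nonneg_left (add_le_add le_rfl ?_) hK2) (by positivity) (by linarith)
    rw [mul_one_div, div_le_div_iff₀ hN (by positivity), one_mul]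
    rw [div_le_iff₀ hN] at hMN'
    exact hMN'
  have hM0 : (0:ℝ) ≤ 1 / ((M' + 1 : ℕ) : ℝ) := by positivity
  rw [add_assoc]
  refine add_le_add le_rfl ?_
  refine (add_le_add h1 le_rfl).trans ?_
  have a2 : 0 ≤ (α + 1) ^ 2 * K2 := by positivity
  have a3 : 0 ≤ 3 * D ^ 2 := by positivity
  have a4 : (α + 1) * K2 ≤ (α + 1) ^ 2 * K2 := mul_le_mul_of_nonneg_right (by nlinarith) hK2
  nlinarith [mul_le_mul_of_nonneg_right a4 hA0, mul_nonneg a2 (abs_nonneg δ), mul_nonneg a3 hA0, mul_nonneg a3 hM0]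


end Vale.Agent.P157.Sph
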