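import Vale.Agent.P157.Sph.Marg
import Vale.Agent.P157.RS.Sph.Law

/-! Stein's identity on the sphere for weights that are products of functions of linear forms, and its form for the
mean overlap of the system with atoms below the top level: the mean overlap is the pattern term up to the bits. -/

open MeasureTheory ProbabilityTheory Real Finset Filter
open scoped Topology
open Vale.Agent.P150 (gauss dot l1 l1_nonneg abs_dot_le abs_le_l1 gauss_ibp integrable_of_bound)
open Vale.Agent.P168.MP (lin ET Batch gain1 ok_lin logZ0)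
open Vale.Agent.P157.Lim (dirLaw radLaw nd xv sgn dirLaw_indep measurable_nd measurable_rad dot_xv)
open Vale.Agent.P157.Par (Sm cv pats)
open Vale.Agent.P157.RS.Sph (len len_pos len_le continuous_len sqrt_dot_le_l1 dot_self_nonneg dot_nd cauchy)

namespace Vale.Agent.P157.Sph

set_option linter.unusedSectionVars false

variable {N : ℕ}

/-! ### the sphere -/

/-- the regularised direction -/
noncomputable def crd (ε : ℝ) (z : Fin N → ℝ) : Fin N → ℝ := fun k => z k / len ε z

lemma abs_crd {ε : ℝ} (hε : 0 < ε) (z : Fin N → ℝ) (k : Fin N) : |crd ε z k| ≤ 1 := by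
  rw [crd, abs_div, abs_of_pos (len_pos hε z), div_le_one (len_pos hε z)]
  refine Real.abs_le_sqrt ?_
  have : z k * z k ≤ dot z z :=
    Finset.single_le_sum (f := fun i => z i * z i) (fun i _ => mul_self_nonneg _) (Finset.mem_univ k)
  rw [sq]
  linarith

lemma crd_mem {ε : ℝ} (hε : 0 < ε) (z : Fin N → ℝ) : crd ε z ∈ Metric.closedBall (0 : Fin N → ℝ) 1 := by
  rw [mem_closedBall_zero_iff, pi_norm_le_iff_of_nonneg zero_le_one]
  exact fun k => (Real.norm_eq_abs _).trans_le (abs_crd hε z k)

lemma continuous_crd {ε : ℝ} (hε : 0 < ε) : Continuous (crd ε : (Fin N → ℝ) → Fin N → ℝ) :=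
  continuous_pi fun k => (continuous_apply k).div (continuous_len ε) fun z => (len_pos hε z).ne'

lemma dot_crd (ε : ℝ) (v z : Fin N → ℝ) : dot v (crd ε z) = dot v z / len ε z := by
  simp only [dot, crd, Finset.sum_div, mul_div_assoc]

lemma tendsto_crd (z : Fin N → ℝ) : Tendsto (fun n : ℕ => crd (1 / ((n : ℝ) + 1)) z) atTop (𝓝 (nd z)) := by
  refine tendsto_pi_nhds.2 fun k => ?_
  rcases (dot_self_nonneg z).eq_or_lt with h0 | h0
  · have hz : z k = 0 := mul_self_eq_zero.1 ((Finset.sum_eq_zero_iff_of_nonneg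
      (fun i _ => mul_self_nonneg (z i))).1 h0.symm k (Finset.mem_univ k))
    simp [crd, nd, hz]
  · have hl : Tendsto (fun n : ℕ => len (1 / ((n : ℝ) + 1)) z) atTop (𝓝 (√(dot z z + 0))) :=
      ((Real.continuous_sqrt).tendsto _).comp (tendsto_const_nhds.add tendsto_one_div_add_atTop_nhds_zero_nat)
    rw [add_zero] at hl
    have := (tendsto_const_nhds (x := z k)).div hl (Real.sqrt_pos.2 h0).ne'
    rw [show nd z k = z k / √(dot z z) by simp [nd, div_eq_inv_mul]]
    exact this.congr fun n => rfl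

lemma continuous_dot_right (v : Fin N → ℝ) : Continuous fun x : Fin N → ℝ => dot v x := by
  unfold dot; fun_prop

/-- integration by parts on the sphere for a product of functions of linear forms -/
theorem ridge_stein (hN : 0 < N) {J : Type} [Fintype J] (v : J → Fin N → ℝ) {ψ ψ' : J → ℝ → ℝ}
    (hd : ∀ j t, HasDerivAt (ψ j) (ψ' j t) t) (hc : ∀ j, Continuous (ψ' j)) (e : Fin N → ℝ) :
    (N : ℝ) * ∫ x, dot e x * exp (∑ j, ψ j (dot (v j) x)) ∂dirLaw (Fin N) =
      ∫ x, exp (∑ j, ψ j (dot (v j) x)) *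
        (dot e x + ∑ j, ψ' j (dot (v j) x) * (dot (v j) e - dot (v j) x * dot e x)) ∂dirLaw (Fin N) := by
  set E : (Fin N → ℝ) → ℝ := fun y => exp (∑ j, ψ j (dot (v j) y)) with hE
  set H : (Fin N → ℝ) → ℝ := fun y => E y *
    (dot e y + ∑ j, ψ' j (dot (v j) y) * (dot (v j) e - dot (v j) y * dot e y)) with hH
  set L : Fin N → (Fin N → ℝ) → ℝ := fun k y => E y *
    (y k + ∑ j, ψ' j (dot (v j) y) * (v j k - dot (v j) y * y k)) with hL
  have hψ : ∀ j, Continuous (ψ j) := fun j => continuous_iff_continuousAt.2 fun t => (hd j t).continuousAt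
  have cE : Continuous E := continuous_exp.comp
    (continuous_finsetSum _ fun j _ => (hψ j).comp (continuous_dot_right _))
  have cH : Continuous H := cE.mul ((continuous_dot_right e).add (continuous_finsetSum _ fun j _ =>
    ((hc j).comp (continuous_dot_right _)).mul (continuous_const.sub
      ((continuous_dot_right _).mul (continuous_dot_right e)))))
  have cL : ∀ k, Continuous (L k) := fun k => cE.mul ((continuous_apply k).add
    (continuous_finsetSum _ fun j _ => ((hc j).comp (continuous_dot_right _)).mul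
      (continuous_const.sub ((continuous_dot_right _).mul (continuous_apply k)))))
  have cpt := isCompact_closedBall (0 : Fin N → ℝ) 1
  obtain ⟨CE, hCE⟩ := cpt.exists_bound_of_continuousOn cE.continuousOn
  obtain ⟨CH, hCH⟩ := cpt.exists_bound_of_continuousOn cH.continuousOn
  have hCE0 : 0 ≤ CE := (norm_nonneg _).trans (hCE 0 (Metric.mem_closedBall_self zero_le_one))
  -- regularised identity
  have reg : ∀ ε : ℝ, 0 < ε → ε ≤ 1 →
      ∫ z, dot e z * (len ε z * E (crd ε z)) ∂gauss (Fin N) = ∫ z, H (crd ε z) ∂gauss (Fin N) := by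
    intro ε hε hε1
    set φ := fun z => len ε z * E (crd ε z)
    have cφ : Continuous φ := (continuous_len ε).mul (cE.comp (continuous_crd hε))
    have hlen : ∀ z : Fin N → ℝ, len ε z ≤ exp (1 * l1 z) := fun z => by
      have := Real.add_one_le_exp (1 * l1 z)
      linarith [sqrt_dot_le_l1 z, Real.sqrt_le_one.2 hε1, len_le hε.le z]
    have hbk : ∀ k, ∃ C, 0 ≤ C ∧ (∀ z, |φ z| ≤ C * exp (1 * l1 z)) ∧
        ∀ z, |L k (crd ε z)| ≤ C * exp (1 * l1 z) := fun k => by
      obtain ⟨CL, hCL⟩ := cpt.exists_bound_of_continuousOn (cL k).continuousOn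
      refine ⟨CE + |CL|, by positivity, fun z => ?_, fun z => ?_⟩
      · rw [abs_mul, abs_of_pos (len_pos hε z), mul_comm]
        exact mul_le_mul ((hCE _ (crd_mem hε z)).trans (le_add_of_nonneg_right (abs_nonneg _))) (hlen z)
          (len_pos hε z).le (by positivity)
      · refine ((hCL _ (crd_mem hε z)).trans ((le_abs_self _).trans (le_add_of_nonneg_left hCE0))).trans ?_
        exact le_mul_of_one_le_right (by positivity) (one_le_exp (by linarith [l1_nonneg z]))
    have hder : ∀ (k : Fin N) (z : Fin N → ℝ) (t : ℝ),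
        HasDerivAt (fun s => φ (Function.update z k s)) (L k (crd ε (Function.update z k t))) t := fun k z t => by
      set w := Function.update z k t with hw
      have hu : ∀ i, HasDerivAt (fun s => Function.update z k s i) ((Pi.single k (1:ℝ) : Fin N → ℝ) i) t :=
        fun i => hasDerivAt_pi.1 (hasDerivAt_update z k t) i
      have d2 : HasDerivAt (fun s => dot (Function.update z k s) (Function.update z k s) + ε) (2 * w k) t := by
        refine ((HasDerivAt.fun_sum (u := Finset.univ) fun i _ => (hu i).mul (hu i)).add_const ε).congr_deriv ?_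
        refine (Finset.sum_congr rfl fun i _ => show _ = if i = k then 2 * w k else 0 from ?_).trans (by simp)
        rcases eq_or_ne i k with rfl | hik
        · simp [hw]; ring
        · simp [hik]
      have hp : dot w w + ε ≠ 0 := by linarith [dot_self_nonneg w]
      have hl := (len_pos hε w).ne'
      have d3 : HasDerivAt (fun s => len ε (Function.update z k s)) (w k / len ε w) t :=
        (d2.sqrt hp).congr_deriv (by rw [show √(dot w w + ε) = len ε w from rfl]; field_simp)
      have d4 : ∀ j, HasDerivAt (fun s => ψ j (dot (v j) (crd ε (Function.update z k s))))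
          (ψ' j (dot (v j) (crd ε w)) * ((v j k - dot (v j) (crd ε w) * crd ε w k) / len ε w)) t := fun j => by
        have d1 : HasDerivAt (fun s => dot (v j) (Function.update z k s)) (v j k) t := by
          refine (HasDerivAt.fun_sum (u := Finset.univ) fun i _ => (hu i).const_mul (v j i)).congr_deriv ?_
          simp [Pi.single_apply]
        have d5 : HasDerivAt (fun s => dot (v j) (crd ε (Function.update z k s)))
            ((v j k - dot (v j) (crd ε w) * crd ε w k) / len ε w) t := by
          simp only [dot_crd]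
          refine (d1.div d3 (len_pos hε w).ne').congr_deriv ?_
          show (v j k * len ε w - dot (v j) w * (w k / len ε w)) / len ε w ^ 2 = _
          simp only [crd]; field_simp
        exact ((hd j _).comp t d5).congr_deriv rfl
      have d6 : HasDerivAt (fun s => E (crd ε (Function.update z k s))) (E (crd ε w) *
          ∑ j, ψ' j (dot (v j) (crd ε w)) * ((v j k - dot (v j) (crd ε w) * crd ε w k) / len ε w)) t :=
        (HasDerivAt.fun_sum fun j _ => d4 j).exp
      refine (d3.mul d6).congr_deriv ?_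
      simp only [← hw, hL, mul_div_assoc', ← Finset.sum_div]
      simp only [crd]
      field_simp
    have hibp : ∀ k, ∫ z, z k * φ z ∂gauss (Fin N) = ∫ z, L k (crd ε z) ∂gauss (Fin N) := fun k => by
      obtain ⟨C, -, h1, h2⟩ := hbk k
      exact gauss_ibp k zero_le_one cφ ((cL k).comp (continuous_crd hε)) h1 h2 (hder k)
    have i1 : ∀ k, Integrable (fun z => z k * φ z) (gauss (Fin N)) := fun k => by
      obtain ⟨C, hC, h1, -⟩ := hbk k
      refine integrable_of_bound (C := C) (M := 2) ((continuous_apply k).mul cφ) fun z => ?_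
      rw [abs_mul, two_mul (l1 z), Real.exp_add, mul_left_comm]
      exact mul_le_mul (by linarith [abs_le_l1 z k, Real.add_one_le_exp (l1 z)])
        ((h1 z).trans (le_of_eq (by rw [one_mul]))) (abs_nonneg _) (exp_pos _).le
    have i2 : ∀ k, Integrable (fun z => L k (crd ε z)) (gauss (Fin N)) := fun k => by
      obtain ⟨C, -, -, h2⟩ := hbk k
      exact integrable_of_bound ((cL k).comp (continuous_crd hε)) h2
    calc ∫ z, dot e z * φ z ∂gauss (Fin N) = ∫ z, ∑ k, e k * (z k * φ z) ∂gauss (Fin N) := by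
          simp only [dot, Finset.sum_mul, mul_assoc]
      _ = ∫ z, ∑ k, e k * L k (crd ε z) ∂gauss (Fin N) := by
          rw [integral_finsetSum _ fun k _ => (i1 k).const_mul _, integral_finsetSum _ fun k _ => (i2 k).const_mul _]
          simp only [integral_const_mul, hibp]
      _ = _ := integral_congr_ae (Eventually.of_forall fun z => by
          set y := crd ε z
          have key : ∀ j, ∑ k, e k * (ψ' j (dot (v j) y) * (v j k - dot (v j) y * y k)) =
              ψ' j (dot (v j) y) * (dot (v j) e - dot (v j) y * dot e y) := fun j => by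
            simp only [dot, Finset.mul_sum, ← Finset.sum_sub_distrib]
            exact Finset.sum_congr rfl fun k _ => by ring
          show ∑ k, e k * L k y = H y
          simp only [hL, hH, mul_left_comm (e _) (E y), ← Finset.mul_sum]
          congr 1
          simp only [mul_add, Finset.sum_add_distrib, Finset.mul_sum]
          rw [Finset.sum_comm, Finset.sum_congr rfl fun j _ => key j]
          simp only [dot, mul_comm (e _)])
  -- remove the regularisation
  have hε0 : ∀ n : ℕ, (0 : ℝ) < 1 / ((n : ℝ) + 1) := fun n => by positivity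
  have hε1 : ∀ n : ℕ, 1 / ((n : ℝ) + 1) ≤ 1 := fun n =>
    div_le_one_of_le₀ (by linarith [Nat.cast_nonneg (α := ℝ) n]) (by positivity)
  have rhs : Tendsto (fun n : ℕ => ∫ z, H (crd (1 / ((n:ℝ) + 1)) z) ∂gauss (Fin N)) atTop
      (𝓝 (∫ x, H x ∂dirLaw (Fin N))) := by
    rw [dirLaw, integral_map measurable_nd.aemeasurable cH.aestronglyMeasurable]
    exact tendsto_integral_of_dominated_convergence (fun _ => CH)
      (fun n => (cH.comp (continuous_crd (hε0 n))).aestronglyMeasurable) (integrable_const _)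
      (fun n => Eventually.of_forall fun z => hCH _ (crd_mem (hε0 n) z))
      (Eventually.of_forall fun z => (cH.tendsto _).comp (tendsto_crd z))
  have lhs : Tendsto (fun n : ℕ => ∫ z, dot e z * (len (1 / ((n:ℝ) + 1)) z * E (crd (1 / ((n:ℝ) + 1)) z))
      ∂gauss (Fin N)) atTop (𝓝 (∫ z, dot z z * (dot e (nd z) * E (nd z)) ∂gauss (Fin N))) := by
    refine tendsto_integral_of_dominated_convergence (fun z => l1 e * CE * exp (2 * l1 z))
      (fun n => ((continuous_dot_right e).mul ((continuous_len _).mul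
        (cE.comp (continuous_crd (hε0 n))))).aestronglyMeasurable)
      ((Vale.Agent.P150.integrable_exp_l1 2).const_mul _)
      (fun n => Eventually.of_forall fun z => ?_) (Eventually.of_forall fun z => ?_)
    · have a : |dot e z| ≤ l1 e * exp (l1 z) :=
        (abs_dot_le (fun k => abs_le_l1 e k) z).trans
          (mul_le_mul_of_nonneg_left (by linarith [Real.add_one_le_exp (l1 z)]) (l1_nonneg e))
      have b : len (1 / ((n:ℝ) + 1)) z ≤ exp (l1 z) := by
        linarith [len_le (hε0 n).le z, sqrt_dot_le_l1 z, Real.add_one_le_exp (l1 z), Real.sqrt_le_one.2 (hε1 n)]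
      rw [Real.norm_eq_abs, abs_mul, abs_mul, abs_of_pos (len_pos (hε0 n) z), two_mul, Real.exp_add]
      calc |dot e z| * (len (1 / ((n:ℝ) + 1)) z * |E (crd (1 / ((n:ℝ) + 1)) z)|)
          ≤ l1 e * exp (l1 z) * (exp (l1 z) * CE) :=
            mul_le_mul a (mul_le_mul b (hCE _ (crd_mem (hε0 n) z)) (abs_nonneg _) (exp_pos _).le)
              (mul_nonneg (len_pos (hε0 n) z).le (abs_nonneg _)) (mul_nonneg (l1_nonneg e) (exp_pos _).le)
        _ = _ := by ring
    · have hl : Tendsto (fun n : ℕ => len (1 / ((n:ℝ) + 1)) z) atTop (𝓝 (√(dot z z + 0))) :=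
        ((Real.continuous_sqrt).tendsto _).comp (tendsto_const_nhds.add tendsto_one_div_add_atTop_nhds_zero_nat)
      rw [add_zero] at hl
      have h := (tendsto_const_nhds (x := dot e z)).mul (hl.mul ((cE.tendsto _).comp (tendsto_crd z)))
      refine (le_of_eq ?_).trans' h
      congr 1
      rw [← dot_nd e z]
      linear_combination dot e (nd z) * E (nd z) * Real.mul_self_sqrt (dot_self_nonneg z)
  have hind : ∫ z, dot z z * (dot e (nd z) * E (nd z)) ∂gauss (Fin N) =
      (N:ℝ) * ∫ x, dot e x * E x ∂dirLaw (Fin N) := by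
    have hm : Measurable fun z : Fin N → ℝ => (nd z, √(dot z z)) := measurable_nd.prodMk measurable_rad
    have hc' : Continuous fun p : (Fin N → ℝ) × ℝ => (dot e p.1 * E p.1) * p.2 ^ 2 :=
      (((continuous_dot_right e).comp continuous_fst).mul (cE.comp continuous_fst)).mul (continuous_snd.pow 2)
    calc ∫ z, dot z z * (dot e (nd z) * E (nd z)) ∂gauss (Fin N)
        = ∫ z, (dot e (nd z) * E (nd z)) * √(dot z z) ^ 2 ∂gauss (Fin N) :=
          integral_congr_ae (Eventually.of_forall fun z => by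
            dsimp only
            rw [Real.sq_sqrt (dot_self_nonneg z)]; ring)
      _ = ∫ p, (dot e p.1 * E p.1) * p.2 ^ 2 ∂(dirLaw (Fin N)).prod (radLaw (Fin N)) := by
          rw [← dirLaw_indep N hN, integral_map hm.aemeasurable hc'.aestronglyMeasurable]
      _ = (∫ x, dot e x * E x ∂dirLaw (Fin N)) * ∫ r, r ^ 2 ∂radLaw (Fin N) :=
          integral_prod_mul (fun x => dot e x * E x) fun r => r ^ 2
      _ = _ := by
          rw [mul_comm, radLaw, integral_map measurable_rad.aemeasurable (by fun_prop)]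
          congr 1
          simp only [fun z : Fin N → ℝ => Real.sq_sqrt (dot_self_nonneg z)]
          simp only [dot]
          have hz : Integrable (fun t : ℝ => t * t) (gaussianReal 0 1) :=
            ((memLp_id_gaussianReal 2).integrable_sq).congr (Eventually.of_forall fun t => by simp [sq])
          have hI : ∀ i : Fin N, Integrable (fun z : Fin N → ℝ => z i * z i) (gauss (Fin N)) := fun i =>
            integrable_comp_eval (μ := fun _ : Fin N => gaussianReal 0 1) (i := i) hz
          rw [integral_finsetSum _ fun i _ => hI i]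
          have h1 : ∀ i : Fin N, ∫ z, z i * z i ∂gauss (Fin N) = 1 := fun i => by
            rw [gauss, integral_comp_eval (μ := fun _ : Fin N => gaussianReal 0 1) (i := i)
              (f := fun t : ℝ => t * t) (by fun_prop)]
            have := variance_id_gaussianReal (μ := 0) (v := 1)
            rw [variance_eq_integral (by fun_prop)] at this
            simpa [sq] using this
          simp [h1]
  show (N:ℝ) * ∫ x, dot e x * E x ∂dirLaw (Fin N) = ∫ x, H x ∂dirLaw (Fin N)
  rw [← hind]
  exact tendsto_nhds_unique (lhs.congr fun n => reg _ (hε0 n) (hε1 n)) rhs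

/-! ### weighted means over a mesh -/

lemma abs_sub_le_of_log {x y τ : ℝ} (hx : 0 < x) (hy : 0 < y) (h : |log x - log y| ≤ τ) :
    |x - y| ≤ τ * (x + y) := by
  have hτ : 0 ≤ τ := (abs_nonneg _).trans h
  have key : ∀ {a b : ℝ}, 0 < a → 0 < b → log a - log b ≤ τ → a - b ≤ τ * a := fun {a b} ha hb hab => by
    have h1 := mul_le_mul_of_nonneg_left (Real.add_one_le_exp (log b - log a)) ha.le
    rw [exp_sub, exp_log hb, exp_log ha, mul_div_cancel₀ _ ha.ne'] at h1
    linarith [mul_le_mul_of_nonneg_left hab ha.le]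
  obtain ⟨h1, h2⟩ := abs_le.1 h
  rw [abs_le]
  constructor
  · linarith [key hy hx (by linarith), mul_nonneg hτ hx.le]
  · linarith [key hx hy h2, mul_nonneg hτ hy.le]

/-- a bound on a weighted mean over the sphere passes to a fine mesh -/
lemma mesh_ratio {A : Type} [Fintype A] [Nonempty A] [NeZero N] {η : ℝ} {wt : A → ℝ} {a : A → Fin N → ℝ}
    (hM : Mesh N η wt a) (hη : η ≤ 1) {H F : (Fin N → ℝ) → ℝ} (hH : Continuous H) (hH0 : ∀ z, 0 < H z)
    (hF : Continuous F) {κ τ b Δ : ℝ} (hκ : 0 ≤ κ) (hb0 : 0 ≤ b) (hΔ : 0 ≤ Δ)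
    (hI : |∫ z, H z * F z ∂dirLaw (Fin N)| ≤ κ * ∫ z, H z ∂dirLaw (Fin N))
    (hτ : ∀ z z' : Fin N → ℝ, (∀ k, |z k| ≤ 2) → (∀ k, |z' k| ≤ 2) → (∀ k, |z k - z' k| ≤ η) →
      |log (H z) - log (H z')| ≤ τ ∧ |F z| ≤ b ∧ |F z' - F z| ≤ Δ) :
    |(∑ s, wt s * (H (a s) * F (a s))) / ∑ s, wt s * H (a s)| ≤ κ + Δ + 4 * τ * (b + κ) := by
  obtain ⟨Y, hae, hi⟩ := hM.map_spec hη
  obtain ⟨iY, eY⟩ := hi H hH
  obtain ⟨iFY, eFY⟩ := hi (fun z => H z * F z) (hH.mul hF)
  have iH := integrable_dirLaw (N := N) hH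
  have iF : Integrable (fun z => H z * F z) (dirLaw (Fin N)) := integrable_dirLaw (hH.mul hF)
  set Z := ∫ z, H z ∂dirLaw (Fin N)
  have hZY : 0 < ∑ s, wt s * H (a s) := Finset.sum_pos (fun s _ => mul_pos (hM.pos s) (hH0 _)) univ_nonempty
  rw [abs_div, abs_of_pos hZY, div_le_iff₀ hZY, ← eY, ← eFY]
  set ZY := ∫ x, H (Y x) ∂dirLaw (Fin N)
  have hsum : 0 ≤ ZY + Z := add_nonneg (integral_nonneg fun x => (hH0 _).le) (integral_nonneg fun x => (hH0 _).le)
  have hτ0 : 0 ≤ τ := by
    obtain ⟨x, hx⟩ := hae.exists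
    exact (abs_nonneg _).trans (hτ x (Y x) hx.2.1 hx.2.2.1 hx.2.2.2).1
  have hb : ∀ᵐ x ∂dirLaw (Fin N), |H (Y x) - H x| ≤ τ * (H (Y x) + H x) ∧ |H (Y x) * F (Y x)| ≤ b * H (Y x) ∧
      |H (Y x) * F (Y x) - H x * F x| ≤ Δ * H (Y x) + b * τ * (H (Y x) + H x) := by
    filter_upwards [hae] with x hx
    obtain ⟨h1, h2, h3⟩ := hτ x (Y x) hx.2.1 hx.2.2.1 hx.2.2.2
    have h2' : |F (Y x)| ≤ b := (hτ (Y x) (Y x) hx.2.2.1 hx.2.2.1 fun k => by
      simpa using (abs_nonneg _).trans (hx.2.2.2 k)).2.1
    have e1 : |H (Y x) - H x| ≤ τ * (H (Y x) + H x) :=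
      abs_sub_le_of_log (hH0 _) (hH0 _) (by rw [abs_sub_comm]; exact h1)
    refine ⟨e1, by rw [abs_mul, abs_of_pos (hH0 _), mul_comm b]; exact mul_le_mul_of_nonneg_left h2' (hH0 _).le, ?_⟩
    rw [show H (Y x) * F (Y x) - H x * F x = H (Y x) * (F (Y x) - F x) + (H (Y x) - H x) * F x by ring]
    refine (abs_add_le _ _).trans ?_
    rw [abs_mul, abs_mul, abs_of_pos (hH0 _)]
    nlinarith [mul_le_mul_of_nonneg_left h3 (hH0 (Y x)).le,
      mul_le_mul e1 h2 (abs_nonneg _) (mul_nonneg hτ0 (add_pos (hH0 (Y x)) (hH0 x)).le)]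
  have c1 : |ZY - Z| ≤ τ * (ZY + Z) := by
    rw [← integral_sub iY iH, ← integral_add iY iH, ← integral_const_mul]
    exact (abs_integral_le_integral_abs).trans (integral_mono_ae (iY.sub iH).abs ((iY.add iH).const_mul τ)
      (hb.mono fun x hx => hx.1))
  have c2 : |(∫ x, H (Y x) * F (Y x) ∂dirLaw (Fin N)) - ∫ z, H z * F z ∂dirLaw (Fin N)| ≤
      Δ * ZY + b * τ * (ZY + Z) := by
    rw [← integral_sub iFY iF, ← integral_add iY iH, ← integral_const_mul, ← integral_const_mul,
      ← integral_add (iY.const_mul Δ) ((show Integrable (fun x => H (Y x) + H x) (dirLaw (Fin N)) from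
        iY.add iH).const_mul (b * τ))]
    exact (abs_integral_le_integral_abs).trans (integral_mono_ae (iFY.sub iF).abs
      ((iY.const_mul Δ).add ((iY.add iH).const_mul (b * τ))) (hb.mono fun x hx => hx.2.2))
  have c3 : |∫ x, H (Y x) * F (Y x) ∂dirLaw (Fin N)| ≤ b * ZY := by
    rw [← integral_const_mul]
    exact (abs_integral_le_integral_abs).trans (integral_mono_ae iFY.abs (iY.const_mul b)
      (hb.mono fun x hx => hx.2.1))
  have hZY' : 0 ≤ ZY := by rw [eY]; exact hZY.le
  rcases le_or_gt τ (1 / 2) with ht | ht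
  · obtain ⟨d1, -⟩ := abs_le.1 c1
    have h3 : Z ≤ 3 * ZY := by nlinarith [mul_le_mul_of_nonneg_right ht hsum]
    have := abs_sub_abs_le_abs_sub (∫ x, H (Y x) * F (Y x) ∂dirLaw (Fin N)) (∫ z, H z * F z ∂dirLaw (Fin N))
    nlinarith [mul_le_mul_of_nonneg_left h3 (mul_nonneg hτ0 (add_nonneg hb0 hκ)),
      mul_le_mul_of_nonneg_left (show Z ≤ ZY + τ * (ZY + Z) by linarith) hκ]
  · nlinarith [mul_le_mul_of_nonneg_right ht.le (mul_nonneg hb0 hZY'), mul_nonneg hκ hZY', mul_nonneg hΔ hZY',
      mul_nonneg (mul_nonneg hτ0 hκ) hZY']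

/-! ### the pattern term -/

variable {M : ℕ} {f f1 f2 f3 : ℝ → ℝ} {B D : ℝ}

/-- the kernel of Stein's identity at the point `x` against the vector `e` -/
noncomputable def brk (f1 : ℝ → ℝ) (g : Fin M → Fin N → ℝ) (e x : Fin N → ℝ) : ℝ :=
  dot x e - (∑ i, f1 (dot x (g i)) * (dot e (g i) - dot x e * dot x (g i))) / N

/-- the total absolute mass of the patterns -/
def gS (g : Fin M → Fin N → ℝ) : ℝ := ∑ i, l1 (g i)

lemma gS_nonneg (g : Fin M → Fin N → ℝ) : 0 ≤ gS g := Finset.sum_nonneg fun _ _ => l1_nonneg _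

lemma dotC (x y : Fin N → ℝ) : dot x y = dot y x := Finset.sum_congr rfl fun _ _ => mul_comm _ _

lemma dot_diff_le {η : ℝ} {z z' : Fin N → ℝ} (h : ∀ k, |z k - z' k| ≤ η) (g : Fin N → ℝ) :
    |dot z g - dot z' g| ≤ η * l1 g := by
  rw [show dot z g - dot z' g = dot (fun k => z k - z' k) g by
    simp only [dot, ← Finset.sum_sub_distrib]; exact Finset.sum_congr rfl fun k _ => by ring]
  exact abs_dot_le h g

lemma lip_of_deriv {φ φ' : ℝ → ℝ} (hd : ∀ t, HasDerivAt φ (φ' t) t) {C : ℝ} (hb : ∀ t, |φ' t| ≤ C) (x y : ℝ) :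
    |φ x - φ y| ≤ C * |x - y| := by
  simpa [Real.norm_eq_abs] using Convex.norm_image_sub_le_of_norm_hasDerivWithin_le
    (fun t _ => (hd t).hasDerivWithinAt) (fun t _ => (Real.norm_eq_abs _).trans_le (hb t)) convex_univ
    (Set.mem_univ y) (Set.mem_univ x)

lemma log_hamS_lip {Λ : Type} (hS : Sm f f1 f2 f3 B D) (g : Fin M → Fin N → ℝ) (x : List Λ) {η : ℝ}
    {z z' : Fin N → ℝ} (h : ∀ k, |z k - z' k| ≤ η) :
    |log (hamS f g z x) - log (hamS f g z' x)| ≤ D * η * gS g := by
  have hD : 0 ≤ D := (abs_nonneg _).trans (hS.b1 0)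
  simp only [hamS, log_exp, ← Finset.sum_sub_distrib, gS, Finset.mul_sum]
  refine (Finset.abs_sum_le_sum_abs _ _).trans (Finset.sum_le_sum fun i _ => (lip_of_deriv hS.d0 hS.b1 _ _).trans ?_)
  rw [mul_assoc]
  exact mul_le_mul_of_nonneg_left (dot_diff_le h _) hD

lemma brk_bounds [NeZero N] (hS : Sm f f1 f2 f3 B D) (g : Fin M → Fin N → ℝ) {e : Fin N → ℝ} (he : dot e e = 1)
    {η : ℝ} {z z' : Fin N → ℝ} (hz : ∀ k, |z k| ≤ 2) (hz' : ∀ k, |z' k| ≤ 2) (h : ∀ k, |z k - z' k| ≤ η) :
    |brk f1 g e z| ≤ 2 * N + 5 * D * gS g ∧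
      |brk f1 g e z' - brk f1 g e z| ≤ η * (N + 5 * D * gS g ^ 2 + 4 * D * gS g) := by
  have hD : 0 ≤ D := (abs_nonneg _).trans (hS.b1 0)
  have hN : (1 : ℝ) ≤ N := Nat.one_le_cast.2 (NeZero.pos N)
  have hη : 0 ≤ η := (abs_nonneg _).trans (h ⟨0, NeZero.pos N⟩)
  have hle : l1 e ≤ N := by
    refine (Finset.sum_le_sum fun k _ => mem_cube he k).trans_eq ?_
    simp
  have hp : ∀ w : Fin N → ℝ, (∀ k, |w k| ≤ 2) → |dot w e| ≤ 2 * N := fun w hw =>
    (abs_dot_le hw e).trans (mul_le_mul_of_nonneg_left hle zero_le_two)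
  have hu : ∀ (w : Fin N → ℝ) (i : Fin M), (∀ k, |w k| ≤ 2) → |dot w (g i)| ≤ 2 * l1 (g i) :=
    fun w i hw => abs_dot_le hw _
  have hw1 : ∀ i, |dot e (g i)| ≤ l1 (g i) := fun i => by simpa using abs_dot_le (mem_cube he) (g i)
  have hpd : |dot z' e - dot z e| ≤ η * N := by
    rw [abs_sub_comm]; exact (dot_diff_le h e).trans (mul_le_mul_of_nonneg_left hle hη)
  have hud : ∀ i, |dot z' (g i) - dot z (g i)| ≤ η * l1 (g i) := fun i => by
    rw [abs_sub_comm]; exact dot_diff_le h _
  have hin : ∀ i, |dot e (g i) - dot z e * dot z (g i)| ≤ 5 * N * l1 (g i) := fun i => by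
    refine (abs_sub _ _).trans ?_
    rw [abs_mul]
    nlinarith [hw1 i, l1_nonneg (g i), mul_le_mul (hp z hz) (hu z i hz) (abs_nonneg _) (by positivity)]
  constructor
  · refine (abs_sub _ _).trans (add_le_add (hp z hz) ?_)
    rw [abs_div, Nat.abs_cast, div_le_iff₀ (by linarith), gS, Finset.mul_sum, Finset.sum_mul]
    refine (Finset.abs_sum_le_sum_abs _ _).trans (Finset.sum_le_sum fun i _ => ?_)
    rw [abs_mul]
    exact (mul_le_mul (hS.b1 _) (hin i) (abs_nonneg _) hD).trans_eq (by ring)
  · rw [brk, brk, sub_sub_sub_comm, ← sub_div, ← Finset.sum_sub_distrib]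
    refine (abs_sub _ _).trans ?_
    have e1 : |(∑ i, (f1 (dot z' (g i)) * (dot e (g i) - dot z' e * dot z' (g i)) -
        f1 (dot z (g i)) * (dot e (g i) - dot z e * dot z (g i)))) / (N : ℝ)| ≤
        η * (5 * D * gS g ^ 2 + 4 * D * gS g) := by
      rw [abs_div, Nat.abs_cast, div_le_iff₀ (by linarith)]
      refine (Finset.abs_sum_le_sum_abs _ _).trans ((Finset.sum_le_sum fun i _ => ?_).trans_eq
        (show ∑ i, (η * N * (5 * D * gS g + 4 * D)) * l1 (g i) = _ by rw [← Finset.mul_sum]; rw [gS]; ring))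
      set F := f1 (dot z (g i))
      set F' := f1 (dot z' (g i))
      rw [show F' * (dot e (g i) - dot z' e * dot z' (g i)) - F * (dot e (g i) - dot z e * dot z (g i)) =
        (F' - F) * (dot e (g i) - dot z e * dot z (g i)) -
          F' * ((dot z' e - dot z e) * dot z' (g i) + dot z e * (dot z' (g i) - dot z (g i))) by ring]
      refine (abs_sub _ _).trans ?_
      rw [abs_mul, abs_mul]
      have a1 : |F' - F| ≤ D * (η * l1 (g i)) :=
        (lip_of_deriv hS.d1 hS.b2 _ _).trans (mul_le_mul_of_nonneg_left (hud i) hD)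
      have a2 : |(dot z' e - dot z e) * dot z' (g i) + dot z e * (dot z' (g i) - dot z (g i))| ≤
          4 * η * N * l1 (g i) := by
        refine (abs_add_le _ _).trans ?_
        rw [abs_mul, abs_mul]
        nlinarith [mul_le_mul hpd (hu z' i hz') (abs_nonneg _) (by positivity),
          mul_le_mul (hp z hz) (hud i) (abs_nonneg _) (by positivity)]
      have b1 := mul_le_mul a1 (hin i) (abs_nonneg _) (by have := l1_nonneg (g i); positivity)
      have b2 := mul_le_mul (hS.b1 (dot z' (g i))) a2 (abs_nonneg _) hD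
      have hle' : l1 (g i) ≤ gS g :=
        Finset.single_le_sum (f := fun i => l1 (g i)) (fun _ _ => l1_nonneg _) (Finset.mem_univ i)
      have := mul_le_mul_of_nonneg_left hle' (show 0 ≤ 5 * D * η * N * l1 (g i) by
        have := l1_nonneg (g i); positivity)
      nlinarith
    linarith [e1, hpd]

/-- Stein's identity on the sphere at a weight of patterns and bits -/
lemma sphere_brk [NeZero N] {K : ℕ} {Λ : Type} (hS : Sm f f1 f2 f3 B D) (g : Fin M → Fin N → ℝ) {c : ℝ}
    (hc : 0 ≤ c) (r : Fin K → Fin N → Bool) (b : Fin K → Bool) (x : List Λ) {e : Fin N → ℝ} (he : dot e e = 1) :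
    |∫ z, hamS f g z x * bitW c r b z * brk f1 g e z ∂dirLaw (Fin N)| ≤
      (1 + 4 * K * c * √(N : ℝ)) / N * ∫ z, hamS f g z x * bitW c r b z ∂dirLaw (Fin N) := by
  have hN : (0 : ℝ) < N := Nat.cast_pos.2 (NeZero.pos N)
  set a := c * √(N : ℝ) with ha
  set ψ : Fin M ⊕ Fin K → ℝ → ℝ := Sum.elim (fun _ => f) (fun k y => log (1 + sgn (b k) * tanh (a * y)))
  set ψ' : Fin M ⊕ Fin K → ℝ → ℝ := Sum.elim (fun _ => f1) (fun k y => (sgn (b k) - tanh (a * y)) * a)
  set v : Fin M ⊕ Fin K → Fin N → ℝ := Sum.elim g fun k => xv N (r k)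
  set H := fun z => hamS f g z x * bitW c r b z with hH
  have hf : Continuous f := continuous_iff_continuousAt.2 fun t => (hS.d0 t).continuousAt
  have hf1 : Continuous f1 := continuous_iff_continuousAt.2 fun t => (hS.d1 t).continuousAt
  have hE : ∀ z, exp (∑ j, ψ j (dot (v j) z)) = H z := fun z => by
    rw [Fintype.sum_sum_type, exp_add, exp_sum univ fun k => ψ (Sum.inr k) (dot (v (Sum.inr k)) z)]
    simp only [ψ, v, hH, Sum.elim_inl, Sum.elim_inr, hamS, bitW, dotC (g _), exp_log (one_add_tanh_pos _ _), ha]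
  have hd : ∀ j t, HasDerivAt (ψ j) (ψ' j t) t := fun j t => by
    rcases j with i | k
    · exact hS.d0 t
    · exact ((hasDerivAt_log_tanhW (b k) (a * t)).comp t ((hasDerivAt_id t).const_mul a)).congr_deriv (by simp [ψ'])
  have hc' : ∀ j, Continuous (ψ' j) := fun j => by
    rcases j with i | k
    · exact hf1
    · exact (continuous_const.sub (Vale.Agent.P168.continuous_tanh'.comp (continuous_const.mul continuous_id))).mul
        continuous_const
  have key := ridge_stein (NeZero.pos N) v hd hc' e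
  simp only [hE] at key
  set T := fun z => dot e z + ∑ k, ψ' (Sum.inr k) (dot (xv N (r k)) z) *
    (dot (xv N (r k)) e - dot (xv N (r k)) z * dot e z) with hT
  have cH : Continuous H := by
    have : H = fun z => exp (∑ j, ψ j (dot (v j) z)) := funext fun z => (hE z).symm
    rw [this]
    exact continuous_exp.comp (continuous_finsetSum _ fun j _ =>
      (continuous_iff_continuousAt.2 fun t => (hd j t).continuousAt).comp (continuous_dot_right _))
  have cB : Continuous (brk f1 g e) := by unfold brk dot; fun_prop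
  have cT : Continuous T := (continuous_dot_right e).add (continuous_finsetSum _ fun k _ =>
    ((hc' (Sum.inr k)).comp (continuous_dot_right _)).mul (continuous_const.sub
      ((continuous_dot_right _).mul (continuous_dot_right e))))
  have e2 : ∀ z, H z * brk f1 g e z = dot e z * H z - (H z * (dot e z + ∑ j, ψ' j (dot (v j) z) *
      (dot (v j) e - dot (v j) z * dot e z)) - H z * T z) / N := fun z => by
    have hs : ∑ i, ψ' (Sum.inl i) (dot (v (Sum.inl i)) z) * (dot (v (Sum.inl i)) e - dot (v (Sum.inl i)) z * dot e z) =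
        ∑ i, f1 (dot z (g i)) * (dot e (g i) - dot z e * dot z (g i)) := Finset.sum_congr rfl fun i _ => by
      simp only [ψ', v, Sum.elim_inl, dotC (g i), dotC e z]
      ring
    rw [Fintype.sum_sum_type, hs, brk]
    simp only [hT]
    rw [dotC e z]
    simp only [v, Sum.elim_inr]
    ring
  have iHF : Integrable (fun z => dot e z * H z) (dirLaw (Fin N)) := integrable_dirLaw ((continuous_dot_right e).mul cH)
  have iHB : Integrable (fun z => H z * brk f1 g e z) (dirLaw (Fin N)) := integrable_dirLaw (cH.mul cB)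
  have iHT : Integrable (fun z => H z * T z) (dirLaw (Fin N)) := integrable_dirLaw (cH.mul cT)
  have iHR : Integrable (fun z => H z * (dot e z + ∑ j, ψ' j (dot (v j) z) *
      (dot (v j) e - dot (v j) z * dot e z))) (dirLaw (Fin N)) :=
    integrable_dirLaw (cH.mul ((continuous_dot_right e).add (continuous_finsetSum _ fun j _ =>
      ((hc' j).comp (continuous_dot_right _)).mul (continuous_const.sub
        ((continuous_dot_right _).mul (continuous_dot_right e))))))
  have main : ∫ z, H z * brk f1 g e z ∂dirLaw (Fin N) = (∫ z, H z * T z ∂dirLaw (Fin N)) / N := by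
    simp only [e2]
    have iD : Integrable (fun z => (H z * (dot e z + ∑ j, ψ' j (dot (v j) z) *
        (dot (v j) e - dot (v j) z * dot e z)) - H z * T z) / (N : ℝ)) (dirLaw (Fin N)) := (iHR.sub iHT).div_const _
    rw [integral_sub iHF iD, integral_div, integral_sub iHR iHT, ← key]
    field_simp
    ring
  rw [main, abs_div, Nat.abs_cast, div_mul_eq_mul_div]
  refine div_le_div_of_nonneg_right ?_ hN.le
  rw [← integral_const_mul]
  refine (abs_integral_le_integral_abs).trans (integral_mono_ae iHT.abs ((integrable_dirLaw cH).const_mul _) ?_)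
  filter_upwards [Vale.Agent.P157.Lim.dirLaw_unit] with z hz
  have hxv : ∀ k, dot (xv N (r k)) (xv N (r k)) = 1 := fun k => dot_xv (NeZero.pos N) _
  have cs : ∀ p q : Fin N → ℝ, dot p p = 1 → dot q q = 1 → |dot p q| ≤ 1 := fun p q hp hq => by
    have := cauchy p q
    rwa [hp, hq, Real.sqrt_one, one_mul] at this
  rw [abs_mul, abs_of_pos (mul_pos (hamS_pos g z x) (bitW_pos c r b z)), mul_comm]
  refine mul_le_mul_of_nonneg_right ?_ (mul_pos (hamS_pos g z x) (bitW_pos c r b z)).le
  refine (abs_add_le _ _).trans (add_le_add (cs _ _ he hz) ((Finset.abs_sum_le_sum_abs _ _).trans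
    ((Finset.sum_le_sum fun k _ => ?_).trans_eq (show ∑ _k : Fin K, 4 * a = 4 * K * c * √(N : ℝ) by
      simp [ha]; ring))))
  have ha0 : 0 ≤ a := mul_nonneg hc (sqrt_nonneg _)
  have h1 : |dot (xv N (r k)) e - dot (xv N (r k)) z * dot e z| ≤ 2 := by
    refine (abs_sub _ _).trans ?_
    rw [abs_mul]
    linarith [cs _ _ (hxv k) he, mul_le_one₀ (cs _ _ (hxv k) hz) (abs_nonneg _) (cs _ _ he hz)]
  simp only [ψ', Sum.elim_inr]
  rw [abs_mul, abs_mul, abs_of_nonneg ha0]
  exact (mul_le_mul (mul_le_mul_of_nonneg_right (abs_tanhW_deriv _ _) ha0) h1 (abs_nonneg _)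
    (by positivity)).trans_eq (by ring)

/-! ### the atoms -/

lemma atomMean_abs_le {B A : Type} [Fintype A] [Nonempty A] {u : List B → A → ℝ} (hu : ∀ q s, 0 < u q s)
    {φ : A → ℝ} {b : ℝ} (h : ∀ s, |φ s| ≤ b) (q : List B) : |atomMean u φ q| ≤ b := by
  have hp : 0 < ∑ s, u q s := Finset.sum_pos (fun s _ => hu q s) univ_nonempty
  rw [atomMean, abs_div, abs_of_pos hp, div_le_iff₀ hp, Finset.mul_sum]
  refine (Finset.abs_sum_le_sum_abs _ _).trans (Finset.sum_le_sum fun s _ => ?_)
  rw [abs_mul, abs_of_pos (hu q s), mul_comm b]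
  exact mul_le_mul_of_nonneg_left (h s) (hu q s).le

lemma atomMean_comm {B A : Type} [Fintype A] (u : List B → A → ℝ) (φ : A → A → ℝ) (q q' : List B) :
    atomMean u (fun s => atomMean u (φ s) q') q = atomMean u (fun s' => atomMean u (fun s => φ s s') q) q' := by
  simp only [atomMean, mul_div_assoc', ← Finset.sum_div, Finset.mul_sum]
  rw [Finset.sum_comm, div_div, div_div, mul_comm (∑ s, u q' s)]
  congr 1
  exact Finset.sum_congr rfl fun s _ => Finset.sum_congr rfl fun s' _ => by ring

lemma atomMean_uA {K S : ℕ} [NeZero N] [NeZero K] {A Λ : Type} [Fintype A] [Nonempty A] {ι : Type} [Fintype ι]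
    {β : ι → Batch} (R : ℕ) (G : (Fin N → ℝ) → List Λ → ℝ) (c : ℝ) (r : Fin K → Fin N → Bool) (wt : A → ℝ)
    (a : A → Fin N → ℝ) (h u : ι → ℝ) (φ : A → ℝ) (q : List (Mk0 Λ K S β)) :
    atomMean (uA R G c r wt a h u) φ q =
      (∑ s, wt s * (G (a s) ((q.map Prod.fst).map Prod.snd) * bitW c r (bat R (q.map Prod.fst)) (a s) * φ s)) /
        ∑ s, wt s * (G (a s) ((q.map Prod.fst).map Prod.snd) * bitW c r (bat R (q.map Prod.fst)) (a s)) := by
  have hA : (0 : ℝ) < Fintype.card A := Nat.cast_pos.2 Fintype.card_pos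
  set X := exp (∑ i : ι × Fin S, gain1 R h u (q.map (Full.plain fun o => o.1)) i) with hX
  have hC : (Fintype.card A : ℝ) * X ≠ 0 := (mul_pos hA (exp_pos _)).ne'
  rw [← mul_div_mul_left _ _ hC, Finset.mul_sum, Finset.mul_sum, atomMean]
  congr 1 <;> exact Finset.sum_congr rfl fun s _ => by simp only [uA, ← hX]; ring

lemma integrable_gS (N M : ℕ) :
    Integrable gS (pats N M) ∧ Integrable (fun g => gS g ^ 2) (pats N M) := by
  have he : Integrable (fun g : Fin M → Fin N → ℝ => exp (gS g)) (pats N M) := by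
    simp only [gS, Real.exp_sum]
    unfold Vale.Agent.P157.Par.pats
    refine Integrable.fintype_prod (f := fun _ (z : Fin N → ℝ) => exp (l1 z)) fun _ => ?_
    simpa using Vale.Agent.P150.integrable_exp_l1 (ι := Fin N) 1
  have hc : Continuous (gS : (Fin M → Fin N → ℝ) → ℝ) := by unfold gS l1; fun_prop
  refine ⟨he.mono' hc.aestronglyMeasurable (Eventually.of_forall fun g => ?_),
    (he.const_mul 2).mono' (hc.pow 2).aestronglyMeasurable (Eventually.of_forall fun g => ?_)⟩
  · rw [Real.norm_eq_abs, abs_of_nonneg (gS_nonneg g)]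
    linarith [Real.add_one_le_exp (gS g)]
  · rw [Real.norm_eq_abs, abs_of_nonneg (sq_nonneg _)]
    linarith [Real.quadratic_le_exp_of_nonneg (gS_nonneg g), gS_nonneg g]

/-- B2: a fine mesh changes nothing -/
theorem meshV (hS : Sm f f1 f2 f3 B D) (_hB : ∀ x, f x ≤ B) : MeshV f := by
  intro N K R S M _ _ ι _ _ β c r h u hR ε hε
  obtain ⟨hg, -⟩ := integrable_gS N M
  have hD : 0 ≤ D := (abs_nonneg _).trans (hS.b1 0)
  have hf : Continuous f := continuous_iff_continuousAt.2 fun t => (hS.d0 t).continuousAt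
  set P := fun g : Fin M → Fin N → ℝ => D * gS g + 2 * K * |c| * N
  have hP : Integrable P (pats N M) := (hg.const_mul D).add (integrable_const _)
  have hP0 : 0 ≤ ∫ g, P g ∂pats N M := integral_nonneg fun g => by
    have := gS_nonneg g; positivity
  set η := min 1 (ε / ((∫ g, P g ∂pats N M) + 1))
  refine ⟨η, lt_min one_pos (by positivity), fun A _ _ wt a hM => ?_⟩
  have hle : ∀ g, |logZ0 R (lin R) (sysA (S := S) (β := β) (Λ := Unit) R (hamS f g) c r wt a h u) -
      logZ0 R (lin R) (sys0 (S := S) (β := β) (Λ := Unit) R (hamS f g) c r h u)| ≤ η * P g := fun g => by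
    refine (mesh_logZ hM (min_le_left _ _) hR (fun z x => hamS_pos g z x)
      (fun x => by unfold hamS dot; fun_prop) (τ := D * η * gS g) fun x z z' _ _ h3 => log_hamS_lip hS g x h3).trans
      (le_of_eq ?_)
    simp only [P]; ring
  refine (integral_mono_of_nonneg (Eventually.of_forall fun g => abs_nonneg _) (hP.const_mul η)
    (Eventually.of_forall hle)).trans ?_
  rw [integral_const_mul]
  calc η * ∫ g, P g ∂pats N M ≤ ε / ((∫ g, P g ∂pats N M) + 1) * ((∫ g, P g ∂pats N M) + 1) :=
        mul_le_mul (min_le_right _ _) (le_add_of_nonneg_right zero_le_one) hP0 (by positivity)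
    _ = ε := div_mul_cancel₀ _ (by positivity)

/-- B2: Stein's identity on the sphere -/
theorem steinV (hS : Sm f f1 f2 f3 B D) (_hB : ∀ x, f x ≤ B) : SteinV f f1 := by
  intro N K R S M _ _ ι _ _ β c r h u hc hR ε hε
  obtain ⟨hg, hg2⟩ := integrable_gS N M
  have hD : 0 ≤ D := (abs_nonneg _).trans (hS.b1 0)
  have hN : (0 : ℝ) < N := Nat.cast_pos.2 (NeZero.pos N)
  have hf1 : Continuous f1 := continuous_iff_continuousAt.2 fun t => (hS.d1 t).continuousAt
  have hf : Continuous f := continuous_iff_continuousAt.2 fun t => (hS.d0 t).continuousAt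
  set κ := (1 + 4 * K * c * √(N : ℝ)) / N with hκ
  have hκ0 : 0 ≤ κ := by positivity
  set T : ℝ := 2 * K * c * N
  set P := fun g : Fin M → Fin N → ℝ =>
    ((N : ℝ) + 4 * T * (2 * N + κ)) + (4 * D + 4 * D * (2 * N + κ) + 20 * D * T) * gS g +
      (5 * D + 20 * D * D) * gS g ^ 2
  have hP : Integrable P (pats N M) := ((integrable_const _).add (hg.const_mul _)).add (hg2.const_mul _)
  have hPn : ∀ g, 0 ≤ P g := fun g => by have := gS_nonneg g; positivity
  have hP0 : 0 ≤ ∫ g, P g ∂pats N M := integral_nonneg hPn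
  set η := min 1 (ε / ((∫ g, P g ∂pats N M) + 1))
  have hη0 : 0 < η := lt_min one_pos (by positivity)
  refine ⟨η, hη0, fun A _ _ wt a hM l hl => ?_⟩
  intro w₀
  have hle : ∀ g, |qV f R w₀ (vecA R a) g l - steinR f1 R (wV f w₀ (vecA R a) g) (vecA R a) g l| ≤
      κ + η * P g := fun g => by
    set U := uA (S := S) (β := β) (Λ := Unit) R (hamS f g) c r wt a h u
    have hU : ∀ q s, 0 < U q s := uA_pos hM.pos fun z x => hamS_pos g z x
    have hw : wV f w₀ (vecA R a) g = liftW eA R U := by rw [← sysA_eq, sysA_ham]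
    have hWp : ∀ q, 0 < margU U q := margU_pos hU
    have htop : lin R R = 1 := (ok_lin hR hWp).top
    simp only [qV, qker, steinR, hw, ← Vale.Agent.P168.MP.ET_sub]
    have e1 : (fun ps : List (List (MkA A Unit K S β)) => cv (vecA R a) (ps.getD 0 []) (ps.getD 1 []) -
        (∑ i, f1 (dot (vecA R a (ps.getD 0 [])) (g i)) * (dot (vecA R a (ps.getD 1 [])) (g i) -
          cv (vecA R a) (ps.getD 0 []) (ps.getD 1 []) * dot (vecA R a (ps.getD 0 [])) (g i))) / N) =
        fun ps => brk f1 g (a (lastA eA R (ps.getD 1 []))) (a (lastA eA R (ps.getD 0 []))) := funext fun ps => by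
      simp only [brk, Vale.Agent.P157.Par.cv, vecA_eq]
    rw [e1, pair_marg eA htop hU hl fun _ _ s s' => brk f1 g (a s') (a s)]
    refine Vale.Agent.P168.MP.ET_bound hWp fun qs => ?_
    rw [atomMean_comm]
    refine atomMean_abs_le hU (fun s' => ?_) _
    rw [atomMean_uA]
    have he : dot (a s') (a s') = 1 := hM.unit s'
    have hS0 := gS_nonneg g
    refine (mesh_ratio hM (min_le_left _ _)
      (H := fun z => hamS f g z (((qs.getD 0 []).map Prod.fst).map Prod.snd) *
        bitW c r (bat R ((qs.getD 0 []).map Prod.fst)) z)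
      (F := brk f1 g (a s')) (κ := κ) (τ := η * (D * gS g + T)) (b := 2 * N + 5 * D * gS g)
      (Δ := η * (N + 5 * D * gS g ^ 2 + 4 * D * gS g))
      ((by unfold hamS dot; fun_prop : Continuous fun z : Fin N → ℝ =>
        hamS f g z (((qs.getD 0 []).map Prod.fst).map Prod.snd)).mul (continuous_bitW c r _))
      (fun z => mul_pos (hamS_pos g z _) (bitW_pos c r _ z)) (by unfold brk dot; fun_prop) hκ0
      (by positivity) (by positivity) (sphere_brk hS g hc r _ _ he) fun z z' hz hz' h3 =>
        ⟨?_, brk_bounds hS g he hz hz' h3⟩).trans (le_of_eq ?_)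
    · rw [log_mul (hamS_pos g _ _).ne' (bitW_pos c r _ _).ne',
        log_mul (hamS_pos g _ _).ne' (bitW_pos c r _ _).ne', add_sub_add_comm]
      refine (abs_add_le _ _).trans ((add_le_add (log_hamS_lip hS g _ h3) (log_bitW_lip _ h3)).trans_eq ?_)
      rw [abs_of_nonneg hc]; simp only [T]; ring
    · simp only [P]; ring
  refine (integral_mono_of_nonneg (Eventually.of_forall fun g => abs_nonneg _)
    ((integrable_const κ).add (hP.const_mul η)) (Eventually.of_forall hle)).trans ?_
  simp only [Pi.add_apply]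
  rw [integral_add (integrable_const κ) (hP.const_mul η), integral_const_mul, integral_const, probReal_univ,
    one_smul]
  refine add_le_add le_rfl ?_
  calc η * ∫ g, P g ∂pats N M ≤ ε / ((∫ g, P g ∂pats N M) + 1) * ((∫ g, P g ∂pats N M) + 1) :=
        mul_le_mul (min_le_right _ _) (le_add_of_nonneg_right zero_le_one) hP0 (by positivity)
    _ = ε := div_mul_cancel₀ _ (by positivity)

end Vale.Agent.P157.Sph
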