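import Vale.Agent.P157.Sph.Iface
import Vale.Agent.P157.Par.Node
import Vale.Agent.P157.Par.Taylor

/-! D1: the truncated site is almost the Gaussian one. Jensen under the Gaussian tilted law, level by level, keeps
the defect a square of a quadratic. -/

open MeasureTheory ProbabilityTheory Real Finset
open Vale.Agent.P168.MP (lin)

namespace Vale.Agent.P157.Sph.Trunc

local instance : IsProbabilityMeasure (gaussianReal 0 1) := inferInstance

/-- completing the square in a standard Gaussian integral -/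
lemma tilt {κ : ℝ} (hκ : 0 < κ) (t : ℝ) {F : ℝ → ℝ} (hF : Measurable F) :
    (Integrable (fun z => F (t / κ + z / √κ)) (gaussianReal 0 1) →
      Integrable (fun z => exp (t * z + (1 - κ) * z ^ 2 / 2) * F z) (gaussianReal 0 1)) ∧
    ∫ z, exp (t * z + (1 - κ) * z ^ 2 / 2) * F z ∂gaussianReal 0 1 =
      exp (t ^ 2 / (2 * κ)) / √κ * ∫ z, F (t / κ + z / √κ) ∂gaussianReal 0 1 := by
  set v : NNReal := ⟨1 / κ, by positivity⟩
  have hv : v ≠ 0 := fun h => by
    have := congrArg NNReal.toReal h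
    change 1 / κ = 0 at this
    exact (one_div_pos.2 hκ).ne' this
  have hs : 0 < √κ := sqrt_pos.2 hκ
  have hmap : (gaussianReal 0 1).map (fun z => t / κ + z / √κ) = gaussianReal (t / κ) v := by
    have e : (fun z : ℝ => t / κ + z / √κ) = (fun x => t / κ + x) ∘ (fun z => (1 / √κ) * z) := by
      funext z; simp only [Function.comp_apply]; ring
    rw [e, ← Measure.map_map (by fun_prop) (by fun_prop), gaussianReal_map_const_mul, gaussianReal_map_const_add]
    congr 1
    · ring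
    · refine NNReal.eq ?_
      change (1 / √κ) ^ 2 * 1 = 1 / κ
      rw [mul_one, div_pow, one_pow, sq_sqrt hκ.le]
  have hm : Measurable fun z : ℝ => t / κ + z / √κ := by fun_prop
  have hpdf : ∀ x, gaussianPDFReal 0 1 x * exp (t * x + (1 - κ) * x ^ 2 / 2) =
      exp (t ^ 2 / (2 * κ)) / √κ * gaussianPDFReal (t / κ) v x := fun x => by
    simp only [gaussianPDFReal_def]
    rw [show ((v : NNReal) : ℝ) = 1 / κ from rfl, NNReal.coe_one, mul_one, sub_zero,
      show 2 * π * (1 / κ) = 2 * π / κ by ring, sqrt_div (by positivity), inv_div, mul_assoc, ← exp_add]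
    have e : -x ^ 2 / (2 * 1) + (t * x + (1 - κ) * x ^ 2 / 2) = t ^ 2 / (2 * κ) + -(x - t / κ) ^ 2 / (2 * (1 / κ)) := by
      field_simp; ring
    rw [e, exp_add]
    field_simp
  have hiff : ∀ (μ : ℝ) {u : NNReal} (_ : u ≠ 0) (G : ℝ → ℝ),
      Integrable G (gaussianReal μ u) ↔ Integrable (fun x => gaussianPDFReal μ u x * G x) := fun μ u hu G => by
    rw [gaussianReal_of_var_ne_zero μ hu, integrable_withDensity_iff (measurable_gaussianPDF μ u)
      (Filter.Eventually.of_forall fun _ => gaussianPDF_lt_top)]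
    simp only [toReal_gaussianPDF, mul_comm (G _)]
  refine ⟨fun hi => ?_, ?_⟩
  · have h1 : Integrable F (gaussianReal (t / κ) v) := by
      rw [← hmap]; exact (integrable_map_measure hF.aestronglyMeasurable hm.aemeasurable).2 hi
    refine (hiff 0 one_ne_zero _).2 ((((hiff _ hv F).1 h1).const_mul (exp (t ^ 2 / (2 * κ)) / √κ)).congr
      (Filter.Eventually.of_forall fun x => ?_))
    show exp (t ^ 2 / (2 * κ)) / √κ * (gaussianPDFReal (t / κ) v x * F x) =
      gaussianPDFReal 0 1 x * (exp (t * x + (1 - κ) * x ^ 2 / 2) * F x)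
    rw [← mul_assoc (gaussianPDFReal 0 1 x), hpdf]
    ring
  · have e1 : ∫ z, F (t / κ + z / √κ) ∂gaussianReal 0 1 = ∫ x, F x ∂gaussianReal (t / κ) v := by
      rw [← hmap, integral_map hm.aemeasurable hF.aestronglyMeasurable]
    rw [e1, integral_gaussianReal_eq_integral_smul one_ne_zero, integral_gaussianReal_eq_integral_smul hv,
      ← integral_const_mul]
    refine integral_congr_ae (Filter.Eventually.of_forall fun x => ?_)
    simp only [smul_eq_mul]
    rw [← mul_assoc, ← mul_assoc, hpdf]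

/-- moments up to the fourth -/
lemma moments (c0 c1 c2 c3 c4 : ℝ) :
    Integrable (fun z : ℝ => c0 + c1 * z + c2 * z ^ 2 + c3 * z ^ 3 + c4 * z ^ 4) (gaussianReal 0 1) ∧
      ∫ z, (c0 + c1 * z + c2 * z ^ 2 + c3 * z ^ 3 + c4 * z ^ 4) ∂gaussianReal 0 1 = c0 + c2 + 3 * c4 := by
  have hi : ∀ n : ℕ, Integrable (fun z : ℝ => z ^ n) (gaussianReal 0 1) := fun n =>
    (Par.integrable_pow_gaussian n).mono' (by fun_prop)
      (Filter.Eventually.of_forall fun z => by rw [Real.norm_eq_abs, abs_pow])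
  have hexp : ∀ n : ℕ, ∀ t : ℝ, |t| ^ n ≤ (n.factorial : ℝ) * exp (1 * |t|) := fun n t => by
    rw [one_mul]
    have h := pow_div_factorial_le_exp |t| (abs_nonneg t) n
    rw [div_le_iff₀ (by positivity)] at h
    linarith
  have hrec : ∀ n : ℕ, n ≤ 2 → ∫ z : ℝ, z ^ (n + 2) ∂gaussianReal 0 1 = (n + 1) * ∫ z : ℝ, z ^ n ∂gaussianReal 0 1 := by
    intro n hn
    have h := Vale.Agent.P150.stein_one (f := fun z : ℝ => z ^ (n + 1)) (f' := fun z : ℝ => ((n : ℝ) + 1) * z ^ n)
      (C := 6) (M := 1) (fun t => by simpa using hasDerivAt_pow (n + 1) t) (by fun_prop) (fun t => ?_) (fun t => ?_)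
    · rw [integral_const_mul] at h
      rw [← h]
      exact integral_congr_ae (Filter.Eventually.of_forall fun z => by simp only; ring)
    · rw [abs_pow]
      refine (hexp _ t).trans (mul_le_mul_of_nonneg_right ?_ (exp_pos _).le)
      interval_cases n <;> norm_num [Nat.factorial]
    · rw [abs_mul, abs_pow, abs_of_nonneg (by positivity : (0:ℝ) ≤ (n:ℝ) + 1)]
      refine (mul_le_mul_of_nonneg_left (hexp n t) (by positivity)).trans ?_
      rw [← mul_assoc]
      refine mul_le_mul_of_nonneg_right ?_ (exp_pos _).le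
      interval_cases n <;> norm_num [Nat.factorial]
  have m1 : ∫ z : ℝ, z ∂gaussianReal 0 1 = 0 := integral_id_gaussianReal
  have m2 : ∫ z : ℝ, z ^ 2 ∂gaussianReal 0 1 = 1 := by simpa using hrec 0 (by norm_num)
  have m3 : ∫ z : ℝ, z ^ 3 ∂gaussianReal 0 1 = 0 := by simpa [m1] using hrec 1 (by norm_num)
  have m4 : ∫ z : ℝ, z ^ 4 ∂gaussianReal 0 1 = 3 := by
    have := hrec 2 le_rfl
    norm_num [m2] at this
    exact this
  have i1 : Integrable (fun z : ℝ => c1 * z) (gaussianReal 0 1) := by simpa using (hi 1).const_mul c1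
  have a1 : Integrable (fun z : ℝ => c0 + c1 * z) (gaussianReal 0 1) := (integrable_const c0).add i1
  have a2 : Integrable (fun z : ℝ => c0 + c1 * z + c2 * z ^ 2) (gaussianReal 0 1) := a1.add ((hi 2).const_mul c2)
  have a3 : Integrable (fun z : ℝ => c0 + c1 * z + c2 * z ^ 2 + c3 * z ^ 3) (gaussianReal 0 1) :=
    a2.add ((hi 3).const_mul c3)
  refine ⟨a3.add ((hi 4).const_mul c4), ?_⟩
  rw [integral_add a3 ((hi 4).const_mul c4), integral_add a2 ((hi 3).const_mul c3),
    integral_add a1 ((hi 2).const_mul c2), integral_add (integrable_const c0) i1]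
  have e1 : ∫ z : ℝ, c1 * z ∂gaussianReal 0 1 = 0 := by rw [integral_const_mul, m1, mul_zero]
  simp only [e1, integral_const_mul, m2, m3, m4, integral_const, probReal_univ, one_smul]
  ring

/-- the defect under an affine Gaussian variable -/
lemma sq_quad {A B : ℝ} (hA : 0 ≤ A) (hB : 0 ≤ B) (α β : ℝ) :
    Integrable (fun z : ℝ => (A * (α + β * z) ^ 2 + B) ^ 2) (gaussianReal 0 1) ∧
      ∫ z, (A * (α + β * z) ^ 2 + B) ^ 2 ∂gaussianReal 0 1 ≤ (A * α ^ 2 + 3 * A * β ^ 2 + B) ^ 2 := by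
  obtain ⟨i, e⟩ := moments ((A * α ^ 2 + B) ^ 2) (4 * A * α * β * (A * α ^ 2 + B))
    (6 * A ^ 2 * α ^ 2 * β ^ 2 + 2 * A * B * β ^ 2) (4 * A ^ 2 * α * β ^ 3) (A ^ 2 * β ^ 4)
  have h : (fun z : ℝ => (A * (α + β * z) ^ 2 + B) ^ 2) = fun z => (A * α ^ 2 + B) ^ 2 +
      4 * A * α * β * (A * α ^ 2 + B) * z + (6 * A ^ 2 * α ^ 2 * β ^ 2 + 2 * A * B * β ^ 2) * z ^ 2 +
      4 * A ^ 2 * α * β ^ 3 * z ^ 3 + A ^ 2 * β ^ 4 * z ^ 4 := funext fun z => by ring
  rw [h]
  refine ⟨i, e.trans_le ?_⟩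
  nlinarith [mul_nonneg (mul_nonneg hA hB) (sq_nonneg β), sq_nonneg (A * β ^ 2)]

/-- **one level** -/
lemma step {d d' m Δ A B L c : ℝ} (hd : 0 < d) (hd' : 0 < d') (hm : 0 < m) (hΔ : 0 ≤ Δ)
    (he : d' = d + m * Δ) (hA : 0 ≤ A) (hB : 0 ≤ B) {W : ℝ → ℝ} (hW : ∀ x, 0 < W x)
    (hlow : ∀ x, x ^ 2 / (2 * d') + c - (A * x ^ 2 + B) ^ 2 / L ^ 2 ≤ log (W x)) (y : ℝ)
    (hi : Integrable (fun z => W (y + √Δ * z) ^ m) (gaussianReal 0 1)) :
    y ^ 2 / (2 * d) + (c + log (d' / d) / (2 * m)) -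
        (A * (d' / d) ^ 2 * y ^ 2 + 3 * A * (Δ * d' / d) + B) ^ 2 / L ^ 2 ≤
      log ((∫ z, W (y + √Δ * z) ^ m ∂gaussianReal 0 1) ^ (1 / m)) := by
  set κ := d / d' with hκd
  set t := m * √Δ * y / d' with ht
  have hκ : 0 < κ := div_pos hd hd'
  set g := fun z => exp (t * z + (1 - κ) * z ^ 2 / 2)
  set E := fun z => (A * (y + √Δ * z) ^ 2 + B) ^ 2 / L ^ 2
  set μ := (A * (d' / d) ^ 2 * y ^ 2 + 3 * A * (Δ * d' / d) + B) ^ 2 / L ^ 2
  set C := exp (t ^ 2 / (2 * κ)) / √κ
  set K := exp (m * c + m * y ^ 2 / (2 * d'))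
  have hC : 0 < C := div_pos (exp_pos _) (sqrt_pos.2 hκ)
  have hΔs : √Δ ^ 2 = Δ := sq_sqrt hΔ
  obtain ⟨q1, q2⟩ := sq_quad hA hB (y + √Δ * (t / κ)) (√Δ / √κ)
  obtain ⟨tg, eg⟩ := tilt hκ t (F := fun _ => (1:ℝ)) measurable_const
  obtain ⟨tE, eE⟩ := tilt hκ t (F := E) (by fun_prop)
  have eEt : (fun z => E (t / κ + z / √κ)) =
      fun z => (A * ((y + √Δ * (t / κ)) + √Δ / √κ * z) ^ 2 + B) ^ 2 / L ^ 2 := by
    funext z; simp only [E]; ring
  have hig : Integrable g (gaussianReal 0 1) := by simpa [g] using tg (integrable_const 1)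
  have hiE : Integrable (fun z => g z * E z) (gaussianReal 0 1) := tE (by rw [eEt]; exact q1.div_const _)
  have hgE : ∫ z, g z * E z ∂gaussianReal 0 1 ≤ C * μ := by
    show ∫ z, exp (t * z + (1 - κ) * z ^ 2 / 2) * E z ∂gaussianReal 0 1 ≤ _
    rw [eE]
    refine mul_le_mul_of_nonneg_left ?_ hC.le
    rw [show (∫ z, E (t / κ + z / √κ) ∂gaussianReal 0 1) =
      ∫ z, (A * ((y + √Δ * (t / κ)) + √Δ / √κ * z) ^ 2 + B) ^ 2 / L ^ 2 ∂gaussianReal 0 1 by rw [← eEt],
      integral_div]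
    refine div_le_div_of_nonneg_right (q2.trans_eq ?_) (sq_nonneg L)
    rw [div_pow, hΔs, sq_sqrt hκ.le, show y + √Δ * (t / κ) = d' / d * y by
      rw [ht, hκd, he]; field_simp; rw [hΔs]; ring]
    rw [hκd]; field_simp
  have hgi : ∫ z, g z ∂gaussianReal 0 1 = C := by simpa [g, C] using eg
  have hpt : ∀ z, K * exp (-(m * μ)) * ((1 + m * μ) * g z - m * (g z * E z)) ≤ W (y + √Δ * z) ^ m := fun z => by
    rw [rpow_def_of_pos (hW _)]
    refine le_trans (le_of_eq_of_le (by ring) (mul_le_mul_of_nonneg_left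
      (show exp (-(m * μ)) * (1 + m * μ - m * E z) ≤ exp (-(m * E z)) from ?_)
      (mul_pos (exp_pos _) (exp_pos _) : 0 < K * g z).le)) ?_
    · have h := mul_le_mul_of_nonneg_left (add_one_le_exp (m * μ - m * E z)) (exp_pos (-(m * μ))).le
      rw [← exp_add, show -(m * μ) + (m * μ - m * E z) = -(m * E z) by ring] at h
      linarith
    · simp only [K, g]
      rw [← exp_add, ← exp_add]
      refine exp_le_exp.2 ((le_of_eq ?_).trans (mul_le_mul_of_nonneg_left (hlow (y + √Δ * z)) hm.le |>.trans_eq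
        (mul_comm _ _)))
      simp only [E, ht, hκd]
      rw [show 1 - d / d' = m * Δ / d' by rw [he]; field_simp; ring]
      linear_combination (-(m * z ^ 2 / (2 * d'))) * hΔs
  have hint := integral_mono (((hig.const_mul (1 + m * μ)).sub (hiE.const_mul m)).const_mul (K * exp (-(m * μ))))
    hi hpt
  rw [integral_const_mul, integral_sub' (hig.const_mul _) (hiE.const_mul m), integral_const_mul, integral_const_mul,
    hgi] at hint
  have hlo : K * exp (-(m * μ)) * C ≤ ∫ z, W (y + √Δ * z) ^ m ∂gaussianReal 0 1 := by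
    refine le_trans (mul_le_mul_of_nonneg_left ?_ (by positivity)) hint
    nlinarith [mul_le_mul_of_nonneg_left hgE hm.le]
  have hpos : 0 < K * exp (-(m * μ)) * C := by positivity
  rw [log_rpow (hpos.trans_le hlo)]
  have := log_le_log hpos hlo
  rw [log_mul (by positivity) hC.ne', log_mul (exp_ne_zero _) (exp_ne_zero _), log_exp, log_exp,
    log_div (exp_ne_zero _) (sqrt_pos.2 hκ).ne', log_exp, log_sqrt hκ.le, hκd, log_div hd.ne' hd'.ne'] at this
  rw [one_div_mul_eq_div, le_div_iff₀ hm]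
  refine le_trans (le_of_eq ?_) this
  rw [log_div hd'.ne' hd.ne', ht, he]
  field_simp
  rw [hΔs]
  ring

/-- **the top** -/
lemma top_lower {K : ℝ} (hK : 1 ≤ K) : ∃ K0 : ℝ, 0 ≤ K0 ∧ ∀ {L : ℝ}, 1 ≤ L → ∀ {b : ℝ}, 1 ≤ b → b ≤ K → ∀ y : ℝ,
    y ^ 2 / (2 * b) + -log b / 2 - (K0 * y ^ 2 + K0) ^ 2 / L ^ 2 ≤ eL b L y := by
  have hγ : 0 < (gaussianReal 0 1).real (Set.Icc (-1:ℝ) 1) := by
    have : (gaussianReal 0 1).IsOpenPosMeasure :=
      (gaussianReal_absolutelyContinuous' 0 one_ne_zero).isOpenPosMeasure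
    exact lt_of_lt_of_le (ENNReal.toReal_pos (isOpen_Ioo.measure_pos _ (Set.nonempty_Ioo.2 (by norm_num : (-1:ℝ) < 1))).ne'
      (measure_ne_top _ _)) (measureReal_mono Set.Ioo_subset_Icc_self)
  set c1 := |log ((gaussianReal 0 1).real (Set.Icc (-1:ℝ) 1))| + K + 1
  refine ⟨√(16 * c1 + 8), sqrt_nonneg _, fun {L} hL {b} hb hbK y => ?_⟩
  set K0 := √(16 * c1 + 8)
  have hc1 : 1 ≤ c1 := by linarith [abs_nonneg (log ((gaussianReal 0 1).real (Set.Icc (-1:ℝ) 1)))]
  have hK0 : K0 ^ 2 = 16 * c1 + 8 := sq_sqrt (by linarith)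
  have hL0 : 0 < L := by linarith
  have hb0 : 0 < b := by linarith
  have hint : ∀ a c, IntegrableOn (fun s => exp (s * y - (b - 1) * s ^ 2 / 2)) (Set.Icc a c) (gaussianReal 0 1) :=
    fun a c => Continuous.integrableOn_Icc (by fun_prop)
  have hE : (K0 * y ^ 2 + K0) ^ 2 / L ^ 2 = (16 * c1 + 8) * (y ^ 2 + 1) ^ 2 / L ^ 2 := by rw [← hK0]; ring
  rw [hE]
  by_cases hcase : |y / b| ≤ L / 2 ∧ 4 ≤ L
  · obtain ⟨h1, h4⟩ := hcase
    set F : ℝ → ℝ := (Set.Icc (-L) L).indicator fun _ => 1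
    have hFm : Measurable F := measurable_const.indicator measurableSet_Icc
    obtain ⟨-, e⟩ := tilt hb0 y hFm
    have eI : ∫ s in Set.Icc (-L) L, exp (s * y - (b - 1) * s ^ 2 / 2) ∂gaussianReal 0 1 =
        exp (y ^ 2 / (2 * b)) / √b * ∫ z, F (y / b + z / √b) ∂gaussianReal 0 1 := by
      rw [← e, ← integral_indicator measurableSet_Icc]
      refine integral_congr_ae (Filter.Eventually.of_forall fun s => ?_)
      by_cases hs : s ∈ Set.Icc (-L) L
      · simp only [F, Set.indicator_of_mem hs, mul_one]; congr 1; ring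
      · simp only [F, Set.indicator_of_notMem hs, mul_zero]
    obtain ⟨mi, me⟩ := moments 1 0 (-(4 / L ^ 2 * (1 / b))) 0 0
    simp only [zero_mul, add_zero, mul_zero] at mi me
    have hF1 : ∀ x, 0 ≤ F x ∧ F x ≤ 1 := fun x => by
      by_cases hx : x ∈ Set.Icc (-L) L <;> simp [F, hx]
    have hFi : Integrable (fun z => F (y / b + z / √b)) (gaussianReal 0 1) :=
      Integrable.of_bound (hFm.comp (by fun_prop)).aestronglyMeasurable 1
        (Filter.Eventually.of_forall fun z => by rw [Real.norm_eq_abs, abs_of_nonneg (hF1 _).1]; exact (hF1 _).2)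
    have hP : 1 - 4 / L ^ 2 ≤ ∫ z, F (y / b + z / √b) ∂gaussianReal 0 1 := by
      refine le_trans ?_ (integral_mono mi hFi fun z => ?_)
      · rw [me]
        have : 4 / L ^ 2 * (1 / b) ≤ 4 / L ^ 2 := mul_le_of_le_one_right (by positivity) ((div_le_one hb0).2 hb)
        linarith
      · by_cases hx : y / b + z / √b ∈ Set.Icc (-L) L
        · simp only [F, Set.indicator_of_mem hx]
          nlinarith [show 0 ≤ 4 / L ^ 2 * (1 / b) * z ^ 2 by positivity]
        · simp only [F, Set.indicator_of_notMem hx]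
          have h2 : L / 2 ≤ |z / √b| := by
            have : L < |y / b + z / √b| := by
              rw [Set.mem_Icc, ← abs_le, not_le] at hx; exact hx
            linarith [abs_add_le (y / b) (z / √b)]
          have h3 : (L / 2) ^ 2 ≤ (z / √b) ^ 2 := by
            rw [← sq_abs (z / √b)]; exact pow_le_pow_left₀ (by positivity) h2 2
          rw [div_pow, div_pow, sq_sqrt hb0.le] at h3
          have h5 := mul_le_mul_of_nonneg_left h3 (show 0 ≤ 4 / L ^ 2 by positivity)
          have e1 : 4 / L ^ 2 * (L ^ 2 / 2 ^ 2) = 1 := by field_simp; ring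
          have e2 : 4 / L ^ 2 * (z ^ 2 / b) = 4 / L ^ 2 * (1 / b) * z ^ 2 := by ring
          linarith
    have hx : 4 / L ^ 2 ≤ 1 / 2 := by rw [div_le_iff₀ (by positivity)]; nlinarith
    have hP0 : 0 < ∫ z, F (y / b + z / √b) ∂gaussianReal 0 1 := by linarith
    have hlog : -(8 / L ^ 2) ≤ log (∫ z, F (y / b + z / √b) ∂gaussianReal 0 1) := by
      refine le_trans ?_ (one_sub_inv_le_log_of_pos hP0)
      set x := 4 / L ^ 2
      have hx0 : 0 ≤ x := by positivity
      have h := mul_le_mul_of_nonneg_left hP (show 0 ≤ 1 + 2 * x by linarith)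
      rw [show (8:ℝ) / L ^ 2 = 2 * x by simp only [x]; ring]
      rw [inv_eq_one_div, le_sub_iff_add_le, ← le_sub_iff_add_le', div_le_iff₀ hP0]
      nlinarith
    rw [eL, eI, log_mul (by positivity) hP0.ne', log_div (exp_ne_zero _) (sqrt_pos.2 hb0).ne', log_exp,
      log_sqrt hb0.le]
    have : 8 / L ^ 2 ≤ (16 * c1 + 8) * (y ^ 2 + 1) ^ 2 / L ^ 2 := by
      refine div_le_div_of_nonneg_right ?_ (sq_nonneg L)
      nlinarith [sq_nonneg y, mul_le_mul_of_nonneg_left (one_le_pow₀ (n := 2) (by nlinarith [sq_nonneg y] : (1:ℝ) ≤ y ^ 2 + 1))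
        (show 0 ≤ 16 * c1 + 8 by linarith)]
    linarith
  · have hL2 : L ^ 2 ≤ 16 * (y ^ 2 + 1) := by
      rcases not_and_or.1 hcase with h | h
      · have h' : L / 2 ≤ |y| := (not_le.1 h).le.trans (by
          rw [abs_div, abs_of_pos hb0]; exact div_le_self (abs_nonneg _) hb)
        have := pow_le_pow_left₀ (by positivity) h' 2
        rw [sq_abs] at this
        nlinarith
      · nlinarith [not_le.1 h, sq_nonneg y]
    have hlow : exp (-|y| - K / 2) * (gaussianReal 0 1).real (Set.Icc (-1:ℝ) 1) ≤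
        ∫ s in Set.Icc (-L) L, exp (s * y - (b - 1) * s ^ 2 / 2) ∂gaussianReal 0 1 := by
      refine le_trans ?_ (setIntegral_mono_set (hint _ _) (Filter.Eventually.of_forall fun s => (exp_pos _).le)
        (Filter.Eventually.of_forall (Set.Icc_subset_Icc (show -L ≤ -1 by linarith) hL)))
      rw [mul_comm, ← smul_eq_mul, ← setIntegral_const]
      refine setIntegral_mono_on (integrableOn_const (measure_ne_top _ _)) (hint _ _) measurableSet_Icc fun s hs => ?_
      refine exp_le_exp.2 ?_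
      have h1 : -|y| ≤ s * y := by
        have := abs_mul s y ▸ mul_le_of_le_one_left (abs_nonneg y) (abs_le.2 hs)
        linarith [neg_abs_le (s * y)]
      have h2 : (b - 1) * s ^ 2 ≤ K * 1 := mul_le_mul (by linarith)
        (by nlinarith [hs.1, hs.2]) (sq_nonneg s) (by linarith)
      linarith
    have h := log_le_log (by positivity) hlow
    rw [log_mul (exp_ne_zero _) hγ.ne', log_exp] at h
    change _ ≤ eL b L y at h
    have hb1 : y ^ 2 / (2 * b) ≤ y ^ 2 / 2 := div_le_div_of_nonneg_left (sq_nonneg y) two_pos (by linarith)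
    have hb2 : 0 ≤ log b := log_nonneg hb
    have key : c1 * (y ^ 2 + 1) ≤ (16 * c1 + 8) * (y ^ 2 + 1) ^ 2 / L ^ 2 := by
      rw [le_div_iff₀ (by positivity)]
      nlinarith [mul_le_mul_of_nonneg_left hL2 (show 0 ≤ c1 * (y ^ 2 + 1) by positivity), sq_nonneg (y ^ 2 + 1)]
    have hy : |y| ≤ (y ^ 2 + 1) / 2 := by nlinarith [sq_nonneg (|y| - 1), sq_abs y]
    have hg := neg_abs_le (log ((gaussianReal 0 1).real (Set.Icc (-1:ℝ) 1)))
    nlinarith [sq_nonneg y]

/-- exponential bounds of the site -/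
lemma adm {b L : ℝ} (hb : 1 ≤ b) (hL : 1 ≤ L) :
    ∃ a A D, Par.Adm (fun y => exp (eL b L y)) a A D := by
  set γ := (gaussianReal 0 1).restrict (Set.Icc (-L) L)
  have hpos : ∀ y, 0 < ∫ s in Set.Icc (-L) L, exp (s * y - (b - 1) * s ^ 2 / 2) ∂gaussianReal 0 1 := fun y => by
    refine (integral_pos_iff_support_of_nonneg (fun s => (exp_pos _).le)
      (Continuous.integrableOn_Icc (by fun_prop))).2 ?_
    rw [Function.support_eq_univ fun s => (exp_pos _).ne', Measure.restrict_apply_univ]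
    have : (gaussianReal 0 1).IsOpenPosMeasure :=
      (gaussianReal_absolutelyContinuous' 0 one_ne_zero).isOpenPosMeasure
    exact (isOpen_Ioo.measure_pos _ (Set.nonempty_Ioo.2 (by linarith : -L < L))).trans_le
      (measure_mono Set.Ioo_subset_Icc_self)
  simp only [eL, exp_log (hpos _)]
  have hc : Continuous fun y => ∫ s in Set.Icc (-L) L, exp (s * y - (b - 1) * s ^ 2 / 2) ∂gaussianReal 0 1 :=
    continuous_parametric_integral_of_continuous (by fun_prop) isCompact_Icc
  -- a floor near the origin side of the sign of `y`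
  have hseg : ∀ u w : ℝ, -L ≤ u → u < w → w ≤ L → 0 < ∫ s in Set.Icc u w, exp (-(b - 1) * s ^ 2 / 2) ∂gaussianReal 0 1 := by
    intro u w hu huw hw
    refine (integral_pos_iff_support_of_nonneg (fun s => (exp_pos _).le)
      (Continuous.integrableOn_Icc (by fun_prop))).2 ?_
    rw [Function.support_eq_univ fun s => (exp_pos _).ne', Measure.restrict_apply_univ]
    have : (gaussianReal 0 1).IsOpenPosMeasure :=
      (gaussianReal_absolutelyContinuous' 0 one_ne_zero).isOpenPosMeasure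
    exact (isOpen_Ioo.measure_pos _ (Set.nonempty_Ioo.2 huw)).trans_le (measure_mono Set.Ioo_subset_Icc_self)
  set a := min 1 (min (∫ s in Set.Icc (0:ℝ) L, exp (-(b - 1) * s ^ 2 / 2) ∂gaussianReal 0 1)
    (∫ s in Set.Icc (-L) 0, exp (-(b - 1) * s ^ 2 / 2) ∂gaussianReal 0 1)) with ha
  refine ⟨a, 1, L, hc, lt_min one_pos (lt_min (hseg _ _ (by linarith) (by linarith) le_rfl)
    (hseg _ _ le_rfl (by linarith) (by linarith))), min_le_left _ _, le_rfl, by linarith, fun y => ?_, fun y => ?_⟩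
  · have key : ∀ u w : ℝ, Set.Icc u w ⊆ Set.Icc (-L) L → (∀ s ∈ Set.Icc u w, 0 ≤ s * y) →
        ∫ s in Set.Icc u w, exp (-(b - 1) * s ^ 2 / 2) ∂gaussianReal 0 1 ≤
          ∫ s in Set.Icc (-L) L, exp (s * y - (b - 1) * s ^ 2 / 2) ∂gaussianReal 0 1 := fun u w hsub hs => by
      refine le_trans (setIntegral_mono_on (Continuous.integrableOn_Icc (by fun_prop))
        (Continuous.integrableOn_Icc (by fun_prop)) measurableSet_Icc fun s hm => exp_le_exp.2 ?_)
        (setIntegral_mono_set (Continuous.integrableOn_Icc (by fun_prop))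
          (Filter.Eventually.of_forall fun s => (exp_pos _).le) (Filter.Eventually.of_forall hsub))
      linarith [hs s hm]
    rcases le_total 0 y with hy | hy
    · exact ((min_le_right _ _).trans (min_le_left _ _)).trans
        (key 0 L (Set.Icc_subset_Icc (by linarith) le_rfl) fun s hs => mul_nonneg hs.1 hy)
    · exact ((min_le_right _ _).trans (min_le_right _ _)).trans
        (key (-L) 0 (Set.Icc_subset_Icc le_rfl (by linarith)) fun s hs => mul_nonneg_of_nonpos_of_nonpos hs.2 hy)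
  · refine (setIntegral_mono_on (g := fun _ => exp (L * |y|)) (Continuous.integrableOn_Icc (by fun_prop))
      (integrableOn_const (measure_ne_top _ _)) measurableSet_Icc fun s hs => exp_le_exp.2 ?_).trans ?_
    · have h1 : s * y ≤ L * |y| := (le_abs_self _).trans ((abs_mul s y).trans_le
        (mul_le_mul_of_nonneg_right (abs_le.2 hs) (abs_nonneg y)))
      nlinarith [mul_nonneg (sub_nonneg.2 hb) (sq_nonneg s)]
    · rw [setIntegral_const, smul_eq_mul, one_mul]
      exact mul_le_of_le_one_left (exp_pos _).le measureReal_le_one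

/-- the constant of the Gaussian value at the level `J` -/
noncomputable def cJ (R : ℕ) (d : ℕ → ℝ) (J : ℕ) : ℝ :=
  -log (d R) / 2 + ∑ i ∈ Ico J R, log (d (i + 1) / d i) / (2 * lin R (i + 1))

/-- **level by level** -/
lemma low {R : ℕ} {d0 K K0 L : ℝ} {h : ℕ → ℝ} (hd0 : 1 ≤ d0) (hh : ∀ l < R, h l ≤ h (l + 1))
    (hK : d0 + (h R - h 0) ≤ K) (hL : 1 ≤ L) (hK0 : 0 ≤ K0)
    (htop : ∀ y, y ^ 2 / (2 * dd R d0 h R) + -log (dd R d0 h R) / 2 - (K0 * y ^ 2 + K0) ^ 2 / L ^ 2 ≤
      eL (dd R d0 h R) L y) :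
    ∀ k, k ≤ R → ∀ y, y ^ 2 / (2 * dd R d0 h (R - k)) + cJ R (dd R d0 h) (R - k) -
        (K0 * K ^ 2 / dd R d0 h (R - k) ^ 2 * y ^ 2 + (K0 + 3 * (K0 * K ^ 2) * (h R - h (R - k)))) ^ 2 / L ^ 2 ≤
      log (Par.Vn (fun y => exp (eL (dd R d0 h R) L y)) R (lin R) h k y) := by
  have hmono : ∀ j, j ≤ R → h j ≤ h R := fun j hj => by
    have : ∀ i, j + i ≤ R → h j ≤ h (j + i) := fun i => by
      induction i with
      | zero => intro _; exact le_rfl
      | succ i ih => intro hi; exact (ih (by omega)).trans (hh (j + i) (by omega))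
    have h2 := this (R - j) (by omega)
    rwa [Nat.add_sub_cancel' hj] at h2
  have hstep : ∀ j < R, dd R d0 h (j + 1) = dd R d0 h j + lin R (j + 1) * (h (j + 1) - h j) := fun j hj => by
    rw [dd_succ, lin, if_pos (show j + 1 ≤ R by omega)]; push_cast; ring
  have hd : ∀ j ≤ R, 1 ≤ dd R d0 h j ∧ dd R d0 h j ≤ d0 + (h j - h 0) := by
    intro j
    induction j with
    | zero => intro _; simp [dd_zero, hd0]
    | succ j ih =>
      intro hj
      obtain ⟨a, b⟩ := ih (by omega)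
      have h1 := sub_nonneg.2 (hh j (by omega))
      obtain ⟨m0, m1⟩ := (Par.ex_lin R).pos (j + 1) (by omega) hj, (Par.ex_lin R).le_one (j + 1) (by omega) hj
      rw [hstep j (by omega)]
      exact ⟨by nlinarith, by nlinarith⟩
  have hdR := hd R le_rfl
  obtain ⟨a, A, D, hadm⟩ := adm hdR.1 hL
  intro k
  induction k with
  | zero =>
    intro _ y
    simp only [Nat.sub_zero, Par.Vn, log_exp, cJ, Ico_self, sum_empty, add_zero, sub_self, mul_zero]
    refine le_trans ?_ (htop y)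
    refine sub_le_sub_left (div_le_div_of_nonneg_right (pow_le_pow_left₀ (by positivity) ?_ 2) (sq_nonneg L)) _
    refine add_le_add (mul_le_mul_of_nonneg_right ?_ (sq_nonneg y)) le_rfl
    rw [le_div_iff₀ (by nlinarith)]
    exact mul_le_mul_of_nonneg_left (pow_le_pow_left₀ (by linarith) (hdR.2.trans hK) 2) hK0
  | succ k ih =>
    intro hk y
    set J := R - (k + 1) with hJ
    have hJk : R - k = J + 1 := by omega
    have hJR : J < R := by omega
    have ih' := ih (by omega)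
    rw [hJk] at ih'
    obtain ⟨A', hV⟩ := Par.Vn_adm hadm (Par.ex_lin R) h k (by omega)
    have hm0 := (Par.ex_lin R).pos (J + 1) (by omega) (by omega)
    have hm1 := (Par.ex_lin R).le_one (J + 1) (by omega) (by omega)
    have hdJ := hd J (by omega)
    have hdJ1 := hd (J + 1) (by omega)
    set dJ := dd R d0 h J with hdJdef
    set dJ1 := dd R d0 h (J + 1) with hdJ1def
    set Δ := h (J + 1) - h J with hΔdef
    have hΔ : 0 ≤ Δ := sub_nonneg.2 (hh J hJR)
    have hA0 : 0 ≤ K0 * K ^ 2 := by positivity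
    have h1 : 0 ≤ h R - h (J + 1) := sub_nonneg.2 (hmono _ (by omega))
    have p1 : 0 < dJ1 := by linarith [hdJ1.1]
    have p2 : 0 < dJ := by linarith [hdJ.1]
    have hs := step (L := L) (c := cJ R (dd R d0 h) (J + 1)) (A := K0 * K ^ 2 / dJ1 ^ 2)
      (B := K0 + 3 * (K0 * K ^ 2) * (h R - h (J + 1))) (d := dJ) (d' := dJ1) (m := lin R (J + 1)) (Δ := Δ)
      (by linarith) (by linarith) hm0 hΔ (hstep J hJR) (by positivity) (by positivity)
      (W := Par.Vn (fun y => exp (eL (dd R d0 h R) L y)) R (lin R) h k)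
      (fun x => hadm.a_pos.trans_le (hV.lb x)) ih' y ((hV.rpow hm0.le hm1).eg.int _ y)
    have eV : Par.Vn (fun y => exp (eL (dd R d0 h R) L y)) R (lin R) h (k + 1) y =
        (∫ z, Par.Vn (fun y => exp (eL (dd R d0 h R) L y)) R (lin R) h k (y + √Δ * z) ^ lin R (J + 1)
          ∂gaussianReal 0 1) ^ (1 / lin R (J + 1)) := by
      simp only [Par.Vn, hJk, hΔdef, ← hJ]
    rw [eV]
    refine le_trans ?_ hs
    have ec : cJ R (dd R d0 h) J = cJ R (dd R d0 h) (J + 1) + log (dJ1 / dJ) / (2 * lin R (J + 1)) := by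
      simp only [cJ, sum_eq_sum_Ico_succ_bot hJR, hdJdef, hdJ1def]; ring
    rw [ec]
    refine sub_le_sub le_rfl (div_le_div_of_nonneg_right (pow_le_pow_left₀
      (by positivity) ?_ 2) (sq_nonneg L))
    have e1 : K0 * K ^ 2 / dJ1 ^ 2 * (dJ1 / dJ) ^ 2 = K0 * K ^ 2 / dJ ^ 2 := by
      have : dJ1 ≠ 0 := by linarith
      field_simp
    rw [e1, add_assoc]
    refine add_le_add le_rfl ?_
    have e2 : K0 * K ^ 2 / dJ1 ^ 2 * (Δ * dJ1 / dJ) ≤ K0 * K ^ 2 * Δ := by
      have e : K0 * K ^ 2 / dJ1 ^ 2 * (Δ * dJ1 / dJ) = K0 * K ^ 2 * Δ / (dJ1 * dJ) := by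
        have : dJ1 ≠ 0 := by linarith
        field_simp
      rw [e]
      exact div_le_self (by positivity) (one_le_mul_of_one_le_of_one_le hdJ1.1 hdJ.1)
    rw [hΔdef] at e2
    linarith

end Vale.Agent.P157.Sph.Trunc

namespace Vale.Agent.P157.Sph

open Vale.Agent.P157.Sph.Trunc

/-- **D1: the truncated site is almost the Gaussian one** -/
theorem siteTrunc : SiteTrunc := by
  intro V hV
  obtain ⟨K0, hK0, htop⟩ := top_lower (K := 1 + 2 * V) (by linarith)
  set A0 := K0 * (1 + 2 * V) ^ 2 with hA0d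
  refine ⟨(3 * A0 * V + (K0 + 3 * A0 * V)) ^ 2, sq_nonneg _, ?_⟩
  intro L hL R hR h hh d0 hd1 hd2 b
  have hA0 : 0 ≤ A0 := by positivity
  have hb : b = dd R d0 h R := by
    obtain ⟨r, rfl⟩ : ∃ r, R = r + 1 := ⟨R - 1, by omega⟩
    simp only [b, Nat.add_sub_cancel, dd_succ]
    push_cast
    rw [div_self (by positivity)]
    ring
  have hu := fun {l} hl => hh.upper (l := l) hl
  have hK : d0 + (h R - h 0) ≤ 1 + 2 * V := by linarith [(hu le_rfl).2, hh.zero]
  have hmono : ∀ l < R, h l ≤ h (l + 1) := hh.mono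
  have hdd : ∀ j, j ≤ R → 1 ≤ dd R d0 h j ∧ dd R d0 h j ≤ d0 + (h j - h 0) := by
    intro j
    induction j with
    | zero => intro _; simp [dd_zero, hd1]
    | succ j ih =>
      intro hj
      obtain ⟨u1, u2⟩ := ih (by omega)
      have h1 := sub_nonneg.2 (hmono j (by omega))
      have hc : (0:ℝ) ≤ (j + 1 : ℝ) / R ∧ (j + 1 : ℝ) / R ≤ 1 :=
        ⟨by positivity, (div_le_one (by exact_mod_cast hR)).2 (by exact_mod_cast hj)⟩
      rw [dd_succ]
      exact ⟨by nlinarith, by nlinarith⟩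
  have hl := low hd1 hmono hK hL hK0 (fun y => htop hL (hdd R le_rfl).1 ((hdd R le_rfl).2.trans hK) y) R le_rfl
  simp only [Nat.sub_self, dd_zero] at hl
  rw [hb]
  obtain ⟨a, A, D, hadm⟩ := adm (hdd R le_rfl).1 hL
  obtain ⟨A', hV'⟩ := Par.Vn_adm hadm (Par.ex_lin R) h R le_rfl
  set W := Par.Vn (fun y => exp (eL (dd R d0 h R) L y)) R (lin R) h R
  have hW : ∀ y, 0 < W y := fun y => hadm.a_pos.trans_le (hV'.lb y)
  have hi : Integrable (fun z => log (W (√(h 0) * z))) (gaussianReal 0 1) := by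
    have hc : Continuous fun z => log (W (√(h 0) * z)) :=
      (hV'.cont.comp (continuous_const.mul continuous_id)).log fun z => (hW _).ne'
    refine (((Par.integrable_pow_gaussian 1).const_mul (D * √(h 0))).add
      (integrable_const (|log a| + |log A'|))).mono' hc.aestronglyMeasurable (Filter.Eventually.of_forall fun z => ?_)
    have l1 := log_le_log hadm.a_pos (hV'.lb (√(h 0) * z))
    have l2 := log_le_log (hW (√(h 0) * z)) (hV'.ub (√(h 0) * z))
    rw [log_mul (by linarith [hV'.A_ge]) (exp_ne_zero _), log_exp, abs_mul, abs_of_nonneg (sqrt_nonneg _)] at l2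
    simp only [Real.norm_eq_abs, Pi.add_apply, pow_one]
    have := mul_nonneg (mul_nonneg hV'.D_nonneg (sqrt_nonneg (h 0))) (abs_nonneg z)
    rw [abs_le]
    constructor <;> linarith [neg_abs_le (log a), le_abs_self (log A'), abs_nonneg (log a), abs_nonneg (log A')]
  set B0 := K0 + 3 * A0 * (h R - h 0)
  have h0R : ∀ i ≤ R, h 0 ≤ h i := fun i => by
    induction i with
    | zero => intro _; exact le_rfl
    | succ i ih => intro hi; exact (ih (by omega)).trans (hmono i (by omega))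
  have hB0 : 0 ≤ B0 := add_nonneg hK0 (mul_nonneg (by positivity) (sub_nonneg.2 (h0R R le_rfl)))
  obtain ⟨q1, q2⟩ := sq_quad (A := A0 / d0 ^ 2) (B := B0) (by positivity) hB0 0 √(h 0)
  obtain ⟨m1, m2⟩ := moments (cJ R (dd R d0 h) 0) 0 (h 0 / (2 * d0)) 0 0
  simp only [zero_mul, add_zero, mul_zero, zero_add] at m1 m2 q1 q2
  have hmain : (cJ R (dd R d0 h) 0 + h 0 / (2 * d0)) -
      (∫ z, (A0 / d0 ^ 2 * (√(h 0) * z) ^ 2 + B0) ^ 2 ∂gaussianReal 0 1) / L ^ 2 ≤
      Par.Phi (fun y => exp (eL (dd R d0 h R) L y)) R (lin R) h := by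
    rw [← m2, ← integral_div, ← integral_sub m1 (q1.div_const _)]
    refine integral_mono (m1.sub (q1.div_const _)) hi fun z => ?_
    refine le_trans (le_of_eq ?_) (hl (√(h 0) * z))
    simp only [B0, hA0d, mul_pow, sq_sqrt hh.zero]
    ring
  refine le_trans ?_ hmain
  refine sub_le_sub (le_of_eq ?_) (div_le_div_of_nonneg_right (q2.trans (pow_le_pow_left₀ (by positivity) ?_ 2))
    (sq_nonneg L))
  · simp only [cJ, psiG]
    obtain ⟨r, rfl⟩ : ∃ r, R = r + 1 := ⟨R - 1, by omega⟩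
    simp only [Nat.add_sub_cancel, ← range_eq_Ico, sum_range_succ]
    have hp : ∀ j ≤ r + 1, 0 < dd (r + 1) d0 h j := fun j hj => zero_lt_one.trans_le (hdd j hj).1
    have e : dd (r + 1) d0 h (r + 1) = dd (r + 1) d0 h r + (h (r + 1) - h r) := by
      rw [dd_succ]; push_cast; field_simp
    have hlin : lin (r + 1) (r + 1) = 1 := by
      rw [lin, if_pos le_rfl]; exact div_self (by positivity)
    have hs : ∑ i ∈ range r, log (dd (r + 1) d0 h (i + 1) / dd (r + 1) d0 h i) / (2 * lin (r + 1) (i + 1)) =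
        (∑ j ∈ range r, (((r + 1 : ℕ) : ℝ) / (j + 1 : ℝ)) * log (dd (r + 1) d0 h (j + 1) / dd (r + 1) d0 h j)) / 2 := by
      rw [sum_div]
      refine sum_congr rfl fun j hj => ?_
      rw [lin, if_pos (show j + 1 ≤ r + 1 by have := mem_range.1 hj; omega)]
      push_cast
      field_simp
    rw [hs, hlin, log_div (hp (r + 1) le_rfl).ne' (hp r (by omega)).ne', e]
    ring
  · rw [sq_sqrt hh.zero]
    have : A0 / d0 ^ 2 ≤ A0 := div_le_self hA0 (one_le_pow₀ hd1)
    obtain ⟨u1, u2⟩ := hu (Nat.zero_le R)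
    have h3 := mul_le_mul this u2 u1 hA0
    have h4 : 3 * A0 * (h R - h 0) ≤ 3 * A0 * V :=
      mul_le_mul_of_nonneg_left (by linarith [(hu le_rfl).2]) (by positivity)
    simp only [B0]
    linarith

end Vale.Agent.P157.Sph
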