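import Vale.Agent.P157.Sph.DimSite
import Vale.Agent.P157.Sph.Iface

/-! The truncated site is a smooth potential: its derivatives are cumulants of a variable in the window. -/

open MeasureTheory ProbabilityTheory Real Filter
open scoped Topology

namespace Vale.Agent.P157.Sph

open Dim (eL_pos exp_eL exp_eL_bounds half)

/-- moment of order `k` of the truncated site weight -/
noncomputable def winMom (b L : ℝ) (k : ℕ) (y : ℝ) : ℝ :=
  ∫ s in Set.Icc (-L) L, s ^ k * exp (s * y - (b - 1) * s ^ 2 / 2) ∂gaussianReal 0 1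

variable {b L : ℝ}

lemma winMom_zero (b L y : ℝ) :
    winMom b L 0 y = ∫ s in Set.Icc (-L) L, exp (s * y - (b - 1) * s ^ 2 / 2) ∂gaussianReal 0 1 := by
  simp [winMom]

lemma eL_eq_winMom (b L : ℝ) : eL b L = fun y => log (winMom b L 0 y) := by
  funext y; rw [winMom_zero, eL]

lemma hasDerivAt_winMom (b L : ℝ) (k : ℕ) (y : ℝ) :
    HasDerivAt (winMom b L k) (winMom b L (k + 1) y) y := by
  refine (hasDerivAt_integral_of_dominated_loc_of_deriv_le (μ := (gaussianReal 0 1).restrict (Set.Icc (-L) L))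
    (F := fun y s => s ^ k * exp (s * y - (b - 1) * s ^ 2 / 2))
    (F' := fun y s => s ^ (k + 1) * exp (s * y - (b - 1) * s ^ 2 / 2))
    (bound := fun _ => |L| ^ (k + 1) * exp (|L| * (|y| + 1) + |b - 1| * L ^ 2)) (Metric.ball_mem_nhds y one_pos)
    (Eventually.of_forall fun _ => (Continuous.aestronglyMeasurable (by fun_prop)))
    (Continuous.integrableOn_Icc (by fun_prop)) (Continuous.aestronglyMeasurable (by fun_prop)) ?_
    (integrable_const _) (Eventually.of_forall fun s x _ => ?_)).2
  · filter_upwards [ae_restrict_mem measurableSet_Icc] with s hs x hx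
    have hsL : |s| ≤ |L| := (abs_le.2 hs).trans (le_abs_self L)
    rw [Metric.mem_ball, dist_eq] at hx
    rw [norm_eq_abs, abs_mul, abs_pow, abs_exp]
    refine mul_le_mul (pow_le_pow_left₀ (abs_nonneg _) hsL _) (exp_le_exp.2 ?_) (exp_pos _).le (by positivity)
    have h1 : s * x ≤ |L| * (|y| + 1) := by
      refine (le_abs_self _).trans ((abs_mul s x).le.trans (mul_le_mul hsL ?_ (abs_nonneg _) (abs_nonneg _)))
      linarith [abs_sub_abs_le_abs_sub x y]
    have h2 : -((b - 1) * s ^ 2) ≤ |b - 1| * L ^ 2 := by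
      rw [neg_mul_eq_neg_mul]
      exact mul_le_mul (neg_le_abs _) (sq_le_sq.2 hsL) (sq_nonneg s) (abs_nonneg _)
    have := mul_nonneg (abs_nonneg (b - 1)) (sq_nonneg L)
    linarith
  · exact ((((hasDerivAt_id x).const_mul s).sub_const ((b - 1) * s ^ 2 / 2)).exp.const_mul (s ^ k)).congr_deriv
      (by simp only [id, mul_one]; ring)

lemma continuous_winMom (b L : ℝ) (k : ℕ) : Continuous (winMom b L k) :=
  continuous_iff_continuousAt.2 fun y => (hasDerivAt_winMom b L k y).continuousAt

lemma winMom_zero_pos (hL : 0 < L) (b y : ℝ) : 0 < winMom b L 0 y := by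
  rw [winMom_zero]; exact eL_pos hL b y

/-- the cumulants are built from ratios bounded by powers of the window -/
lemma abs_winRatio_le (hL : 0 < L) (b : ℝ) (k : ℕ) (y : ℝ) : |winMom b L k y / winMom b L 0 y| ≤ L ^ k := by
  rw [abs_div, abs_of_pos (winMom_zero_pos hL b y), div_le_iff₀ (winMom_zero_pos hL b y), winMom_zero,
    ← integral_const_mul, winMom]
  refine abs_integral_le_integral_abs.trans (setIntegral_mono_on (Continuous.integrableOn_Icc (by fun_prop))
    (Continuous.integrableOn_Icc (by fun_prop)) measurableSet_Icc fun s hs => ?_)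
  rw [abs_mul, abs_pow, abs_exp]
  exact mul_le_mul_of_nonneg_right (pow_le_pow_left₀ (abs_nonneg _) (abs_le.2 hs) k) (exp_pos _).le

/-- ratio of a moment and the mass, and its derivative -/
lemma hasDerivAt_winRatio (hL : 0 < L) (b : ℝ) (k : ℕ) (y : ℝ) :
    HasDerivAt (fun y => winMom b L k y / winMom b L 0 y)
      (winMom b L (k + 1) y / winMom b L 0 y -
        winMom b L k y / winMom b L 0 y * (winMom b L 1 y / winMom b L 0 y)) y :=
  ((hasDerivAt_winMom b L k y).div (hasDerivAt_winMom b L 0 y) (winMom_zero_pos hL b y).ne').congr_deriv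
    (by field_simp [(winMom_zero_pos hL b y).ne'])

/-- **the truncated site is smooth**, uniformly in its curvature -/
theorem siteSm : SiteSm := by
  intro L hL V
  have hL0 : 0 < L := by linarith
  refine ⟨(V + 1) * L ^ 2 - log (half L), 6 * L ^ 3, fun b hb => ⟨?_, fun b' y _ => ?_⟩⟩
  · set r := fun (k : ℕ) y => winMom b L k y / winMom b L 0 y
    have hr : ∀ k y, HasDerivAt (r k) (r (k + 1) y - r k y * r 1 y) y := fun k y => hasDerivAt_winRatio hL0 b k y
    have hc : ∀ k, Continuous (r k) := fun k =>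
      (continuous_winMom b L k).div (continuous_winMom b L 0) fun y => (winMom_zero_pos hL0 b y).ne'
    have hB : ∀ k y, |r k y| ≤ L ^ k := fun k y => abs_winRatio_le hL0 b k y
    refine ⟨r 1, fun y => r 2 y - r 1 y * r 1 y,
      fun y => r 3 y - r 2 y * r 1 y - ((r 2 y - r 1 y * r 1 y) * r 1 y + r 1 y * (r 2 y - r 1 y * r 1 y)),
      ⟨fun y => ?_, fun y => hr 1 y, fun y => (hr 2 y).sub ((hr 1 y).mul (hr 1 y)), by fun_prop, fun y => ?_,
        fun y => ?_, fun y => ?_, fun y => ?_⟩⟩
    · rw [eL_eq_winMom]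
      exact ((hasDerivAt_winMom b L 0 y).log (winMom_zero_pos hL0 b y).ne')
    · have hb1 : |b - 1| ≤ V + 1 := (abs_sub _ _).trans (by rw [abs_one]; linarith)
      have h := log_le_log (mul_pos (exp_pos _) (Dim.half_pos hL0)) (exp_eL_bounds hL0 hb1 y).1
      rw [log_exp, log_mul (exp_pos _).ne' (Dim.half_pos hL0).ne', log_exp] at h
      linarith
    all_goals
      have h1 := hB 1 y
      have h2 := hB 2 y
      have h3 := hB 3 y
      rw [pow_one] at h1
      have hL2 : L ≤ L ^ 2 := by nlinarith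
      have hL3 : L ^ 2 ≤ L ^ 3 := by nlinarith
    · linarith
    · have h11 : |r 1 y * r 1 y| ≤ L ^ 2 := by
        rw [abs_mul, sq]; exact mul_le_mul h1 h1 (abs_nonneg _) hL0.le
      linarith [abs_sub (r 2 y) (r 1 y * r 1 y)]
    · have h21 : |r 2 y * r 1 y| ≤ L ^ 3 := by
        rw [abs_mul, pow_succ]; exact mul_le_mul h2 h1 (abs_nonneg _) (by positivity)
      have h111 : |r 1 y * r 1 y * r 1 y| ≤ L ^ 3 := by
        rw [abs_mul, abs_mul, show L ^ 3 = L * L * L by ring]
        exact mul_le_mul (mul_le_mul h1 h1 (abs_nonneg _) hL0.le) h1 (abs_nonneg _) (by positivity)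
      rw [abs_le]
      constructor <;> linarith [abs_le.1 h3, abs_le.1 h21, abs_le.1 h111]
  · have key : ∀ c c' : ℝ, eL c L y - eL c' L y ≤ L ^ 2 * |c - c'| := fun c c' => by
      rw [sub_le_iff_le_add, ← exp_le_exp, exp_add, exp_eL hL0, exp_eL hL0, ← integral_const_mul]
      refine setIntegral_mono_on (Continuous.integrableOn_Icc (by fun_prop)) (Continuous.integrableOn_Icc (by fun_prop))
        measurableSet_Icc fun s hs => ?_
      rw [← exp_add]
      refine exp_le_exp.2 ?_
      have h := mul_le_mul (neg_le_abs (c - c')) (sq_le_sq' hs.1 hs.2) (sq_nonneg s) (abs_nonneg _)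
      have := mul_nonneg (abs_nonneg (c - c')) (sq_nonneg L)
      linarith
    exact abs_sub_le_iff.2 ⟨key b b', (key b' b).trans_eq (by rw [abs_sub_comm])⟩

end Vale.Agent.P157.Sph
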