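import Vale.Agent.P157.Sph.LowerMain
import Vale.Agent.P157.Sph.Read
import Vale.Agent.P157.Sph.Fix
import Vale.Agent.P157.Sph.Base
import Vale.Agent.P157.Sph.Residue
import Vale.Agent.P157.Sph.Stein
import Vale.Agent.P157.Sph.Borel
import Vale.Agent.P157.Sph.Dim
import Vale.Agent.P157.Sph.TruncSm
import Vale.Agent.P157.Sph.Trunc

/-! The formula on the sphere, lower half. -/

namespace Vale.Agent.P157.Sph

open Vale.Agent.P157.Par (Sm)

/-- **the lower half of the formula on the sphere** -/
theorem lowerS : LowerS :=
  lower_sphere readSmall kerProf siteTrunc siteSm profileFix (fun hS hB => pattV kerProf hS hB)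
    (fun hS hB => stepV kerProf hS hB) (fun hS hB => eResV kerProf hS hB)
    (fun hS hB => dimV hS hB (qconcV kerProf hS hB) (radV kerProf hS hB) siteSm kerProf)
    (fun hS hB => meshV hS hB) (fun hS hB => steinV hS hB)

end Vale.Agent.P157.Sph
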