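import Vale.Agent.P157.Sph.CS

/-! The algebra of hierarchical profiles: `X l` at the levels `l < R`, the diagonal at `R`. -/

open Finset Real

namespace Vale.Agent.P157.Sph

variable {R : ℕ} {A B X Y q h : ℕ → ℝ}

/-- the eigenvalue of level `j` -/
noncomputable def lam (R : ℕ) (X : ℕ → ℝ) (j : ℕ) : ℝ :=
  X R - (∑ l ∈ Ico j R, X l) / R - (j / R : ℝ) * X j

/-- the product of two hierarchical profiles -/
noncomputable def prodU (R : ℕ) (A B : ℕ → ℝ) (l : ℕ) : ℝ :=
  if l < R then A R * B l + A l * B R -
      ((∑ j ∈ range l, A j * B j) + (∑ j ∈ Ico (l + 1) R, A j) * B l + A l * ∑ j ∈ Ico (l + 1) R, B j) / R -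
      ((l + 2 : ℝ) / R) * (A l * B l)
  else A R * B R - (∑ j ∈ range R, A j * B j) / R

lemma lam_step {j : ℕ} (hj : j < R) :
    lam R X j - lam R X (j + 1) = ((j + 1 : ℝ) / R) * (X (j + 1) - X j) := by
  simp only [lam, sum_eq_sum_Ico_succ_bot hj]
  push_cast
  ring

lemma lam_top (hR : 1 ≤ R) : lam R X (R - 1) = X R - X (R - 1) := by
  obtain ⟨r, rfl⟩ : ∃ r, R = r + 1 := ⟨R - 1, by omega⟩
  simp only [lam, Nat.add_sub_cancel, Nat.Ico_succ_singleton, sum_singleton]
  push_cast
  field_simp
  ring

/-- the eigenvalues multiply -/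
theorem lam_prod (hR : 1 ≤ R) {j : ℕ} (hj : j < R) :
    lam R (prodU R A B) j = lam R A j * lam R B j := by
  suffices h : ∀ i, i < R → lam R (prodU R A B) (R - 1 - i) = lam R A (R - 1 - i) * lam R B (R - 1 - i) by
    have := h (R - 1 - j) (by omega)
    rwa [show R - 1 - (R - 1 - j) = j by omega] at this
  intro i
  induction i with
  | zero =>
    intro _
    obtain ⟨r, rfl⟩ : ∃ r, R = r + 1 := ⟨R - 1, by omega⟩
    rw [Nat.sub_zero, lam_top hR, lam_top hR, lam_top hR]
    simp only [Nat.add_sub_cancel, prodU, lt_irrefl, if_false, if_pos (Nat.lt_succ_self r), Ico_self,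
      sum_empty, zero_mul, mul_zero, add_zero, sum_range_succ]
    push_cast
    field_simp
    ring
  | succ i ih =>
    intro hi
    set k := R - 1 - (i + 1) with hk
    have e : R - 1 - i = k + 1 := by omega
    have ih' := ih (by omega)
    rw [e] at ih'
    have hk1 : k + 1 < R := by omega
    have hc := lam_step (X := prodU R A B) (show k < R by omega)
    have ha := lam_step (X := A) (show k < R by omega)
    have hb := lam_step (X := B) (show k < R by omega)
    rw [show lam R (prodU R A B) k = lam R (prodU R A B) (k + 1) + ((k + 1 : ℝ) / R) *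
        (prodU R A B (k + 1) - prodU R A B k) by linarith, ih',
      show lam R A k = lam R A (k + 1) + ((k + 1 : ℝ) / R) * (A (k + 1) - A k) by linarith,
      show lam R B k = lam R B (k + 1) + ((k + 1 : ℝ) / R) * (B (k + 1) - B k) by linarith]
    simp only [prodU, if_pos hk1, if_pos (show k < R by omega), lam, sum_range_succ,
      sum_eq_sum_Ico_succ_bot hk1]
    push_cast
    ring

/-- the root component -/
theorem prod_zero (hR : 1 ≤ R) : prodU R A B 0 = A 0 * lam R B 0 + lam R A 0 * B 0 := by
  have h0 : 0 < R := by omega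
  simp only [prodU, if_pos h0, range_zero, sum_empty, lam, sum_eq_sum_Ico_succ_bot h0]
  push_cast
  ring

/-- eigenvalues and root component determine a profile -/
theorem ext_lam (hR : 1 ≤ R) (hl : ∀ j < R, lam R X j = lam R Y j) (h0 : X 0 = Y 0) :
    ∀ l, l ≤ R → X l = Y l := by
  have hlt : ∀ l, l < R → X l = Y l := by
    intro l
    induction l with
    | zero => exact fun _ => h0
    | succ l ih =>
      intro hl'
      have hx := lam_step (X := X) (show l < R by omega)
      have hy := lam_step (X := Y) (show l < R by omega)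
      rw [hl l (by omega), hl (l + 1) hl', ih (by omega)] at hx
      have hc : (0 : ℝ) < (l + 1 : ℝ) / R := by positivity
      have := mul_left_cancel₀ hc.ne' (hx.symm.trans hy)
      linarith
  intro l hl'
  rcases Nat.eq_or_lt_of_le hl' with rfl | h
  · have := hl (l - 1) (by omega)
    rw [lam_top hR, lam_top hR, hlt (l - 1) (by omega)] at this
    linarith
  · exact hlt l h

/-- the inverse precision `b - H` of a field path, with `b = 1 + (H Q)_R` -/
noncomputable def precP (R : ℕ) (q h : ℕ → ℝ) (l : ℕ) : ℝ :=
  if l < R then -h l else 1 - (∑ j ∈ range R, h j * q j) / R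

/-- root precision -/
noncomputable def root (R : ℕ) (q h : ℕ → ℝ) : ℝ := 1 + (∑ j ∈ range R, h j * (1 - q j)) / R

/-- profile of the Gaussian site law -/
noncomputable def rG (R : ℕ) (d0 : ℝ) (h : ℕ → ℝ) (l : ℕ) : ℝ :=
  h 0 / d0 ^ 2 + (∑ j ∈ range (min l (R - 1)), (h (j + 1) - h j) / (dd R d0 h j * dd R d0 h (j + 1))) +
    if l < R then 0 else 1 / dd R d0 h (R - 1)

lemma one_le_root (hR : 1 ≤ R) (hq : ∀ l < R, q l ≤ 1) (hh : ∀ l < R, 0 ≤ h l) : 1 ≤ root R q h := by
  have : (0 : ℝ) < R := by positivity
  exact le_add_of_nonneg_right (div_nonneg (sum_nonneg fun l hl =>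
    mul_nonneg (hh l (mem_range.1 hl)) (sub_nonneg.2 (hq l (mem_range.1 hl)))) this.le)

lemma lam_prec (hR : 1 ≤ R) : ∀ j, j < R → lam R (precP R q h) j = dd R (root R q h) h j
  | 0, h0 => by
    simp only [dd_zero, lam, root, precP, lt_irrefl, if_false, Nat.cast_zero, zero_div, zero_mul, sub_zero,
      ← range_eq_Ico]
    rw [sum_congr rfl fun l hl => if_pos (mem_range.1 hl)]
    simp only [sum_neg_distrib, mul_sub, mul_one, sum_sub_distrib]
    ring
  | j + 1, hj => by
    have := lam_step (X := precP R q h) (show j < R by omega)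
    rw [lam_prec hR j (by omega)] at this
    simp only [precP, if_pos hj, if_pos (show j < R by omega)] at this
    rw [dd_succ]
    linarith

lemma lam_rG (hR : 1 ≤ R) {d0 : ℝ} (hd : 0 < d0) (hh : ∀ l, l + 1 < R → h l ≤ h (l + 1)) {j : ℕ} (hj : j < R) :
    lam R (rG R d0 h) j = 1 / dd R d0 h j := by
  suffices H : ∀ i, i < R → lam R (rG R d0 h) (R - 1 - i) = 1 / dd R d0 h (R - 1 - i) by
    have := H (R - 1 - j) (by omega)
    rwa [show R - 1 - (R - 1 - j) = j by omega] at this
  intro i
  induction i with
  | zero =>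
    intro _
    rw [Nat.sub_zero, lam_top hR]
    simp only [rG, lt_irrefl, if_false, if_pos (show R - 1 < R by omega), min_self,
      min_eq_right (show R - 1 ≤ R by omega)]
    ring
  | succ i ih =>
    intro hi
    set k := R - 1 - (i + 1) with hk
    have e : R - 1 - i = k + 1 := by omega
    have ih' := ih (by omega)
    rw [e] at ih'
    have hk1 : k + 1 < R := by omega
    have hs := lam_step (X := rG R d0 h) (show k < R by omega)
    have p0 := dd_pos hd hh k (by omega)
    have p1 := dd_pos hd hh (k + 1) hk1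
    simp only [rG, if_pos hk1, if_pos (show k < R by omega), min_eq_left (show k + 1 ≤ R - 1 by omega),
      min_eq_left (show k ≤ R - 1 by omega), sum_range_succ] at hs
    rw [ih'] at hs
    have hd' := dd_succ (R := R) (d0 := d0) (h := h) k
    have key : ((k + 1 : ℝ) / R) * ((h (k + 1) - h k) / (dd R d0 h k * dd R d0 h (k + 1))) =
        1 / dd R d0 h k - 1 / dd R d0 h (k + 1) := by
      rw [← mul_div_assoc, show ((k + 1 : ℝ) / R) * (h (k + 1) - h k) = dd R d0 h (k + 1) - dd R d0 h k by linarith]
      field_simp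
    ring_nf at hs key ⊢
    linarith

/-- **the residue of the inverse relation moves the profile by the product with the site law** -/
theorem solve (hR : 1 ≤ R) (hq : ∀ l < R, q l ≤ 1) (hh0 : ∀ l < R, 0 ≤ h l)
    (hh : ∀ l, l + 1 < R → h l ≤ h (l + 1)) (hqR : q R = 1) {l : ℕ} (hl : l ≤ R) :
    q l - rG R (root R q h) h l =
      prodU R (rG R (root R q h) h) (fun j => if j < R then prodU R (precP R q h) q j else 0) l := by
  have hd : 0 < root R q h := zero_lt_one.trans_le (one_le_root hR hq hh0)
  set r := rG R (root R q h) h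
  set E := fun j => if j < R then prodU R (precP R q h) q j else 0
  have hE : ∀ j < R, lam R E j = lam R (precP R q h) j * lam R q j - 1 := by
    intro j hj
    have eR : prodU R (precP R q h) q R = 1 := by
      have e : ∑ i ∈ range R, precP R q h i * q i = -∑ i ∈ range R, h i * q i := by
        rw [← sum_neg_distrib]
        exact sum_congr rfl fun i hi => by simp only [precP, if_pos (mem_range.1 hi)]; ring
      simp only [prodU, lt_irrefl, if_false, e, hqR, mul_one]
      simp only [precP, lt_irrefl, if_false]
      ring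
    rw [← lam_prod hR hj]
    simp only [lam, E, lt_irrefl, if_false, eR, if_pos hj]
    rw [sum_congr rfl fun i hi => if_pos (mem_Ico.1 hi).2]
    ring
  refine ext_lam (X := fun l => q l - r l) (Y := prodU R r E) hR (fun j hj => ?_) ?_ l hl
  · have e1 : lam R (fun l => q l - r l) j = lam R q j - lam R r j := by
      simp only [lam, sum_sub_distrib]; ring
    rw [e1, lam_prod hR hj, hE j hj, lam_rG hR hd hh hj, lam_prec hR j hj]
    field_simp [(dd_pos hd hh j hj).ne']
  · have hz := prod_zero (A := precP R q h) (B := q) hR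
    rw [lam_prec hR 0 (by omega), dd_zero] at hz
    simp only [precP, if_pos (show 0 < R by omega)] at hz
    rw [prod_zero hR, hE 0 (by omega), lam_prec hR 0 (by omega), lam_rG hR hd hh (show 0 < R by omega), dd_zero]
    simp only [E, if_pos (show 0 < R by omega), hz, r, rG, Nat.zero_min, range_zero, sum_empty, add_zero]
    field_simp
    ring

end Vale.Agent.P157.Sph
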